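import Mathlib
import Vale.Agent.P292.Bn.N16
import Vale.Agent.P292.Bn.N12
import Vale.Agent.P292.Bn.N13
import Vale.Agent.P292.Bn.N3
import Vale.Agent.P292.Bn.N10

set_option linter.all false

section

/-! # P292, local principality of prime divisors: the core. -/

namespace Vale.Agent.P292.Dv

open MvPolynomial

universe u v

/-- LF1: local principality from coordinates. -/
theorem lf_core {k : Type u} [Field k] {R : Type v} [CommRing R] [Algebra k R] [IsNoetherianRing R]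
    (y : R →ₐ[k] k) (𝔭 : Ideal R) (hy : ∀ p ∈ 𝔭, y p = 0) {s : ℕ} (x : Fin s → R) (t : R)
    (hx : ∀ i, y (x i) = 0) (ht : y t = 0)
    (h1 : ∃ c, y c ≠ 0 ∧ ∀ r, y r = 0 → c * r ∈ Ideal.span (insert t (Set.range x)))
    (h2 : ∀ r : R, ∃ s₀ ∈ Algebra.adjoin k (insert t (Set.range x)), y s₀ ≠ 0 ∧
      ∃ a ∈ Algebra.adjoin k (insert t (Set.range x)), s₀ * r - a ∈ 𝔭)
    (h3 : ∃ G ∈ 𝔭, ∀ a ∈ Algebra.adjoin k (insert t (Set.range x)), a ∈ 𝔭 → ∃ c, a = G * c) :
    ∃ a ∈ 𝔭, ∃ b, y b ≠ 0 ∧ ∀ p ∈ 𝔭, ∃ r, b * p = a * r := by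
  classical
  obtain ⟨c, hc, hcr⟩ := h1
  obtain ⟨G, hG, hGa⟩ := h3
  set A := Algebra.adjoin k (insert t (Set.range x)) with hA
  obtain ⟨𝔪, h𝔪⟩ : ∃ 𝔪 : Ideal R, 𝔪 = RingHom.ker y := ⟨_, rfl⟩
  have hm : ∀ r, r ∈ 𝔪 ↔ y r = 0 := fun r => by rw [h𝔪, RingHom.mem_ker]
  have hmp : 𝔪 * 𝔭 ≤ 𝔭 := Ideal.mul_le_right
  have hxA : ∀ i, x i ∈ A := fun i => Algebra.subset_adjoin (Or.inr ⟨i, rfl⟩)
  have htA : t ∈ A := Algebra.subset_adjoin (Or.inl rfl)
  have hgen : ∀ z ∈ insert t (Set.range x), z ∈ A ∧ y z = 0 := by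
    rintro z (rfl | ⟨i, rfl⟩)
    · exact ⟨htA, ht⟩
    · exact ⟨hxA i, hx i⟩
  -- every element of the span is, up to a multiplier, in `A + 𝔪 𝔭`
  have key : ∀ z ∈ Ideal.span (insert t (Set.range x)), ∃ s₀ ∈ A, y s₀ ≠ 0 ∧ ∃ a ∈ A,
      y a = 0 ∧ s₀ * z - a ∈ 𝔪 * 𝔭 := by
    intro z hz
    refine Submodule.span_induction (p := fun z _ => ∃ s₀ ∈ A, y s₀ ≠ 0 ∧ ∃ a ∈ A,
      y a = 0 ∧ s₀ * z - a ∈ 𝔪 * 𝔭) ?_ ?_ ?_ ?_ hz
    · intro z hz
      exact ⟨1, one_mem _, by rw [map_one]; exact one_ne_zero, z, (hgen z hz).1, (hgen z hz).2, by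
          rw [one_mul, sub_self]; exact zero_mem _⟩
    · exact ⟨1, one_mem _, by rw [map_one]; exact one_ne_zero, 0, zero_mem _, map_zero _, by
        rw [mul_zero, sub_self]; exact zero_mem _⟩
    · rintro z z' - - ⟨s₀, hs, hs0, a, ha, ha0, h⟩ ⟨s₁, hs', hs0', a', ha', ha0', h'⟩
      refine ⟨s₀ * s₁, mul_mem hs hs', by rw [map_mul]; exact mul_ne_zero hs0 hs0',
        s₁ * a + s₀ * a', add_mem (mul_mem hs' ha) (mul_mem hs ha'), by
          rw [map_add, map_mul, map_mul, ha0, ha0', mul_zero, mul_zero, add_zero], ?_⟩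
      have e : s₀ * s₁ * (z + z') - (s₁ * a + s₀ * a') =
          s₁ * (s₀ * z - a) + s₀ * (s₁ * z' - a') := by ring
      rw [e]
      exact add_mem (Ideal.mul_mem_left _ _ h) (Ideal.mul_mem_left _ _ h')
    · rintro r z - ⟨s₀, hs, hs0, a, ha, ha0, h⟩
      obtain ⟨s₁, hs', hs0', a', ha', h'⟩ := h2 r
      refine ⟨s₀ * s₁, mul_mem hs hs', by rw [map_mul]; exact mul_ne_zero hs0 hs0',
        a * a', mul_mem ha ha', by rw [map_mul, ha0, zero_mul], ?_⟩
      have e : s₀ * s₁ * (r • z) - a * a' =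
          (s₁ * r) * (s₀ * z - a) + a * (s₁ * r - a') := by rw [smul_eq_mul]; ring
      rw [e]
      exact add_mem (Ideal.mul_mem_left _ _ h) (Ideal.mul_mem_mul ((hm a).2 ha0) h')
  -- hence `𝔭 ≤ (G) + 𝔪 𝔭`
  have hle : 𝔭 ≤ Ideal.span {G} ⊔ 𝔪 • 𝔭 := by
    intro p hp
    obtain ⟨s₀, hs, hs0, a, ha, ha0, h⟩ := key _ (hcr p (hy p hp))
    have hap : a ∈ 𝔭 := by
      have h4 : s₀ * (c * p) - (s₀ * (c * p) - a) ∈ 𝔭 :=
        𝔭.sub_mem (𝔭.mul_mem_left _ (𝔭.mul_mem_left _ hp)) (hmp h)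
      rwa [sub_sub_cancel] at h4
    obtain ⟨c', hc'⟩ := hGa a ha hap
    have hu : y (s₀ * c) ≠ 0 := by rw [map_mul]; exact mul_ne_zero hs0 hc
    obtain ⟨u, hu'⟩ : ∃ u : R, u = algebraMap k R (y (s₀ * c))⁻¹ := ⟨_, rfl⟩
    have hyu : y (1 - u * (s₀ * c)) = 0 := by
      rw [map_sub, map_one, map_mul, hu', AlgHom.commutes]
      rw [Algebra.algebraMap_self, RingHom.id_apply, inv_mul_cancel₀ hu, sub_self]
    have e : p = u * (G * c') + (u * (s₀ * (c * p) - a) + (1 - u * (s₀ * c)) * p) := by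
      rw [← hc']; ring
    rw [e]
    refine add_mem (Submodule.mem_sup_left ?_) (Submodule.mem_sup_right (add_mem ?_ ?_))
    · exact Ideal.mul_mem_left _ _ (Ideal.mul_mem_right _ _ (Ideal.mem_span_singleton_self G))
    · rw [smul_eq_mul]
      exact Ideal.mul_mem_left _ _ h
    · rw [smul_eq_mul]
      exact Ideal.mul_mem_mul ((hm _).2 hyu) hp
  obtain ⟨r, hr1, hr⟩ := Submodule.exists_sub_one_mem_and_smul_le_of_fg_of_le_sup
    (IsNoetherian.noetherian 𝔭) le_rfl hle
  refine ⟨G, hG, r, ?_, fun p hp => ?_⟩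
  · have h4 := (hm _).1 hr1
    rw [map_sub, map_one, sub_eq_zero] at h4
    rw [h4]
    exact one_ne_zero
  · have h4 : r * p ∈ Ideal.span {G} := hr (Submodule.smul_mem_pointwise_smul _ _ _ hp)
    obtain ⟨d, hd⟩ := Ideal.mem_span_singleton.1 h4
    exact ⟨d, hd⟩

/-- LF2: the fibre is one reduced point, so locally `R = A + 𝔭`. -/
theorem lf_fibre {k : Type u} [Field k] {R : Type v} [CommRing R] [Algebra k R]
    (y : R →ₐ[k] k) (𝔭 : Ideal R) (hy : ∀ p ∈ 𝔭, y p = 0) {s : ℕ} (x : Fin s → R) (t : R)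
    (hx : ∀ i, y (x i) = 0) (ht : y t = 0)
    (h1 : ∃ c, y c ≠ 0 ∧ ∀ r, y r = 0 → c * r ∈ Ideal.span (insert t (Set.range x)))
    (hfin : ∃ F : Finset R, Submodule.span ↥(Algebra.adjoin k (insert t (Set.range x))) (F : Set R) ⊔
      𝔭.restrictScalars ↥(Algebra.adjoin k (insert t (Set.range x))) = ⊤)
    (hV : ∀ 𝔮 : Ideal R, 𝔮.IsPrime → 𝔭 ≤ 𝔮 → t ∈ 𝔮 → (∀ i, x i ∈ 𝔮) → 𝔮 = RingHom.ker y) :
    ∀ r : R, ∃ s₀ ∈ Algebra.adjoin k (insert t (Set.range x)), y s₀ ≠ 0 ∧
      ∃ a ∈ Algebra.adjoin k (insert t (Set.range x)), s₀ * r - a ∈ 𝔭 := by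
  classical
  obtain ⟨c, hc, hcr⟩ := h1
  obtain ⟨F, hF⟩ := hfin
  set A := Algebra.adjoin k (insert t (Set.range x)) with hA
  set X : Ideal R := Ideal.span (insert t (Set.range x)) with hX
  have hXt : t ∈ X := Ideal.subset_span (Or.inl rfl)
  have hXx : ∀ i, x i ∈ X := fun i => Ideal.subset_span (Or.inr ⟨i, rfl⟩)
  -- `ker y ≤ X + 𝔭`
  have hker : ∀ r, y r = 0 → r ∈ X ⊔ 𝔭 := by
    have htop : X ⊔ 𝔭 ⊔ Ideal.span {c} = ⊤ := by
      by_contra hne
      obtain ⟨𝔫, h𝔫, hle⟩ := Ideal.exists_le_maximal _ hne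
      have h4 : 𝔫 = RingHom.ker y := hV 𝔫 h𝔫.isPrime
        ((le_sup_right.trans le_sup_left).trans hle)
        (hle (Submodule.mem_sup_left (Submodule.mem_sup_left hXt)))
        (fun i => hle (Submodule.mem_sup_left (Submodule.mem_sup_left (hXx i))))
      have h5 : c ∈ 𝔫 := hle (Submodule.mem_sup_right (Ideal.mem_span_singleton_self c))
      rw [h4, RingHom.mem_ker] at h5
      exact hc h5
    intro r hr
    have h4 : (1 : R) ∈ X ⊔ 𝔭 ⊔ Ideal.span {c} := by rw [htop]; trivial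
    obtain ⟨j, hj, d, hd, hjd⟩ := Submodule.mem_sup.1 h4
    obtain ⟨e, rfl⟩ := Ideal.mem_span_singleton.1 hd
    have e1 : r = r * j + e * (c * r) := by
      linear_combination (-r) * hjd
    rw [e1]
    exact add_mem (Ideal.mul_mem_left _ _ hj)
      (Ideal.mul_mem_left _ _ (Submodule.mem_sup_left (hcr r hr)))
  -- the ideal of `A`
  let 𝔞 : Ideal A := RingHom.ker (y.comp A.val)
  have h𝔞 : ∀ a : A, a ∈ 𝔞 ↔ y (a : R) = 0 := fun a => Iff.rfl
  -- the module
  let N : Submodule A R := Submodule.span A {1} ⊔ 𝔭.restrictScalars A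
  have hXN : ∀ z ∈ X, z ∈ 𝔞 • (⊤ : Submodule A R) := by
    intro z hz
    refine Submodule.span_induction (p := fun z _ => z ∈ 𝔞 • (⊤ : Submodule A R)) ?_ ?_ ?_ ?_ hz
    · intro z hz
      have hzA : z ∈ A := Algebra.subset_adjoin hz
      have hz0 : y z = 0 := by
        rcases hz with rfl | ⟨i, rfl⟩
        · exact ht
        · exact hx i
      have h4 := Submodule.smul_mem_smul (I := 𝔞) (N := (⊤ : Submodule A R))
          (r := ⟨z, hzA⟩) (n := 1) hz0 trivial
      have e : (⟨z, hzA⟩ : A) • (1 : R) = z := by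
        rw [Subalgebra.smul_def, smul_eq_mul, mul_one]
      rwa [e] at h4
    · exact zero_mem _
    · intro a b _ _ ha hb
      exact add_mem ha hb
    · intro r z _ hz
      refine Submodule.smul_induction_on hz ?_ ?_
      · intro a ha n _
        have e : r • (a • n) = a • (r * n) := by
          rw [Subalgebra.smul_def, Subalgebra.smul_def, smul_eq_mul, smul_eq_mul, smul_eq_mul]
          ring
        rw [e]
        exact Submodule.smul_mem_smul ha trivial
      · intro a b ha hb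
        rw [smul_add]
        exact add_mem ha hb
  have hN1 : (1 : R) ∈ N := Submodule.mem_sup_left (Submodule.subset_span rfl)
  have hNp : ∀ p ∈ 𝔭, p ∈ N := fun p hp => Submodule.mem_sup_right hp
  have hle : (⊤ : Submodule A R) ≤ N ⊔ 𝔞 • Submodule.span A (F : Set R) := by
    intro r _
    -- `r = y r + (r - y r)`
    have h4 : r - algebraMap k R (y r) ∈ X ⊔ 𝔭 := hker _ (by
      rw [map_sub, AlgHom.commutes, Algebra.algebraMap_self, RingHom.id_apply, sub_self])
    obtain ⟨z, hz, p, hp, hzp⟩ := Submodule.mem_sup.1 h4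
    have e : r = (algebraMap k R (y r) + p) + z := by
      linear_combination -hzp
    rw [e]
    refine add_mem (Submodule.mem_sup_left (add_mem ?_ (hNp p hp))) ?_
    · refine Submodule.mem_sup_left (Submodule.mem_span_singleton.2 ⟨algebraMap k A (y r), ?_⟩)
      rw [Subalgebra.smul_def, smul_eq_mul, mul_one]
      rfl
    · have h5 := hXN z hz
      rw [← hF] at h5
      refine Submodule.smul_induction_on h5 ?_ ?_
      · intro a ha n hn
        obtain ⟨f, hf, q, hq, rfl⟩ := Submodule.mem_sup.1 hn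
        rw [smul_add]
        refine add_mem (Submodule.mem_sup_right (Submodule.smul_mem_smul ha hf))
          (Submodule.mem_sup_left (hNp _ ?_))
        rw [Subalgebra.smul_def, smul_eq_mul]
        exact 𝔭.mul_mem_left _ hq
      · intro a b ha hb
        exact add_mem ha hb
  obtain ⟨s₀, hs1, hs⟩ := Submodule.exists_sub_one_mem_and_smul_le_of_fg_of_le_sup
    (N := N) (N' := Submodule.span A (F : Set R)) (P := ⊤) ⟨F, rfl⟩ le_top hle
  intro r
  have h4 : s₀ • r ∈ N := hs (Submodule.smul_mem_pointwise_smul _ _ _ trivial)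
  obtain ⟨a, ha, p, hp, hap⟩ := Submodule.mem_sup.1 h4
  obtain ⟨a', rfl⟩ := Submodule.mem_span_singleton.1 ha
  refine ⟨s₀, s₀.2, ?_, a', a'.2, ?_⟩
  · have h5 : y ((s₀ : R) - 1) = 0 := hs1
    rw [map_sub, map_one, sub_eq_zero] at h5
    rw [h5]
    exact one_ne_zero
  · rw [Subalgebra.smul_def, Subalgebra.smul_def, smul_eq_mul, smul_eq_mul, mul_one] at hap
    rw [← hap, add_sub_cancel_left]
    exact hp

end Vale.Agent.P292.Dv
end

section

/-! # P292 part III, LF4: the last coordinate avoids the other points of the fibre. -/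

set_option linter.all false

namespace Vale.Agent.P292.Dv

universe u v

theorem lf_adjoin_sub {k : Type u} [Field k] {R : Type v} [CommRing R] [Algebra k R]
    (y : R →ₐ[k] k) {s : ℕ} (x : Fin s → R) (hx : ∀ i, y (x i) = 0) {b : R}
    (hb : b ∈ Algebra.adjoin k (Set.range x)) :
    b - algebraMap k R (y b) ∈ Ideal.span (Set.range x) := by
  induction hb using Algebra.adjoin_induction with
  | mem b hb =>
    obtain ⟨i, rfl⟩ := hb
    rw [hx i, map_zero, sub_zero]
    exact Ideal.subset_span ⟨i, rfl⟩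
  | algebraMap c => simp
  | add a b _ _ ha hb =>
    rw [map_add, map_add]
    have := Ideal.add_mem _ ha hb
    convert this using 1
    ring
  | mul a b _ _ ha hb =>
    rw [map_mul, map_mul]
    have h1 := Ideal.mul_mem_right b _ ha
    have h2 := Ideal.mul_mem_left _ (algebraMap k R (y a)) hb
    have := Ideal.add_mem _ h1 h2
    convert this using 1
    ring

theorem lf_quot_finite {k : Type u} [Field k] {R : Type v} [CommRing R] [Algebra k R]
    (y : R →ₐ[k] k) (𝔭 : Ideal R) {s : ℕ} (x : Fin s → R)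
    (hx : ∀ i, y (x i) = 0)
    (hfin : ∃ F : Finset R, Submodule.span ↥(Algebra.adjoin k (Set.range x)) (F : Set R) ⊔
      𝔭.restrictScalars ↥(Algebra.adjoin k (Set.range x)) = ⊤) :
    Module.Finite k (R ⧸ (𝔭 ⊔ Ideal.span (Set.range x))) := by
  obtain ⟨F, hF⟩ := hfin
  set I := 𝔭 ⊔ Ideal.span (Set.range x) with hI
  have key : ∀ r ∈ Submodule.span ↥(Algebra.adjoin k (Set.range x)) (F : Set R),
      Ideal.Quotient.mk I r ∈ Submodule.span k (Ideal.Quotient.mk I '' (F : Set R)) := by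
    intro r hr
    induction hr using Submodule.span_induction with
    | mem r hr => exact Submodule.subset_span ⟨r, hr, rfl⟩
    | zero => rw [map_zero]; exact Submodule.zero_mem _
    | add a b _ _ ha hb => rw [map_add]; exact Submodule.add_mem _ ha hb
    | smul b m _ hm =>
      have h1 : (b : R) - algebraMap k R (y b) ∈ I :=
        (le_sup_right : Ideal.span (Set.range x) ≤ I) (lf_adjoin_sub y x hx b.2)
      have h2 : Ideal.Quotient.mk I (b • m) = (y (b : R)) • Ideal.Quotient.mk I m := by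
        rw [Algebra.smul_def (y (b : R)) (Ideal.Quotient.mk I m)]
        have h3 : b • m = (b : R) * m := rfl
        rw [h3, map_mul]
        congr 1
        exact (Ideal.Quotient.eq.2 h1)
      rw [h2]
      exact Submodule.smul_mem _ _ hm
  refine ⟨⟨(F.finite_toSet.image (Ideal.Quotient.mk I)).toFinset, ?_⟩⟩
  rw [Set.Finite.coe_toFinset, eq_top_iff]
  rintro r -
  obtain ⟨r, rfl⟩ := Ideal.Quotient.mk_surjective r
  have hr : r ∈ Submodule.span ↥(Algebra.adjoin k (Set.range x)) (F : Set R) ⊔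
      𝔭.restrictScalars ↥(Algebra.adjoin k (Set.range x)) := by
    rw [hF]; trivial
  obtain ⟨a, ha, b, hb, rfl⟩ := Submodule.mem_sup.1 hr
  have hb' : b ∈ 𝔭 := hb
  have : Ideal.Quotient.mk I (a + b) = Ideal.Quotient.mk I a := by
    rw [map_add, Ideal.Quotient.eq_zero_iff_mem.2 ((le_sup_left : 𝔭 ≤ I) hb'), add_zero]
  rw [this]
  exact key a ha

/-- LF4: the last coordinate avoids the other points of the fibre. -/
theorem lf_avoid {k : Type u} [Field k] {R : Type v} [CommRing R] [Algebra k R]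
    (y : R →ₐ[k] k) (𝔭 : Ideal R) (hy : ∀ p ∈ 𝔭, y p = 0) {s : ℕ} (x : Fin s → R)
    (hx : ∀ i, y (x i) = 0)
    (hfin : ∃ F : Finset R, Submodule.span ↥(Algebra.adjoin k (Set.range x)) (F : Set R) ⊔
      𝔭.restrictScalars ↥(Algebra.adjoin k (Set.range x)) = ⊤)
    (l : R) (hl : y l = 0) :
    ∃ t : R, y t = 0 ∧ t - l ∈ RingHom.ker y ^ 2 ∧
      ∀ 𝔮 : Ideal R, 𝔮.IsPrime → 𝔭 ≤ 𝔮 → t ∈ 𝔮 → (∀ i, x i ∈ 𝔮) → 𝔮 = RingHom.ker y := by
  classical
  set I := 𝔭 ⊔ Ideal.span (Set.range x) with hI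
  have hfd : Module.Finite k (R ⧸ I) := lf_quot_finite y 𝔭 x hx hfin
  have hart : IsArtinianRing (R ⧸ I) := IsArtinianRing.of_finite k (R ⧸ I)
  have hmax : (RingHom.ker y).IsMaximal :=
    RingHom.ker_isMaximal_of_surjective y (fun c => ⟨algebraMap k R c, by simp⟩)
  -- primes over `I`
  have hT : {𝔮 : Ideal R | 𝔮.IsPrime ∧ I ≤ 𝔮}.Finite := by
    have : Finite (PrimeSpectrum (R ⧸ I)) := inferInstance
    have h2 : (Set.range fun P : PrimeSpectrum (R ⧸ I) => P.asIdeal.comap (Ideal.Quotient.mk I)).Finite :=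
      Set.finite_range _
    refine h2.subset ?_
    rintro 𝔮 ⟨hq, hIq⟩
    have hprime : (𝔮.map (Ideal.Quotient.mk I)).IsPrime :=
      Ideal.map_isPrime_of_surjective Ideal.Quotient.mk_surjective (by rwa [Ideal.mk_ker])
    refine ⟨⟨_, hprime⟩, ?_⟩
    show (𝔮.map (Ideal.Quotient.mk I)).comap (Ideal.Quotient.mk I) = 𝔮
    rw [Ideal.comap_map_of_surjective _ Ideal.Quotient.mk_surjective]
    rw [← RingHom.ker_eq_comap_bot, Ideal.mk_ker]
    exact sup_eq_left.2 hIq
  have hTmax : ∀ 𝔮 ∈ {𝔮 : Ideal R | 𝔮.IsPrime ∧ I ≤ 𝔮}, 𝔮.IsMaximal := by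
    rintro 𝔮 ⟨hq, hIq⟩
    have hprime : (𝔮.map (Ideal.Quotient.mk I)).IsPrime :=
      Ideal.map_isPrime_of_surjective Ideal.Quotient.mk_surjective (by rwa [Ideal.mk_ker])
    have hm : (𝔮.map (Ideal.Quotient.mk I)).IsMaximal := IsArtinianRing.isMaximal_of_isPrime _
    have := Ideal.comap_isMaximal_of_surjective (Ideal.Quotient.mk I) Ideal.Quotient.mk_surjective
      (K := 𝔮.map (Ideal.Quotient.mk I))
    rwa [Ideal.comap_map_of_surjective _ Ideal.Quotient.mk_surjective,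
      ← RingHom.ker_eq_comap_bot, Ideal.mk_ker, sup_eq_left.2 hIq] at this
  let J : Ideal R → Ideal R := fun 𝔮 => if 𝔮 = RingHom.ker y then RingHom.ker y ^ 2 else 𝔮
  let g : Ideal R → R := fun 𝔮 => if 𝔮 = RingHom.ker y then l else 1
  have hcop : Pairwise (Function.onFun IsCoprime
      fun a : ↥(insert (RingHom.ker y : Ideal R) hT.toFinset) => J a.1) := by
    rintro ⟨a, ha⟩ ⟨b, hb⟩ hab
    have hab : a ≠ b := fun h => hab (Subtype.ext h)
    show IsCoprime (J a) (J b)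
    have ha' : a.IsMaximal := by
      rw [Finset.mem_insert, Set.Finite.mem_toFinset] at ha
      rcases ha with rfl | ha
      · exact hmax
      · exact hTmax a ha
    have hb' : b.IsMaximal := by
      rw [Finset.mem_insert, Set.Finite.mem_toFinset] at hb
      rcases hb with rfl | hb
      · exact hmax
      · exact hTmax b hb
    have hc : IsCoprime a b := Ideal.isCoprime_of_isMaximal hab
    simp only [J]
    split_ifs with h1 h2 h2
    · exact absurd (h1.trans h2.symm) hab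
    · rw [← h1]; exact hc.pow_left
    · rw [← h2]; exact hc.pow_right
    · exact hc
  obtain ⟨t, ht⟩ := Ideal.exists_forall_sub_mem_ideal hcop (fun a => g a.1)
  have h0 : t - l ∈ RingHom.ker y ^ 2 := by
    have := ht ⟨RingHom.ker y, Finset.mem_insert_self _ _⟩
    simpa [J, g] using this
  refine ⟨t, ?_, h0, ?_⟩
  · have : t - l ∈ RingHom.ker y := Ideal.pow_le_self two_ne_zero h0
    rw [RingHom.mem_ker, map_sub, hl, sub_zero] at this
    exact this
  · intro 𝔮 hq h𝔭 htq hxq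
    by_contra hne
    have hmem : 𝔮 ∈ insert (RingHom.ker y : Ideal R) hT.toFinset := by
      rw [Finset.mem_insert]
      right
      rw [Set.Finite.mem_toFinset]
      refine ⟨hq, ?_⟩
      rw [hI, sup_le_iff]
      refine ⟨h𝔭, ?_⟩
      rw [Ideal.span_le]
      rintro _ ⟨i, rfl⟩
      exact hxq i
    have := ht ⟨𝔮, hmem⟩
    simp only [J, g, if_neg hne] at this
    have h1 : (1 : R) ∈ 𝔮 := by
      have := Ideal.sub_mem _ htq this
      simpa using this
    exact hq.ne_top ((Ideal.eq_top_iff_one _).2 h1)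

end Vale.Agent.P292.Dv
end

section

/-! # P292 part III, LF5: relations modulo `𝔭` are generated by one. -/

set_option linter.all false

namespace Vale.Agent.P292.Dv

open MvPolynomial

universe u v

/-- LF5: the relations between the coordinates modulo `𝔭` are generated by one of them (the
minimal polynomial of `t` over `k[x]`, which is integrally closed). -/
theorem lf_ker {k : Type u} [Field k] {R : Type v} [CommRing R] [Algebra k R] (𝔭 : Ideal R)
    [𝔭.IsPrime] {s : ℕ} (x : Fin s → R) (t : R)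
    (hind : AlgebraicIndependent k fun i => Ideal.Quotient.mk 𝔭 (x i))
    (hint : IsIntegral ↥(Algebra.adjoin k (Set.range fun i => Ideal.Quotient.mk 𝔭 (x i)))
      (Ideal.Quotient.mk 𝔭 t)) :
    ∃ G ∈ 𝔭, ∀ a ∈ Algebra.adjoin k (insert t (Set.range x)), a ∈ 𝔭 → ∃ c, a = G * c := by
  classical
  letI : Algebra (MvPolynomial (Fin s) k) R := (aeval x : MvPolynomial (Fin s) k →ₐ[k] R).toRingHom.toAlgebra
  have hal : ∀ f : MvPolynomial (Fin s) k, algebraMap (MvPolynomial (Fin s) k) R f = aeval x f :=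
    fun f => rfl
  have hal' : ∀ f : MvPolynomial (Fin s) k, algebraMap (MvPolynomial (Fin s) k) (R ⧸ 𝔭) f =
      aeval (fun i => Ideal.Quotient.mk 𝔭 (x i)) f := by
    intro f
    have h1 : algebraMap (MvPolynomial (Fin s) k) (R ⧸ 𝔭) f = Ideal.Quotient.mk 𝔭 (aeval x f) := rfl
    rw [h1]
    have h2 : Ideal.Quotient.mk 𝔭 (aeval x f) = (Ideal.Quotient.mkₐ k 𝔭) (aeval x f) := rfl
    rw [h2, ← AlgHom.comp_apply, comp_aeval]
    rfl
  have hinj : Function.Injective (algebraMap (MvPolynomial (Fin s) k) (R ⧸ 𝔭)) := by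
    intro f g hfg
    rw [hal', hal'] at hfg
    exact hind hfg
  haveI : FaithfulSMul (MvPolynomial (Fin s) k) (R ⧸ 𝔭) :=
    (faithfulSMul_iff_algebraMap_injective _ _).2 hinj
  have hI : IsIntegral (MvPolynomial (Fin s) k) (Ideal.Quotient.mk 𝔭 t) := by
    obtain ⟨p, hp, hpt⟩ := hint
    let φ : MvPolynomial (Fin s) k →+*
        ↥(Algebra.adjoin k (Set.range fun i => Ideal.Quotient.mk 𝔭 (x i))) :=
      ((aeval fun i => Ideal.Quotient.mk 𝔭 (x i) : MvPolynomial (Fin s) k →ₐ[k] R ⧸ 𝔭).codRestrict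
        (Algebra.adjoin k (Set.range fun i => Ideal.Quotient.mk 𝔭 (x i))) (fun f => by
          rw [Algebra.adjoin_range_eq_range_aeval]; exact ⟨f, rfl⟩)).toRingHom
    have hφ : ∀ f, ((φ f : ↥(Algebra.adjoin k (Set.range fun i => Ideal.Quotient.mk 𝔭 (x i)))) :
        R ⧸ 𝔭) = aeval (fun i => Ideal.Quotient.mk 𝔭 (x i)) f := fun f => rfl
    have hsurj : Function.Surjective φ := by
      rintro ⟨b, hb⟩
      have hb' := hb
      rw [Algebra.adjoin_range_eq_range_aeval] at hb'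
      obtain ⟨f, hf⟩ := hb'
      exact ⟨f, Subtype.ext hf⟩
    have hlift : p ∈ Polynomial.lifts φ := by
      rw [Polynomial.lifts_iff_coeff_lifts]
      intro n
      exact hsurj _
    obtain ⟨q, hq, -, hqm⟩ := Polynomial.lifts_and_degree_eq_and_monic hlift hp
    refine ⟨q, hqm, ?_⟩
    rw [← hq, Polynomial.eval₂_map] at hpt
    rw [← hpt]
    congr 1
    refine RingHom.ext fun f => ?_
    rw [hal']
    rfl
  have hm0 : Polynomial.aeval (Ideal.Quotient.mk 𝔭 t) (minpoly (MvPolynomial (Fin s) k) (Ideal.Quotient.mk 𝔭 t)) = 0 :=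
    minpoly.aeval _ _
  have hev : ∀ q : Polynomial (MvPolynomial (Fin s) k),
      Polynomial.aeval (Ideal.Quotient.mk 𝔭 t) q = Ideal.Quotient.mk 𝔭 (Polynomial.aeval t q) := by
    intro q
    have := Polynomial.aeval_algHom_apply (Ideal.Quotient.mkₐ (MvPolynomial (Fin s) k) 𝔭) t q
    exact this
  refine ⟨Polynomial.aeval t (minpoly (MvPolynomial (Fin s) k) (Ideal.Quotient.mk 𝔭 t)), ?_, ?_⟩
  · rw [← Ideal.Quotient.eq_zero_iff_mem, ← hev, hm0]
  · intro a ha hap
    have hrep : ∃ q : Polynomial (MvPolynomial (Fin s) k), Polynomial.aeval t q = a := by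
      clear hap
      induction ha using Algebra.adjoin_induction with
      | mem b hb =>
        rcases hb with rfl | ⟨i, rfl⟩
        · exact ⟨Polynomial.X, by simp⟩
        · refine ⟨Polynomial.C (X i), ?_⟩
          rw [Polynomial.aeval_C, hal, aeval_X]
      | algebraMap c =>
        refine ⟨Polynomial.C (C c), ?_⟩
        rw [Polynomial.aeval_C, hal, aeval_C]
      | add a b _ _ ha hb =>
        obtain ⟨p, rfl⟩ := ha
        obtain ⟨q, rfl⟩ := hb
        exact ⟨p + q, map_add _ _ _⟩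
      | mul a b _ _ ha hb =>
        obtain ⟨p, rfl⟩ := ha
        obtain ⟨q, rfl⟩ := hb
        exact ⟨p * q, map_mul _ _ _⟩
    obtain ⟨q, rfl⟩ := hrep
    have hq : Polynomial.aeval (Ideal.Quotient.mk 𝔭 t) q = 0 := by
      rw [hev]; exact Ideal.Quotient.eq_zero_iff_mem.2 hap
    obtain ⟨c, rfl⟩ := (minpoly.isIntegrallyClosed_dvd_iff hI q).1 hq
    exact ⟨Polynomial.aeval t c, map_mul _ _ _⟩

end Vale.Agent.P292.Dv
end

section

namespace Vale.Agent.P292.Dv

open DirectSum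

universe u v

/-- LF8: homogeneous version of local principality. `a = ∑ a_i`, `b a_i = a r_i`; if some
`y r_i ≠ 0` then `a_i` generates near `y`, otherwise `𝔭` vanishes near `y`; the ideal `(a') : 𝔭`
is homogeneous. -/
theorem lf_homog {k : Type u} [Field k] {R : Type v} [CommRing R] [Algebra k R]
    [IsNoetherianRing R] {𝒜 : ℕ → Submodule k R} [GradedAlgebra 𝒜] (𝔭 : Ideal R)
    (hh : 𝔭.IsHomogeneous 𝒜) (y : R →ₐ[k] k)
    (h : ∃ a ∈ 𝔭, ∃ b, y b ≠ 0 ∧ ∀ p ∈ 𝔭, ∃ r, b * p = a * r) :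
    ∃ i, ∃ a ∈ 𝒜 i, a ∈ 𝔭 ∧ ∃ j, ∃ b ∈ 𝒜 j, y b ≠ 0 ∧ ∀ p ∈ 𝔭, ∃ r, b * p = a * r := by
  classical
  obtain ⟨a, ha, b, hb, hab⟩ := h
  -- a homogeneous generator near `y`
  have step1 : ∃ i, ∃ a' ∈ 𝒜 i, a' ∈ 𝔭 ∧ ∃ b', y b' ≠ 0 ∧ ∀ p ∈ 𝔭, ∃ r, b' * p = a' * r := by
    have h1 : ∀ i, ∃ r, b * (decompose 𝒜 a i : R) = a * r := fun i => hab _ (hh i ha)
    choose r hr using h1
    have hsum : b * a = a * ∑ i ∈ (decompose 𝒜 a).support, r i := by
      conv_lhs => rw [← sum_support_decompose 𝒜 a]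
      rw [Finset.mul_sum, Finset.mul_sum]
      exact Finset.sum_congr rfl fun i _ => hr i
    by_cases hy : ∃ i ∈ (decompose 𝒜 a).support, y (r i) ≠ 0
    · obtain ⟨i, _, hi⟩ := hy
      refine ⟨i, decompose 𝒜 a i, (decompose 𝒜 a i).2, hh i ha, r i * b, ?_, ?_⟩
      · rw [map_mul]
        exact mul_ne_zero hi hb
      · intro p hp
        obtain ⟨s, hs⟩ := hab p hp
        refine ⟨b * s, ?_⟩
        calc r i * b * p = r i * (b * p) := by ring
          _ = r i * (a * s) := by rw [hs]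
          _ = (a * r i) * s := by ring
          _ = (b * (decompose 𝒜 a i : R)) * s := by rw [hr i]
          _ = (decompose 𝒜 a i : R) * (b * s) := by ring
    · push Not at hy
      have hu : y (b - ∑ i ∈ (decompose 𝒜 a).support, r i) ≠ 0 := by
        rw [map_sub, map_sum, Finset.sum_eq_zero hy, sub_zero]
        exact hb
      have hau : a * (b - ∑ i ∈ (decompose 𝒜 a).support, r i) = 0 := by
        rw [mul_sub, ← hsum]
        ring
      refine ⟨0, 0, (𝒜 0).zero_mem, 𝔭.zero_mem,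
        b * (b - ∑ i ∈ (decompose 𝒜 a).support, r i), ?_, ?_⟩
      · rw [map_mul]
        exact mul_ne_zero hb hu
      · intro p hp
        obtain ⟨s, hs⟩ := hab p hp
        refine ⟨0, ?_⟩
        calc b * (b - ∑ i ∈ (decompose 𝒜 a).support, r i) * p
            = (b * p) * (b - ∑ i ∈ (decompose 𝒜 a).support, r i) := by ring
          _ = (a * (b - ∑ i ∈ (decompose 𝒜 a).support, r i)) * s := by rw [hs]; ring
          _ = 0 * 0 := by rw [hau]; ring
  obtain ⟨i, a', ha'i, ha'p, b', hb', hb'p⟩ := step1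
  refine ⟨i, a', ha'i, ha'p, ?_⟩
  -- some homogeneous component of `b'` does not vanish at `y`
  have h2 : ∃ j, y (decompose 𝒜 b' j : R) ≠ 0 := by
    by_contra hcon
    push Not at hcon
    apply hb'
    rw [← sum_support_decompose 𝒜 b', map_sum]
    exact Finset.sum_eq_zero fun j _ => hcon j
  obtain ⟨j, hj⟩ := h2
  refine ⟨j, decompose 𝒜 b' j, (decompose 𝒜 b' j).2, hj, ?_⟩
  have hI : (Ideal.span {a'} : Ideal R).IsHomogeneous 𝒜 := by
    apply Ideal.homogeneous_span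
    intro x hx
    rw [Set.mem_singleton_iff] at hx
    rw [hx]
    exact ⟨i, ha'i⟩
  have h3 : ∀ d, ∀ p ∈ 𝔭, p ∈ 𝒜 d → (decompose 𝒜 b' j : R) * p ∈ Ideal.span {a'} := by
    intro d p hp hpd
    have h4 : b' * p ∈ Ideal.span {a'} := by
      obtain ⟨s, hs⟩ := hb'p p hp
      rw [hs]
      exact Ideal.mul_mem_right _ _ (Ideal.mem_span_singleton_self a')
    have h5 := hI (j + d) h4
    rwa [coe_decompose_mul_add_of_right_mem 𝒜 hpd] at h5
  intro p hp
  have h6 : (decompose 𝒜 b' j : R) * p ∈ Ideal.span {a'} := by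
    have h7 : (decompose 𝒜 b' j : R) * p =
        ∑ d ∈ (decompose 𝒜 p).support, (decompose 𝒜 b' j : R) * (decompose 𝒜 p d : R) := by
      rw [← Finset.mul_sum, sum_support_decompose 𝒜 p]
    rw [h7]
    exact Ideal.sum_mem _ fun d _ => h3 d _ (hh d hp) (decompose 𝒜 p d).2
  obtain ⟨r, hr⟩ := Ideal.mem_span_singleton'.1 h6
  exact ⟨r, by rw [← hr]; ring⟩

end Vale.Agent.P292.Dv
end

section

/-! # Rational curves positive on a divisor: common definitions of Part III. -/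

namespace Vale.Agent.P292.Dv

open MvPolynomial

universe u v w

/-- The ideal `p` is locally principal outside the vertex, with finitely many homogeneous
local generators `a t` (on `b t ≠ 0`): the `b t` have no common zero outside the vertex. -/
def IsInv {k : Type u} [Field k] {R : Type v} [CommRing R] [Algebra k R]
    (𝒜 : ℕ → Submodule k R) (p : Ideal R) : Prop :=
  ∃ (T : ℕ) (a b : Fin T → R) (da db : Fin T → ℕ), (∀ t, a t ∈ 𝒜 (da t)) ∧ (∀ t, b t ∈ 𝒜 (db t)) ∧
    (∀ t, a t ∈ p) ∧ (∀ t, ∀ x ∈ p, ∃ r, b t * x = r * a t) ∧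
    ∀ n, 0 < n → ∀ r ∈ 𝒜 n, ∃ N, r ^ N ∈ Ideal.span (Set.range b)

/-- A closed rational curve `φ` of degree `e` over the field `K`, together with the pull back `η`
of the invertible ideal `p`, of degree `- δ`. -/
structure IsPair {k : Type u} [Field k] {R : Type v} [CommRing R] [Algebra k R]
    (𝒜 : ℕ → Submodule k R) (p : Ideal R) {K : Type w} [Field K] [Algebra k K] (e δ : ℕ)
    (φ : R →ₐ[k] MvPolynomial (Fin 2) K) (η : p →ₗ[k] MvPolynomial (Fin 2) K) : Prop where
  deg : ∀ j, ∀ r ∈ 𝒜 j, (φ r).IsHomogeneous (e * j)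
  bpf : ∀ a : Fin 2 → K, a ≠ 0 → ∃ j > 0, ∃ r ∈ 𝒜 j, eval a (φ r) ≠ 0
  lin : ∀ (r : R) (x : p), η (r • x) = φ r * η x
  degη : ∀ j, ∀ x : p, (x : R) ∈ 𝒜 j → ∀ m, m + δ = e * j → (η x).IsHomogeneous m
  zeroη : ∀ j, ∀ x : p, (x : R) ∈ 𝒜 j → e * j < δ → η x = 0
  bpfη : ∀ a : Fin 2 → K, a ≠ 0 → ∃ x : p, eval a (η x) ≠ 0

/-- There is a closed rational curve of degree one or two which is positive on the divisor. -/
def Pos {k : Type u} [Field k] {R : Type v} [CommRing R] [Algebra k R]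
    (𝒜 : ℕ → Submodule k R) (p : Ideal R) (K : Type w) [Field K] [Algebra k K] : Prop :=
  ∃ (e δ : ℕ) (φ : R →ₐ[k] MvPolynomial (Fin 2) K) (η : p →ₗ[k] MvPolynomial (Fin 2) K),
    (e = 1 ∨ e = 2) ∧ 0 < δ ∧ IsPair 𝒜 p e δ φ η

end Vale.Agent.P292.Dv
end

section

/-! # Spreading out: locally principal ideals. -/

namespace Vale.Agent.P292.Dv

open MvPolynomial Vale.Agent.P292 Vale.Agent.P292.Mo

universe u v w

/-- Membership in the ideal generated by classes of polynomials. -/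
theorem si_mem_of_span {k : Type u} [Field k] {M L : ℕ} (D : Dat k M L) {ι : Type w}
    (g : ι → MvPolynomial (Fin M) k) {p : MvPolynomial (Fin M) k}
    (h : p ∈ Ideal.span (Set.range (Sum.elim D.F g))) :
    D.q p ∈ Ideal.span (Set.range fun i => D.q (g i)) := by
  have h1 : Ideal.span (Set.range (Sum.elim D.F g)) ≤
      (Ideal.span (Set.range fun i => D.q (g i))).comap D.q := by
    rw [Ideal.span_le]
    rintro _ ⟨i, rfl⟩
    rw [SetLike.mem_coe, Ideal.mem_comap]
    rcases i with i | i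
    · have h2 : D.q (D.F i) = 0 := Ideal.Quotient.eq_zero_iff_mem.mpr (Ideal.subset_span ⟨i, rfl⟩)
      rw [Sum.elim_inl, h2]
      exact Submodule.zero_mem _
    · exact Ideal.subset_span ⟨i, rfl⟩
  exact h1 h

section zero

variable {R : Type u} [CommRing R] [Algebra ℂ R] {𝒜 : ℕ → Submodule ℂ R} [GradedAlgebra 𝒜]
  {P : R →ₗ[ℂ] R →ₗ[ℂ] R}

/-- Certificates of membership in the ideal generated by the values of polynomials. -/
theorem si_span_of_mem {M L : ℕ} {D : Dat ℂ M L}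
    {ev : MvPolynomial (Fin M) ℂ →ₐ[ℂ] R} (hD : IsPres 𝒜 P D ev) {ι : Type w} [Fintype ι]
    (g : ι → MvPolynomial (Fin M) ℂ) {p : MvPolynomial (Fin M) ℂ}
    (h : ev p ∈ Ideal.span (Set.range fun i => ev (g i))) :
    p ∈ Ideal.span (Set.range (Sum.elim D.F g)) := by
  obtain ⟨c, hc⟩ := Ideal.mem_span_range_iff_exists_fun.mp h
  choose c' hc' using fun i => hD.surj (c i)
  have h1 : p - ∑ i, c' i * g i ∈ D.I := by
    rw [← hD.ker, map_sub, map_sum, ← hc, sub_eq_zero]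
    exact Finset.sum_congr rfl fun i _ => by rw [map_mul, hc']
  have h2 : D.I ≤ Ideal.span (Set.range (Sum.elim D.F g)) := by
    rw [Dat.I]
    apply Ideal.span_mono
    rintro _ ⟨l, rfl⟩
    exact ⟨Sum.inl l, rfl⟩
  have h3 : p = (p - ∑ i, c' i * g i) + ∑ i, c' i * g i := by ring
  rw [h3]
  refine Ideal.add_mem _ (h2 h1) (sum_mem fun i _ => Ideal.mul_mem_left _ _ ?_)
  exact Ideal.subset_span ⟨Sum.inr i, rfl⟩

/-- Locally principal ideals spread out. -/
theorem si_inv_spread {M L : ℕ} {D : Dat ℂ M L}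
    {ev : MvPolynomial (Fin M) ℂ →ₐ[ℂ] R} (hD : IsPres 𝒜 P D ev) {N : ℕ}
    (g : Fin N → MvPolynomial (Fin M) ℂ) (𝔭 : Ideal R)
    (hgp : 𝔭 = Ideal.span (Set.range fun l => ev (g l))) (hinv : IsInv 𝒜 𝔭) :
    ∃ A₀ : Subalgebra ℤ ℂ, A₀.FG ∧ ∀ A : Subalgebra ℤ ℂ, A₀ ≤ A →
      ∀ (D' : Dat A M L) (g' : Fin N → MvPolynomial (Fin M) A),
        D'.map (algebraMap A ℂ) = D → (∀ l, MvPolynomial.map (algebraMap A ℂ) (g' l) = g l) →
        ∀ (k : Type v) [Field k] (j : A →+* k), (D'.map j).IsOK →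
          IsInv (D'.map j).gr
            (Ideal.span (Set.range fun l => (D'.map j).q (MvPolynomial.map j (g' l)))) := by
  classical
  obtain ⟨T, a, b, da, db, ha, hb, hap, hbp, hrad⟩ := hinv
  choose A1 hA1 hA1' using fun t => hD.lift (da t) (a t) (ha t)
  choose B1 hB1 hB1' using fun t => hD.lift (db t) (b t) (hb t)
  have c1 : ∀ t, A1 t ∈ Ideal.span (Set.range (Sum.elim D.F g)) := by
    intro t
    apply si_span_of_mem hD
    rw [hA1', ← hgp]
    exact hap t
  have c2 : ∀ t l, B1 t * g l ∈ Ideal.span (Set.range (Sum.elim D.F fun _ : Unit => A1 t)) := by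
    intro t l
    apply si_span_of_mem hD
    have h1 : ev (g l) ∈ 𝔭 := by
      rw [hgp]
      exact Ideal.subset_span ⟨l, rfl⟩
    obtain ⟨r, hr⟩ := hbp t _ h1
    rw [map_mul, hB1', hr, Set.range_const, hA1']
    exact Ideal.mul_mem_left _ _ (Ideal.subset_span rfl)
  have c3 : ∀ i, ∃ n, (X i : MvPolynomial (Fin M) ℂ) ^ n ∈
      Ideal.span (Set.range (Sum.elim D.F B1)) := by
    intro i
    obtain ⟨n, hn⟩ := hrad (D.d i) (hD.ok.pos i) (ev (X i)) (hD.hom i)
    refine ⟨n, ?_⟩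
    apply si_span_of_mem hD
    rw [map_pow]
    have : (fun t => ev (B1 t)) = b := funext hB1'
    rw [this]
    exact hn
  choose n hn using c3
  obtain ⟨F1, hF1, e1⟩ := exists_lift_poly A1
  obtain ⟨F2, hF2, e2⟩ := exists_lift_poly B1
  obtain ⟨F3, hF3, e3⟩ := exists_fg_of_forall _ fun t => mem_spread.{_, v, _} _ _ (c1 t)
  obtain ⟨F4, hF4, e4⟩ := exists_fg_of_forall _ fun tl : Fin T × Fin N =>
    mem_spread.{_, v, _} _ _ (c2 tl.1 tl.2)
  obtain ⟨F5, hF5, e5⟩ := exists_fg_of_forall _ fun i => mem_spread.{_, v, _} _ _ (hn i)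
  refine ⟨F1 ⊔ (F2 ⊔ (F3 ⊔ (F4 ⊔ F5))), hF1.sup (hF2.sup (hF3.sup (hF4.sup hF5))), ?_⟩
  intro A hA D' g' hD' hg' k _ j hOK
  have g1 := e1 A (le_trans le_sup_left hA)
  have g2 := e2 A ((le_sup_left.trans le_sup_right).trans hA)
  have g3 := e3 A (((le_sup_left.trans le_sup_right).trans le_sup_right).trans hA)
  have g4 := e4 A ((((le_sup_left.trans le_sup_right).trans le_sup_right).trans
    le_sup_right).trans hA)
  have g5 := e5 A ((((le_sup_right.trans le_sup_right).trans le_sup_right).trans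
    le_sup_right).trans hA)
  choose A' hA' using g1
  choose B' hB' using g2
  have hF' : ∀ l, MvPolynomial.map (algebraMap A ℂ) (D'.F l) = D.F l := by
    intro l
    rw [← hD']
    rfl
  have hdD : (D'.map j).d = D.d := by rw [← hD']; rfl
  have hgr : ∀ {p : MvPolynomial (Fin M) A} {m : ℕ},
      IsWeightedHomogeneous D.d (MvPolynomial.map (algebraMap A ℂ) p) m →
      (D'.map j).q (MvPolynomial.map j p) ∈ (D'.map j).gr m := by
    intro p m hp
    refine Submodule.mem_map_of_mem ?_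
    refine asm_wh_map j (asm_wh_of_map (j := algebraMap A ℂ) Subtype.val_injective ?_)
    rw [hdD]
    exact hp
  refine ⟨T, fun t => (D'.map j).q (MvPolynomial.map j (A' t)),
    fun t => (D'.map j).q (MvPolynomial.map j (B' t)), da, db, ?_, ?_, ?_, ?_, ?_⟩
  · intro t
    exact hgr (by rw [hA' t]; exact hA1 t)
  · intro t
    exact hgr (by rw [hB' t]; exact hB1 t)
  · intro t
    have h1 := (g3 t (Sum.elim D'.F g') (A' t) (by rintro (i | i); exacts [hF' i, hg' i])
      (hA' t)).2 k j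
    apply si_mem_of_span (D'.map j)
    convert h1 using 3
    funext i
    rcases i with i | i <;> rfl
  · intro t x hx
    have h0 : ∀ l, (D'.map j).q (MvPolynomial.map j (B' t)) *
        (D'.map j).q (MvPolynomial.map j (g' l)) ∈
        Ideal.span {(D'.map j).q (MvPolynomial.map j (A' t))} := by
      intro l
      have h1 := (g4 (t, l) (Sum.elim D'.F fun _ : Unit => A' t) (B' t * g' l)
        (by rintro (i | i); exacts [hF' i, hA' t]) (by rw [map_mul, hB' t, hg' l])).2 k j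
      have h2 := si_mem_of_span (D'.map j) (fun _ : Unit => MvPolynomial.map j (A' t))
        (p := MvPolynomial.map j (B' t * g' l)) (by
          convert h1 using 3
          funext i
          rcases i with i | i <;> rfl)
      rw [Set.range_const, map_mul, map_mul] at h2
      exact h2
    have h3 : (D'.map j).q (MvPolynomial.map j (B' t)) * x ∈
        Ideal.span {(D'.map j).q (MvPolynomial.map j (A' t))} := by
      refine Submodule.span_induction (p := fun x _ => (D'.map j).q (MvPolynomial.map j (B' t)) * x ∈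
        Ideal.span {(D'.map j).q (MvPolynomial.map j (A' t))}) ?_ ?_ ?_ ?_ hx
      · rintro _ ⟨l, rfl⟩
        exact h0 l
      · rw [mul_zero]
        exact Submodule.zero_mem _
      · intro x y _ _ hx hy
        rw [mul_add]
        exact Ideal.add_mem _ hx hy
      · intro r x _ hx
        rw [smul_eq_mul, mul_left_comm]
        exact Ideal.mul_mem_left _ _ hx
    obtain ⟨r, hr⟩ := Ideal.mem_span_singleton'.mp h3
    exact ⟨r, hr.symm⟩
  · intro m hm r hr
    obtain ⟨f, hf, rfl⟩ := hr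
    let J : Ideal (D'.map j).Rg :=
      (Ideal.span (Set.range fun t => (D'.map j).q (MvPolynomial.map j (B' t)))).radical
    have h1 : ∀ i, (D'.map j).q (X i) ∈ J := by
      intro i
      refine ⟨n i, ?_⟩
      have h2 := (g5 i (Sum.elim D'.F B') (X i ^ n i)
        (by rintro (l | l); exacts [hF' l, hB' l]) (by rw [map_pow, map_X])).2 k j
      rw [← map_pow]
      apply si_mem_of_span (D'.map j)
      rw [map_pow, map_X] at h2
      convert h2 using 3
      funext l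
      rcases l with l | l <;> rfl
    have h2 : (D'.map j).q f ∈ J := by
      rw [← Ideal.Quotient.eq_zero_iff_mem]
      have h3 := asm_eval_zero (algebraMap k ((D'.map j).Rg ⧸ J)) hm hf
        (z := fun i => Ideal.Quotient.mk J ((D'.map j).q (X i)))
        (fun i => Ideal.Quotient.eq_zero_iff_mem.mpr (h1 i))
      rw [← h3]
      have h4 : ((Ideal.Quotient.mkₐ k J).comp (D'.map j).q) =
          aeval fun i => Ideal.Quotient.mk J ((D'.map j).q (X i)) := by
        refine MvPolynomial.algHom_ext fun i => ?_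
        rw [aeval_X]
        rfl
      have h5 := congrArg (fun φ => φ f) h4
      exact h5
    exact h2

end zero

end Vale.Agent.P292.Dv
end

section

/-! # Systems of forms on the line: transfer from large characteristic to the complex numbers. -/

namespace Vale.Agent.P292.Dv

open MvPolynomial Filter Vale.Agent.P292.Mo

/-- Values of polynomials with complex coefficients in the ultraproduct. -/
theorem sb_aeval_eq {S : Type} {U : Ultrafilter S} {k : S → Type} [∀ s, Field (k s)] {Ω : Type}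
    [Field Ω] {g : (∀ s, k s) →+* Ω} (h : IsUltraProd U k g)
    {B : S → Subring ℂ} {π : ∀ s, B s →+* k s}
    (hB : ∀ c : ℂ, ∀ᶠ s in (U : Filter S), c ∈ B s) [Algebra ℂ Ω]
    (hj : ∀ (c : ℂ) (f : ∀ s, k s),
      (∀ᶠ s in (U : Filter S), ∀ hc : c ∈ B s, f s = π s ⟨c, hc⟩) → g f = algebraMap ℂ Ω c)
    {ι : Type} [Fintype ι] (G : MvPolynomial ι ℂ) (β : ι → ∀ s, k s) (v : ∀ s, k s)
    (hv : ∀ᶠ s in (U : Filter S), ∀ G' : MvPolynomial ι (B s),
      map (B s).subtype G' = G → eval (fun i => β i s) (map (π s) G') = v s) :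
    aeval (fun i => g (β i)) G = g v := by
  classical
  let θ : ℂ → ∀ s, k s := fun c s => if hc : c ∈ B s then π s ⟨c, hc⟩ else 0
  have hθ : ∀ (c : ℂ) (s : S) (hc : c ∈ B s), θ c s = π s ⟨c, hc⟩ := fun c s hc => dif_pos hc
  have hθj : ∀ c, algebraMap ℂ Ω c = g (θ c) := fun c =>
    (hj c (θ c) (Eventually.of_forall fun s hc => hθ c s hc)).symm
  have h1 : aeval (fun i => g (β i)) G =
      g (∑ m ∈ G.support, θ (coeff m G) * ∏ i, β i ^ m i) := by
    rw [aeval_def, eval₂_eq', map_sum]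
    refine Finset.sum_congr rfl fun m _ => ?_
    rw [map_mul, map_prod, hθj]
    simp only [map_pow]
  rw [h1]
  refine h.congr ?_
  have h2 : ∀ᶠ s in (U : Filter S), ∀ c ∈ G.coeffs, c ∈ B s := by
    rw [Filter.eventually_all_finset]
    exact fun c _ => hB c
  filter_upwards [hv, h2] with s hs1 hs2
  obtain ⟨G', hG'⟩ : ∃ G' : MvPolynomial ι (B s), map (B s).subtype G' = G := by
    have : G ∈ Set.range (map (B s).subtype : MvPolynomial ι (B s) →+* _) := by
      rw [MvPolynomial.mem_range_map_iff_coeffs_subset]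
      intro c hc
      exact ⟨⟨c, hs2 c hc⟩, rfl⟩
    exact this
  rw [← hs1 G' hG', eval_map, eval₂_eq']
  have hsup : G'.support = G.support := by
    rw [← hG', support_map_of_injective]
    exact Subtype.val_injective
  rw [hsup, Finset.sum_apply]
  refine Finset.sum_congr rfl fun m _ => ?_
  rw [Pi.mul_apply, Finset.prod_apply]
  have h3 : coeff m G = (coeff m G' : B s) := by
    rw [← hG', coeff_map]
    rfl
  have h4 : coeff m G ∈ B s := by rw [h3]; exact (coeff m G').2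
  rw [hθ _ s h4]
  congr 1
  congr 1
  exact Subtype.ext h3

/-- Transfer to an algebraically closed field of characteristic zero. -/
theorem sb_ultra {ι : Type} [Fintype ι] (L : Finset (MvPolynomial ι ℂ)) (m : ι → ℕ)
    (𝒥 : Set (Set ι))
    (H : ∀ T : Finset ℂ, ∃ (B : Subring ℂ) (k : Type) (_ : Field k) (_ : IsAlgClosed k)
        (π : B →+* k) (ψ : ι → MvPolynomial (Fin 2) k), (T : Set ℂ) ⊆ B ∧
        (∀ i, (ψ i).IsHomogeneous (m i)) ∧
        (∀ J ∈ 𝒥, ∀ a : Fin 2 → k, a ≠ 0 → ∃ i ∈ J, eval a (ψ i) ≠ 0) ∧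
        (∀ G : MvPolynomial ι B, map B.subtype G ∈ L → aeval ψ (map π G) = 0)) :
    ∃ (Ω : Type) (_ : Field Ω) (_ : IsAlgClosed Ω) (_ : Algebra ℂ Ω)
      (Ψ : ι → MvPolynomial (Fin 2) Ω), (∀ i, (Ψ i).IsHomogeneous (m i)) ∧
      (∀ J ∈ 𝒥, ∀ a : Fin 2 → Ω, a ≠ 0 → ∃ i ∈ J, eval a (Ψ i) ≠ 0) ∧
      ∀ G ∈ L, aeval Ψ G = 0 := by
  classical
  let S : Type := Finset ℂ
  choose B k ik ia π ψ h1 h3 h4 h5 using H
  let U : Ultrafilter S := Ultrafilter.of atTop
  have hev : ∀ s₀ : S, ∀ᶠ s in (U : Filter S), s₀ ≤ s := fun s₀ =>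
    Ultrafilter.of_le _ (eventually_ge_atTop s₀)
  have hB : ∀ c : ℂ, ∀ᶠ s in (U : Filter S), c ∈ B s := by
    intro c
    filter_upwards [hev {c}] with s hs
    exact h1 s (hs (Finset.mem_singleton_self c))
  obtain ⟨Ω, _, g, hg⟩ := exists_isUltraProd U k
  obtain ⟨j, hj⟩ := hg.exists_embed B π hB
  let _ : Algebra ℂ Ω := j.toAlgebra
  have hj' : ∀ (c : ℂ) (f : ∀ s, k s),
      (∀ᶠ s in (U : Filter S), ∀ hc : c ∈ B s, f s = π s ⟨c, hc⟩) → g f = algebraMap ℂ Ω c := hj
  have hac : IsAlgClosed Ω := hg.isAlgClosed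
  have hΩ : Infinite Ω := IsAlgClosed.instInfinite
  let Ψ : ι → MvPolynomial (Fin 2) Ω := fun i =>
    ∑ n ∈ box (m i), monomial n (g fun s => coeff n (ψ s i))
  have hbox : ∀ s i n, n ∉ box (m i) → coeff n (ψ s i) = 0 := by
    intro s i n hn
    by_contra hne
    have h7 := h3 s i hne
    apply hn
    have h8 : n 0 + n 1 = m i := by
      rw [← h7, Finsupp.weight_apply, Finsupp.sum_fintype _ _ (fun i => by simp),
        Fin.sum_univ_two]
      simp
    exact mem_box (by omega) (by omega)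
  have hΨ : ∀ i n, coeff n (Ψ i) = g fun s => coeff n (ψ s i) := by
    intro i n
    change coeff n (∑ n ∈ box (m i), monomial n (g fun s => coeff n (ψ s i))) = _
    rw [coeff_sum]
    simp only [coeff_monomial]
    rw [Finset.sum_ite_eq']
    split_ifs with hm
    · rfl
    · have : (fun s => coeff n (ψ s i)) = 0 := by
        funext s
        exact hbox s i n hm
      rw [this, map_zero]
  have heval : ∀ (i : ι) (α : Fin 2 → ∀ s, k s), eval (fun l => g (α l)) (Ψ i) =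
      g fun s => eval (fun l => α l s) (ψ s i) := by
    intro i α
    have h7 : ∀ n, n ∉ box (m i) → coeff n (Ψ i) = 0 := by
      intro n hn
      rw [hΨ, show (fun s => coeff n (ψ s i)) = 0 from funext fun s => hbox s i n hn, map_zero]
    rw [eval_box h7]
    have : (fun s => eval (fun l => α l s) (ψ s i)) = ∑ n ∈ box (m i),
        (fun s => coeff n (ψ s i)) * (α 0 ^ n 0 * α 1 ^ n 1) := by
      funext s
      rw [eval_box (hbox s i)]
      simp
    rw [this, map_sum]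
    refine Finset.sum_congr rfl fun n _ => ?_
    rw [map_mul, map_mul, map_pow, map_pow, hΨ]
  have hpoly := fun (G : MvPolynomial ι ℂ) (β : ι → ∀ s, k s) (v : ∀ s, k s) =>
    sb_aeval_eq hg hB hj' G β v
  have hlift : ∀ a : Fin 2 → Ω, ∃ α : Fin 2 → ∀ s, k s, a = fun l => g (α l) := by
    intro a
    choose α hα using fun l => hg.surj (a l)
    exact ⟨α, funext fun l => (hα l).symm⟩
  refine ⟨Ω, inferInstance, hac, inferInstance, Ψ, ?_, ?_, ?_⟩
  · intro i n hn
    rw [hΨ, hg.ne_zero] at hn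
    obtain ⟨s, hs1⟩ := hn.exists
    exact h3 s i hs1
  · intro J hJ a ha
    by_contra hcon
    push Not at hcon
    obtain ⟨α, rfl⟩ := hlift a
    have h7 : ∀ i : J, ∀ᶠ s in (U : Filter S), eval (fun l => α l s) (ψ s i) = 0 := by
      intro i
      rw [← hg.zero, ← heval]
      exact hcon i i.2
    have h8 := Filter.eventually_all.mpr h7
    have h9 : ∀ᶠ s in (U : Filter S), (fun l => α l s) ≠ 0 := by
      rw [Ultrafilter.eventually_not]
      intro h10
      apply ha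
      funext l
      rw [Pi.zero_apply, hg.zero]
      filter_upwards [h10] with s hs
      exact congrFun hs l
    obtain ⟨s, hs1, hs2⟩ := (h8.and h9).exists
    obtain ⟨i, hiJ, hi⟩ := h4 s J hJ _ hs2
    exact hi (hs1 ⟨i, hiJ⟩)
  · intro G hG
    refine MvPolynomial.funext fun a => ?_
    obtain ⟨α, rfl⟩ := hlift a
    rw [map_zero]
    have h8 : eval (fun l => g (α l)) (aeval Ψ G) =
        aeval (fun i => g fun s => eval (fun l => α l s) (ψ s i)) G := by
      have : ((aeval (fun l => g (α l)) : MvPolynomial (Fin 2) Ω →ₐ[Ω] Ω).restrictScalars ℂ).comp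
          (aeval Ψ : MvPolynomial ι ℂ →ₐ[ℂ] MvPolynomial (Fin 2) Ω) =
          aeval (fun i => g fun s => eval (fun l => α l s) (ψ s i)) := by
        refine MvPolynomial.algHom_ext fun i => ?_
        rw [AlgHom.comp_apply, aeval_X, aeval_X]
        exact heval i α
      rw [← this]
      rfl
    rw [h8, hpoly G _ 0, map_zero]
    refine Eventually.of_forall fun s G' hG' => ?_
    have h9 := h5 s G' (by rw [hG']; exact hG)
    have h10 := congrArg (eval fun l => α l s) h9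
    rw [map_zero] at h10
    rw [Pi.zero_apply, ← h10]
    have : ((eval fun l => α l s).comp
        (aeval (ψ s) : MvPolynomial ι (k s) →ₐ[k s] MvPolynomial (Fin 2) (k s)).toRingHom) =
        eval (fun i => eval (fun l => α l s) (ψ s i)) := by
      refine MvPolynomial.ringHom_ext (fun c => ?_) fun i => ?_
      · simp
      · simp
    rw [← this]
    rfl

end Vale.Agent.P292.Dv
end

section

/-! # Systems of forms on the line: descent to the complex numbers. -/

namespace Vale.Agent.P292.Dv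

open MvPolynomial

/-- Forms without common zeros: powers of the coordinates are in the ideal. -/
theorem sd_pow_mem {Ω : Type} [Field Ω] [IsAlgClosed Ω] {κ : Type} [Fintype κ]
    (Ψ : κ → MvPolynomial (Fin 2) Ω) (h : ∀ a : Fin 2 → Ω, a ≠ 0 → ∃ i, eval a (Ψ i) ≠ 0)
    (l : Fin 2) : ∃ (N : ℕ) (c : κ → MvPolynomial (Fin 2) Ω), ∑ i, c i * Ψ i = X l ^ N := by
  have h1 : (X l : MvPolynomial (Fin 2) Ω) ∈ (Ideal.span (Set.range Ψ)).radical := by
    rw [← vanishingIdeal_zeroLocus_eq_radical (K := Ω), mem_vanishingIdeal_iff]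
    intro a ha
    rw [mem_zeroLocus_iff] at ha
    rw [aeval_X]
    by_contra hne
    obtain ⟨i, hi⟩ := h a (fun h0 => hne (by rw [h0]; rfl))
    exact hi (ha _ (Ideal.subset_span ⟨i, rfl⟩))
  obtain ⟨N, hN⟩ := h1
  obtain ⟨c, hc⟩ := Ideal.mem_span_range_iff_exists_fun.mp hN
  exact ⟨N, c, hc⟩

/-- Descent. -/
theorem sd_descent {ι : Type} [Fintype ι] (L : Finset (MvPolynomial ι ℂ)) (m : ι → ℕ)
    (𝒥 : Set (Set ι)) {Ω : Type} [Field Ω] [IsAlgClosed Ω] [Algebra ℂ Ω]
    (Ψ : ι → MvPolynomial (Fin 2) Ω) (h1 : ∀ i, (Ψ i).IsHomogeneous (m i))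
    (h2 : ∀ J ∈ 𝒥, ∀ a : Fin 2 → Ω, a ≠ 0 → ∃ i ∈ J, eval a (Ψ i) ≠ 0)
    (h3 : ∀ G ∈ L, aeval Ψ G = 0) :
    ∃ ψ : ι → MvPolynomial (Fin 2) ℂ, (∀ i, (ψ i).IsHomogeneous (m i)) ∧
      (∀ J ∈ 𝒥, ∀ a : Fin 2 → ℂ, a ≠ 0 → ∃ i ∈ J, eval a (ψ i) ≠ 0) ∧
      ∀ G ∈ L, aeval ψ G = 0 := by
  classical
  have h4 : ∀ (J : 𝒥) (l : Fin 2), ∃ (N : ℕ) (c : J.1 → MvPolynomial (Fin 2) Ω),
      ∑ i, c i * Ψ i.1 = X l ^ N := by
    intro J l
    refine sd_pow_mem (fun i : J.1 => Ψ i.1) ?_ l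
    intro a ha
    obtain ⟨i, hi, hne⟩ := h2 J.1 J.2 a ha
    exact ⟨⟨i, hi⟩, hne⟩
  choose N c hc using h4
  let cf : Finset Ω := (Finset.univ.biUnion fun i => (Ψ i).coeffs) ∪
    Finset.univ.biUnion fun J : 𝒥 => Finset.univ.biUnion fun l : Fin 2 =>
      Finset.univ.biUnion fun i : J.1 => (c J l i).coeffs
  let A : Subalgebra ℂ Ω := Algebra.adjoin ℂ (cf : Set Ω)
  have hsub : (cf : Set Ω) ⊆ A := Algebra.subset_adjoin
  have hft : Algebra.FiniteType ℂ A :=
    (Subalgebra.fg_iff_finiteType A).mp (Subalgebra.fg_adjoin_finset cf)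
  obtain ⟨M, hM⟩ := Ideal.exists_maximal A
  obtain ⟨χ, -⟩ := Vale.Agent.P292.exists_algHom_of_isMaximal (R := A) M
  have hinj : Function.Injective (MvPolynomial.map (algebraMap A Ω) :
      MvPolynomial (Fin 2) A →+* MvPolynomial (Fin 2) Ω) :=
    MvPolynomial.map_injective _ Subtype.val_injective
  have hlift : ∀ p : MvPolynomial (Fin 2) Ω, (∀ x ∈ p.coeffs, x ∈ cf) →
      ∃ p' : MvPolynomial (Fin 2) A, MvPolynomial.map (algebraMap A Ω) p' = p := by
    intro p hp
    have : p ∈ Set.range (MvPolynomial.map (algebraMap A Ω) :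
        MvPolynomial (Fin 2) A →+* MvPolynomial (Fin 2) Ω) := by
      rw [MvPolynomial.mem_range_map_iff_coeffs_subset]
      intro x hx
      exact ⟨⟨x, hsub (hp x hx)⟩, rfl⟩
    exact this
  have h5 : ∀ i, ∃ p' : MvPolynomial (Fin 2) A, MvPolynomial.map (algebraMap A Ω) p' = Ψ i := by
    intro i
    refine hlift _ fun x hx => ?_
    exact Finset.mem_union_left _ (Finset.mem_biUnion.mpr ⟨i, Finset.mem_univ _, hx⟩)
  have h6 : ∀ (J : 𝒥) (l : Fin 2) (i : J.1), ∃ p' : MvPolynomial (Fin 2) A,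
      MvPolynomial.map (algebraMap A Ω) p' = c J l i := by
    intro J l i
    refine hlift _ fun x hx => ?_
    refine Finset.mem_union_right _ (Finset.mem_biUnion.mpr ⟨J, Finset.mem_univ _, ?_⟩)
    refine Finset.mem_biUnion.mpr ⟨l, Finset.mem_univ _, ?_⟩
    exact Finset.mem_biUnion.mpr ⟨i, Finset.mem_univ _, hx⟩
  choose Ψ' hΨ' using h5
  choose c' hc' using h6
  refine ⟨fun i => MvPolynomial.map (χ : A →+* ℂ) (Ψ' i), ?_, ?_, ?_⟩
  · intro i
    have h7 : (Ψ' i).IsHomogeneous (m i) := by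
      intro n hn
      refine h1 i ?_
      rw [← hΨ', coeff_map]
      exact fun h0 => hn (Subtype.val_injective h0)
    exact h7.map _
  · intro J hJ a ha
    by_contra hcon
    push Not at hcon
    apply ha
    funext l
    have h7 : ∑ i, c' ⟨J, hJ⟩ l i * Ψ' i.1 = X l ^ N ⟨J, hJ⟩ l := by
      apply hinj
      rw [map_sum, map_pow, map_X, ← hc ⟨J, hJ⟩ l]
      refine Finset.sum_congr rfl fun i _ => ?_
      rw [map_mul, hΨ', hc']
    have h8 := congrArg (fun p => eval a (MvPolynomial.map (χ : A →+* ℂ) p)) h7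
    simp only [map_sum, map_mul, map_pow, map_X, eval_X] at h8
    rw [Finset.sum_eq_zero (fun i _ => by rw [hcon i.1 i.2, mul_zero])] at h8
    exact eq_zero_of_pow_eq_zero h8.symm
  · intro G hG
    have h7 : aeval Ψ' G = 0 := by
      apply hinj
      rw [map_zero, ← h3 G hG]
      have : ((MvPolynomial.mapAlgHom A.val : MvPolynomial (Fin 2) A →ₐ[ℂ]
          MvPolynomial (Fin 2) Ω)).comp (aeval Ψ') = aeval Ψ := by
        refine MvPolynomial.algHom_ext fun i => ?_
        rw [AlgHom.comp_apply, aeval_X, aeval_X]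
        exact hΨ' i
      rw [← this]
      rfl
    have h8 : ((MvPolynomial.mapAlgHom χ : MvPolynomial (Fin 2) A →ₐ[ℂ]
          MvPolynomial (Fin 2) ℂ)).comp (aeval Ψ') =
          aeval fun i => MvPolynomial.map (χ : A →+* ℂ) (Ψ' i) := by
      refine MvPolynomial.algHom_ext fun i => ?_
      rw [AlgHom.comp_apply, aeval_X, aeval_X]
      rfl
    rw [← h8, AlgHom.comp_apply, h7, map_zero]

/-- Transfer of systems of forms on the line to the complex numbers. -/
theorem sb_transfer {ι : Type} [Fintype ι] (L : Finset (MvPolynomial ι ℂ)) (m : ι → ℕ)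
    (𝒥 : Set (Set ι))
    (H : ∀ T : Finset ℂ, ∃ (B : Subring ℂ) (k : Type) (_ : Field k) (_ : IsAlgClosed k)
        (π : B →+* k) (ψ : ι → MvPolynomial (Fin 2) k), (T : Set ℂ) ⊆ B ∧
        (∀ i, (ψ i).IsHomogeneous (m i)) ∧
        (∀ J ∈ 𝒥, ∀ a : Fin 2 → k, a ≠ 0 → ∃ i ∈ J, eval a (ψ i) ≠ 0) ∧
        (∀ G : MvPolynomial ι B, map B.subtype G ∈ L → aeval ψ (map π G) = 0)) :
    ∃ ψ : ι → MvPolynomial (Fin 2) ℂ, (∀ i, (ψ i).IsHomogeneous (m i)) ∧
      (∀ J ∈ 𝒥, ∀ a : Fin 2 → ℂ, a ≠ 0 → ∃ i ∈ J, eval a (ψ i) ≠ 0) ∧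
      ∀ G ∈ L, aeval ψ G = 0 := by
  obtain ⟨Ω, _, _, _, Ψ, h1, h2, h3⟩ := sb_ultra L m 𝒥 H
  exact sd_descent L m 𝒥 Ψ h1 h2 h3

end Vale.Agent.P292.Dv
end

section

/-! # A pair from finitely many forms with finitely many relations. -/

namespace Vale.Agent.P292.Dv

open MvPolynomial Vale.Agent.P292.Mo

universe u w

/-- Values of weighted homogeneous polynomials at forms are forms. -/
theorem sp_aeval_homog {K : Type w} [Field K] [Algebra ℂ K] {M : ℕ} {e : Fin M → ℕ} {d : ℕ}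
    {Ψ : Fin M → MvPolynomial (Fin 2) K} (hΨ : ∀ i, (Ψ i).IsHomogeneous (d * e i)) {n : ℕ}
    {G : MvPolynomial (Fin M) ℂ} (hG : G.IsWeightedHomogeneous e n) :
    (aeval Ψ G).IsHomogeneous (d * n) := by
  rw [aeval_def, eval₂_eq']
  refine IsHomogeneous.sum _ _ _ fun m hm => ?_
  have h8 : Finsupp.weight e m = n := hG (mem_support_iff.mp hm)
  have h9 : (∏ i, Ψ i ^ m i).IsHomogeneous (∑ i, d * e i * m i) :=
    IsHomogeneous.prod _ _ _ fun i _ => (hΨ i).pow (m i)
  have h10 : ∑ i, d * e i * m i = d * n := by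
    rw [← h8, Finsupp.weight_apply, Finsupp.sum_fintype _ _ (fun i => by simp),
      Finset.mul_sum]
    refine Finset.sum_congr rfl fun i _ => ?_
    rw [smul_eq_mul]
    ring
  rw [h10] at h9
  exact h9.C_mul _

theorem sp_syz {K : Type w} [Field K] [Algebra ℂ K] {M N : ℕ}
    (Ψ : Fin M → MvPolynomial (Fin 2) K) (E : Fin N → MvPolynomial (Fin 2) K)
    {Z : Set (Fin N → MvPolynomial (Fin M) ℂ)}
    (hsyz : ∀ z ∈ Z, ∑ l, aeval Ψ (z l) * E l = 0) (c : Fin N → MvPolynomial (Fin M) ℂ)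
    (hc : c ∈ Submodule.span (MvPolynomial (Fin M) ℂ) Z) : ∑ l, aeval Ψ (c l) * E l = 0 := by
  induction hc using Submodule.span_induction with
  | mem z hz => exact hsyz z hz
  | zero => simp
  | add a b _ _ ha hb =>
    have h : ∀ l, aeval Ψ ((a + b) l) * E l = aeval Ψ (a l) * E l + aeval Ψ (b l) * E l := by
      intro l
      rw [Pi.add_apply, map_add, add_mul]
    rw [Finset.sum_congr rfl fun l _ => h l, Finset.sum_add_distrib, ha, hb, add_zero]
  | smul r a _ ha =>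
    have h : ∀ l, aeval Ψ ((r • a) l) * E l = aeval Ψ r * (aeval Ψ (a l) * E l) := by
      intro l
      rw [Pi.smul_apply, smul_eq_mul, map_mul, mul_assoc]
    rw [Finset.sum_congr rfl fun l _ => h l, ← Finset.mul_sum, ha, mul_zero]

/-- A pair from the forms `Ψ i`, `E l`. -/
theorem isPair_of_data {R : Type u} [CommRing R] [Algebra ℂ R]
    {𝒜 : ℕ → Submodule ℂ R} [GradedAlgebra 𝒜] {M : ℕ} (x : Fin M → R) (e : Fin M → ℕ)
    (he : ∀ i, 0 < e i) (hx : ∀ i, x i ∈ 𝒜 (e i))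
    (hgen : Function.Surjective (aeval x : MvPolynomial (Fin M) ℂ →ₐ[ℂ] R))
    {L : Set (MvPolynomial (Fin M) ℂ)}
    (hL : Ideal.span L = RingHom.ker (aeval x : MvPolynomial (Fin M) ℂ →ₐ[ℂ] R))
    {N : ℕ} (q : Fin N → MvPolynomial (Fin M) ℂ) (j : Fin N → ℕ)
    (hq : ∀ l, aeval x (q l) ∈ 𝒜 (j l)) (p : Ideal R)
    (hp : p = Ideal.span (Set.range fun l => aeval x (q l)))
    {Z : Set (Fin N → MvPolynomial (Fin M) ℂ)}
    (hZ : ∀ c : Fin N → MvPolynomial (Fin M) ℂ, aeval x (∑ l, c l * q l) = 0 →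
      c ∈ Submodule.span (MvPolynomial (Fin M) ℂ) Z)
    {K : Type w} [Field K] [Algebra ℂ K] {d δ : ℕ}
    {Ψ : Fin M → MvPolynomial (Fin 2) K} {E : Fin N → MvPolynomial (Fin 2) K}
    (hΨdeg : ∀ i, (Ψ i).IsHomogeneous (d * e i))
    (hEdeg : ∀ l, (E l).IsHomogeneous (d * j l - δ))
    (hEle : ∀ l, E l = 0 ∨ δ ≤ d * j l)
    (hΨb : ∀ a : Fin 2 → K, a ≠ 0 → ∃ i, eval a (Ψ i) ≠ 0)
    (hEb : ∀ a : Fin 2 → K, a ≠ 0 → ∃ l, eval a (E l) ≠ 0)
    (hker : ∀ G ∈ L, aeval Ψ G = 0)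
    (hsyz : ∀ z ∈ Z, ∑ l, aeval Ψ (z l) * E l = 0) :
    ∃ (φ : R →ₐ[ℂ] MvPolynomial (Fin 2) K) (η : p →ₗ[ℂ] MvPolynomial (Fin 2) K),
      IsPair 𝒜 p d δ φ η := by
  classical
  have hker : ∀ G ∈ RingHom.ker (aeval x : MvPolynomial (Fin M) ℂ →ₐ[ℂ] R), aeval Ψ G = 0 := by
    have h9 : Ideal.span L ≤ RingHom.ker
        (aeval Ψ : MvPolynomial (Fin M) ℂ →ₐ[ℂ] MvPolynomial (Fin 2) K) := by
      rw [Ideal.span_le]
      intro G hG
      rw [SetLike.mem_coe, RingHom.mem_ker]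
      exact hker G hG
    intro G hG
    rw [← hL] at hG
    exact h9 hG
  -- syzygies
  have hsyz : ∀ c : Fin N → MvPolynomial (Fin M) ℂ,
      (∑ l, c l * q l) ∈ RingHom.ker (aeval x : MvPolynomial (Fin M) ℂ →ₐ[ℂ] R) →
      ∑ l, aeval Ψ (c l) * E l = 0 := by
    intro c hc
    rw [RingHom.mem_ker] at hc
    exact sp_syz Ψ E hsyz c (hZ c hc)
  have hsurj : Function.Surjective (aeval x : MvPolynomial (Fin M) ℂ →ₐ[ℂ] R) := hgen
  choose rep hrep using hgen
  let Φ : R →ₐ[ℂ] MvPolynomial (Fin 2) K :=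
    (Ideal.Quotient.liftₐ (RingHom.ker (aeval x : MvPolynomial (Fin M) ℂ →ₐ[ℂ] R))
      (aeval Ψ) hker).comp
      (Ideal.quotientKerAlgEquivOfSurjective hsurj).symm.toAlgHom
  have hΦ : ∀ G : MvPolynomial (Fin M) ℂ, Φ (aeval x G) = aeval Ψ G := by
    intro G
    change (Ideal.Quotient.liftₐ (RingHom.ker (aeval x : MvPolynomial (Fin M) ℂ →ₐ[ℂ] R))
      (aeval Ψ) hker) ((Ideal.quotientKerAlgEquivOfSurjective hsurj).symm (aeval x G)) = _
    have : (Ideal.quotientKerAlgEquivOfSurjective hsurj).symm (aeval x G) =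
        Ideal.Quotient.mk _ G := by
      rw [AlgEquiv.symm_apply_eq]
      rfl
    rw [this]
    rfl
  have hΦX : ∀ i, Φ (x i) = Ψ i := by
    intro i
    have := hΦ (X i)
    rwa [aeval_X, aeval_X] at this
  -- the map on the ideal
  have hcex : ∀ y : p, ∃ c : Fin N → MvPolynomial (Fin M) ℂ,
      ∑ l, aeval x (c l) * aeval x (q l) = (y : R) := by
    intro y
    have hy : (y : R) ∈ Ideal.span (Set.range fun l => aeval x (q l)) := hp ▸ y.2
    obtain ⟨c, hc⟩ := (Submodule.mem_span_range_iff_exists_fun R).mp hy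
    refine ⟨fun l => rep (c l), ?_⟩
    rw [← hc]
    refine Finset.sum_congr rfl fun l _ => ?_
    rw [hrep, smul_eq_mul]
  choose cf hcf using hcex
  have hwd : ∀ (y : p) (c : Fin N → MvPolynomial (Fin M) ℂ),
      ∑ l, aeval x (c l) * aeval x (q l) = (y : R) →
      ∑ l, aeval Ψ (cf y l) * E l = ∑ l, aeval Ψ (c l) * E l := by
    intro y c hc
    have h9 := hsyz (fun l => cf y l - c l) (by
      rw [RingHom.mem_ker, map_sum]
      simp only [sub_mul, map_sub, map_mul]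
      rw [Finset.sum_sub_distrib, hcf, hc, sub_self])
    simp only [map_sub, sub_mul] at h9
    rw [Finset.sum_sub_distrib] at h9
    exact sub_eq_zero.mp h9
  have hR : ∀ (r : R) (y : p), ∑ l, aeval Ψ (cf (r • y) l) * E l =
      Φ r * ∑ l, aeval Ψ (cf y l) * E l := by
    intro r y
    rw [hwd (r • y) (fun l => rep r * cf y l)]
    · rw [Finset.mul_sum]
      refine Finset.sum_congr rfl fun l _ => ?_
      have : Φ r = aeval Ψ (rep r) := by rw [← hΦ, hrep]
      rw [map_mul, this, mul_assoc]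
    · have : ((r • y : p) : R) = r * (y : R) := rfl
      rw [this, ← hcf y, Finset.mul_sum]
      refine Finset.sum_congr rfl fun l _ => ?_
      rw [map_mul, hrep, mul_assoc]
  let η' : p →ₗ[ℂ] MvPolynomial (Fin 2) K :=
    { toFun := fun y => ∑ l, aeval Ψ (cf y l) * E l
      map_add' := by
        intro y y'
        rw [hwd (y + y') (fun l => cf y l + cf y' l)]
        · simp only [map_add, add_mul]
          rw [Finset.sum_add_distrib]
        · simp only [map_add, add_mul]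
          rw [Finset.sum_add_distrib, hcf, hcf]
          rfl
      map_smul' := by
        intro z y
        have h9 : z • y = algebraMap ℂ R z • y := by
          apply Subtype.ext
          change z • (y : R) = algebraMap ℂ R z * (y : R)
          rw [Algebra.smul_def]
        rw [RingHom.id_apply, h9, hR, AlgHom.commutes, ← Algebra.smul_def] }
  have hη' : ∀ (y : p) (c : Fin N → MvPolynomial (Fin M) ℂ),
      ∑ l, aeval x (c l) * aeval x (q l) = (y : R) → η' y = ∑ l, aeval Ψ (c l) * E l := hwd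
  have hηq : ∀ (l : Fin N) (h : aeval x (q l) ∈ p), η' ⟨aeval x (q l), h⟩ = E l := by
    intro l h
    rw [hη' _ (fun i => if i = l then 1 else 0)]
    · rw [Finset.sum_eq_single l]
      · simp
      · intro i _ hi
        simp [hi]
      · intro hl
        exact absurd (Finset.mem_univ l) hl
    · rw [Finset.sum_eq_single l]
      · simp
      · intro i _ hi
        simp [hi]
      · intro hl
        exact absurd (Finset.mem_univ l) hl
  have hsum : ∀ n, ∀ y : p, (y : R) ∈ 𝒜 n → η' y = ∑ l, aeval Ψ (if j l ≤ n then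
      weightedHomogeneousComponent e (n - j l) (cf y l) else 0) * E l := by
    intro n y hy
    refine hη' y _ ?_
    symm
    conv_lhs => rw [← DirectSum.decompose_of_mem_same 𝒜 hy, ← hcf y]
    rw [DirectSum.decompose_sum, DFinsupp.finsetSum_apply, AddSubmonoidClass.coe_finsetSum]
    refine Finset.sum_congr rfl fun l _ => ?_
    split_ifs with hl
    · rw [DirectSum.coe_decompose_mul_of_right_mem_of_le 𝒜 (hq l) hl, decompose_aeval hx]
    · rw [DirectSum.coe_decompose_mul_of_right_mem_of_not_le 𝒜 (hq l) hl, map_zero, zero_mul]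
  refine ⟨Φ, η', ?_, ?_, hR, ?_, ?_, ?_⟩
  · intro n r hr
    have h9 : r = aeval x (weightedHomogeneousComponent e n (rep r)) := by
      rw [← decompose_aeval hx (n := n) (G := rep r), hrep, DirectSum.decompose_of_mem_same 𝒜 hr]
    rw [h9, hΦ]
    exact sp_aeval_homog hΨdeg (weightedHomogeneousComponent_isWeightedHomogeneous n (rep r))
  · intro a ha
    obtain ⟨i, hi⟩ := hΨb a ha
    exact ⟨e i, he i, x i, hx i, by rwa [hΦX]⟩
  · intro n y hy m hm
    rw [hsum n y hy]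
    refine IsHomogeneous.sum _ _ _ fun l _ => ?_
    rcases hEle l with h11 | h11
    · rw [h11, mul_zero]
      exact isHomogeneous_zero _ _ _
    · split_ifs with hl
      · have h12 := (sp_aeval_homog hΨdeg
          (weightedHomogeneousComponent_isWeightedHomogeneous (n - j l) (cf y l))).mul (hEdeg l)
        have h13 : d * (n - j l) + (d * j l - δ) = m := by
          have h14 : d * n = d * (n - j l) + d * j l := by
            rw [← Nat.mul_add, Nat.sub_add_cancel hl]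
          omega
        rwa [h13] at h12
      · rw [map_zero, zero_mul]
        exact isHomogeneous_zero _ _ _
  · intro n y hy hn
    rw [hsum n y hy]
    refine Finset.sum_eq_zero fun l _ => ?_
    split_ifs with hl
    · rcases hEle l with h12 | h12
      · rw [h12, mul_zero]
      · have h13 : d * j l ≤ d * n := Nat.mul_le_mul_left _ hl
        omega
    · rw [map_zero, zero_mul]
  · intro a ha
    obtain ⟨l, hl⟩ := hEb a ha
    have hmem : aeval x (q l) ∈ p := by
      rw [hp]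
      exact Ideal.subset_span ⟨l, rfl⟩
    exact ⟨⟨_, hmem⟩, by rwa [hηq]⟩

end Vale.Agent.P292.Dv
end

section

/-! # Locally principal ideals: a finite cover. -/

namespace Vale.Agent.P292.Dv

open Vale.Agent.P292

universe u

theorem isInv_of_forall {R : Type u} [CommRing R] [Algebra ℂ R] {𝒜 : ℕ → Submodule ℂ R}
    [GradedAlgebra 𝒜] [Algebra.FiniteType ℂ R] (𝔭 : Ideal R)
    (h : ∀ y : R →ₐ[ℂ] ℂ, ¬ IsVertex 𝒜 y → ∃ i, ∃ a ∈ 𝒜 i, a ∈ 𝔭 ∧ ∃ j, ∃ b ∈ 𝒜 j, y b ≠ 0 ∧
      ∀ x ∈ 𝔭, ∃ r, b * x = a * r) : IsInv 𝒜 𝔭 := by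
  classical
  have : IsNoetherianRing R := Algebra.FiniteType.isNoetherianRing ℂ R
  let s : Set R := {b | ∃ i, ∃ a ∈ 𝒜 i, a ∈ 𝔭 ∧ ∃ j, b ∈ 𝒜 j ∧ ∀ x ∈ 𝔭, ∃ r, b * x = a * r}
  have hfg : (Submodule.span R s).FG := IsNoetherian.noetherian _
  obtain ⟨F, hF, hFs⟩ := (Submodule.fg_span_iff_fg_span_finset_subset s).mp hfg
  let e := F.equivFin
  have hs : ∀ t : Fin F.card, ((e.symm t : F) : R) ∈ s := fun t => hF (e.symm t).2
  choose i a ha hap j hb hbp using hs
  refine ⟨F.card, a, fun t => (e.symm t : F), i, j, ha, hb, hap, ?_, ?_⟩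
  · intro t x hx
    obtain ⟨r, hr⟩ := hbp t x hx
    exact ⟨r, by rw [hr, mul_comm]⟩
  · intro n hn r hr
    have h1 : Ideal.span (Set.range fun t : Fin F.card => ((e.symm t : F) : R)) =
        Submodule.span R s := by
      rw [hFs]
      congr 1
      ext x
      constructor
      · rintro ⟨t, rfl⟩
        exact (e.symm t).2
      · intro hx
        exact ⟨e ⟨x, hx⟩, congrArg Subtype.val (Equiv.symm_apply_apply e ⟨x, hx⟩)⟩
    rw [h1]
    have h2 : r ∈ (Ideal.span s).radical := by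
      apply mem_radical_of_forall
      intro p hp
      by_cases hv : IsVertex 𝒜 p
      · exact hv n hn r hr
      · exfalso
        obtain ⟨i, a, ha, hap, j, b, hb, hne, hbp⟩ := h p hv
        exact hne (hp b (Ideal.subset_span ⟨i, a, ha, hap, j, hb, hbp⟩))
    exact h2

end Vale.Agent.P292.Dv
end

section

/-! # P292, Part III, block T2 (cone theorem in characteristic `p`): definitions. -/

namespace Vale.Agent.P292.Dv

open TensorProduct
open Vale.Agent.P292.Mo

universe u v w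

section graded

variable {k : Type u} [Field k] {R : Type v} [CommRing R] [Algebra k R] {ι : Type}
  (𝒜 : ι → Submodule k R) {K : Type w} [Field K] [Algebra k K]

/-- Sections of the line bundle with cocycle `c`. -/
def SecG (A₀ A₁ : Subalgebra k K) (c : K) : Submodule k K :=
  Subalgebra.toSubmodule A₀ ⊓ (Subalgebra.toSubmodule A₁).comap (LinearMap.mulLeft k c)

theorem mem_SecG {A₀ A₁ : Subalgebra k K} {c a : K} : a ∈ SecG A₀ A₁ c ↔ a ∈ A₀ ∧ c * a ∈ A₁ :=
  Iff.rfl

/-- Derivations which are regular on the second chart; `U` is the cocycle of the grading. -/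
def Der1G (φ : R →ₐ[k] K) (A₁ : Subalgebra k K) (U : ι → K) : Submodule k (R →ₗ[k] K) where
  carrier := {δ | δ ∈ DerS φ ∧ ∀ n, ∀ r ∈ 𝒜 n, U n * δ r ∈ A₁}
  add_mem' := fun ha hb => ⟨add_mem ha.1 hb.1, fun n r hr => by
    rw [LinearMap.add_apply, mul_add]; exact add_mem (ha.2 n r hr) (hb.2 n r hr)⟩
  zero_mem' := ⟨zero_mem _, fun n r _ => by simp⟩
  smul_mem' := fun c _ ha => ⟨Submodule.smul_mem _ c ha.1, fun n r hr => by
    rw [LinearMap.smul_apply, mul_smul_comm]; exact A₁.smul_mem (ha.2 n r hr) c⟩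

theorem mem_Der1G {φ : R →ₐ[k] K} {A₁ : Subalgebra k K} {U : ι → K} {δ : R →ₗ[k] K} :
    δ ∈ Der1G 𝒜 φ A₁ U ↔ δ ∈ DerS φ ∧ ∀ n, ∀ r ∈ 𝒜 n, U n * δ r ∈ A₁ := Iff.rfl

/-- The tangent space of the deformations with fixed values at the marks. -/
def T0G (φ : R →ₐ[k] K) (I : Submodule k K) (A₁ : Subalgebra k K) (U : ι → K) :
    Submodule k (R →ₗ[k] K) := Der0 φ I ⊓ Der1G 𝒜 φ A₁ U

/-- The obstruction space. -/
def ObG (φ : R →ₐ[k] K) (I : Submodule k K) (A₁ : Subalgebra k K) (U : ι → K) :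
    Submodule k ((R →ₗ[k] K) ⧸ (Der0 φ I ⊔ Der1G 𝒜 φ A₁ U)) :=
  (DerS φ).map (Der0 φ I ⊔ Der1G 𝒜 φ A₁ U).mkQ

/-- The output of the deformation lemma. -/
def FamOutG (A₀ A₁ : Subalgebra k K) (U : ι → K) (φ : R →ₐ[k] K) (I : Submodule k K) : Prop :=
  ∃ (D : Type u) (_ : CommRing D) (_ : Algebra k D) (_ : Algebra.FiniteType k D) (e : D →ₐ[k] k)
    (Ψ : R →ₐ[k] D ⊗[k] K),
    (∀ (m : Ideal D) [m.IsMaximal], m = RingHom.ker e →
      ¬ IsArtinianRing (Localization.AtPrime m)) ∧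
    (∀ n, ∀ r ∈ 𝒜 n, Ψ r ∈ InB D (SecG A₀ A₁ (U n))) ∧
    (∀ r, Ψ r - 1 ⊗ₜ φ r ∈ InB D I) ∧
    (∀ r, ∀ l : K →ₗ[k] k, e (lamB D l (Ψ r)) = l (φ r)) ∧
    Algebra.adjoin k {d : D | ∃ r, ∃ l : K →ₗ[k] k, lamB D l (Ψ r) = d} = ⊤

end graded

section rees

variable {k : Type u} [Field k] {R : Type v} [CommRing R] [Algebra k R]

/-- The element `x T` of the Rees algebra. -/
noncomputable def rT (J : Ideal R) (x : J) : reesAlgebra J :=
  ⟨Polynomial.monomial 1 (x : R), by
    rw [reesAlgebra.monomial_mem, pow_one]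
    exact x.2⟩

/-- The bigrading of the Rees algebra. -/
def rgr (𝒜 : ℕ → Submodule k R) (J : Ideal R) (i : ℕ × ℕ) : Submodule k (reesAlgebra J) where
  carrier := {f | ∃ c ∈ 𝒜 i.1, (f : Polynomial R) = Polynomial.monomial i.2 c}
  add_mem' := by
    rintro _ _ ⟨c, hc, h⟩ ⟨c', hc', h'⟩
    exact ⟨c + c', add_mem hc hc', by rw [Subalgebra.coe_add, h, h', map_add]⟩
  zero_mem' := ⟨0, zero_mem _, by simp⟩
  smul_mem' := by
    rintro a _ ⟨c, hc, h⟩
    refine ⟨a • c, Submodule.smul_mem _ _ hc, ?_⟩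
    rw [Subalgebra.coe_smul, h, Polynomial.smul_monomial]

/-- The cocycle of the bigrading. -/
def UU {K : Type w} [Field K] (u v : K) (i : ℕ × ℕ) : K := u ^ i.1 * v ^ i.2

end rees

section pairs

variable {k : Type u} [Field k] {R : Type v} [CommRing R] [Algebra k R]
  (𝒜 : ℕ → Submodule k R) (P : R →ₗ[k] R →ₗ[k] R) (J : Ideal R) {K : Type w} [Field K]
  [Algebra k K]

/-- A pair `(φ, η)` on the curve with the charts `A₀`, `A₁`; `u` is the cocycle of the pull back of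
the contact line bundle and `v` the cocycle of the pull back of the ideal `J`. -/
structure IsGP (N : ℕ) (A₀ A₁ : Subalgebra k K) (u v : K) (φ : R →ₐ[k] K) (η : J →ₗ[k] K) :
    Prop where
  mp : IsMp 𝒜 A₀ A₁ u φ
  v_ne : v ≠ 0
  lin : ∀ (r : R) (x : J), η (r • x) = φ r * η x
  secη : ∀ n, ∀ x : J, (x : R) ∈ 𝒜 n → η x ∈ A₀ ∧ u ^ n * v * η x ∈ A₁
  loc0 : ∃ (i j : ℕ) (a : J) (b : R), 0 < j ∧ (a : R) ∈ 𝒜 i ∧ b ∈ 𝒜 j ∧
    (∀ x ∈ J, ∃ r, b * x = r * a) ∧ φ b ≠ 0 ∧ (φ b)⁻¹ ∈ A₀ ∧ η a ≠ 0 ∧ (η a)⁻¹ ∈ A₀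
  loc1 : ∃ (i j : ℕ) (a : J) (b : R), 0 < j ∧ (a : R) ∈ 𝒜 i ∧ b ∈ 𝒜 j ∧
    (∀ x ∈ J, ∃ r, b * x = r * a) ∧ φ b ≠ 0 ∧ (u ^ j * φ b)⁻¹ ∈ A₁ ∧ η a ≠ 0 ∧
    (u ^ i * v * η a)⁻¹ ∈ A₁
  Npos : 0 < N
  frames : ∃ (x : Fin N → R) (d : Fin N → ℕ) (g : R) (x' : Fin N → R)
    (d' : Fin N → ℕ) (g' : R), IsFr0 𝒜 P A₀ φ x d g ∧ IsFr1 𝒜 P A₁ u φ x' d' g'

/-- The charts are the standard ones for the coordinate `t`. -/
def IsCh (t : K) (A₀ A₁ : Subalgebra k K) : Prop :=
  ∃ g : Polynomial k, g ≠ 0 ∧ A₀ = IC (B0 t g) ∧ A₁ = IC (B1 t g)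

/-- A degenerating family of pairs over `k[[τ]]`. -/
structure IsPF (A₀ A₁ : Subalgebra k K) (u v : K) (F : R →ₐ[k] PowerSeries A₀)
    (H : J →ₗ[k] PowerSeries A₀) : Prop where
  sec : ∀ n, ∀ r ∈ 𝒜 n, ∀ i, ((PowerSeries.coeff i (F r) : A₀) : K) ∈ Sec A₀ A₁ u n
  secη : ∀ n, ∀ x : J, (x : R) ∈ 𝒜 n → ∀ i, u ^ n * v * (PowerSeries.coeff i (H x) : A₀) ∈ A₁
  lin : ∀ (r : R) (x : J), H (r • x) = F r * H x
  ne : ∃ n, 0 < n ∧ ∃ r ∈ 𝒜 n, PowerSeries.constantCoeff (F r) ≠ 0
  neη : ∃ x, PowerSeries.constantCoeff (H x) ≠ 0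
  b0 : ∃ L, (PowerSeries.X : PowerSeries A₀) ^ L ∈
    Ideal.span {y | ∃ j : ℕ, 0 < j ∧ ∃ r ∈ 𝒜 j, y = F r}
  b0η : ∃ L, (PowerSeries.X : PowerSeries A₀) ^ L ∈ Ideal.span (Set.range H)
  b1 : ∃ L, (PowerSeries.X : PowerSeries A₁) ^ L ∈ Ideal.span {y | ∃ j : ℕ, 0 < j ∧ ∃ r ∈ 𝒜 j,
    ∀ i, ((PowerSeries.coeff i y : A₁) : K) = u ^ j * (PowerSeries.coeff i (F r) : A₀)}
  b1η : ∃ L, (PowerSeries.X : PowerSeries A₁) ^ L ∈ Ideal.span {y | ∃ j : ℕ, ∃ x : J,
    (x : R) ∈ 𝒜 j ∧
    ∀ i, ((PowerSeries.coeff i y : A₁) : K) = u ^ j * v * (PowerSeries.coeff i (H x) : A₀)}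

/-- There is no closed rational curve of degree at most `E` which is positive on the divisor. -/
def NoPos (E : ℕ) : Prop :=
  ∀ e δ : ℕ, 0 < e → e ≤ E → 0 < δ → ∀ (φ : R →ₐ[k] MvPolynomial (Fin 2) k)
    (η : J →ₗ[k] MvPolynomial (Fin 2) k), ¬ IsPair 𝒜 J e δ φ η

/-- The local statement at one point with expansion `ex`: `F₀`, `H₀` are the central fibre,
trivialised at the point. -/
def SAt {A : Type w} [CommRing A] [Algebra k A] (ex : A →ₐ[k] PowerSeries k)
    (F₀ : ℕ → R → A → Prop) (H₀ : ℕ → J → A → Prop) : Prop :=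
  ∃ β : ℕ, (∀ n, ∀ r ∈ 𝒜 n, ∀ a, F₀ n r a → (PowerSeries.X : PowerSeries k) ^ (β * n) ∣ ex a) ∧
    (∃ n, 0 < n ∧ ∃ r ∈ 𝒜 n, ∃ a, F₀ n r a ∧ PowerSeries.coeff (β * n) (ex a) ≠ 0) ∧
    (NoPos 𝒜 J β → ∀ i, ∀ x : J, (x : R) ∈ 𝒜 i → ∀ a, H₀ i x a →
      (PowerSeries.X : PowerSeries k) ^ (β * i) ∣ ex a)

end pairs

end Vale.Agent.P292.Dv
end

section

/-! # P292, Part III, block T2, R5: a pair is a homomorphism of the Rees algebra. -/

namespace Vale.Agent.P292.Dv

open TensorProduct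
open Vale.Agent.P292.Mo

universe u v w

namespace ReesHom

variable {R : Type v} [CommRing R]

/-- `y` is the value at `f`. -/
def Rel {B : Type w} [CommRing B] (a b : R) (φ : R →+* B) (s : B) (f : Polynomial R) (y : B) :
    Prop :=
  ∃ (N : ℕ) (g : Polynomial R), Polynomial.C b ^ N * f =
    Polynomial.compRingHom (Polynomial.C a * Polynomial.X) g ∧
    φ b ^ N * y = Polynomial.eval₂RingHom φ s g

section

variable {B : Type w} [CommRing B] {a b : R} {φ : R →+* B} {s : B}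

theorem comp_inj [IsDomain R] (ha : a ≠ 0) :
    Function.Injective (Polynomial.compRingHom (Polynomial.C a * Polynomial.X)) := by
  intro g g' h
  ext n
  have h1 := congrArg (fun p => Polynomial.coeff p n) h
  simp only [Polynomial.coe_compRingHom_apply, Polynomial.comp_C_mul_X_coeff] at h1
  exact mul_right_cancel₀ (pow_ne_zero n ha) h1

theorem Rel.unique [IsDomain R] (ha : a ≠ 0) (hb : IsUnit (φ b)) {f : Polynomial R} {y y' : B}
    (h : Rel a b φ s f y) (h' : Rel a b φ s f y') : y = y' := by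
  obtain ⟨N, g, h1, h2⟩ := h
  obtain ⟨N', g', h1', h2'⟩ := h'
  have h3 : Polynomial.C b ^ N' * g = Polynomial.C b ^ N * g' := by
    apply comp_inj ha
    have hC : Polynomial.compRingHom (Polynomial.C a * Polynomial.X) (Polynomial.C b) =
        Polynomial.C b := by
      rw [Polynomial.coe_compRingHom_apply, Polynomial.C_comp]
    rw [map_mul, map_mul, map_pow, map_pow, hC, ← h1, ← h1']
    ring
  have h4 := congrArg (Polynomial.eval₂RingHom φ s) h3
  have hC : Polynomial.eval₂RingHom φ s (Polynomial.C b) = φ b := by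
    rw [Polynomial.coe_eval₂RingHom, Polynomial.eval₂_C]
  rw [map_mul, map_mul, map_pow, map_pow, hC, ← h2, ← h2'] at h4
  have h5 : φ b ^ N' * φ b ^ N * y = φ b ^ N' * φ b ^ N * y' := by
    rw [mul_assoc, h4]
    ring
  exact ((hb.pow N').mul (hb.pow N)).mul_left_cancel h5

theorem Rel.add {f f' : Polynomial R} {y y' : B} (h : Rel a b φ s f y)
    (h' : Rel a b φ s f' y') : Rel a b φ s (f + f') (y + y') := by
  obtain ⟨N, g, h1, h2⟩ := h
  obtain ⟨N', g', h1', h2'⟩ := h'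
  refine ⟨N + N', Polynomial.C b ^ N' * g + Polynomial.C b ^ N * g', ?_, ?_⟩
  · have hC : Polynomial.compRingHom (Polynomial.C a * Polynomial.X) (Polynomial.C b) =
        Polynomial.C b := by
      rw [Polynomial.coe_compRingHom_apply, Polynomial.C_comp]
    rw [map_add, map_mul, map_mul, map_pow, map_pow, hC, ← h1, ← h1', pow_add]
    ring
  · have hC : Polynomial.eval₂RingHom φ s (Polynomial.C b) = φ b := by
      rw [Polynomial.coe_eval₂RingHom, Polynomial.eval₂_C]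
    rw [map_add, map_mul, map_mul, map_pow, map_pow, hC, ← h2, ← h2', pow_add]
    ring

theorem Rel.mul {f f' : Polynomial R} {y y' : B} (h : Rel a b φ s f y)
    (h' : Rel a b φ s f' y') : Rel a b φ s (f * f') (y * y') := by
  obtain ⟨N, g, h1, h2⟩ := h
  obtain ⟨N', g', h1', h2'⟩ := h'
  refine ⟨N + N', g * g', ?_, ?_⟩
  · rw [map_mul, ← h1, ← h1', pow_add]
    ring
  · rw [map_mul, ← h2, ← h2', pow_add]
    ring

theorem Rel.C (r : R) : Rel a b φ s (Polynomial.C r) (φ r) := by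
  refine ⟨0, Polynomial.C r, ?_, ?_⟩
  · rw [Polynomial.coe_compRingHom_apply, Polynomial.C_comp, pow_zero, one_mul]
  · rw [Polynomial.coe_eval₂RingHom, Polynomial.eval₂_C, pow_zero, one_mul]

theorem pow_rel {J : Ideal R} (hab : ∀ x ∈ J, ∃ r, b * x = r * a) (m : ℕ) :
    ∀ x ∈ J ^ m, ∃ r, b ^ m * x = r * a ^ m := by
  induction m with
  | zero => exact fun x _ => ⟨x, by rw [pow_zero, pow_zero, one_mul, mul_one]⟩
  | succ m ih =>
    intro x hx
    rw [pow_succ] at hx
    refine Submodule.mul_induction_on hx (fun y hy z hz => ?_) (fun y z hy hz => ?_)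
    · obtain ⟨r, hr⟩ := ih y hy
      obtain ⟨r', hr'⟩ := hab z hz
      refine ⟨r * r', ?_⟩
      rw [pow_succ, pow_succ, show b ^ m * b * (y * z) = (b ^ m * y) * (b * z) by ring, hr, hr']
      ring
    · obtain ⟨r, hr⟩ := hy
      obtain ⟨r', hr'⟩ := hz
      exact ⟨r + r', by rw [mul_add, hr, hr', add_mul]⟩

theorem Rel.exists {J : Ideal R} (hab : ∀ x ∈ J, ∃ r, b * x = r * a) (hb : IsUnit (φ b))
    {f : Polynomial R} (hf : f ∈ reesAlgebra J) : ∃ y, Rel a b φ s f y := by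
  classical
  rw [f.as_sum_support]
  have key : ∀ S : Finset ℕ, ∃ y, Rel a b φ s (∑ i ∈ S, Polynomial.monomial i (f.coeff i)) y := by
    intro S
    induction S using Finset.induction_on with
    | empty =>
      refine ⟨0, ?_⟩
      rw [Finset.sum_empty]
      have h := Rel.C (a := a) (b := b) (φ := φ) (s := s) 0
      rwa [map_zero, map_zero] at h
    | insert i S hi ih =>
      obtain ⟨y, hy⟩ := ih
      rw [Finset.sum_insert hi]
      obtain ⟨r, hr⟩ := pow_rel hab i (f.coeff i) (hf i)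
      obtain ⟨c, hc⟩ := (hb.pow i).exists_right_inv
      refine ⟨c * (φ r * s ^ i) + y, Rel.add ⟨i, Polynomial.monomial i r, ?_, ?_⟩ hy⟩
      · rw [Polynomial.coe_compRingHom_apply, Polynomial.monomial_comp, mul_pow,
          ← Polynomial.C_pow, ← Polynomial.C_pow, ← Polynomial.C_mul_X_pow_eq_monomial,
          ← mul_assoc, ← mul_assoc, ← Polynomial.C_mul, ← Polynomial.C_mul, hr]
      · rw [Polynomial.coe_eval₂RingHom, Polynomial.eval₂_monomial, ← mul_assoc, hc, one_mul]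
  exact key _

end

end ReesHom

open ReesHom in
/-- R5. A pair is a homomorphism of the Rees algebra. -/
theorem exists_rees_hom {k : Type u} [Field k] {R : Type v} [CommRing R] [Algebra k R]
    [IsDomain R] (J : Ideal R) {a : J} {b : R} (ha : (a : R) ≠ 0)
    (hab : ∀ x ∈ J, ∃ r, b * x = r * a) {B : Type w} [CommRing B] [Algebra k B] (φ : R →ₐ[k] B)
    (η : J →ₗ[k] B) (hη : ∀ (r : R) (x : J), η (r • x) = φ r * η x) (hb : IsUnit (φ b)) :
    ∃ Φ : reesAlgebra J →ₐ[k] B, (∀ r, Φ (algebraMap R (reesAlgebra J) r) = φ r) ∧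
      ∀ x, Φ (rT J x) = η x := by
  classical
  have hb' : IsUnit ((φ : R →+* B) b) := hb
  choose F hF using fun f : reesAlgebra J => Rel.exists (s := η a) hab hb' f.2
  have huniq : ∀ (f : reesAlgebra J) (y : B), Rel (a : R) b (φ : R →+* B) (η a) f y → F f = y :=
    fun f y h => Rel.unique ha hb' (hF f) h
  have hC : ∀ r, F (algebraMap R (reesAlgebra J) r) = φ r := fun r => huniq _ _ (Rel.C r)
  let Φ : reesAlgebra J →ₐ[k] B :=
    { toFun := F
      map_one' := by
        have h := hC 1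
        rwa [map_one, map_one] at h
      map_mul' := fun f g => huniq _ _ ((hF f).mul (hF g))
      map_zero' := by
        have h := hC 0
        rwa [map_zero, map_zero] at h
      map_add' := fun f g => huniq _ _ ((hF f).add (hF g))
      commutes' := fun c => by
        have h := hC (algebraMap k R c)
        rw [AlgHom.commutes] at h
        rw [← h, ← IsScalarTower.algebraMap_apply k R (reesAlgebra J) c] }
  refine ⟨Φ, hC, fun x => huniq _ _ ?_⟩
  obtain ⟨r, hr⟩ := hab x x.2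
  refine ⟨1, Polynomial.monomial 1 r, ?_, ?_⟩
  · change Polynomial.C b ^ 1 * Polynomial.monomial 1 (x : R) = _
    rw [Polynomial.coe_compRingHom_apply, Polynomial.monomial_comp, pow_one, pow_one,
      ← Polynomial.C_mul_X_pow_eq_monomial, pow_one, ← mul_assoc, ← mul_assoc,
      ← Polynomial.C_mul, ← Polynomial.C_mul, hr]
  · rw [Polynomial.coe_eval₂RingHom, Polynomial.eval₂_monomial, pow_one, pow_one]
    have h1 : b • x = r • a := Subtype.ext hr
    change φ b * η x = φ r * η a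
    rw [← hη, ← hη, h1]

end Vale.Agent.P292.Dv
end

section

/-! # R4: where the ideal is generated by one element, the Rees algebra is a torus bundle. -/

namespace Vale.Agent.P292.Dv

open Polynomial

universe u v w

/-- Where the ideal is generated by `a`, the Rees algebra maps to polynomials in `a T`. -/
theorem rs_theta {R : Type v} [CommRing R] [IsDomain R] (J : Ideal R) {a : J} {b : R}
    (ha : (a : R) ≠ 0) (hb0 : b ≠ 0) (hab : ∀ x ∈ J, ∃ r, b * x = r * a) :
    ∃ θ : reesAlgebra J →ₐ[R] Polynomial (Localization.Away b), ∀ (x : J) (r : R),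
      b * x = r * a → C (algebraMap R (Localization.Away b) b) * θ (rT J x) =
        C (algebraMap R (Localization.Away b) r) * X := by
  set F := FractionRing R
  set L := Localization.Away b
  have hinjF : Function.Injective (algebraMap R F) := IsFractionRing.injective R F
  have hbF : IsUnit (algebraMap R F b) :=
    (isUnit_iff_ne_zero.2 fun h => hb0 (hinjF (by rw [h, map_zero])))
  have haF : algebraMap R F a ≠ 0 := fun h => ha (hinjF (by rw [h, map_zero]))
  let g : L →+* F := IsLocalization.Away.lift b hbF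
  have hg : ∀ r, g (algebraMap R L r) = algebraMap R F r := fun r =>
    IsLocalization.Away.lift_eq b hbF r
  have hginj : Function.Injective g := by
    rw [injective_iff_map_eq_zero]
    intro z hz
    obtain ⟨n, r, hr⟩ := IsLocalization.Away.surj b z
    have h1 := congrArg g hr
    rw [map_mul, hz, zero_mul, hg] at h1
    have h2 : r = 0 := hinjF (by rw [map_zero]; exact h1.symm)
    rw [h2, map_zero] at hr
    exact ((IsLocalization.Away.algebraMap_pow_isUnit b n : IsUnit _).mul_left_eq_zero).1 hr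
  let gA : L →ₐ[R] F := { g with commutes' := hg }
  let M : L[X] →ₐ[R] F[X] := Polynomial.mapAlgHom gA
  have hMapp : ∀ p, M p = p.map g := fun p => rfl
  have hM : Function.Injective M := Polynomial.map_injective g hginj
  let σ : R[X] →ₐ[R] F[X] := Polynomial.aeval (C (algebraMap R F a)⁻¹ * X)
  have hσ : ∀ x : R, σ (monomial 1 x) = C (algebraMap R F x * (algebraMap R F a)⁻¹) * X := by
    intro x
    change Polynomial.aeval _ _ = _
    rw [Polynomial.aeval_monomial, pow_one, C_mul, mul_assoc]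
    rfl
  have key : ∀ (x : J) (r : R), b * x = r * a →
      C (algebraMap R F b) * σ (monomial 1 (x : R)) = C (algebraMap R F r) * X := by
    intro x r h
    have h1 : algebraMap R F b * (algebraMap R F x * (algebraMap R F a)⁻¹) =
        algebraMap R F r := by
      rw [← mul_assoc, ← map_mul, h, map_mul, mul_assoc, mul_inv_cancel₀ haF, mul_one]
    rw [hσ, ← mul_assoc, ← C_mul, h1]
  have hrange : ∀ f : reesAlgebra J, (σ.comp (reesAlgebra J).val) f ∈ M.range := by
    intro f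
    have h1 : (f : R[X]) ∈ M.range.comap σ := by
      have h2 : reesAlgebra J ≤ M.range.comap σ := by
        rw [← adjoin_monomial_eq_reesAlgebra, Algebra.adjoin_le_iff]
        rintro _ ⟨x, hx, rfl⟩
        obtain ⟨r, hr⟩ := hab x hx
        change σ (monomial 1 x) ∈ M.range
        refine ⟨C (IsLocalization.Away.invSelf b * algebraMap R L r) * X, ?_⟩
        change M _ = _
        rw [hMapp, Polynomial.map_mul, map_C, map_X, map_mul, hg]
        have h3 : g (IsLocalization.Away.invSelf b) * algebraMap R F b = 1 := by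
          rw [← hg, ← map_mul, mul_comm, IsLocalization.Away.mul_invSelf, map_one]
        rw [C_mul, mul_assoc, ← key ⟨x, hx⟩ r hr, ← mul_assoc, ← C_mul, h3, C_1, one_mul]
      exact h2 f.2
    exact h1
  set e := AlgEquiv.ofInjective M hM with he
  refine ⟨(e.symm : M.range →ₐ[R] L[X]).comp
    ((σ.comp (reesAlgebra J).val).codRestrict M.range hrange), fun x r h => hM ?_⟩
  have h1 : ∀ f, M (((e.symm : M.range →ₐ[R] L[X]).comp
    ((σ.comp (reesAlgebra J).val).codRestrict M.range hrange)) f) =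
      (σ.comp (reesAlgebra J).val) f := by
    intro f
    have h2 : (e (((e.symm : M.range →ₐ[R] L[X]).comp
      ((σ.comp (reesAlgebra J).val).codRestrict M.range hrange)) f) : F[X]) =
        (σ.comp (reesAlgebra J).val) f := by
      simp
    exact h2
  rw [map_mul, h1, map_mul, hMapp, hMapp, hMapp, map_C, map_C, map_X, hg, hg]
  exact key x r h

variable {k : Type u} [Field k] {R : Type v} [CommRing R] [Algebra k R]

/-- Two homomorphisms of the Rees algebra agree if they agree on `R` and on `J T`. -/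
theorem rs_ext {J : Ideal R} {B : Type w} [CommRing B] [Algebra k B]
    {f g : reesAlgebra J →ₐ[k] B}
    (h0 : ∀ r, f (algebraMap R (reesAlgebra J) r) = g (algebraMap R (reesAlgebra J) r))
    (h1 : ∀ x, f (rT J x) = g (rT J x)) : f = g := by
  have key : ∀ (p : R[X]) (hp : p ∈ Algebra.adjoin R
      (Submodule.map (monomial 1 : R →ₗ[R] R[X]) J : Set R[X])) (hp' : p ∈ reesAlgebra J),
      f ⟨p, hp'⟩ = g ⟨p, hp'⟩ := by
    intro p hp
    induction hp using Algebra.adjoin_induction with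
    | mem x hx =>
      intro hp'
      obtain ⟨y, hy, rfl⟩ := hx
      exact h1 ⟨y, hy⟩
    | algebraMap r => intro hp'; exact h0 r
    | add x y hx hy ihx ihy =>
      intro hp'
      rw [adjoin_monomial_eq_reesAlgebra] at hx hy
      have h2 : (⟨x + y, hp'⟩ : reesAlgebra J) = ⟨x, hx⟩ + ⟨y, hy⟩ := rfl
      rw [h2, map_add, map_add, ihx, ihy]
    | mul x y hx hy ihx ihy =>
      intro hp'
      rw [adjoin_monomial_eq_reesAlgebra] at hx hy
      have h2 : (⟨x * y, hp'⟩ : reesAlgebra J) = ⟨x, hx⟩ * ⟨y, hy⟩ := rfl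
      rw [h2, map_mul, map_mul, ihx, ihy]
  ext x
  exact key x.1 (by rw [adjoin_monomial_eq_reesAlgebra]; exact x.2) x.2

/-- R4. Where `J` is generated by `a`, the Rees algebra is a torus bundle. -/
theorem smooth_rees [IsDomain R] (J : Ideal R) {a : J} {b : R} (ha : (a : R) ≠ 0) (hb0 : b ≠ 0)
    (hab : ∀ x ∈ J, ∃ r, b * x = r * a) (hb : Algebra.FormallySmooth k (Localization.Away b)) :
    Algebra.FormallySmooth k
      (Localization.Away (algebraMap R (reesAlgebra J) b * rT J a)) := by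
  obtain ⟨θ, hθ⟩ := rs_theta J ha hb0 hab
  set s : reesAlgebra J := algebraMap R (reesAlgebra J) b * rT J a with hs
  refine .of_comp_surjective fun B _ _ I hI f => ?_
  have hnil : IsNilpotent I := ⟨2, hI⟩
  have hunit : ∀ x : B, IsUnit (Ideal.Quotient.mk I x) → IsUnit x := fun x hx =>
    (IsNilpotent.isUnit_quotient_mk_iff hnil).mp hx
  let ψ : reesAlgebra J →ₐ[k] B ⧸ I :=
    f.comp (IsScalarTower.toAlgHom k (reesAlgebra J) (Localization.Away s))
  have hψ : ∀ x, ψ x = f (algebraMap (reesAlgebra J) (Localization.Away s) x) := fun x => rfl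
  have hψs : IsUnit (ψ s) := (IsLocalization.Away.algebraMap_isUnit s).map f
  have hψb : IsUnit (ψ (algebraMap R (reesAlgebra J) b)) := by
    rw [hs, map_mul] at hψs
    exact isUnit_of_mul_isUnit_left hψs
  let φ : R →ₐ[k] B ⧸ I := ψ.comp (IsScalarTower.toAlgHom k R (reesAlgebra J))
  have hφ : ∀ r, φ r = ψ (algebraMap R (reesAlgebra J) r) := fun r => rfl
  let φb : Localization.Away b →ₐ[k] B ⧸ I :=
    IsLocalization.liftAlgHom (M := Submonoid.powers b) (f := φ) (by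
      rintro ⟨_, n, rfl⟩
      change IsUnit (φ (b ^ n))
      rw [map_pow]
      exact hψb.pow n)
  have hφb : ∀ r, φb (algebraMap R _ r) = φ r := fun r => IsLocalization.lift_eq _ r
  obtain ⟨Φb, hΦb⟩ := Algebra.FormallySmooth.comp_surjective k (Localization.Away b) I hI φb
  have hΦb' : ∀ z, Ideal.Quotient.mk I (Φb z) = φb z := fun z => DFunLike.congr_fun hΦb z
  obtain ⟨y, hy⟩ := Ideal.Quotient.mk_surjective (ψ (rT J a))
  -- the lift
  let ev : (Localization.Away b)[X] →ₐ[k] B :=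
    { Polynomial.eval₂RingHom (Φb : Localization.Away b →+* B) y with
      commutes' := fun c => by
        change Polynomial.eval₂ (Φb : Localization.Away b →+* B) y (algebraMap k _ c) = _
        rw [Polynomial.algebraMap_apply, Polynomial.eval₂_C]
        exact Φb.commutes c }
  have hev : ∀ p, ev p = Polynomial.eval₂ (Φb : Localization.Away b →+* B) y p := fun p => rfl
  let Φ : reesAlgebra J →ₐ[k] B := ev.comp (θ.restrictScalars k)
  have hΦ : ∀ x, Φ x = ev (θ x) := fun x => rfl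
  have hΦψ : (Ideal.Quotient.mkₐ k I).comp Φ = ψ := by
    refine rs_ext (fun r => ?_) (fun x => ?_)
    · change Ideal.Quotient.mk I (ev (θ (algebraMap R (reesAlgebra J) r))) = _
      rw [AlgHom.commutes, hev, Polynomial.algebraMap_apply, Polynomial.eval₂_C]
      change Ideal.Quotient.mk I (Φb _) = _
      rw [hΦb', hφb]
      exact hφ r
    · obtain ⟨r, hr⟩ := hab x x.2
      have h1 := hθ x r hr
      have h2 := congrArg (fun p => Ideal.Quotient.mk I (ev p)) h1
      simp only [map_mul] at h2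
      have h3 : ∀ z : R, Ideal.Quotient.mk I (ev (C (algebraMap R (Localization.Away b) z))) =
          ψ (algebraMap R (reesAlgebra J) z) := by
        intro z
        rw [hev, Polynomial.eval₂_C]
        change Ideal.Quotient.mk I (Φb _) = _
        rw [hΦb', hφb]
        exact hφ z
      have h4 : Ideal.Quotient.mk I (ev X) = ψ (rT J a) := by
        rw [hev, Polynomial.eval₂_X, hy]
      rw [h3, h3, h4, ← map_mul] at h2
      have h5 : algebraMap R (reesAlgebra J) r * rT J a =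
          algebraMap R (reesAlgebra J) b * rT J x := by
        apply Subtype.ext
        change Polynomial.C r * monomial 1 (a : R) = Polynomial.C b * monomial 1 (x : R)
        rw [C_mul_monomial, C_mul_monomial, hr]
      rw [h5, map_mul] at h2
      exact hψb.mul_left_cancel h2
  have hΦs : IsUnit (Φ s) := by
    apply hunit
    have h1 : Ideal.Quotient.mk I (Φ s) = ψ s := DFunLike.congr_fun hΦψ s
    rw [h1]
    exact hψs
  let Φs : Localization.Away s →ₐ[k] B :=
    IsLocalization.liftAlgHom (M := Submonoid.powers s) (f := Φ) (by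
      rintro ⟨_, n, rfl⟩
      change IsUnit (Φ (s ^ n))
      rw [map_pow]
      exact hΦs.pow n)
  have hΦs' : ∀ x, Φs (algebraMap (reesAlgebra J) _ x) = Φ x := fun x => IsLocalization.lift_eq _ x
  refine ⟨Φs, IsLocalization.algHom_ext (Submonoid.powers s) ?_⟩
  ext x
  have h1 : Ideal.Quotient.mk I (Φ x) = ψ x := DFunLike.congr_fun hΦψ x
  change Ideal.Quotient.mk I (Φs (algebraMap (reesAlgebra J) _ x)) =
    f (algebraMap (reesAlgebra J) _ x)
  rw [hΦs', h1]
  rfl

end Vale.Agent.P292.Dv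
end

section

/-! # Part III, block S: the local lemma, part 1 (semilinear maps, blowing up). -/

namespace Vale.Agent.P292.Dv

open Polynomial Vale.Agent.P292.Mo

universe u v w

section eta

variable {k : Type u} [CommRing k] {R : Type v} [CommRing R] [Algebra k R]

/-- A graded semilinear map along `φ` on the homogeneous elements of the ideal `p`. -/
structure IsEta (𝒜 : ℕ → Submodule k R) (p : Ideal R) {S : Type w} [CommRing S] [Algebra k S]
    (φ : R →ₐ[k] S) (η : ℕ → R → S) : Prop where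
  add : ∀ j x y, x ∈ 𝒜 j → x ∈ p → y ∈ 𝒜 j → y ∈ p → η j (x + y) = η j x + η j y
  mul : ∀ i j r x, r ∈ 𝒜 i → x ∈ 𝒜 j → x ∈ p → η (i + j) (r * x) = φ r * η j x

/-- The ideal `p` is generated in degrees at most `M`, as an induction principle. -/
def GenIn (𝒜 : ℕ → Submodule k R) (p : Ideal R) (M : ℕ) : Prop :=
  ∀ P : ℕ → R → Prop, (∀ j ≤ M, ∀ x ∈ 𝒜 j, x ∈ p → P j x) →
    (∀ j x y, x ∈ 𝒜 j → x ∈ p → y ∈ 𝒜 j → y ∈ p → P j x → P j y → P j (x + y)) →
    (∀ i j r x, r ∈ 𝒜 i → x ∈ 𝒜 j → x ∈ p → P j x → P (i + j) (r * x)) →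
    ∀ j x, x ∈ 𝒜 j → x ∈ p → P j x

variable {𝒜 : ℕ → Submodule k R} {p : Ideal R}

theorem IsEta.map {S : Type*} [CommRing S] [Algebra k S] {S' : Type*} [CommRing S']
    [Algebra k S'] {φ : R →ₐ[k] S} {η : ℕ → R → S} (h : IsEta 𝒜 p φ η) (g : S →ₐ[k] S') :
    IsEta 𝒜 p (g.comp φ) (fun j x => g (η j x)) :=
  ⟨fun j x y h1 h2 h3 h4 => by rw [h.add j x y h1 h2 h3 h4, map_add],
   fun i j r x h1 h2 h3 => by rw [h.mul i j r x h1 h2 h3, map_mul, AlgHom.comp_apply]⟩

theorem eta_div [GradedAlgebra 𝒜] {B : Type*} [CommRing B] [IsDomain B] [Algebra k B]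
    {Φ F : R →ₐ[k] B} {H : ℕ → R → B} {t s u : B} (ht : t ≠ 0) (hu : u ≠ 0)
    (hF : ∀ j, ∀ r ∈ 𝒜 j, Φ r = t ^ j * F r) (hH : IsEta 𝒜 p Φ H)
    (hdvd : ∀ j x, x ∈ 𝒜 j → x ∈ p → t ^ j * u ∣ s * H j x) :
    ∃ H' : ℕ → R → B, IsEta 𝒜 p F H' ∧
      ∀ j x, x ∈ 𝒜 j → x ∈ p → s * H j x = t ^ j * u * H' j x := by
  classical
  have h1 : ∀ j x, ∃ c, x ∈ 𝒜 j → x ∈ p → s * H j x = t ^ j * u * c := by
    intro j x
    by_cases h : x ∈ 𝒜 j ∧ x ∈ p
    · obtain ⟨c, hc⟩ := hdvd j x h.1 h.2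
      exact ⟨c, fun _ _ => hc⟩
    · exact ⟨0, fun h1 h2 => absurd ⟨h1, h2⟩ h⟩
  choose H' hH' using h1
  have hne : ∀ j, t ^ j * u ≠ 0 := fun j => mul_ne_zero (pow_ne_zero _ ht) hu
  refine ⟨H', ⟨fun j x y hx hx' hy hy' => ?_, fun i j r x hr hx hx' => ?_⟩, hH'⟩
  · apply mul_left_cancel₀ (hne j)
    rw [← hH' j _ ((𝒜 j).add_mem hx hy) (p.add_mem hx' hy'), hH.add j x y hx hx' hy hy',
      mul_add, mul_add, hH' j x hx hx', hH' j y hy hy']
  · apply mul_left_cancel₀ (hne (i + j))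
    rw [← hH' (i + j) _ (SetLike.mul_mem_graded hr hx) (p.mul_mem_left _ hx'),
      hH.mul i j r x hr hx hx', hF i r hr]
    calc s * (t ^ i * F r * H j x) = t ^ i * F r * (s * H j x) := by ring
      _ = _ := by rw [hH' j x hx hx']; ring

theorem ord_dvd {S : Type*} [CommRing S] [Algebra k S] {Φ : R →ₐ[k] PowerSeries S}
    {H : ℕ → R → PowerSeries S} {β M : ℕ} (hM : GenIn 𝒜 p M)
    (hΦ : ∀ j, ∀ r ∈ 𝒜 j, PowerSeries.X ^ (β * j) ∣ Φ r) (hH : IsEta 𝒜 p Φ H) :
    ∀ j x, x ∈ 𝒜 j → x ∈ p → PowerSeries.X ^ (β * j) ∣ PowerSeries.X ^ (β * M) * H j x := by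
  refine hM _ ?_ ?_ ?_
  · intro j hj x _ _
    exact Dvd.dvd.mul_right (pow_dvd_pow _ (Nat.mul_le_mul_left _ hj)) _
  · intro j x y hx hx' hy hy' h1 h2
    rw [hH.add j x y hx hx' hy hy', mul_add]
    exact dvd_add h1 h2
  · intro i j r x hr hx hx' h1
    rw [hH.mul i j r x hr hx hx', mul_add, pow_add, mul_left_comm]
    exact mul_dvd_mul (hΦ i r hr) h1

theorem exists_ord {S : Type*} [CommRing S] [Algebra k S] {Φ : R →ₐ[k] PowerSeries S}
    {H : ℕ → R → PowerSeries S} {β M : ℕ} (hM : GenIn 𝒜 p M)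
    (hΦ : ∀ j, ∀ r ∈ 𝒜 j, PowerSeries.X ^ (β * j) ∣ Φ r) (hH : IsEta 𝒜 p Φ H)
    (hne : ∃ j x, x ∈ 𝒜 j ∧ x ∈ p ∧ H j x ≠ 0) :
    ∃ b, (∀ j x, x ∈ 𝒜 j → x ∈ p →
        PowerSeries.X ^ (β * j + b) ∣ PowerSeries.X ^ (β * M) * H j x) ∧
      ∃ j x, x ∈ 𝒜 j ∧ x ∈ p ∧
        PowerSeries.coeff (β * j + b) (PowerSeries.X ^ (β * M) * H j x) ≠ 0 := by
  by_contra hcon
  push Not at hcon
  have h1 : ∀ b, ∀ j x, x ∈ 𝒜 j → x ∈ p →
      PowerSeries.X ^ (β * j + b) ∣ PowerSeries.X ^ (β * M) * H j x := by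
    intro b
    induction b with
    | zero => exact ord_dvd hM hΦ hH
    | succ b ih =>
      intro j x hx hx'
      rw [PowerSeries.X_pow_dvd_iff]
      intro m hm
      rcases Nat.lt_or_ge m (β * j + b) with h | h
      · exact (PowerSeries.X_pow_dvd_iff.mp (ih j x hx hx')) m h
      · have h2 : m = β * j + b := by omega
        rw [h2]
        exact hcon b ih j x hx hx'
  obtain ⟨j, x, hx, hx', hne⟩ := hne
  apply hne
  ext m
  have h2 := (PowerSeries.X_pow_dvd_iff.mp (h1 (m + β * M + 1) j x hx hx')) (m + β * M)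
    (by omega)
  rw [PowerSeries.coeff_X_pow_mul'] at h2
  rw [if_pos (by omega), Nat.add_sub_cancel] at h2
  rw [h2, map_zero]

end eta

section ps

theorem xp_dvd {S : Type*} [CommRing S] {m a : ℕ} {g : PowerSeries S} :
    PowerSeries.X ^ m ∣ PowerSeries.X ^ a * g ↔ PowerSeries.X ^ (m - a) ∣ g := by
  rw [PowerSeries.X_pow_dvd_iff, PowerSeries.X_pow_dvd_iff]
  constructor
  · intro h i hi
    have := h (i + a) (by omega)
    rwa [PowerSeries.coeff_X_pow_mul', if_pos (by omega), Nat.add_sub_cancel] at this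
  · intro h i hi
    rw [PowerSeries.coeff_X_pow_mul']
    split_ifs with h1
    · exact h _ (by omega)
    · rfl

variable {k : Type u} [Field k]

/-- Exchange of the two variables. -/
noncomputable def sw : PowerSeries (PowerSeries k) →ₐ[k] PowerSeries (PowerSeries k) where
  toFun f := PowerSeries.mk fun n => col n f
  map_one' := by
    ext l m
    rw [PowerSeries.coeff_mk, ← map_one (PowerSeries.C (R := PowerSeries k)), col_C,
      PowerSeries.coeff_C, PowerSeries.coeff_C, PowerSeries.coeff_one]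
    split_ifs <;> simp_all
  map_mul' f g := by
    ext l m
    rw [PowerSeries.coeff_mk, col_mul, PowerSeries.coeff_mul]
    simp only [PowerSeries.coeff_mk]
  map_zero' := by
    ext l m
    simp
  map_add' f g := by
    ext l m
    simp
  commutes' c := by
    ext l m
    rw [PowerSeries.coeff_mk, PowerSeries.algebraMap_apply, PowerSeries.algebraMap_apply, col_C,
      PowerSeries.coeff_C, PowerSeries.coeff_C, PowerSeries.coeff_C]
    split_ifs <;> simp_all [PowerSeries.coeff_C]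

@[simp] theorem coeff_sw (n l : ℕ) (f : PowerSeries (PowerSeries k)) :
    PowerSeries.coeff n (PowerSeries.coeff l (sw f)) =
      PowerSeries.coeff l (PowerSeries.coeff n f) := by
  change PowerSeries.coeff n (PowerSeries.coeff l (PowerSeries.mk fun n => col n f)) = _
  rw [PowerSeries.coeff_mk, coeff_col]

theorem sw_C_X : sw (PowerSeries.C (PowerSeries.X : PowerSeries k)) = PowerSeries.X := by
  ext l m
  rw [coeff_sw, PowerSeries.coeff_C, PowerSeries.coeff_X]
  split_ifs with h1 h2 h2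
  · rw [h1, h2, PowerSeries.coeff_X]; simp
  · rw [PowerSeries.coeff_X, if_neg h2, map_zero]
  · rw [map_zero, PowerSeries.coeff_one, if_neg h1]
  · rw [map_zero, map_zero]

/-- The blowing up. -/
noncomputable def th : PowerSeries (PowerSeries k) →ₐ[k] PowerSeries k[X] :=
  theta 1 1 one_ne_zero one_pos

theorem coeff_th (f : PowerSeries (PowerSeries k)) (m n : ℕ) :
    (PowerSeries.coeff m (th f)).coeff n =
      if n ≤ m then PowerSeries.coeff n (PowerSeries.coeff (m - n) f) else 0 := by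
  rw [th, coeff_theta]
  split_ifs with h
  · have h1 := coeff_scol 1 1 one_ne_zero n (m - n) f
    rw [one_mul, one_mul, Nat.sub_add_cancel h] at h1
    exact h1
  · exact coeff_scol_of_lt _ _ _ _ _ _ (by omega)

theorem th_X : th (PowerSeries.X : PowerSeries (PowerSeries k)) = PowerSeries.X := by
  rw [th, theta_X, pow_one]

theorem th_injective : Function.Injective (th (k := k)) := by
  intro f g h
  ext l m
  have h1 := coeff_th f (l + m) m
  have h2 := coeff_th g (l + m) m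
  rw [if_pos (by omega), Nat.add_sub_cancel] at h1 h2
  rw [← h1, ← h2, h]

theorem natDegree_coeff_th (f : PowerSeries (PowerSeries k)) (m : ℕ) :
    (PowerSeries.coeff m (th f)).natDegree ≤ m := by
  rw [natDegree_le_iff_coeff_eq_zero]
  intro n hn
  rw [coeff_th, if_neg (by omega)]

theorem coeff_th_sw (f : PowerSeries (PowerSeries k)) (m n : ℕ) :
    (PowerSeries.coeff m (th (sw f))).coeff n =
      if n ≤ m then (PowerSeries.coeff m (th f)).coeff (m - n) else 0 := by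
  rw [coeff_th]
  by_cases h : n ≤ m
  · rw [if_pos h, if_pos h, coeff_th, if_pos (by omega), coeff_sw, Nat.sub_sub_self h]
  · rw [if_neg h, if_neg h]

theorem dvd_th_sw {f : PowerSeries (PowerSeries k)} {m : ℕ} (h : PowerSeries.X ^ m ∣ th f) :
    PowerSeries.X ^ m ∣ th (sw f) := by
  rw [PowerSeries.X_pow_dvd_iff] at h ⊢
  intro i hi
  ext n
  rw [coeff_th_sw, h i hi]
  simp

/-- Restriction to the strict transform of `τ = 0`. -/
noncomputable def lam : PowerSeries k[X] →ₐ[k] PowerSeries k :=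
  ((ccA k (PowerSeries k)).comp sw).comp (recen 0)

theorem coeff_lam (f : PowerSeries k[X]) (n : ℕ) :
    PowerSeries.coeff n (lam f) = (PowerSeries.coeff n f).coeff 0 := by
  rw [lam, AlgHom.comp_apply, AlgHom.comp_apply, ccA_apply,
    ← PowerSeries.coeff_zero_eq_constantCoeff_apply, coeff_sw, recen_apply,
    PowerSeries.coeff_map]
  change PowerSeries.coeff 0 (expandAt 0 _) = _
  rw [coeff_expandAt, taylor_zero]

theorem lam_X : lam (PowerSeries.X : PowerSeries k[X]) = PowerSeries.X := by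
  ext n
  rw [coeff_lam, PowerSeries.coeff_X, PowerSeries.coeff_X]
  split_ifs <;> simp

theorem lam_th_sw (f : PowerSeries (PowerSeries k)) :
    lam (th (sw f)) = PowerSeries.constantCoeff f := by
  ext n
  rw [coeff_lam, coeff_th, if_pos (Nat.zero_le _), coeff_sw, Nat.sub_zero,
    PowerSeries.coeff_zero_eq_constantCoeff_apply]

end ps

section idl

variable {k : Type u} [Field k] {R : Type v} [CommRing R] [Algebra k R] {𝒜 : ℕ → Submodule k R}

theorem imI_div {Φ F : R →ₐ[k] PowerSeries k[X]} {μ L : ℕ}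
    (hF : ∀ j, ∀ r ∈ 𝒜 j, Φ r = PowerSeries.X ^ (μ * j) * F r)
    (h : PowerSeries.X ^ L ∈ imI 𝒜 Φ) :
    μ ≤ L ∧ PowerSeries.X ^ (L - μ) ∈ imI 𝒜 F := by
  have h2 : imI 𝒜 Φ ≤ Ideal.span {PowerSeries.X ^ μ} * imI 𝒜 F := by
    rw [Mo.imI, Ideal.span_le]
    rintro _ ⟨j, hj, r, hr, rfl⟩
    rw [SetLike.mem_coe, Ideal.mem_span_singleton_mul]
    refine ⟨PowerSeries.X ^ (μ * (j - 1)) * F r,
      Ideal.mul_mem_left _ _ (Ideal.subset_span ⟨j, hj, r, hr, rfl⟩), ?_⟩
    rw [hF j r hr, ← mul_assoc, ← pow_add]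
    congr 2
    obtain ⟨i, rfl⟩ : ∃ i, j = i + 1 := ⟨j - 1, by omega⟩
    rw [Nat.add_sub_cancel]
    ring
  have h3 := h2 h
  rw [Ideal.mem_span_singleton_mul] at h3
  obtain ⟨y, hy, hy'⟩ := h3
  by_cases hle : μ ≤ L
  · refine ⟨hle, ?_⟩
    have h4 : (PowerSeries.X : PowerSeries k[X]) ^ L =
        PowerSeries.X ^ μ * PowerSeries.X ^ (L - μ) := by
      rw [← pow_add]; congr 1; omega
    rw [h4] at hy'
    rw [← mul_left_cancel₀ (pow_ne_zero _ PowerSeries.X_ne_zero) hy']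
    exact hy
  · exfalso
    have h4 : (PowerSeries.X : PowerSeries k[X]) ^ μ =
        PowerSeries.X ^ L * PowerSeries.X ^ (μ - L) := by
      rw [← pow_add]; congr 1; omega
    rw [h4, mul_assoc] at hy'
    have h5 : PowerSeries.X ^ (μ - L) * y = 1 := by
      apply mul_left_cancel₀ (pow_ne_zero L (PowerSeries.X_ne_zero (R := k[X])))
      rw [hy', mul_one]
    have h6 := congrArg PowerSeries.constantCoeff h5
    rw [map_mul, map_pow, PowerSeries.constantCoeff_X, map_one, zero_pow (by omega),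
      zero_mul] at h6
    exact zero_ne_one h6

theorem imI_inner {φ : R →ₐ[k] PowerSeries (PowerSeries k)} {L j : ℕ} {r : R}
    (hj : 0 < j) (hr : r ∈ 𝒜 j) (h : PowerSeries.X ^ L ∈ imI 𝒜 φ)
    (hne : PowerSeries.constantCoeff (φ r) ≠ 0) :
    ∃ A, (PowerSeries.C (PowerSeries.X : PowerSeries k)) ^ A ∈ imI 𝒜 φ := by
  set f := φ r with hf
  have hfI : f ∈ imI 𝒜 φ := Ideal.subset_span ⟨j, hj, r, hr, rfl⟩
  set f₀ := PowerSeries.constantCoeff f with hf₀
  set m := f₀.order.toNat with hm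
  obtain ⟨g, hg⟩ : PowerSeries.X ^ m ∣ f₀ := PowerSeries.X_pow_order_dvd
  have hg0 : PowerSeries.constantCoeff g ≠ 0 := by
    have h1 : PowerSeries.coeff m f₀ ≠ 0 := PowerSeries.coeff_order hne
    rw [hg, PowerSeries.coeff_X_pow_mul', if_pos le_rfl, Nat.sub_self,
      PowerSeries.coeff_zero_eq_constantCoeff] at h1
    exact h1
  have hgu : IsUnit g := by
    rw [PowerSeries.isUnit_iff_constantCoeff]
    exact isUnit_iff_ne_zero.mpr hg0
  obtain ⟨f₁, hf₁⟩ : PowerSeries.X ∣ f - PowerSeries.C f₀ := by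
    rw [PowerSeries.X_dvd_iff, map_sub, PowerSeries.constantCoeff_C, hf₀, sub_self]
  have h1 : PowerSeries.C (PowerSeries.X : PowerSeries k) ^ m * PowerSeries.C g =
      f - PowerSeries.X * f₁ := by
    rw [← hf₁, sub_sub_cancel, hg, map_mul, map_pow]
  refine ⟨m * L, ?_⟩
  have h2 : (PowerSeries.C (PowerSeries.X : PowerSeries k) ^ m * PowerSeries.C g) ^ L ∈
      imI 𝒜 φ := by
    rw [h1, ← Ideal.Quotient.eq_zero_iff_mem, map_pow, map_sub,
      Ideal.Quotient.eq_zero_iff_mem.mpr hfI, zero_sub, neg_pow, ← map_pow, mul_pow, map_mul,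
      Ideal.Quotient.eq_zero_iff_mem.mpr h, zero_mul, mul_zero]
  rw [mul_pow, ← pow_mul] at h2
  have h3 : IsUnit ((PowerSeries.C g : PowerSeries (PowerSeries k)) ^ L) :=
    (hgu.map (PowerSeries.C (R := PowerSeries k))).pow L
  exact (Ideal.mul_unit_mem_iff_mem _ h3).mp h2

end idl

end Vale.Agent.P292.Dv
end

section

/-! # Part III, block S: the local lemma, part 2 (the data of a blowing up). -/

namespace Vale.Agent.P292.Dv

open Polynomial Vale.Agent.P292.Mo

universe u v w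

section blow

variable {k : Type u} [Field k] {R : Type v} [CommRing R] [Algebra k R] {𝒜 : ℕ → Submodule k R}
  [GradedAlgebra 𝒜] {n : ℕ} {x : Fin n → R} {d : Fin n → ℕ} {p : Ideal R}

/-- The order along the exceptional curve. -/
theorem exists_mult [Infinite k] (hLB : IsLB 𝒜) (hx : ∀ i, x i ∈ 𝒜 (d i))
    (hgen : Algebra.adjoin k (Set.range x) = ⊤) (Φ : R →ₐ[k] PowerSeries k[X])
    (hΦ : ∃ j > 0, ∃ r ∈ 𝒜 j, Φ r ≠ 0) :
    ∃ (μ : ℕ) (F : R →ₐ[k] PowerSeries k[X]),
      (∀ j, ∀ r ∈ 𝒜 j, Φ r = PowerSeries.X ^ (μ * j) * F r) ∧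
      ∃ j > 0, ∃ r ∈ 𝒜 j, PowerSeries.constantCoeff (F r) ≠ 0 := by
  classical
  obtain ⟨i₁, hi₁, hi₁'⟩ := exists_gen_ne_zero hx hgen Φ hΦ
  set o : Fin n → ℕ := fun i => (Φ (x i)).order.toNat with ho
  set P : k[X] := ∏ i, if Φ (x i) = 0 then 1 else PowerSeries.coeff (o i) (Φ (x i)) with hP
  have hP0 : P ≠ 0 := by
    rw [hP, Finset.prod_ne_zero_iff]
    intro i _
    split_ifs with h
    · exact one_ne_zero
    · exact PowerSeries.coeff_order h
  obtain ⟨c, hc⟩ : ∃ c, P.eval c ≠ 0 := by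
    by_contra hcon
    push Not at hcon
    exact hP0 (Polynomial.funext fun c => by rw [hcon c, eval_zero])
  have hco : ∀ i, Φ (x i) ≠ 0 → (PowerSeries.coeff (o i) (Φ (x i))).eval c ≠ 0 := by
    intro i hi h0
    apply hc
    rw [hP, eval_prod, Finset.prod_eq_zero (Finset.mem_univ i)]
    rw [if_neg hi, h0]
  let E : PowerSeries k[X] →ₐ[k] PowerSeries k := PowerSeries.mapAlgHom (aeval c)
  have hE : ∀ f m, PowerSeries.coeff m (E f) = (PowerSeries.coeff m f).eval c := by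
    intro f m
    change PowerSeries.coeff m (PowerSeries.map _ f) = _
    rw [PowerSeries.coeff_map]
    rfl
  have hEX : E PowerSeries.X = PowerSeries.X := PowerSeries.map_X _
  obtain ⟨ν, G, hG, j₀, hj₀, r₀, hr₀, hne₀⟩ := lead hLB hx hgen (E.comp Φ)
    ⟨d i₁, hi₁, x i₁, hx i₁, by
      intro h0
      apply hco i₁ hi₁'
      rw [← hE, ← AlgHom.comp_apply, h0, map_zero]⟩
  have hdvd : ∀ i, (PowerSeries.X ^ ν) ^ d i ∣ Φ (x i) := by
    intro i
    by_cases h : Φ (x i) = 0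
    · rw [h]; exact dvd_zero _
    · have h1 : ν * d i ≤ o i := by
        by_contra h2
        push Not at h2
        apply hco i h
        rw [← hE, ← AlgHom.comp_apply, hG _ _ (hx i), PowerSeries.coeff_X_pow_mul',
          if_neg (by omega)]
      rw [← pow_mul]
      exact (pow_dvd_pow _ h1).trans PowerSeries.X_pow_order_dvd
  obtain ⟨F, hF⟩ := exists_untwist 𝒜 Φ (PowerSeries.X ^ ν)
    (pow_ne_zero _ PowerSeries.X_ne_zero) hx hgen hdvd
  refine ⟨ν, F, fun j r hr => by rw [hF j r hr, ← pow_mul], j₀, hj₀, r₀, hr₀,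
    fun h0 => hne₀ ?_⟩
  have h1 : G r₀ = E (F r₀) := by
    apply mul_left_cancel₀ (pow_ne_zero (ν * j₀) PowerSeries.X_ne_zero)
    rw [← hG j₀ r₀ hr₀, AlgHom.comp_apply, hF j₀ r₀ hr₀, map_mul, map_pow, map_pow, hEX,
      ← pow_mul]
  rw [h1, ← PowerSeries.coeff_zero_eq_constantCoeff_apply, hE,
    PowerSeries.coeff_zero_eq_constantCoeff_apply, h0, eval_zero]

/-- The germ of the curve `τ = 0`, with the orders of the two maps. -/
structure Germ (𝒜 : ℕ → Submodule k R) (p : Ideal R) (φ : R →ₐ[k] PowerSeries (PowerSeries k))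
    (η : ℕ → R → PowerSeries (PowerSeries k)) (β a b : ℕ) : Prop where
  eta : IsEta 𝒜 p φ η
  dvd : ∀ j, ∀ r ∈ 𝒜 j, PowerSeries.X ^ (β * j) ∣ PowerSeries.constantCoeff (φ r)
  ne : ∃ j > 0, ∃ r ∈ 𝒜 j, PowerSeries.coeff (β * j) (PowerSeries.constantCoeff (φ r)) ≠ 0
  dvdη : ∀ j x, x ∈ 𝒜 j → x ∈ p →
    PowerSeries.X ^ (β * j + b) ∣ PowerSeries.X ^ a * PowerSeries.constantCoeff (η j x)
  neη : ∃ j x, x ∈ 𝒜 j ∧ x ∈ p ∧
    PowerSeries.coeff (β * j + b) (PowerSeries.X ^ a * PowerSeries.constantCoeff (η j x)) ≠ 0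

/-- The germ of the exceptional curve at a point. -/
theorem exists_point (hLB : IsLB 𝒜) (hx : ∀ i, x i ∈ 𝒜 (d i))
    (hgen : Algebra.adjoin k (Set.range x) = ⊤) {M : ℕ} (hM : GenIn 𝒜 p M)
    {F : R →ₐ[k] PowerSeries k[X]} {η : ℕ → R → PowerSeries k[X]} (hη : IsEta 𝒜 p F η)
    (hF : ∃ j > 0, ∃ r ∈ 𝒜 j, PowerSeries.constantCoeff (F r) ≠ 0)
    (hη0 : ∃ j x, x ∈ 𝒜 j ∧ x ∈ p ∧ PowerSeries.constantCoeff (η j x) ≠ 0) (c : k) :
    ∃ ν a b, Germ 𝒜 p ((recen c).comp F) (fun j x => recen c (η j x)) ν a b := by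
  obtain ⟨ν, G, hG, j₀, hj₀, r₀, hr₀, hne₀⟩ := lead hLB hx hgen
    ((expandAt c).comp ((ccA k k[X]).comp F)) (by
      obtain ⟨j, hj, r, hr, h⟩ := hF
      refine ⟨j, hj, r, hr, fun h0 => h ?_⟩
      exact expandAt_injective c (h0.trans (map_zero _).symm))
  have hdvd : ∀ j, ∀ r ∈ 𝒜 j, PowerSeries.X ^ (ν * j) ∣
      ((expandAt c).comp ((ccA k k[X]).comp F)) r := fun j r hr => ⟨G r, hG j r hr⟩
  obtain ⟨b, hb, hb'⟩ := exists_ord (β := ν) hM hdvd ((hη.map (ccA k k[X])).map (expandAt c)) (by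
    obtain ⟨j, y, hy, hy', h⟩ := hη0
    refine ⟨j, y, hy, hy', fun h0 => h ?_⟩
    exact expandAt_injective c (h0.trans (map_zero _).symm))
  refine ⟨ν, ν * M, b, hη.map (recen c), fun j r hr => ?_, ⟨j₀, hj₀, r₀, hr₀, ?_⟩,
    fun j y hy hy' => ?_, ?_⟩
  · rw [AlgHom.comp_apply, constantCoeff_recen]; exact hdvd j r hr
  · rw [AlgHom.comp_apply, constantCoeff_recen]
    have h1 : expandAt c (PowerSeries.constantCoeff (F r₀)) = _ := hG j₀ r₀ hr₀
    rw [h1, PowerSeries.coeff_X_pow_mul', if_pos le_rfl, Nat.sub_self,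
      PowerSeries.coeff_zero_eq_constantCoeff]
    exact hne₀
  · rw [constantCoeff_recen]; exact hb j y hy hy'
  · obtain ⟨j, y, hy, hy', h⟩ := hb'
    refine ⟨j, y, hy, hy', ?_⟩
    rw [constantCoeff_recen]; exact h

theorem cc_of_eq {f : PowerSeries k[X]} {g : PowerSeries k[X]} {s N : ℕ}
    (h : PowerSeries.X ^ s * f = PowerSeries.X ^ N * g) :
    PowerSeries.constantCoeff g = if s ≤ N then PowerSeries.coeff (N - s) f else 0 := by
  have h1 := congrArg (PowerSeries.coeff N) h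
  rw [PowerSeries.coeff_X_pow_mul', PowerSeries.coeff_X_pow_mul', if_pos le_rfl, Nat.sub_self,
    PowerSeries.coeff_zero_eq_constantCoeff] at h1
  exact h1.symm

theorem natDegree_cc {f : PowerSeries (PowerSeries k)} {g : PowerSeries k[X]} {s N : ℕ}
    (h : PowerSeries.X ^ s * th f = PowerSeries.X ^ N * g)
    (hne : PowerSeries.constantCoeff g ≠ 0) :
    (PowerSeries.constantCoeff g).natDegree + s ≤ N := by
  have h1 := cc_of_eq h
  split_ifs at h1 with h2
  · have h3 := natDegree_coeff_th f (N - s)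
    rw [← h1] at h3
    omega
  · exact absurd h1 hne

theorem coeff_cc {f : PowerSeries (PowerSeries k)} {g g' : PowerSeries k[X]} {s N : ℕ}
    (h : PowerSeries.X ^ s * th f = PowerSeries.X ^ N * g)
    (h' : PowerSeries.X ^ s * th (sw f) = PowerSeries.X ^ N * g') (m : ℕ) :
    (PowerSeries.constantCoeff g').coeff m =
      if m + s ≤ N then (PowerSeries.constantCoeff g).coeff (N - s - m) else 0 := by
  rw [cc_of_eq h', cc_of_eq h]
  by_cases h1 : s ≤ N
  · rw [if_pos h1, if_pos h1, coeff_th_sw]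
    by_cases h2 : m ≤ N - s
    · rw [if_pos h2, if_pos (by omega)]
    · rw [if_neg h2, if_neg (by omega)]
  · rw [if_neg h1, if_neg (by omega), coeff_zero]

/-- The data of a blowing up. -/
structure Blow (𝒜 : ℕ → Submodule k R) (p : Ideal R) (φ : R →ₐ[k] PowerSeries (PowerSeries k))
    (η : ℕ → R → PowerSeries (PowerSeries k)) (μ s t : ℕ) (F F' : R →ₐ[k] PowerSeries k[X])
    (ζ ζ' : ℕ → R → PowerSeries k[X]) : Prop where
  eta : IsEta 𝒜 p F ζ
  eta' : IsEta 𝒜 p F' ζ'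
  eq : ∀ j, ∀ r ∈ 𝒜 j, th (φ r) = PowerSeries.X ^ (μ * j) * F r
  eq' : ∀ j, ∀ r ∈ 𝒜 j, th (sw (φ r)) = PowerSeries.X ^ (μ * j) * F' r
  ne : ∃ j > 0, ∃ r ∈ 𝒜 j, PowerSeries.constantCoeff (F r) ≠ 0
  eqη : ∀ j x, x ∈ 𝒜 j → x ∈ p →
    PowerSeries.X ^ s * th (η j x) = PowerSeries.X ^ (μ * j + t) * ζ j x
  eqη' : ∀ j x, x ∈ 𝒜 j → x ∈ p →
    PowerSeries.X ^ s * th (sw (η j x)) = PowerSeries.X ^ (μ * j + t) * ζ' j x
  neη : ∃ j x, x ∈ 𝒜 j ∧ x ∈ p ∧ PowerSeries.constantCoeff (ζ j x) ≠ 0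

theorem exists_blow [Infinite k] (hLB : IsLB 𝒜) (hx : ∀ i, x i ∈ 𝒜 (d i))
    (hgen : Algebra.adjoin k (Set.range x) = ⊤) {M : ℕ} (hM : GenIn 𝒜 p M)
    {φ : R →ₐ[k] PowerSeries (PowerSeries k)} {η : ℕ → R → PowerSeries (PowerSeries k)}
    {β a b : ℕ} (hG : Germ 𝒜 p φ η β a b) :
    ∃ (μ s t : ℕ) (F F' : R →ₐ[k] PowerSeries k[X]) (ζ ζ' : ℕ → R → PowerSeries k[X]),
      Blow 𝒜 p φ η μ s t F F' ζ ζ' := by
  obtain ⟨μ, F, hF, hFne⟩ := exists_mult hLB hx hgen (th.comp φ) (by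
    obtain ⟨j, hj, r, hr, h⟩ := hG.ne
    refine ⟨j, hj, r, hr, fun h0 => h ?_⟩
    have h1 : φ r = 0 := th_injective (h0.trans (map_zero _).symm)
    rw [h1, map_zero, map_zero])
  obtain ⟨F', hF'⟩ := exists_untwist 𝒜 ((th.comp sw).comp φ) (PowerSeries.X ^ μ)
    (pow_ne_zero _ PowerSeries.X_ne_zero) hx hgen (fun i => by
      rw [← pow_mul]
      exact dvd_th_sw ⟨_, hF _ _ (hx i)⟩)
  have hdvd : ∀ j, ∀ r ∈ 𝒜 j, PowerSeries.X ^ (μ * j) ∣ (th.comp φ) r :=
    fun j r hr => ⟨_, hF j r hr⟩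
  obtain ⟨t, ht, ht'⟩ := exists_ord (β := μ) hM hdvd (hG.eta.map th) (by
    obtain ⟨j, y, hy, hy', h⟩ := hG.neη
    refine ⟨j, y, hy, hy', fun h0 => h ?_⟩
    have h1 : η j y = 0 := th_injective (h0.trans (map_zero _).symm)
    rw [h1, map_zero, mul_zero, map_zero])
  obtain ⟨ζ, hζ, hζ'⟩ := eta_div (F := F) (s := PowerSeries.X ^ (μ * M)) (t := PowerSeries.X ^ μ)
    (u := PowerSeries.X ^ t) (pow_ne_zero _ PowerSeries.X_ne_zero)
    (pow_ne_zero _ PowerSeries.X_ne_zero)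
    (fun j r hr => by rw [hF j r hr, ← pow_mul]) (hG.eta.map th) (fun j y hy hy' => by
      rw [← pow_mul, ← pow_add]; exact ht j y hy hy')
  obtain ⟨ζ', hζ₁, hζ₁'⟩ := eta_div (s := PowerSeries.X ^ (μ * M)) (t := PowerSeries.X ^ μ)
    (u := PowerSeries.X ^ t) (pow_ne_zero _ PowerSeries.X_ne_zero)
    (pow_ne_zero _ PowerSeries.X_ne_zero)
    hF' (hG.eta.map (th.comp sw)) (fun j y hy hy' => by
      rw [← pow_mul, ← pow_add, xp_dvd]
      exact dvd_th_sw (xp_dvd.mp (ht j y hy hy')))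
  refine ⟨μ, μ * M, t, F, F', ζ, ζ', hζ, hζ₁, hF, fun j r hr => ?_, hFne, fun j y hy hy' => ?_,
    fun j y hy hy' => ?_, ?_⟩
  · rw [pow_mul]; exact hF' j r hr
  · rw [pow_add, pow_mul _ μ j]; exact hζ' j y hy hy'
  · rw [pow_add, pow_mul _ μ j]; exact hζ₁' j y hy hy'
  · obtain ⟨j, y, hy, hy', h⟩ := ht'
    refine ⟨j, y, hy, hy', fun h0 => h ?_⟩
    rw [hζ' j y hy hy', ← pow_mul, ← pow_add, PowerSeries.coeff_X_pow_mul', if_pos le_rfl,
      Nat.sub_self, PowerSeries.coeff_zero_eq_constantCoeff, h0]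

end blow

end Vale.Agent.P292.Dv
end

section

/-! # Part III, block S: the local lemma, part 3 (curves, the induction). -/

namespace Vale.Agent.P292.Dv

open Polynomial Vale.Agent.P292.Mo

universe u v w

section curve

variable {k : Type u} [Field k] {R : Type v} [CommRing R] [Algebra k R] {𝒜 : ℕ → Submodule k R}
  [GradedAlgebra 𝒜] {n : ℕ} {x : Fin n → R} {d : Fin n → ℕ} {p : Ideal R}

/-- A closed rational curve of degree at most `β`, positive on the divisor of `p`, in affine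
coordinates. -/
def PosC (𝒜 : ℕ → Submodule k R) (p : Ideal R) (β : ℕ) : Prop :=
  ∃ (e δ : ℕ) (Ψ : R →ₐ[k] k[X]) (η : ℕ → R → k[X]), 0 < e ∧ e ≤ β ∧ 0 < δ ∧
    (∀ j, ∀ r ∈ 𝒜 j, (Ψ r).natDegree ≤ e * j) ∧
    (∃ j > 0, ∃ r ∈ 𝒜 j, (Ψ r).coeff (e * j) ≠ 0) ∧
    (∀ a : k, ∃ j > 0, ∃ r ∈ 𝒜 j, (Ψ r).eval a ≠ 0) ∧
    IsEta 𝒜 p Ψ η ∧
    (∀ j x, x ∈ 𝒜 j → x ∈ p → η j x ≠ 0 → (η j x).natDegree + δ ≤ e * j) ∧
    ∃ j x, x ∈ 𝒜 j ∧ x ∈ p ∧ η j x ≠ 0

theorem PosC.mono {β β' : ℕ} (h : PosC 𝒜 p β) (hle : β ≤ β') : PosC 𝒜 p β' := by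
  obtain ⟨e, δ, Ψ, η, h1, h2, h3⟩ := h
  exact ⟨e, δ, Ψ, η, h1, h2.trans hle, h3⟩

theorem expandAt_X_sub_C (c : k) : expandAt c (X - C c) = PowerSeries.X := by
  rw [expandAt_apply, map_sub, taylor_X, taylor_C, add_sub_cancel_right, Polynomial.coe_X]

/-- The degree estimate on a closed curve. -/
theorem curve_pos [IsAlgClosed k] (hLB : IsLB 𝒜) (hx : ∀ i, x i ∈ 𝒜 (d i))
    (hgen : Algebra.adjoin k (Set.range x) = ⊤) {e₀ s t : ℕ} {Ψ : R →ₐ[k] k[X]}
    {ζ : ℕ → R → k[X]} (hdeg : ∀ j, ∀ r ∈ 𝒜 j, (Ψ r).natDegree ≤ e₀ * j)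
    (hinf : ∃ j > 0, ∃ r ∈ 𝒜 j, (Ψ r).coeff (e₀ * j) ≠ 0) (hζ : IsEta 𝒜 p Ψ ζ)
    (hdegζ : ∀ j y, y ∈ 𝒜 j → y ∈ p → ζ j y ≠ 0 → (ζ j y).natDegree + s ≤ e₀ * j + t)
    (hne : ∃ j y, y ∈ 𝒜 j ∧ y ∈ p ∧ ζ j y ≠ 0)
    (H : ∀ c : k, ∃ ν, (∃ j > 0, ∃ r ∈ 𝒜 j, PowerSeries.coeff (ν * j) (expandAt c (Ψ r)) ≠ 0) ∧
      ∀ j y, y ∈ 𝒜 j → y ∈ p → PowerSeries.X ^ (ν * j) ∣ expandAt c (ζ j y)) :
    s ≤ t ∨ PosC 𝒜 p e₀ := by
  classical
  obtain ⟨b, e, h, Ψ', hbe, hmon, hb, h3, h4, h5, h6⟩ := base_points hLB hx hgen e₀ Ψ hdeg hinf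
  have hdvd : ∀ j y, y ∈ 𝒜 j → y ∈ p → h ^ j * 1 ∣ 1 * ζ j y := by
    intro j y hy hy'
    rw [mul_one, one_mul]
    by_cases h0 : ζ j y = 0
    · rw [h0]; exact dvd_zero _
    rw [IsAlgClosed.dvd_iff_roots_le_roots (pow_ne_zero _ hmon.ne_zero) h0, Multiset.le_iff_count]
    intro c
    rw [roots_pow, Multiset.count_nsmul, count_roots, count_roots, le_rootMultiplicity_iff h0]
    obtain ⟨ν, ⟨j₁, hj₁, r₁, hr₁, hne₁⟩, hν⟩ := H c
    refine (pow_dvd_pow _ ?_).trans (pow_dvd_of_expandAt c _ _ (hν j y hy hy'))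
    rw [mul_comm]
    refine Nat.mul_le_mul_right _ ?_
    by_contra hcon
    push Not at hcon
    apply hne₁
    have h7 : (X - C c) ^ (rootMultiplicity c h) ∣ h := pow_rootMultiplicity_dvd h c
    obtain ⟨g, hg⟩ := h7
    have h8 : Ψ r₁ = (X - C c) ^ (rootMultiplicity c h * j₁) * (g ^ j₁ * Ψ' r₁) := by
      rw [h3 j₁ r₁ hr₁, pow_mul, ← mul_assoc, ← mul_pow, ← hg]
    rw [h8, map_mul, map_pow, expandAt_X_sub_C, PowerSeries.coeff_X_pow_mul', if_neg]
    have := Nat.mul_lt_mul_of_pos_right hcon hj₁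
    omega
  obtain ⟨ξ, hξ, hξ'⟩ := eta_div (s := (1 : k[X])) (u := 1) hmon.ne_zero one_ne_zero h3 hζ hdvd
  have hdegξ : ∀ j y, y ∈ 𝒜 j → y ∈ p → ξ j y ≠ 0 → (ξ j y).natDegree + s ≤ e * j + t := by
    intro j y hy hy' h0
    have h1 := hξ' j y hy hy'
    rw [one_mul, mul_one] at h1
    have h2 : ζ j y ≠ 0 := by
      rw [h1]; exact mul_ne_zero (pow_ne_zero _ hmon.ne_zero) h0
    have h7 := hdegζ j y hy hy' h2
    rw [h1, (hmon.pow j).natDegree_mul' h0, hmon.natDegree_pow, hb, ← hbe, add_mul,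
      mul_comm j b] at h7
    omega
  rcases Nat.lt_or_ge t s with hst | hst
  · right
    obtain ⟨j₀, y₀, hy₀, hy₀', hne₀⟩ := hne
    have hne₁ : ξ j₀ y₀ ≠ 0 := by
      intro h0
      apply hne₀
      have h1 := hξ' j₀ y₀ hy₀ hy₀'
      rwa [one_mul, mul_one, h0, mul_zero] at h1
    refine ⟨e, s - t, Ψ', ξ, ?_, by omega, by omega, h4, ?_, h6, hξ, ?_, j₀, y₀, hy₀, hy₀', hne₁⟩
    · rcases Nat.eq_zero_or_pos e with h0 | h0
      · have := hdegξ j₀ y₀ hy₀ hy₀' hne₁
        rw [h0, zero_mul] at this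
        omega
      · exact h0
    · obtain ⟨j, hj, r, hr, hne'⟩ := hinf
      exact ⟨j, hj, r, hr, by rwa [h5 j r hr]⟩
    · intro j y hy hy' h0
      have := hdegξ j y hy hy' h0
      omega
  · exact Or.inl hst

theorem Germ.dvd_of_le {φ : R →ₐ[k] PowerSeries (PowerSeries k)}
    {η : ℕ → R → PowerSeries (PowerSeries k)} {β a b : ℕ} (hG : Germ 𝒜 p φ η β a b)
    (hab : a ≤ b) {j : ℕ} {y : R} (hy : y ∈ 𝒜 j) (hy' : y ∈ p) :
    PowerSeries.X ^ (β * j) ∣ PowerSeries.constantCoeff (η j y) := by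
  have h1 := xp_dvd.mp (hG.dvdη j y hy hy')
  exact (pow_dvd_pow _ (by omega)).trans h1

section blow

variable {φ : R →ₐ[k] PowerSeries (PowerSeries k)} {η : ℕ → R → PowerSeries (PowerSeries k)}
  {μ s t : ℕ} {F F' : R →ₐ[k] PowerSeries k[X]} {ζ ζ' : ℕ → R → PowerSeries k[X]}

theorem Blow.deg (hB : Blow 𝒜 p φ η μ s t F F' ζ ζ') {j : ℕ} {r : R} (hr : r ∈ 𝒜 j) :
    (PowerSeries.constantCoeff (F r)).natDegree ≤ μ * j := by
  by_cases h : PowerSeries.constantCoeff (F r) = 0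
  · rw [h, natDegree_zero]; exact Nat.zero_le _
  · have h1 := natDegree_cc (s := 0) (N := μ * j) (by rw [pow_zero, one_mul]; exact hB.eq j r hr) h
    omega

theorem Blow.coeff' (hB : Blow 𝒜 p φ η μ s t F F' ζ ζ') {j : ℕ} {r : R} (hr : r ∈ 𝒜 j) (m : ℕ) :
    (PowerSeries.constantCoeff (F' r)).coeff m =
      if m ≤ μ * j then (PowerSeries.constantCoeff (F r)).coeff (μ * j - m) else 0 := by
  have h1 := coeff_cc (s := 0) (N := μ * j) (by rw [pow_zero, one_mul]; exact hB.eq j r hr)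
    (by rw [pow_zero, one_mul]; exact hB.eq' j r hr) m
  simpa using h1

theorem Blow.coeffη' (hB : Blow 𝒜 p φ η μ s t F F' ζ ζ') {j : ℕ} {y : R} (hy : y ∈ 𝒜 j)
    (hy' : y ∈ p) (m : ℕ) :
    (PowerSeries.constantCoeff (ζ' j y)).coeff m = if m + s ≤ μ * j + t then
      (PowerSeries.constantCoeff (ζ j y)).coeff (μ * j + t - s - m) else 0 :=
  coeff_cc (hB.eqη j y hy hy') (hB.eqη' j y hy hy') m

theorem Blow.ne' (hB : Blow 𝒜 p φ η μ s t F F' ζ ζ') :
    ∃ j > 0, ∃ r ∈ 𝒜 j, PowerSeries.constantCoeff (F' r) ≠ 0 := by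
  obtain ⟨j, hj, r, hr, h⟩ := hB.ne
  refine ⟨j, hj, r, hr, fun h0 => ?_⟩
  have h1 := hB.deg hr
  have h2 := hB.coeff' hr (μ * j - (PowerSeries.constantCoeff (F r)).natDegree)
  rw [if_pos (by omega), Nat.sub_sub_self h1, h0, coeff_zero] at h2
  exact h (leadingCoeff_eq_zero.mp h2.symm)

theorem Blow.neη' (hB : Blow 𝒜 p φ η μ s t F F' ζ ζ') :
    ∃ j y, y ∈ 𝒜 j ∧ y ∈ p ∧ PowerSeries.constantCoeff (ζ' j y) ≠ 0 := by
  obtain ⟨j, y, hy, hy', h⟩ := hB.neη
  refine ⟨j, y, hy, hy', fun h0 => ?_⟩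
  have h1 := natDegree_cc (hB.eqη j y hy hy') h
  have h2 := hB.coeffη' hy hy'
    (μ * j + t - s - (PowerSeries.constantCoeff (ζ j y)).natDegree)
  rw [if_pos (by omega), Nat.sub_sub_self (by omega), h0, coeff_zero] at h2
  exact h (leadingCoeff_eq_zero.mp h2.symm)

/-- The germ of the strict transform. -/
theorem Blow.strict {β a b : ℕ} (hB : Blow 𝒜 p φ η μ s t F F' ζ ζ') (hG : Germ 𝒜 p φ η β a b)
    (hμ : μ ≤ β) :
    Germ 𝒜 p (sw.comp ((recen 0).comp F')) (fun j y => sw (recen 0 (ζ' j y))) (β - μ) (a + t)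
      (b + s) := by
  have hlam : ∀ f : PowerSeries k[X], PowerSeries.constantCoeff (sw (recen 0 f)) = lam f :=
    fun f => rfl
  have hφ : ∀ j, ∀ r ∈ 𝒜 j, PowerSeries.constantCoeff (φ r) =
      PowerSeries.X ^ (μ * j) * lam (F' r) := by
    intro j r hr
    rw [← lam_th_sw, hB.eq' j r hr, map_mul, map_pow, lam_X]
  have hη : ∀ j y, y ∈ 𝒜 j → y ∈ p → PowerSeries.X ^ s * PowerSeries.constantCoeff (η j y) =
      PowerSeries.X ^ (μ * j + t) * lam (ζ' j y) := by
    intro j y hy hy'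
    have h1 := congrArg lam (hB.eqη' j y hy hy')
    rwa [map_mul, map_mul, map_pow, map_pow, lam_X, lam_th_sw] at h1
  have hsub : ∀ j, (β - μ) * j = β * j - μ * j := fun j => Nat.sub_mul _ _ _
  have hle : ∀ j, μ * j ≤ β * j := fun j => Nat.mul_le_mul_right _ hμ
  refine ⟨(hB.eta'.map (recen 0)).map sw, fun j r hr => ?_, ?_, fun j y hy hy' => ?_, ?_⟩
  · rw [AlgHom.comp_apply, AlgHom.comp_apply, hlam, hsub]
    have h1 := hG.dvd j r hr
    rw [hφ j r hr, xp_dvd] at h1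
    exact h1
  · obtain ⟨j, hj, r, hr, h⟩ := hG.ne
    refine ⟨j, hj, r, hr, ?_⟩
    rw [AlgHom.comp_apply, AlgHom.comp_apply, hlam, hsub]
    rw [hφ j r hr, PowerSeries.coeff_X_pow_mul', if_pos (hle j)] at h
    exact h
  · rw [hlam, xp_dvd]
    have h1 := hG.dvdη j y hy hy'
    have h2 : PowerSeries.X ^ (β * j + b + s) ∣
        PowerSeries.X ^ (μ * j + t + a) * lam (ζ' j y) := by
      have h3 : PowerSeries.X ^ (μ * j + t + a) * lam (ζ' j y) =
          PowerSeries.X ^ s * (PowerSeries.X ^ a * PowerSeries.constantCoeff (η j y)) := by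
        rw [mul_left_comm, hη j y hy hy']; ring
      rw [h3, pow_add, mul_comm (PowerSeries.X ^ (β * j + b))]
      exact mul_dvd_mul_left _ h1
    rw [xp_dvd] at h2
    have h4 := hle j
    have h5 : (β - μ) * j + (b + s) - (a + t) = β * j + b + s - (μ * j + t + a) := by
      rw [hsub]; omega
    rw [h5]
    exact h2
  · obtain ⟨j, y, hy, hy', h⟩ := hG.neη
    refine ⟨j, y, hy, hy', ?_⟩
    rw [hlam]
    have h3 : PowerSeries.X ^ (μ * j) * (PowerSeries.X ^ (a + t) * lam (ζ' j y)) =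
        PowerSeries.X ^ s * (PowerSeries.X ^ a * PowerSeries.constantCoeff (η j y)) := by
      rw [mul_left_comm (PowerSeries.X ^ s), hη j y hy hy']; ring
    have h4 := congrArg (PowerSeries.coeff (β * j + b + s)) h3
    rw [PowerSeries.coeff_X_pow_mul', PowerSeries.coeff_X_pow_mul' _ s,
      if_pos (by have := hle j; omega), if_pos (by omega), Nat.add_sub_cancel] at h4
    have h5 : (β - μ) * j + (b + s) = β * j + b + s - μ * j := by
      rw [hsub]; have := hle j; omega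
    rw [h5, h4]
    exact h

end blow

/-- The local lemma: without positive curves of degree at most `β`, the order of `η` on a germ
on which the order of `φ` is `β` is at least `β j`. -/
theorem germ_main [IsAlgClosed k] (hLB : IsLB 𝒜) (hx : ∀ i, x i ∈ 𝒜 (d i))
    (hgen : Algebra.adjoin k (Set.range x) = ⊤) {M : ℕ} (hM : GenIn 𝒜 p M) :
    ∀ (β L : ℕ) (φ : R →ₐ[k] PowerSeries (PowerSeries k))
      (η : ℕ → R → PowerSeries (PowerSeries k)) (a b : ℕ), Germ 𝒜 p φ η β a b →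
      PowerSeries.X ^ L ∈ imI 𝒜 φ → a ≤ b ∨ PosC 𝒜 p β := by
  intro β
  induction β using Nat.strong_induction_on with
  | _ β ihβ =>
  intro L
  induction L using Nat.strong_induction_on with
  | _ L ihL =>
  intro φ η a b hG hL
  by_cases hpos : PosC 𝒜 p β
  · exact Or.inr hpos
  left
  rcases Nat.eq_zero_or_pos β with h0 | hβ
  · subst h0
    obtain ⟨j, y, hy, hy', h⟩ := hG.neη
    by_contra hab
    apply h
    rw [PowerSeries.coeff_X_pow_mul', if_neg (by omega)]
  obtain ⟨μ, s, t, F, F', ζ, ζ', hB⟩ := exists_blow hLB hx hgen hM hG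
  have hmono : ∀ β' ≤ β, ¬ PosC 𝒜 p β' := fun β' h h' => hpos (h'.mono h)
  have hμ1 : 1 ≤ μ := by
    by_contra h0
    have h0' : μ = 0 := by omega
    obtain ⟨j, hj, r, hr, h⟩ := hB.ne
    apply h
    have h1 := hB.eq j r hr
    rw [h0', zero_mul, pow_zero, one_mul] at h1
    ext m
    rw [← h1, ← PowerSeries.coeff_zero_eq_constantCoeff_apply, coeff_th, coeff_zero]
    split_ifs with h2
    · have h3 : m = 0 := by omega
      subst h3
      rw [Nat.sub_zero, show PowerSeries.coeff 0 (φ r) = PowerSeries.constantCoeff (φ r) from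
        PowerSeries.coeff_zero_eq_constantCoeff_apply _]
      exact (PowerSeries.X_pow_dvd_iff.mp (hG.dvd j r hr)) 0 (Nat.mul_pos hβ hj)
    · rfl
  have hμne : ∃ j > 0, ∃ r ∈ 𝒜 j, (PowerSeries.coeff (β * j) (th (φ r))).coeff (β * j) ≠ 0 := by
    obtain ⟨j, hj, r, hr, h⟩ := hG.ne
    refine ⟨j, hj, r, hr, ?_⟩
    rw [coeff_th, if_pos le_rfl, Nat.sub_self, PowerSeries.coeff_zero_eq_constantCoeff_apply]
    exact h
  have hμβ : μ ≤ β := by
    obtain ⟨j, hj, r, hr, h⟩ := hμne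
    by_contra hcon
    apply h
    rw [hB.eq j r hr, PowerSeries.coeff_X_pow_mul', if_neg, coeff_zero]
    have := Nat.mul_lt_mul_of_pos_right (not_le.mp hcon) hj
    omega
  obtain ⟨hμL, hI⟩ : μ ≤ L ∧ PowerSeries.X ^ (L - μ) ∈ imI 𝒜 F := by
    refine imI_div (Φ := th.comp φ) hB.eq ?_
    have := imI_map φ th hL
    rwa [map_pow, th_X] at this
  -- the points of the exceptional curve
  have hpt : ∀ c : k, ∃ ν, (∃ j > 0, ∃ r ∈ 𝒜 j,
      PowerSeries.coeff (ν * j) (expandAt c (((ccA k k[X]).comp F) r)) ≠ 0) ∧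
      ∀ j y, y ∈ 𝒜 j → y ∈ p →
        PowerSeries.X ^ (ν * j) ∣ expandAt c (ccA k k[X] (ζ j y)) := by
    intro c
    obtain ⟨ν, a', b', hg⟩ := exists_point hLB hx hgen hM hB.eta hB.ne hB.neη c
    have hν : ν ≤ μ := by
      obtain ⟨j, hj, r, hr, h⟩ := hg.ne
      rw [AlgHom.comp_apply, constantCoeff_recen, coeff_expandAt] at h
      have h1 := le_natDegree_of_ne_zero h
      rw [natDegree_taylor] at h1
      have h2 := hB.deg hr
      exact Nat.le_of_mul_le_mul_right (h1.trans h2) hj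
    have h2 : PowerSeries.X ^ (L - μ) ∈ imI 𝒜 ((recen c).comp F) := by
      have := imI_map F (recen c) hI
      rwa [map_pow, recen_X] at this
    have hab : a' ≤ b' := by
      rcases Nat.lt_or_ge ν β with h | h
      · exact (ihβ ν h _ _ _ _ _ hg h2).resolve_right (hmono _ h.le)
      · obtain rfl : ν = β := by omega
        exact (ihL (L - μ) (by omega) _ _ _ _ hg h2).resolve_right hpos
    refine ⟨ν, ?_, fun j y hy hy' => ?_⟩
    · obtain ⟨j, hj, r, hr, h⟩ := hg.ne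
      rw [AlgHom.comp_apply, constantCoeff_recen] at h
      exact ⟨j, hj, r, hr, h⟩
    · have h3 := hg.dvd_of_le hab hy hy'
      rwa [constantCoeff_recen] at h3
  -- the point at infinity
  obtain ⟨β', a', b', hg⟩ := exists_point hLB hx hgen hM hB.eta' hB.ne' hB.neη' 0
  have hcc : ∀ (f : PowerSeries k[X]) (m : ℕ), PowerSeries.coeff m
      (PowerSeries.constantCoeff (recen 0 f)) = (PowerSeries.constantCoeff f).coeff m := by
    intro f m
    rw [constantCoeff_recen, coeff_expandAt, taylor_zero]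
  obtain ⟨j₁, hj₁, r₁, hr₁, hne₁⟩ := hg.ne
  rw [AlgHom.comp_apply, hcc] at hne₁
  have hβ'μ : β' ≤ μ := by
    by_contra hcon
    apply hne₁
    rw [hB.coeff' hr₁, if_neg]
    have := Nat.mul_lt_mul_of_pos_right (not_le.mp hcon) hj₁
    omega
  have hsub : ∀ j, (μ - β') * j = μ * j - β' * j := fun j => Nat.sub_mul _ _ _
  have hle : ∀ j, β' * j ≤ μ * j := fun j => Nat.mul_le_mul_right _ hβ'μ
  have hlow : ∀ j, ∀ r ∈ 𝒜 j, ∀ m < β' * j, (PowerSeries.constantCoeff (F' r)).coeff m = 0 := by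
    intro j r hr m hm
    rw [← hcc, ← AlgHom.comp_apply]
    exact PowerSeries.X_pow_dvd_iff.mp (hg.dvd j r hr) m hm
  have hdeg : ∀ j, ∀ r ∈ 𝒜 j,
      (((ccA k k[X]).comp F) r).natDegree ≤ (μ - β') * j := by
    intro j r hr
    change (PowerSeries.constantCoeff (F r)).natDegree ≤ _
    by_contra hcon
    have h1 := hB.deg hr
    have h2 := hB.coeff' hr (μ * j - (PowerSeries.constantCoeff (F r)).natDegree)
    rw [if_pos (by omega), Nat.sub_sub_self h1, hlow j r hr _ (by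
      rw [hsub] at hcon; have := hle j; omega)] at h2
    have h3 : PowerSeries.constantCoeff (F r) = 0 := leadingCoeff_eq_zero.mp h2.symm
    rw [h3, natDegree_zero] at hcon
    exact hcon (Nat.zero_le _)
  have hβ'β : β' < β := by
    rcases Nat.lt_or_ge μ β with h | h
    · omega
    · have h1 : μ = β := by omega
      obtain ⟨j, hj, r, hr, h2⟩ := hμne
      rw [hB.eq j r hr, h1, PowerSeries.coeff_X_pow_mul', if_pos le_rfl, Nat.sub_self,
        PowerSeries.coeff_zero_eq_constantCoeff_apply] at h2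
      have h3 := le_natDegree_of_ne_zero h2
      have h4 := hdeg j r hr
      change (PowerSeries.constantCoeff (F r)).natDegree ≤ _ at h4
      rw [hsub, h1] at h4
      have h5 : β' * j = 0 := by have := hle j; rw [h1] at this; omega
      rcases Nat.mul_eq_zero.mp h5 with h6 | h6 <;> omega
  obtain ⟨A, hA⟩ : ∃ A, (PowerSeries.C (PowerSeries.X : PowerSeries k)) ^ A ∈ imI 𝒜 φ := by
    obtain ⟨j, hj, r, hr, h⟩ := hG.ne
    refine imI_inner hj hr hL fun h0 => h ?_
    rw [h0, map_zero]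
  have hI' : PowerSeries.X ^ (A - μ) ∈ imI 𝒜 ((recen 0).comp F') := by
    have h1 : PowerSeries.X ^ A ∈ imI 𝒜 ((th.comp sw).comp φ) := by
      have := imI_map φ (th.comp sw) hA
      rwa [AlgHom.comp_apply, map_pow, sw_C_X, map_pow, th_X] at this
    have h2 := imI_map F' (recen 0) (imI_div (F := F') (μ := μ) hB.eq' h1).2
    rwa [map_pow, recen_X] at h2
  have hab : a' ≤ b' := (ihβ β' hβ'β _ _ _ _ _ hg hI').resolve_right (hmono _ hβ'β.le)
  -- the closed exceptional curve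
  have hst : s ≤ t := by
    refine (curve_pos (s := s) (t := t) hLB hx hgen hdeg ⟨j₁, hj₁, r₁, hr₁, ?_⟩
      (hB.eta.map (ccA k k[X])) ?_ ?_ hpt).resolve_right (hmono _ (by omega))
    · change (PowerSeries.constantCoeff (F r₁)).coeff _ ≠ 0
      rw [hsub]
      rw [hB.coeff' hr₁, if_pos (hle j₁)] at hne₁
      exact hne₁
    · intro j y hy hy' hne
      change PowerSeries.constantCoeff (ζ j y) ≠ 0 at hne
      change (PowerSeries.constantCoeff (ζ j y)).natDegree + s ≤ _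
      have h1 := natDegree_cc (hB.eqη j y hy hy') hne
      have h2 := hB.coeffη' hy hy'
        (μ * j + t - s - (PowerSeries.constantCoeff (ζ j y)).natDegree)
      rw [if_pos (by omega), Nat.sub_sub_self (by omega)] at h2
      have h3 : (PowerSeries.constantCoeff (ζ' j y)).coeff
          (μ * j + t - s - (PowerSeries.constantCoeff (ζ j y)).natDegree) ≠ 0 := by
        rw [h2]
        exact fun h4 => hne (leadingCoeff_eq_zero.mp h4)
      have h4 : β' * j ≤ μ * j + t - s - (PowerSeries.constantCoeff (ζ j y)).natDegree := by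
        by_contra hcon
        apply h3
        rw [← hcc]
        exact PowerSeries.X_pow_dvd_iff.mp (hg.dvd_of_le hab hy hy') _ (by omega)
      rw [hsub]
      have := hle j
      omega
    · obtain ⟨j, y, hy, hy', h⟩ := hB.neη
      exact ⟨j, y, hy, hy', h⟩
  -- the strict transform
  have hS := hB.strict hG hμβ
  obtain ⟨A', hA'⟩ : ∃ A', (PowerSeries.C (PowerSeries.X : PowerSeries k)) ^ A' ∈
      imI 𝒜 ((recen 0).comp F') := by
    refine imI_inner hj₁ hr₁ hI' fun h0 => hne₁ ?_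
    rw [← hcc, ← AlgHom.comp_apply, h0, map_zero]
  have hIS : PowerSeries.X ^ A' ∈ imI 𝒜 (sw.comp ((recen 0).comp F')) := by
    have := imI_map ((recen 0).comp F') sw hA'
    rwa [map_pow, sw_C_X] at this
  have hfin := (ihβ (β - μ) (by omega) _ _ _ _ _ hS hIS).resolve_right (hmono _ (by omega))
  omega

end curve

end Vale.Agent.P292.Dv
end

section

/-! # Part III, block S: part 4 (finite generation, from affine to closed pairs). -/

namespace Vale.Agent.P292.Dv

open Polynomial Vale.Agent.P292.Mo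

universe u v w

section gen

variable {k : Type u} [Field k] {R : Type v} [CommRing R] [Algebra k R] {𝒜 : ℕ → Submodule k R}
  [GradedAlgebra 𝒜] {p : Ideal R}

theorem mem_of_homog (hp : p.IsHomogeneous 𝒜) {x : R} (hx : x ∈ p) (j : ℕ) :
    (DirectSum.decompose 𝒜 x j : R) ∈ p := hp j hx

/-- A homogeneous ideal of a Noetherian ring is generated in bounded degrees. -/
theorem exists_genIn [IsNoetherianRing R] (hp : p.IsHomogeneous 𝒜) : ∃ M, GenIn 𝒜 p M := by
  classical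
  obtain ⟨s, hs⟩ := (isNoetherianRing_iff_ideal_fg R).mp inferInstance p
  obtain ⟨M, hM⟩ : ∃ M, ∀ g ∈ s, ∀ j, M < j → (DirectSum.decompose 𝒜 g j : R) = 0 := by
    refine ⟨s.sup fun g => (DirectSum.decompose 𝒜 g).support.sup id, fun g hg j hj => ?_⟩
    by_contra hne
    have h1 : j ∈ (DirectSum.decompose 𝒜 g).support := by
      rw [DFinsupp.mem_support_iff]
      intro h0
      exact hne (by rw [h0]; rfl)
    have h2 : j ≤ (DirectSum.decompose 𝒜 g).support.sup id := Finset.le_sup (f := id) h1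
    have h3 : (DirectSum.decompose 𝒜 g).support.sup id ≤
      s.sup fun g => (DirectSum.decompose 𝒜 g).support.sup id :=
      Finset.le_sup (f := fun g => (DirectSum.decompose 𝒜 g).support.sup id) hg
    omega
  refine ⟨M, fun P h1 h2 h3 => ?_⟩
  have h0 : ∀ j, P j 0 := by
    intro j
    have h4 := h3 j 0 0 0 (zero_mem _) (zero_mem _) (zero_mem _)
      (h1 0 (Nat.zero_le _) 0 (zero_mem _) (zero_mem _))
    rwa [mul_zero, add_zero] at h4
  have key : ∀ x, x ∈ Ideal.span (s : Set R) → x ∈ p ∧ ∀ j, P j (DirectSum.decompose 𝒜 x j : R) := by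
    intro x hx
    induction hx using Submodule.span_induction with
    | mem g hg =>
      refine ⟨hs ▸ Ideal.subset_span hg, fun j => ?_⟩
      rcases Nat.lt_or_ge M j with h | h
      · rw [hM g hg j h]; exact h0 j
      · exact h1 j h _ (SetLike.coe_mem _) (mem_of_homog hp (hs ▸ Ideal.subset_span hg) j)
    | zero =>
      refine ⟨zero_mem _, fun j => ?_⟩
      rw [DirectSum.decompose_zero]
      exact h0 j
    | add x y _ _ hx hy =>
      refine ⟨add_mem hx.1 hy.1, fun j => ?_⟩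
      rw [DirectSum.decompose_add, DirectSum.add_apply, Submodule.coe_add]
      exact h2 j _ _ (SetLike.coe_mem _) (mem_of_homog hp hx.1 j) (SetLike.coe_mem _)
        (mem_of_homog hp hy.1 j) (hx.2 j) (hy.2 j)
    | smul r x _ hx =>
      refine ⟨p.mul_mem_left _ hx.1, fun j => ?_⟩
      rw [smul_eq_mul]
      have h5 : ∀ r : R, r * x ∈ p := fun r => p.mul_mem_left _ hx.1
      induction r using DirectSum.Decomposition.inductionOn 𝒜 generalizing j with
      | zero => rw [zero_mul, DirectSum.decompose_zero]; exact h0 j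
      | @homogeneous i r =>
        rcases Nat.lt_or_ge j i with h | h
        · rw [DirectSum.coe_decompose_mul_of_left_mem_of_not_le 𝒜 r.2 (by omega)]
          exact h0 j
        · rw [DirectSum.coe_decompose_mul_of_left_mem_of_le 𝒜 r.2 h]
          have h6 := h3 i (j - i) _ _ r.2 (SetLike.coe_mem (DirectSum.decompose 𝒜 x (j - i)))
            (mem_of_homog hp hx.1 _) (hx.2 _)
          rwa [Nat.add_sub_cancel' h] at h6
      | add a b ha hb =>
        rw [add_mul, DirectSum.decompose_add, DirectSum.add_apply, Submodule.coe_add]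
        exact h2 j _ _ (SetLike.coe_mem _) (mem_of_homog hp (h5 a) j) (SetLike.coe_mem _)
          (mem_of_homog hp (h5 b) j) (ha j) (hb j)
  intro j x hx hx'
  have h4 := (key x (hs ▸ hx')).2 j
  rwa [DirectSum.decompose_of_mem_same 𝒜 hx] at h4

/-- The homogenisation of a homomorphism to polynomials. -/
theorem exists_homog {e : ℕ} {Ψ : R →ₐ[k] k[X]}
    (hdeg : ∀ j, ∀ r ∈ 𝒜 j, (Ψ r).natDegree ≤ e * j) :
    ∃ ψ : R →ₐ[k] MvPolynomial (Fin 2) k, ∀ j, ∀ r ∈ 𝒜 j, ψ r = (Ψ r).homogenize (e * j) := by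
  let f : ∀ i, 𝒜 i →ₗ[k] MvPolynomial (Fin 2) k := fun i =>
    (homogenizeLM (e * i)) ∘ₗ Ψ.toLinearMap ∘ₗ (𝒜 i).subtype
  have hf : ∀ i (y : 𝒜 i), f i y = (Ψ (y : R)).homogenize (e * i) := fun i y => rfl
  let G : (DirectSum ℕ fun i => 𝒜 i) →ₐ[k] MvPolynomial (Fin 2) k :=
    DirectSum.toAlgebra k (fun i => 𝒜 i) f
    (by rw [hf]; simp) (fun {i j} a b => by
      rw [hf, hf, hf, SetLike.coe_gMul, map_mul, mul_add,
        homogenize_mul _ _ (hdeg _ _ a.2) (hdeg _ _ b.2)])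
  refine ⟨G.comp (DirectSum.decomposeAlgEquiv 𝒜 : R →ₐ[k] _), fun j r hr => ?_⟩
  have h1 : (DirectSum.decomposeAlgEquiv 𝒜 : R →ₐ[k] DirectSum ℕ fun i => 𝒜 i) r =
      DirectSum.of (fun i => 𝒜 i) j ⟨r, hr⟩ := DirectSum.decompose_of_mem 𝒜 hr
  rw [AlgHom.comp_apply, h1]
  have h2 : G (DirectSum.of (fun i => 𝒜 i) j ⟨r, hr⟩) = f j ⟨r, hr⟩ := by
    simp only [G, DirectSum.toAlgebra_apply]
    exact DirectSum.toSemiring_of _ _ _ _ _
  rw [h2, hf]

/-- A graded family of linear maps on the homogeneous elements of `p` comes from a linear map. -/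
theorem exists_total {N : Type*} [AddCommGroup N] [Module k N] (H : ℕ → R → N)
    (hadd : ∀ j x y, x ∈ 𝒜 j → x ∈ p → y ∈ 𝒜 j → y ∈ p → H j (x + y) = H j x + H j y)
    (hsmul : ∀ j (c : k) x, x ∈ 𝒜 j → x ∈ p → H j (c • x) = c • H j x) :
    ∃ T : R →ₗ[k] N, ∀ j x, x ∈ 𝒜 j → x ∈ p → T x = H j x := by
  have h1 : ∀ j, ∃ g : R →ₗ[k] N, ∀ x, x ∈ 𝒜 j → x ∈ p → g x = H j x := by
    intro j
    let W : Submodule k R := 𝒜 j ⊓ p.restrictScalars k
    let f : W →ₗ[k] N :=
      { toFun := fun x => H j x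
        map_add' := fun x y => hadd j x y x.2.1 x.2.2 y.2.1 y.2.2
        map_smul' := fun c x => hsmul j c x x.2.1 x.2.2 }
    obtain ⟨g, hg⟩ := LinearMap.exists_extend f
    refine ⟨g, fun x hx hx' => ?_⟩
    have h2 := LinearMap.congr_fun hg ⟨x, hx, hx'⟩
    exact h2
  choose g hg using h1
  refine ⟨(DirectSum.toModule k ℕ N fun j => (g j) ∘ₗ (𝒜 j).subtype) ∘ₗ
    (DirectSum.decomposeLinearEquiv 𝒜).toLinearMap, fun j x hx hx' => ?_⟩
  have h2 : (DirectSum.decomposeLinearEquiv 𝒜) x = DirectSum.lof k ℕ (fun j => 𝒜 j) j ⟨x, hx⟩ :=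
    DirectSum.decompose_of_mem 𝒜 hx
  rw [LinearMap.comp_apply, LinearEquiv.coe_coe, h2, DirectSum.toModule_lof, LinearMap.comp_apply]
  exact hg j x hx hx'

theorem IsEta.smul {S : Type*} [CommRing S] [Algebra k S] {φ : R →ₐ[k] S} {η : ℕ → R → S}
    (h : IsEta 𝒜 p φ η) {j : ℕ} (c : k) {x : R} (hx : x ∈ 𝒜 j) (hx' : x ∈ p) :
    η j (c • x) = c • η j x := by
  have h1 := h.mul 0 j (algebraMap k R c) x (SetLike.algebraMap_mem_graded 𝒜 c) hx hx'
  rwa [zero_add, ← Algebra.smul_def, AlgHom.commutes, ← Algebra.smul_def] at h1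

theorem IsEta.zero {S : Type*} [CommRing S] [Algebra k S] {φ : R →ₐ[k] S} {η : ℕ → R → S}
    (h : IsEta 𝒜 p φ η) (j : ℕ) : η j 0 = 0 := by
  have h1 := h.smul (j := j) (0 : k) (zero_mem _) (zero_mem _)
  rwa [zero_smul, zero_smul] at h1

/-- From affine coordinates to a closed pair. -/
theorem PosC.pair (hp : p.IsHomogeneous 𝒜) {β : ℕ} (h : PosC 𝒜 p β) :
    ∃ (e δ : ℕ) (φ : R →ₐ[k] MvPolynomial (Fin 2) k) (η : p →ₗ[k] MvPolynomial (Fin 2) k),
      0 < e ∧ e ≤ β ∧ 0 < δ ∧ IsPair 𝒜 p e δ φ η := by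
  classical
  obtain ⟨e, δ₀, Ψ, η₀, he, heβ, hδ₀, hdeg, hinf, hbpf, hη₀, hdegη₀, j₀, x₀, hx₀, hx₀', hne₀⟩ := h
  -- the largest `δ`
  let Q : ℕ → Prop := fun δ => ∃ η : ℕ → R → k[X], IsEta 𝒜 p Ψ η ∧
    (∀ j x, x ∈ 𝒜 j → x ∈ p → η j x ≠ 0 → (η j x).natDegree + δ ≤ e * j) ∧ η j₀ x₀ ≠ 0
  have hQb : ∀ δ, Q δ → δ ≤ e * j₀ := by
    rintro δ ⟨η, -, h2, h3⟩
    have := h2 j₀ x₀ hx₀ hx₀' h3
    omega
  have hQ₀ : Q δ₀ := ⟨η₀, hη₀, hdegη₀, hne₀⟩
  set δ := Nat.findGreatest Q (e * j₀) with hδ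
  have hQ : Q δ := Nat.findGreatest_spec (hQb δ₀ hQ₀) hQ₀
  have hδδ : δ₀ ≤ δ := Nat.le_findGreatest (hQb δ₀ hQ₀) hQ₀
  have hmax : ¬ Q (δ + 1) := by
    intro h1
    have := Nat.le_findGreatest (hQb _ h1) h1
    omega
  obtain ⟨η, hη, hdegη, hne⟩ := hQ
  have hfin : ∀ c : k, ∃ j x, x ∈ 𝒜 j ∧ x ∈ p ∧ (η j x).eval c ≠ 0 := by
    intro c
    by_contra hcon
    push Not at hcon
    apply hmax
    obtain ⟨ξ, hξ, hξ'⟩ := eta_div (F := Ψ) (s := (1 : k[X])) (t := 1) (u := X - C c) one_ne_zero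
      (X_sub_C_ne_zero c) (fun j r _ => by rw [one_pow, one_mul]) hη (fun j x hx hx' => by
        rw [one_pow, one_mul, one_mul, dvd_iff_isRoot]
        exact hcon j x hx hx')
    have hξ'' : ∀ j x, x ∈ 𝒜 j → x ∈ p → η j x = (X - C c) * ξ j x := by
      intro j x hx hx'
      have := hξ' j x hx hx'
      rwa [one_mul, one_pow, one_mul] at this
    refine ⟨ξ, hξ, fun j x hx hx' h0 => ?_, fun h0 => ?_⟩
    · have h1 : η j x ≠ 0 := by
        rw [hξ'' j x hx hx']; exact mul_ne_zero (X_sub_C_ne_zero c) h0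
      have h2 := hdegη j x hx hx' h1
      rw [hξ'' j x hx hx', natDegree_mul (X_sub_C_ne_zero c) h0, natDegree_X_sub_C] at h2
      omega
    · exact hne (by rw [hξ'' j₀ x₀ hx₀ hx₀', h0, mul_zero])
  obtain ⟨j₁, x₁, hx₁, hx₁', hne₁, hdeg₁⟩ : ∃ j x, x ∈ 𝒜 j ∧ x ∈ p ∧ η j x ≠ 0 ∧
      (η j x).natDegree + δ = e * j := by
    by_contra hcon
    push Not at hcon
    apply hmax
    refine ⟨η, hη, fun j x hx hx' h0 => ?_, hne⟩
    have h1 := hdegη j x hx hx' h0
    have h2 := hcon j x hx hx' h0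
    omega
  -- the homogenisation
  obtain ⟨ψ, hψ⟩ := exists_homog hdeg
  obtain ⟨T, hT⟩ := exists_total (𝒜 := 𝒜) (p := p)
    (fun j x => (η j x).homogenize (e * j - δ)) (fun j x y hx hx' hy hy' => by
      change homogenizeLM (e * j - δ) (η j (x + y)) = homogenizeLM _ (η j x) + homogenizeLM _ (η j y)
      rw [hη.add j x y hx hx' hy hy', map_add]) (fun j c x hx hx' => by
      change homogenizeLM (e * j - δ) (η j (c • x)) = c • homogenizeLM _ (η j x)
      rw [hη.smul c hx hx', map_smul])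
  have hlow : ∀ j x, x ∈ 𝒜 j → x ∈ p → e * j < δ → η j x = 0 := by
    intro j x hx hx' hlt
    by_contra h0
    have := hdegη j x hx hx' h0
    omega
  have hlin₁ : ∀ i, ∀ r ∈ 𝒜 i, ∀ j x, x ∈ 𝒜 j → x ∈ p → T (r * x) = ψ r * T x := by
    intro i r hr j x hx hx'
    rw [hT (i + j) _ (SetLike.mul_mem_graded hr hx) (p.mul_mem_left _ hx'), hT j x hx hx',
      hψ i r hr, hη.mul i j r x hr hx hx']
    by_cases h0 : η j x = 0
    · rw [h0, mul_zero]
      change homogenizeLM _ 0 = _ * homogenizeLM _ 0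
      rw [map_zero, map_zero, mul_zero]
    · have h1 := hdegη j x hx hx' h0
      rw [← homogenize_mul _ _ (hdeg i r hr) (show (η j x).natDegree ≤ e * j - δ by omega)]
      congr 1
      rw [mul_add]
      omega
  have hlin₂ : ∀ i, ∀ r ∈ 𝒜 i, ∀ x ∈ p, T (r * x) = ψ r * T x := by
    intro i r hr x hx
    have e1 : T (r * ∑ j ∈ (DirectSum.decompose 𝒜 x).support, (DirectSum.decompose 𝒜 x j : R)) =
        ψ r * T (∑ j ∈ (DirectSum.decompose 𝒜 x).support, (DirectSum.decompose 𝒜 x j : R)) := by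
      rw [Finset.mul_sum, map_sum, map_sum, Finset.mul_sum]
      exact Finset.sum_congr rfl fun j _ => hlin₁ i r hr j _ (SetLike.coe_mem _)
        (mem_of_homog hp hx j)
    rwa [DirectSum.sum_support_decompose] at e1
  have hlin : ∀ r, ∀ x ∈ p, T (r * x) = ψ r * T x := by
    intro r x hx
    have e1 : T ((∑ j ∈ (DirectSum.decompose 𝒜 r).support, (DirectSum.decompose 𝒜 r j : R)) * x) =
        ψ (∑ j ∈ (DirectSum.decompose 𝒜 r).support, (DirectSum.decompose 𝒜 r j : R)) * T x := by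
      rw [Finset.sum_mul, map_sum, map_sum, Finset.sum_mul]
      exact Finset.sum_congr rfl fun j _ => hlin₂ j _ (SetLike.coe_mem _) x hx
    rwa [DirectSum.sum_support_decompose] at e1
  refine ⟨e, δ, ψ, T ∘ₗ (Submodule.subtype (p.restrictScalars k)), he, heβ, by omega,
    fun j r hr => ?_, fun a ha => ?_, fun r x => ?_, fun j x hx m hm => ?_, fun j x hx hlt => ?_,
    fun a ha => ?_⟩
  · rw [hψ j r hr]
    exact isHomogeneous_homogenize _
  · by_cases h1 : a 1 = 0
    · have h0 : a 0 ≠ 0 := by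
        intro h0
        apply ha
        funext i
        fin_cases i
        · exact h0
        · exact h1
      obtain ⟨j, hj, r, hr, h⟩ := hinf
      refine ⟨j, hj, r, hr, ?_⟩
      rw [hψ j r hr, eval_homogenize_infty _ _ _ h1]
      exact mul_ne_zero h (pow_ne_zero _ h0)
    · obtain ⟨j, hj, r, hr, h⟩ := hbpf (a 0 / a 1)
      refine ⟨j, hj, r, hr, ?_⟩
      rw [hψ j r hr, eval_homogenize (hdeg j r hr) _ h1]
      exact mul_ne_zero h (pow_ne_zero _ h1)
  · exact hlin r x x.2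
  · change (T x).IsHomogeneous m
    rw [hT j x hx x.2]
    have h1 : m = e * j - δ := by omega
    rw [h1]
    exact isHomogeneous_homogenize _
  · change T x = 0
    rw [hT j x hx x.2, hlow j x hx x.2 hlt]
    change homogenizeLM _ 0 = 0
    rw [map_zero]
  · by_cases h1 : a 1 = 0
    · have h0 : a 0 ≠ 0 := by
        intro h0
        apply ha
        funext i
        fin_cases i
        · exact h0
        · exact h1
      refine ⟨⟨x₁, hx₁'⟩, ?_⟩
      change MvPolynomial.eval a (T x₁) ≠ 0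
      rw [hT j₁ x₁ hx₁ hx₁', eval_homogenize_infty _ _ _ h1]
      refine mul_ne_zero ?_ (pow_ne_zero _ h0)
      have h2 : e * j₁ - δ = (η j₁ x₁).natDegree := by omega
      rw [h2]
      exact leadingCoeff_ne_zero.mpr hne₁
    · obtain ⟨j, x, hx, hx', h⟩ := hfin (a 0 / a 1)
      refine ⟨⟨x, hx'⟩, ?_⟩
      change MvPolynomial.eval a (T x) ≠ 0
      have h2 : η j x ≠ 0 := by
        intro h0
        apply h
        rw [h0, eval_zero]
      have h3 := hdegη j x hx hx' h2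
      rw [hT j x hx hx', eval_homogenize (by omega) _ h1]
      exact mul_ne_zero h (pow_ne_zero _ h1)

theorem PosC.pos (hp : p.IsHomogeneous 𝒜) {β : ℕ} (h : PosC 𝒜 p β) (hβ : β ≤ 2) :
    Pos 𝒜 p k := by
  obtain ⟨e, δ, φ, η, h1, h2, h3, h4⟩ := h.pair hp
  exact ⟨e, δ, φ, η, by omega, h3, h4⟩

end gen

end Vale.Agent.P292.Dv
end

section

/-! # P292, Part III, GAP A (G1): the first chart of a curve -/

namespace Vale.Agent.P292.Mo

universe u v w

section
variable {k : Type u} [Field k] {K : Type w} [Field K] [Algebra k K]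

theorem ga_B0_le {t : K} {g h : Polynomial k} (hgh : g ∣ h) (hh : Polynomial.aeval t h ≠ 0) :
    B0 t g ≤ B0 t h := by
  refine Algebra.adjoin_le ?_
  rintro x (rfl | hx)
  · exact Algebra.subset_adjoin (Set.mem_insert _ _)
  · rw [Set.mem_singleton_iff] at hx
    subst hx
    obtain ⟨e, rfl⟩ := hgh
    have h1 : Polynomial.aeval t g ≠ 0 := by
      intro h0
      apply hh
      rw [map_mul, h0, zero_mul]
    have h2 : Polynomial.aeval t e ≠ 0 := by
      intro h0
      apply hh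
      rw [map_mul, h0, mul_zero]
    have h3 : (Polynomial.aeval t g)⁻¹ =
        Polynomial.aeval t e * (Polynomial.aeval t (g * e))⁻¹ := by
      rw [map_mul]
      field_simp
    rw [h3]
    exact mul_mem (crv_aeval_mem (crv_t_mem_B0 t _) e) (crv_inv_mem_B0 t _)

theorem ga_IC_mono {B B' : Subalgebra k K} (h : B ≤ B') : IC B ≤ IC B' := by
  intro x hx
  obtain ⟨p, hp, hpx⟩ := (hx : IsIntegral B x)
  refine (⟨p.map (Subalgebra.inclusion h).toRingHom, hp.map _, ?_⟩ : IsIntegral B' x)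
  rw [Polynomial.eval₂_map]
  exact hpx

theorem ga_IC0_le {t : K} (ht : Transcendental k t) {g h : Polynomial k} (hgh : g ∣ h)
    (hh : h ≠ 0) : IC (B0 t g) ≤ IC (B0 t h) :=
  ga_IC_mono (ga_B0_le hgh (crv_ne ht hh))

theorem ga_B0_one_le {t : K} : B0 t (1 : Polynomial k) ≤ Algebra.adjoin k {t} := by
  refine Algebra.adjoin_le ?_
  rintro x (rfl | hx)
  · exact Algebra.self_mem_adjoin_singleton k _
  · rw [Set.mem_singleton_iff] at hx
    subst hx
    rw [map_one, inv_one]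
    exact one_mem _

/-- Every element is in the first chart if `g` is large enough. -/
theorem ga_mem {t : K} (ht : Transcendental k t)
    [FiniteDimensional (IntermediateField.adjoin k {t}) K] (x : K) :
    ∃ g : Polynomial k, g ≠ 0 ∧ x ∈ IC (B0 t g) := by
  obtain ⟨a, ha, b, hb, hb0, rfl⟩ := frac0_IC (k := k) (t := t) (1 : Polynomial k) x
  have hb' : IsIntegral (Algebra.adjoin k {t}) b := by
    have h1 : b ∈ IC (Algebra.adjoin k {t}) := ga_IC_mono ga_B0_one_le hb
    exact h1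
  obtain ⟨g, hg, hinv⟩ := exists_inv_mem ht hb0 hb'
  refine ⟨g, hg, ?_⟩
  rw [div_eq_mul_inv]
  exact mul_mem (ga_IC0_le ht (one_dvd g) hg ha) hinv

theorem ga_mem_finset {t : K} (ht : Transcendental k t)
    [FiniteDimensional (IntermediateField.adjoin k {t}) K] (S : Finset K) :
    ∃ g : Polynomial k, g ≠ 0 ∧ ∀ x ∈ S, x ∈ IC (B0 t g) := by
  classical
  induction S using Finset.induction_on with
  | empty => exact ⟨1, one_ne_zero, by simp⟩
  | insert a s _ ih =>
    obtain ⟨g, hg, h⟩ := ih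
    obtain ⟨g', hg', h'⟩ := ga_mem ht a
    refine ⟨g * g', mul_ne_zero hg hg', fun x hx => ?_⟩
    rcases Finset.mem_insert.1 hx with rfl | hx
    · exact ga_IC0_le ht (dvd_mul_left _ _) (mul_ne_zero hg hg') h'
    · exact ga_IC0_le ht (dvd_mul_right _ _) (mul_ne_zero hg hg') (h x hx)

/-- The first chart. -/
theorem ga_chart0 {R : Type v} [CommRing R] [Algebra k R] {𝒜 : ℕ → Submodule k R}
    [GradedAlgebra 𝒜] {P : R →ₗ[k] R →ₗ[k] R} [IsAlgClosed k] (p : ℕ) [Fact p.Prime] [CharP k p]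
    (hP : IsPM 𝒜 P) {t : K} (ht : Transcendental k t)
    [FiniteDimensional (IntermediateField.adjoin k {t}) K] (φ : R →ₐ[k] K) (hNV : NV 𝒜 φ) :
    ∃ (g₀ : Polynomial k) (N : ℕ) (x : Fin N → R) (d : Fin N → ℕ) (g : R),
      g₀ ≠ 0 ∧ 0 < N ∧ IsFr 𝒜 x d g ∧ φ (g * (brM P x).det) ≠ 0 ∧
      ∀ h : Polynomial k, g₀ ∣ h → h ≠ 0 →
        (∀ r, φ r ∈ IC (B0 t h)) ∧
        (∃ n : ℕ, 0 < n ∧ ∃ r ∈ 𝒜 n, φ r ≠ 0 ∧ (φ r)⁻¹ ∈ IC (B0 t h)) ∧
        IsFr0 𝒜 P (IC (B0 t h)) φ x d g := by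
  classical
  obtain ⟨n, hn, s0, hs0, hs0'⟩ := hNV
  obtain ⟨S, hS⟩ := hP.finiteType
  obtain ⟨g1, hg1, h1⟩ := ga_mem_finset ht (insert (φ s0)⁻¹ (S.image φ))
  have hR : ∀ h : Polynomial k, g1 ∣ h → h ≠ 0 → ∀ r, φ r ∈ IC (B0 t h) := by
    intro h hgh hh r
    have h2 : (⊤ : Subalgebra k R) ≤ (IC (B0 t h)).comap φ := by
      rw [← hS]
      refine Algebra.adjoin_le fun s hs => ?_
      rw [SetLike.mem_coe, Subalgebra.mem_comap]
      exact ga_IC0_le ht hgh hh (h1 _ (Finset.mem_insert_of_mem (Finset.mem_image_of_mem _ hs)))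
    exact h2 Algebra.mem_top
  have hs0i : (φ s0)⁻¹ ∈ IC (B0 t g1) := h1 _ (Finset.mem_insert_self _ _)
  -- a closed point
  have : Infinite k := IsAlgClosed.instInfinite
  obtain ⟨c0, hc0⟩ := (infinite_IC ht hg1 (1 : IC (B0 t g1)) one_ne_zero).nonempty
  have hmem1 := hR g1 dvd_rfl hg1
  obtain ⟨y0, hy0⟩ : ∃ y0 : R →ₐ[k] k, ∀ r, y0 r = c0 ⟨φ r, hmem1 r⟩ :=
    ⟨c0.comp (φ.codRestrict (IC (B0 t g1)) hmem1), fun r => rfl⟩
  have hNV0 : NV 𝒜 y0 := by
    refine ⟨n, hn, s0, hs0, ?_⟩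
    intro h
    have h2 : (⟨φ s0, hmem1 s0⟩ : IC (B0 t g1)) * ⟨(φ s0)⁻¹, hs0i⟩ = 1 :=
      Subtype.ext (mul_inv_cancel₀ hs0')
    have h3 := congrArg c0 h2
    rw [map_mul, ← hy0, h, zero_mul, map_one] at h3
    exact zero_ne_one h3
  obtain ⟨N, x, d, g, hfr0, hy⟩ := hP.frame y0 hNV0
  have hNpos : 0 < N := rank_pos p hP hNV0 ⟨x, d, g, hfr0, hy⟩
  have hne : φ (g * (brM P x).det) ≠ 0 := by
    intro h
    apply hy
    rw [hy0]
    have h1 : (⟨φ (g * (brM P x).det), hmem1 _⟩ : IC (B0 t g1)) = 0 := Subtype.ext h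
    rw [h1, map_zero]
  have hne' := hne
  rw [map_mul] at hne'
  have hg0 : φ g ≠ 0 := left_ne_zero_of_mul hne'
  have hdet : φ (brM P x).det ≠ 0 := right_ne_zero_of_mul hne'
  obtain ⟨g2, hg2, hinv⟩ := ga_mem ht (φ (brM P x).det)⁻¹
  refine ⟨g1 * g2, N, x, d, g, mul_ne_zero hg1 hg2, hNpos, hfr0, hne, fun h hgh hh => ?_⟩
  have hd1 : g1 ∣ h := (dvd_mul_right _ _).trans hgh
  have hd2 : g2 ∣ h := (dvd_mul_left _ _).trans hgh
  exact ⟨hR h hd1 hh, ⟨n, hn, s0, hs0, hs0', ga_IC0_le ht hd1 hh hs0i⟩,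
    hfr0, hg0, hdet, ga_IC0_le ht hd2 hh hinv⟩

end

end Vale.Agent.P292.Mo
end

section

/-! # P292, Part III, GAP A (G2): the second chart of a curve -/

namespace Vale.Agent.P292.Mo

universe u v w

section avoid

/-- Finitely many nonvertex points have a common nonvanishing form of positive degree. -/
theorem ga_avoid {k : Type u} [Field k] [Infinite k] {R : Type v} [CommRing R] [Algebra k R]
    {𝒜 : ℕ → Submodule k R} [GradedAlgebra 𝒜] {ι : Type w} [Finite ι] (y : ι → R →ₐ[k] k)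
    (hy : ∀ i, NV 𝒜 (y i)) : ∃ n : ℕ, 0 < n ∧ ∃ r ∈ 𝒜 n, ∀ i, y i r ≠ 0 := by
  classical
  have : Fintype ι := Fintype.ofFinite ι
  choose n hn r hr hyr using hy
  have hD : 0 < ∏ i, n i := Finset.prod_pos fun i _ => hn i
  refine ⟨∏ i, n i, hD, ?_⟩
  by_contra hcon
  push Not at hcon
  have hcov : (⋃ i, (((LinearMap.ker (y i).toLinearMap).comap (𝒜 (∏ i, n i)).subtype :
      Submodule k (𝒜 (∏ i, n i))) : Set (𝒜 (∏ i, n i)))) = Set.univ := by
    rw [Set.eq_univ_iff_forall]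
    intro s
    obtain ⟨i, hi⟩ := hcon s s.2
    exact Set.mem_iUnion.2 ⟨i, hi⟩
  obtain ⟨i, hi⟩ := Subspace.exists_eq_top_of_iUnion_eq_univ hcov
  obtain ⟨e, he⟩ := Finset.dvd_prod_of_mem n (Finset.mem_univ i)
  have hmem : r i ^ e ∈ 𝒜 (∏ i, n i) := by
    rw [he, mul_comm]
    have h1 := SetLike.pow_mem_graded e (hr i)
    rwa [smul_eq_mul] at h1
  have h2 : (⟨r i ^ e, hmem⟩ : 𝒜 (∏ i, n i)) ∈
      (LinearMap.ker (y i).toLinearMap).comap (𝒜 (∏ i, n i)).subtype := by
    rw [hi]; trivial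
  have h3 : y i (r i ^ e) = 0 := h2
  rw [map_pow] at h3
  exact pow_ne_zero e (hyr i) h3

end avoid

section pid

variable {k : Type u} [Field k]

/-- A Dedekind domain with finitely many closed points, which detect the units. -/
theorem ga_pid {A : Type w} [CommRing A] [IsDedekindDomain A] [Algebra k A]
    [Finite (A →ₐ[k] k)] (hunit : ∀ a : A, (∀ c : A →ₐ[k] k, c a ≠ 0) → IsUnit a) :
    IsPrincipalIdealRing A := by
  classical
  have : Fintype (A →ₐ[k] k) := Fintype.ofFinite _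
  have hmax : ∀ c : A →ₐ[k] k, (RingHom.ker c.toRingHom).IsPrime := fun c => RingHom.ker_isPrime _
  have hne : Nonempty (A →ₐ[k] k) := by
    by_contra h
    rw [not_nonempty_iff] at h
    exact not_isUnit_zero (hunit 0 fun c => h.elim c)
  have key : ∀ I : Ideal A, I ≠ ⊤ → ∃ c : A →ₐ[k] k, I ≤ RingHom.ker c.toRingHom := by
    intro I hI
    have h1 : (I : Set A) ⊆ ⋃ c ∈ (↑(Finset.univ : Finset (A →ₐ[k] k)) : Set (A →ₐ[k] k)),
        ((RingHom.ker c.toRingHom : Ideal A) : Set A) := by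
      intro a ha
      by_contra hcon
      apply hI
      refine Ideal.eq_top_of_isUnit_mem I ha (hunit a fun c hc => hcon ?_)
      exact Set.mem_biUnion (Finset.mem_coe.2 (Finset.mem_univ c)) hc
    obtain ⟨c, -, hc⟩ := (Ideal.subset_union_prime (s := (Finset.univ : Finset (A →ₐ[k] k)))
      (f := fun c => RingHom.ker c.toRingHom) (Classical.arbitrary _) (Classical.arbitrary _)
      (fun c _ _ _ => hmax c)).1 h1
    exact ⟨c, hc⟩
  refine IsPrincipalIdealRing.of_finite_primes ?_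
  refine ((Set.finite_range fun c : A →ₐ[k] k => RingHom.ker c.toRingHom).insert ⊥).subset ?_
  intro I hI
  have hI' : I.IsPrime := hI
  by_cases h0 : I = ⊥
  · exact Or.inl h0
  · right
    obtain ⟨c, hc⟩ := key I hI'.ne_top
    have hm : I.IsMaximal := hI'.isMaximal h0
    exact ⟨c, (hm.eq_of_le (hmax c).ne_top hc).symm⟩

end pid

section scale

variable {k : Type u} [Field k] {R : Type v} [CommRing R] [Algebra k R] {𝒜 : ℕ → Submodule k R}
  [GradedAlgebra 𝒜]

/-- If all forms of positive degree vanish at a closed point, one can divide. -/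
theorem ga_step {A : Type w} [CommRing A] [IsDomain A] [IsPrincipalIdealRing A] [Algebra k A]
    (hLB : IsLB 𝒜) {n : ℕ} {x : Fin n → R} {d : Fin n → ℕ} (hx : ∀ i, x i ∈ 𝒜 (d i))
    (hgen : Algebra.adjoin k (Set.range x) = ⊤) (Φ : R →ₐ[k] A) (hΦ : NV 𝒜 Φ)
    (c : A →ₐ[k] k) (hc : ∃ a : A, a ≠ 0 ∧ c a = 0)
    (hcΦ : ∀ j : ℕ, 0 < j → ∀ r ∈ 𝒜 j, c (Φ r) = 0) :
    ∃ (ϖ : A) (F : R →ₐ[k] A), ϖ ≠ 0 ∧ ¬ IsUnit ϖ ∧ ∀ j, ∀ r ∈ 𝒜 j, Φ r = ϖ ^ j * F r := by
  classical
  set m : Ideal A := RingHom.ker c.toRingHom with hm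
  have hmem : ∀ a, a ∈ m ↔ c a = 0 := fun a => Iff.rfl
  have hmp : m.IsPrime := RingHom.ker_isPrime _
  have hm0 : m ≠ ⊥ := by
    obtain ⟨a, ha, hca⟩ := hc
    intro h
    apply ha
    have : a ∈ m := hca
    rw [h] at this
    exact this
  have : IsDiscreteValuationRing (Localization.AtPrime m) :=
    IsLocalization.AtPrime.isDiscreteValuationRing_of_dedekind_domain A hm0 _
  obtain ⟨ex, hinj, hcc, -, hpow⟩ := exists_expansion_at c m hmem
  obtain ⟨ν, G, hG, j0, hj0, r0, hr0, hG0⟩ := lead hLB hx hgen (ex.comp Φ) (by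
    obtain ⟨j, hj, r, hr, h⟩ := hΦ
    refine ⟨j, hj, r, hr, ?_⟩
    rw [AlgHom.comp_apply]
    intro h0
    exact h (hinj (h0.trans (map_zero _).symm)))
  have hν : 0 < ν := by
    rcases Nat.eq_zero_or_pos ν with h0 | h0
    · exfalso
      apply hG0
      have h1 := hG j0 r0 hr0
      rw [h0, zero_mul, pow_zero, one_mul, AlgHom.comp_apply] at h1
      rw [← h1, hcc]
      exact hcΦ j0 hj0 r0 hr0
    · exact h0
  obtain ⟨ϖ, hϖ⟩ := (IsPrincipalIdealRing.principal m).principal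
  rw [Ideal.submodule_span_eq] at hϖ
  have hϖ0 : ϖ ≠ 0 := by
    rintro rfl
    apply hm0
    rw [hϖ]
    exact Ideal.span_singleton_eq_bot.2 rfl
  have hϖu : ¬ IsUnit ϖ := by
    intro h
    exact hmp.ne_top (by rw [hϖ]; exact Ideal.span_singleton_eq_top.2 h)
  obtain ⟨F, hF⟩ := exists_untwist 𝒜 Φ ϖ hϖ0 hx hgen (fun i => by
    have h1 : PowerSeries.X ^ d i ∣ ex (Φ (x i)) := by
      have h2 := hG (d i) (x i) (hx i)
      rw [AlgHom.comp_apply] at h2
      rw [h2]
      exact Dvd.dvd.mul_right (pow_dvd_pow _ (Nat.le_mul_of_pos_left _ hν)) _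
    rw [hpow, hϖ, Ideal.span_singleton_pow, Ideal.mem_span_singleton] at h1
    exact h1)
  exact ⟨ϖ, F, hϖ0, hϖu, hF⟩

theorem ga_scale [Infinite k] {A : Type w} [CommRing A] [IsDomain A] [IsPrincipalIdealRing A]
    [Algebra k A] [Finite (A →ₐ[k] k)]
    (hunit : ∀ a : A, (∀ c : A →ₐ[k] k, c a ≠ 0) → IsUnit a)
    (hnf : ∀ c : A →ₐ[k] k, ∃ a : A, a ≠ 0 ∧ c a = 0)
    (hLB : IsLB 𝒜) {n : ℕ} {x : Fin n → R} {d : Fin n → ℕ} (hx : ∀ i, x i ∈ 𝒜 (d i))
    (hgen : Algebra.adjoin k (Set.range x) = ⊤) (Φ : R →ₐ[k] A) (hΦ : NV 𝒜 Φ) :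
    ∃ (v : A) (F : R →ₐ[k] A), v ≠ 0 ∧ (∀ j, ∀ r ∈ 𝒜 j, Φ r = v ^ j * F r) ∧
      ∃ j : ℕ, 0 < j ∧ ∃ r ∈ 𝒜 j, IsUnit (F r) := by
  classical
  obtain ⟨j0, hj0, r0, hr0, hne⟩ := hΦ
  have key : ∀ a : A, ∀ Φ : R →ₐ[k] A, Φ r0 = a → a ≠ 0 →
      ∃ (v : A) (F : R →ₐ[k] A), v ≠ 0 ∧ (∀ j, ∀ r ∈ 𝒜 j, Φ r = v ^ j * F r) ∧
      ∃ j : ℕ, 0 < j ∧ ∃ r ∈ 𝒜 j, IsUnit (F r) := by
    intro a
    induction a using (wellFounded_dvdNotUnit (α := A)).induction with
    | _ a ih =>
      intro Φ hΦa ha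
      by_cases hall : ∀ c : A →ₐ[k] k, NV 𝒜 (c.comp Φ)
      · obtain ⟨j, hj, r, hr, h⟩ := ga_avoid (fun c : A →ₐ[k] k => c.comp Φ) hall
        exact ⟨1, Φ, one_ne_zero, fun i s _ => by rw [one_pow, one_mul], j, hj, r, hr,
          hunit _ fun c => h c⟩
      · push Not at hall
        obtain ⟨c, hc⟩ := hall
        have hc' : ∀ j : ℕ, 0 < j → ∀ r ∈ 𝒜 j, c (Φ r) = 0 := by
          intro j hj r hr
          by_contra h
          exact hc ⟨j, hj, r, hr, h⟩
        obtain ⟨ϖ, F, hϖ0, hϖu, hF⟩ := ga_step hLB hx hgen Φ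
          ⟨j0, hj0, r0, hr0, by rw [hΦa]; exact ha⟩ c (hnf c) hc'
        have h1 : a = ϖ ^ j0 * F r0 := by rw [← hΦa, hF j0 r0 hr0]
        have h2 : F r0 ≠ 0 := by
          intro h
          rw [h, mul_zero] at h1
          exact ha h1
        have h3 : DvdNotUnit (F r0) a := by
          refine ⟨h2, ϖ ^ j0, ?_, by rw [h1, mul_comm]⟩
          rw [isUnit_pow_iff hj0.ne']
          exact hϖu
        obtain ⟨v, F', hv, hF', hu⟩ := ih (F r0) h3 F rfl h2
        refine ⟨ϖ * v, F', mul_ne_zero hϖ0 hv, fun j r hr => ?_, hu⟩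
        rw [hF j r hr, hF' j r hr, mul_pow, mul_assoc]
  exact key _ Φ rfl hne

end scale

section chart

variable {k : Type u} [Field k] {K : Type w} [Field K] [Algebra k K]

/-- The second chart. -/
theorem ga_chart1 {R : Type v} [CommRing R] [Algebra k R] {𝒜 : ℕ → Submodule k R}
    [GradedAlgebra 𝒜] {P : R →ₗ[k] R →ₗ[k] R} [IsAlgClosed k]
    (hP : IsPM 𝒜 P) {t : K} (ht : Transcendental k t)
    [FiniteDimensional (IntermediateField.adjoin k {t}) K]
    [Algebra.IsSeparable (IntermediateField.adjoin k {t}) K] (φ : R →ₐ[k] K) (hNV : NV 𝒜 φ)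
    {g : Polynomial k} (hg : g ≠ 0) :
    ∃ u : K, u ≠ 0 ∧ (∀ n, ∀ r ∈ 𝒜 n, u ^ n * φ r ∈ IC (B1 t g)) ∧
      ∃ n : ℕ, 0 < n ∧ ∃ r ∈ 𝒜 n, φ r ≠ 0 ∧ (u ^ n * φ r)⁻¹ ∈ IC (B1 t g) := by
  classical
  have : Infinite k := IsAlgClosed.instInfinite
  have hcl := closed_IC1 (K := K) ht hg
  have : Finite (IC (B1 t g) →ₐ[k] k) := hcl.1
  have hded : IsDedekindDomain (IC (B1 t g)) := (crv_basis1 (K := K) ht hg).1
  have hpid : IsPrincipalIdealRing (IC (B1 t g)) := ga_pid (k := k) hcl.2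
  obtain ⟨l, hl⟩ := crv_exists_l hg
  have hnf : ∀ c : IC (B1 t g) →ₐ[k] k, ∃ a : IC (B1 t g), a ≠ 0 ∧ c a = 0 := by
    intro c
    have h1 : (t - algebraMap k K l)⁻¹ ∈ IC (B1 t g) :=
      le_IC _ (crv_s_mem_B1 ht hl)
    refine ⟨⟨_, h1⟩ - algebraMap k _ (c ⟨_, h1⟩), ?_, by rw [map_sub, AlgHom.commutes]; simp⟩
    intro h0
    have h2 : (t - algebraMap k K l)⁻¹ = algebraMap k K (c ⟨_, h1⟩) :=
      congrArg Subtype.val (sub_eq_zero.1 h0)
    apply ht
    have h3 : t = algebraMap k K (l + (c ⟨_, h1⟩)⁻¹) := by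
      rw [map_add, map_inv₀, ← h2, inv_inv]
      ring
    rw [h3]
    exact isAlgebraic_algebraMap _
  have hLB : IsLB 𝒜 := fun q hq d hd => hP.lineBundle q hq d hd
  have := hP.finiteType
  obtain ⟨n, x, d, hx, hgen⟩ := exists_gens 𝒜
  -- common denominators
  have hcd := isCD_IC (K := K) ht hg
  choose a ha b hb hb0 hab using fun i => hcd.frac (φ (x i))
  set w : K := ∏ i, b i with hw
  have hw0 : w ≠ 0 := Finset.prod_ne_zero_iff.2 fun i _ => hb0 i
  have hwx : ∀ i, w ^ d i * φ (x i) ∈ IC (B1 t g) := by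
    intro i
    rcases Nat.eq_zero_or_pos (d i) with h0 | h0
    · have h1 := hx i
      rw [h0] at h1
      obtain ⟨c, hc⟩ := hP.connected _ h1
      rw [h0, pow_zero, one_mul, hc, AlgHom.commutes]
      exact Subalgebra.algebraMap_mem _ c
    · obtain ⟨e, he⟩ := Nat.exists_eq_succ_of_ne_zero h0.ne'
      have h1 : w = b i * ∏ j ∈ Finset.univ.erase i, b j := by
        rw [hw, Finset.mul_prod_erase _ _ (Finset.mem_univ i)]
      have h2 : w ∈ IC (B1 t g) := prod_mem fun j _ => hb j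
      have h3 : w ^ d i * φ (x i) = w ^ e * ((∏ j ∈ Finset.univ.erase i, b j) * a i) := by
        rw [he, pow_succ, hab i, mul_assoc]
        congr 1
        conv_lhs => rw [h1]
        have := hb0 i
        field_simp
      rw [h3]
      exact mul_mem (pow_mem h2 _) (mul_mem (prod_mem fun j _ => hb j) (ha i))
  have hrange : ∀ r, Sc.twist 𝒜 φ w r ∈ IC (B1 t g) := by
    have h1 : Algebra.adjoin k (Set.range x) ≤ (IC (B1 t g)).comap (Sc.twist 𝒜 φ w) := by
      rw [Algebra.adjoin_le_iff]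
      rintro _ ⟨i, rfl⟩
      rw [SetLike.mem_coe, Subalgebra.mem_comap, Sc.twist_apply 𝒜 φ w (hx i)]
      exact hwx i
    intro r
    have h2 : r ∈ Algebra.adjoin k (Set.range x) := by rw [hgen]; trivial
    exact h1 h2
  obtain ⟨j0, hj0, r0, hr0, hne⟩ := hNV
  obtain ⟨v, F, hv, hF, j, hj, r, hr, hu⟩ := ga_scale (k := k) hcl.2 hnf hLB hx hgen
    ((Sc.twist 𝒜 φ w).codRestrict (IC (B1 t g)) hrange) ⟨j0, hj0, r0, hr0, by
      intro h
      have h1 : Sc.twist 𝒜 φ w r0 = 0 := congrArg Subtype.val h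
      rw [Sc.twist_apply 𝒜 φ w hr0] at h1
      exact mul_ne_zero (pow_ne_zero _ hw0) hne h1⟩
  have hv' : (v : K) ≠ 0 := fun h => hv (Subtype.ext h)
  have hF' : ∀ m, ∀ s ∈ 𝒜 m, (w / (v : K)) ^ m * φ s = (F s : K) := by
    intro m s hs
    have h1 := congrArg Subtype.val (hF m s hs)
    have h2 : w ^ m * φ s = (v : K) ^ m * (F s : K) := by
      rw [← Sc.twist_apply 𝒜 φ w hs]
      exact h1
    rw [div_pow]
    field_simp
    rw [h2]
  refine ⟨w / (v : K), div_ne_zero hw0 hv', fun m s hs => ?_, j, hj, r, hr, ?_, ?_⟩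
  · rw [hF' m s hs]
    exact (F s).2
  · intro h0
    have h1 := hF' j r hr
    rw [h0, mul_zero] at h1
    have h2 : F r = 0 := Subtype.ext h1.symm
    rw [h2] at hu
    exact not_isUnit_zero hu
  · rw [hF' j r hr]
    obtain ⟨e, he⟩ := hu.exists_right_inv
    have h1 : (F r : K) * (e : K) = 1 := congrArg Subtype.val he
    rw [← eq_inv_of_mul_eq_one_right h1]
    exact e.2

end chart

end Vale.Agent.P292.Mo
end

section

/-! # Homogeneous local generators of an invertible ideal at finitely many points. -/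

namespace Vale.Agent.P292.Dv

universe u v w

variable {k : Type u} [Field k] {R : Type v} [CommRing R] [Algebra k R]
  {𝒜 : ℕ → Submodule k R} [GradedAlgebra 𝒜]

/-- In all large degrees there is a form which does not vanish at the point. -/
theorem gp_large (y : R →ₐ[k] k)
    (hlb : ∀ d : ℕ, (∀ n, ∀ r ∈ 𝒜 n, y r ≠ 0 → d ∣ n) → d = 1) :
    ∃ n : ℕ, ∀ m ≥ n, ∃ r ∈ 𝒜 m, y r ≠ 0 := by
  let S : AddSubmonoid ℕ :=
    { carrier := {n | ∃ r ∈ 𝒜 n, y r ≠ 0}
      zero_mem' := ⟨1, SetLike.GradedOne.one_mem, by rw [map_one]; exact one_ne_zero⟩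
      add_mem' := by
        rintro a b ⟨r, hr, hr'⟩ ⟨s, hs, hs'⟩
        exact ⟨r * s, SetLike.mul_mem_graded hr hs, by rw [map_mul]; exact mul_ne_zero hr' hs'⟩ }
  have hS : Nat.setGcd (S : Set ℕ) = 1 := by
    refine hlb _ fun n r hr hr' => ?_
    exact Nat.setGcd_dvd_of_mem (show n ∈ (S : Set ℕ) from ⟨r, hr, hr'⟩)
  obtain ⟨n, hn⟩ := Nat.exists_mem_closure_of_ge (S : Set ℕ)
  refine ⟨n, fun m hm => ?_⟩
  have := hn m hm (by rw [hS]; exact one_dvd _)
  rw [AddSubmonoid.closure_eq] at this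
  exact this

/-- Homogeneous avoidance in an ideal. -/
theorem gp_avoid [Infinite k] {ι : Type w} [Finite ι] (y : ι → R →ₐ[k] k)
    (hlb : ∀ c, ∀ d : ℕ, (∀ n, ∀ r ∈ 𝒜 n, y c r ≠ 0 → d ∣ n) → d = 1)
    (I : Ideal R) (W : ι → Submodule k R)
    (hW : ∀ c, ∀ x ∈ I, x ∉ W c → ∀ r : R, y c r ≠ 0 → r * x ∉ W c)
    (h : ∀ c, ∃ m, ∃ x ∈ 𝒜 m, x ∈ I ∧ x ∉ W c) :
    ∃ i, ∃ a ∈ 𝒜 i, a ∈ I ∧ ∀ c, a ∉ W c := by
  classical
  have : Fintype ι := Fintype.ofFinite ι
  choose n hn using fun c => gp_large (y c) (hlb c)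
  choose m x hx hxI hxW using h
  have hle : ∀ c, n c + m c ≤ ∑ c, (n c + m c) := fun c =>
    Finset.single_le_sum (f := fun c => n c + m c) (fun _ _ => Nat.zero_le _) (Finset.mem_univ c)
  generalize (∑ c, (n c + m c)) = i at hle
  by_contra hcon
  push Not at hcon
  let V : Submodule k R := 𝒜 i ⊓ I.restrictScalars k
  obtain ⟨c, hc⟩ := Subspace.exists_eq_top_of_iUnion_eq_univ
    (p := fun c => (W c).comap V.subtype) (by
      refine Set.eq_univ_of_forall fun a => ?_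
      obtain ⟨c, hc⟩ := hcon i a a.2.1 a.2.2
      exact Set.mem_iUnion.2 ⟨c, hc⟩)
  obtain ⟨r, hr, hyr⟩ := hn c (i - m c) (by have := hle c; omega)
  have h1 : r * x c ∈ 𝒜 i := by
    have h2 := SetLike.mul_mem_graded hr (hx c)
    rwa [Nat.sub_add_cancel (by have := hle c; omega)] at h2
  have h2 : (⟨r * x c, h1, I.mul_mem_left _ (hxI c)⟩ : V) ∈ (W c).comap V.subtype := by
    rw [hc]; trivial
  exact hW c _ (hxI c) (hxW c) r hyr h2

omit [GradedAlgebra 𝒜] in
/-- The cover of the nonvertex points. -/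
theorem gp_cover {T : ℕ} {b : Fin T → R}
    (hb : ∀ n, 0 < n → ∀ r ∈ 𝒜 n, ∃ N, r ^ N ∈ Ideal.span (Set.range b))
    {E : Type w} [CommRing E] [IsDomain E] [Algebra k E] (y : R →ₐ[k] E) (hy : Mo.NV 𝒜 y) :
    ∃ t, y (b t) ≠ 0 := by
  by_contra hcon
  push Not at hcon
  obtain ⟨n, hn, r, hr, hyr⟩ := hy
  obtain ⟨N, hN⟩ := hb n hn r hr
  have h1 : Ideal.span (Set.range b) ≤ RingHom.ker y := by
    rw [Ideal.span_le]
    rintro _ ⟨t, rfl⟩
    exact hcon t
  have h2 : y (r ^ N) = 0 := h1 hN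
  rw [map_pow] at h2
  exact hyr (eq_zero_of_pow_eq_zero h2)

/-- A homogeneous quotient. -/
theorem gp_quot {i j : ℕ} {a x r : R} (ha : a ∈ 𝒜 i) (hx : x ∈ 𝒜 j) (h : x = r * a) :
    (i ≤ j ∧ ∃ r' ∈ 𝒜 (j - i), x = r' * a) ∨ x = 0 := by
  classical
  have h1 : (DirectSum.decompose 𝒜 (r * a) j : R) = x := by
    rw [← h]
    exact DirectSum.decompose_of_mem_same 𝒜 hx
  rw [DirectSum.coe_decompose_mul_of_right_mem 𝒜 j ha] at h1
  split_ifs at h1 with h2
  · exact Or.inl ⟨h2, _, SetLike.coe_mem _, h1.symm⟩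
  · exact Or.inr h1.symm

/-- A homogeneous local generator at finitely many points. -/
theorem gp_pair [Infinite k] {J : Ideal R} (hJ : IsInv 𝒜 J) {ι : Type w} [Finite ι]
    (y : ι → R →ₐ[k] k) (hNV : ∀ c, Mo.NV 𝒜 (y c))
    (hlb : ∀ c, ∀ d : ℕ, (∀ n, ∀ r ∈ 𝒜 n, y c r ≠ 0 → d ∣ n) → d = 1)
    (hreg : ∀ c, ∀ i, ∀ a ∈ 𝒜 i, a ∈ J → ∀ j, ∀ b ∈ 𝒜 j, y c b ≠ 0 →
      (∀ x ∈ J, ∃ r, b * x = r * a) → ∀ z, y c z ≠ 0 → z * a ≠ 0) :
    ∃ i j, ∃ a ∈ 𝒜 i, a ∈ J ∧ ∃ b ∈ 𝒜 j, (∀ x ∈ J, ∃ r, b * x = r * a) ∧ ∀ c, y c b ≠ 0 := by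
  classical
  obtain ⟨T, α, β, dα, dβ, hα, hβ, hαJ, hgen, hcov⟩ := hJ
  choose τ hτ using fun c => gp_cover hcov (y c) (hNV c)
  let W : ι → Submodule k R := fun c =>
    { carrier := {x | ∃ s r, y c s ≠ 0 ∧ y c r = 0 ∧ s * x = r * α (τ c)}
      zero_mem' := ⟨1, 0, by rw [map_one]; exact one_ne_zero, map_zero _, by simp⟩
      add_mem' := by
        rintro x x' ⟨s, r, h1, h2, h3⟩ ⟨s', r', h1', h2', h3'⟩
        refine ⟨s * s', s' * r + s * r', by rw [map_mul]; exact mul_ne_zero h1 h1',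
          by rw [map_add, map_mul, map_mul, h2, h2', mul_zero, mul_zero, add_zero], ?_⟩
        linear_combination s' * h3 + s * h3'
      smul_mem' := by
        rintro κ x ⟨s, r, h1, h2, h3⟩
        refine ⟨s, κ • r, h1, by rw [map_smul, h2, smul_zero], ?_⟩
        rw [mul_smul_comm, h3, smul_mul_assoc] }
  obtain ⟨i, a, ha, haJ, haW⟩ := gp_avoid y hlb J W
    (by
      intro c x hxJ hx r hr hcon
      obtain ⟨s, r', h1, h2, h3⟩ := hcon
      exact hx ⟨s * r, r', by rw [map_mul]; exact mul_ne_zero h1 hr, h2, by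
        rw [mul_assoc]; exact h3⟩)
    (by
      intro c
      refine ⟨dα (τ c), α (τ c), hα _, hαJ _, ?_⟩
      rintro ⟨s, r, h1, h2, h3⟩
      exact hreg c _ _ (hα _) (hαJ _) _ _ (hβ _) (hτ c) (hgen _) (s - r)
        (by rw [map_sub, h2, sub_zero]; exact h1) (by rw [sub_mul, h3, sub_self]))
  let 𝔟 : Ideal R :=
    { carrier := {b | ∀ x ∈ J, ∃ r, b * x = r * a}
      zero_mem' := fun x _ => ⟨0, by simp⟩
      add_mem' := by
        intro b b' hb hb' x hx
        obtain ⟨r, hr⟩ := hb x hx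
        obtain ⟨r', hr'⟩ := hb' x hx
        exact ⟨r + r', by rw [add_mul, hr, hr', add_mul]⟩
      smul_mem' := by
        intro c b hb x hx
        obtain ⟨r, hr⟩ := hb x hx
        exact ⟨c * r, by rw [smul_eq_mul, mul_assoc, hr, mul_assoc]⟩ }
  obtain ⟨j, b, hb, hbI, hbW⟩ := gp_avoid y hlb 𝔟 (fun c => LinearMap.ker (y c).toLinearMap)
    (by
      intro c x _ hx r hr hcon
      have h1 : y c (r * x) = 0 := hcon
      rw [map_mul] at h1
      exact (mul_eq_zero.1 h1).elim hr fun h => hx h)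
    (by
      intro c
      obtain ⟨r, hr⟩ := hgen (τ c) a haJ
      have hdeg : β (τ c) * a ∈ 𝒜 (dβ (τ c) + i) := SetLike.mul_mem_graded (hβ _) ha
      rcases gp_quot (hα (τ c)) hdeg hr with ⟨hle, r', hr', h1⟩ | h1
      · have hyr' : y c r' ≠ 0 := fun h0 => haW c ⟨β (τ c), r', hτ c, h0, h1⟩
        refine ⟨_, r' * β (τ c), SetLike.mul_mem_graded hr' (hβ _), ?_, ?_⟩
        · intro x hx
          obtain ⟨s, hs⟩ := hgen (τ c) x hx
          refine ⟨s * β (τ c), ?_⟩
          linear_combination r' * hs - s * h1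
        · intro h0
          have h2 : y c (r' * β (τ c)) = 0 := h0
          rw [map_mul] at h2
          exact mul_ne_zero hyr' (hτ c) h2
      · exact absurd ⟨β (τ c), 0, hτ c, map_zero _, by rw [h1, zero_mul]⟩ (haW c))
  exact ⟨i, j, a, ha, haJ, b, hb, hbI, fun c => hbW c⟩

end Vale.Agent.P292.Dv
end

section

/-! # C1: every point over a function field of a curve, with the pull back of an invertible ideal,
has a geometric model. -/

namespace Vale.Agent.P292.Dv

open Vale.Agent.P292.Mo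

universe u v w

variable {k : Type u} [Field k] {R : Type v} [CommRing R] [Algebra k R]
  {𝒜 : ℕ → Submodule k R} [GradedAlgebra 𝒜] {P : R →ₗ[k] R →ₗ[k] R} {J : Ideal R}
  {K : Type w} [Field K] [Algebra k K]

omit [GradedAlgebra 𝒜] in
/-- Values at local generators. -/
theorem ExGP.ne {φ : R →ₐ[k] K} {η : J →ₗ[k] K}
    (hη : ∀ (r : R) (x : J), η (r • x) = φ r * η x) (hη0 : ∃ x, η x ≠ 0) (a : J) (b : R)
    (hb : φ b ≠ 0) (hab : ∀ x ∈ J, ∃ r, b * x = r * a) : η a ≠ 0 := by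
  intro h0
  obtain ⟨x, hx⟩ := hη0
  obtain ⟨r, hr⟩ := hab x x.2
  have h2 : η (b • x) = η (r • a) := congrArg η (Subtype.ext hr)
  rw [hη, hη, h0, mul_zero] at h2
  exact mul_ne_zero hb hx h2

/-- The second chart of a pair. -/
theorem ExGP.chart1 [IsAlgClosed k] (hP : IsPM 𝒜 P) (hinv : IsInv 𝒜 J) {A₀ A₁ : Subalgebra k K}
    {u : K} {φ : R →ₐ[k] K} (hmp : IsMp 𝒜 A₀ A₁ u φ) (hfin : Finite (A₁ →ₐ[k] k))
    (hunit : ∀ a : A₁, (∀ c : A₁ →ₐ[k] k, c a ≠ 0) → IsUnit a) (η : J →ₗ[k] K)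
    (hη : ∀ (r : R) (x : J), η (r • x) = φ r * η x) (hη0 : ∃ x, η x ≠ 0) :
    ∃ v : K, v ≠ 0 ∧ (∀ n, ∀ x : J, (x : R) ∈ 𝒜 n → u ^ n * v * η x ∈ A₁) ∧
      ∃ (i j : ℕ) (a : J) (b : R), 0 < j ∧ (a : R) ∈ 𝒜 i ∧ b ∈ 𝒜 j ∧
        (∀ x ∈ J, ∃ r, b * x = r * a) ∧ φ b ≠ 0 ∧ (u ^ j * φ b)⁻¹ ∈ A₁ ∧ η a ≠ 0 ∧
        (u ^ i * v * η a)⁻¹ ∈ A₁ := by
  classical
  have : Infinite k := IsAlgClosed.instInfinite
  have hu := hmp.u_ne
  have hηne := ExGP.ne hη hη0
  obtain ⟨i, j, a, ha, haJ, b, hb, hab, hyb⟩ := gp_pair hinv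
    (fun c : A₁ →ₐ[k] k => pt1 hmp c) (fun c => pt1_NV hmp c)
    (fun c => hP.lineBundle _ (pt1_NV hmp c)) (by
      intro c i a ha haJ j b hb hyb hab z hz hza
      have hφb : φ b ≠ 0 := by
        have h3 := pt1_ne hmp c hyb
        rw [Sc.twist_apply 𝒜 φ u hb] at h3
        exact right_ne_zero_of_mul h3
      have hηa := hηne ⟨a, haJ⟩ b hφb hab
      obtain ⟨n, hn⟩ : ∃ n, pt1 hmp c (DirectSum.decompose 𝒜 z n : R) ≠ 0 := by
        by_contra hcon
        push Not at hcon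
        apply hz
        rw [← DirectSum.sum_support_decompose 𝒜 z, map_sum]
        exact Finset.sum_eq_zero fun n _ => hcon n
      have h3 : (DirectSum.decompose 𝒜 z n : R) * a = 0 := by
        have h4 := DirectSum.coe_decompose_mul_of_right_mem_of_le 𝒜 (a := z) ha
          (Nat.le_add_left i n)
        rw [hza, Nat.add_sub_cancel, DirectSum.decompose_zero] at h4
        exact h4.symm
      have h5 := pt1_ne hmp c hn
      rw [Sc.twist_apply 𝒜 φ u (SetLike.coe_mem _)] at h5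
      have h6 := right_ne_zero_of_mul h5
      have h7 : η ((DirectSum.decompose 𝒜 z n : R) • (⟨a, haJ⟩ : J)) = 0 := by
        have h8 : ((DirectSum.decompose 𝒜 z n : R) • (⟨a, haJ⟩ : J)) = 0 := Subtype.ext h3
        rw [h8, map_zero]
      rw [hη] at h7
      exact mul_ne_zero h6 hηa h7)
  obtain ⟨c₁⟩ : Nonempty (A₁ →ₐ[k] k) := by
    by_contra hcon
    rw [not_nonempty_iff] at hcon
    exact not_isUnit_zero (hunit 0 fun c => isEmptyElim c)
  have hφb : φ b ≠ 0 := by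
    have h3 := pt1_ne hmp c₁ (hyb c₁)
    rw [Sc.twist_apply 𝒜 φ u hb] at h3
    exact right_ne_zero_of_mul h3
  have hηa := hηne ⟨a, haJ⟩ b hφb hab
  have hsec1 : ∀ n, ∀ r ∈ 𝒜 n, u ^ n * φ r ∈ A₁ := fun n r hr =>
    (mem_Sec.1 (hmp.sec n r hr)).2
  have hub : (u ^ j * φ b)⁻¹ ∈ A₁ := by
    have h3 : IsUnit (⟨u ^ j * φ b, hsec1 j b hb⟩ : A₁) := by
      refine hunit _ fun c h0 => hyb c ?_
      rw [pt1_apply]
      have h4 : (⟨Sc.twist 𝒜 φ u b, F5b_twist_mem hmp b⟩ : A₁) =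
          ⟨u ^ j * φ b, hsec1 j b hb⟩ := Subtype.ext (Sc.twist_apply 𝒜 φ u hb)
      rw [h4]
      exact h0
    obtain ⟨e, he⟩ := h3.exists_right_inv
    have h4 : u ^ j * φ b * (e : K) = 1 := congrArg Subtype.val he
    rw [← eq_inv_of_mul_eq_one_right h4]
    exact e.2
  have hvne : u ^ i * η ⟨a, haJ⟩ ≠ 0 := mul_ne_zero (pow_ne_zero _ hu) hηa
  obtain ⟨n₁, hn₁, r₁, hr₁, hr₁0, hr₁i⟩ := hmp.unit1
  refine ⟨(u ^ i * η ⟨a, haJ⟩)⁻¹, inv_ne_zero hvne, ?_,
    ⟨i, j + n₁, ⟨a, haJ⟩, b * r₁, by omega, ha, SetLike.mul_mem_graded hb hr₁, ?_, ?_, ?_, hηa,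
      ?_⟩⟩
  · intro m x hx
    obtain ⟨r, hr⟩ := hab x x.2
    have hdeg : b * (x : R) ∈ 𝒜 (j + m) := SetLike.mul_mem_graded hb hx
    rcases gp_quot ha hdeg hr with ⟨hle, r', hr', h3⟩ | h3
    · have h4 : η (b • x) = η (r' • ⟨a, haJ⟩) := congrArg η (Subtype.ext h3)
      rw [hη, hη] at h4
      have h5 : u ^ m * (u ^ i * η ⟨a, haJ⟩)⁻¹ * η x =
          (u ^ j * φ b)⁻¹ * (u ^ (j + m - i) * φ r') := by
        have h6 : η x = (φ b)⁻¹ * (φ r' * η ⟨a, haJ⟩) := by
          rw [← h4]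
          field_simp
        have h7 : u ^ (j + m - i) * u ^ i = u ^ j * u ^ m := by
          rw [← pow_add, ← pow_add, Nat.sub_add_cancel hle]
        have h8 : u ^ i ≠ 0 := pow_ne_zero _ hu
        have h9 : u ^ j ≠ 0 := pow_ne_zero _ hu
        rw [h6]
        field_simp
        linear_combination (-(φ r')) * h7
      rw [h5]
      exact mul_mem hub (hsec1 _ r' hr')
    · have h4 : φ b * η x = 0 := by
        rw [← hη]
        have h5 : (b • x : J) = 0 := Subtype.ext h3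
        rw [h5, map_zero]
      have h5 : η x = 0 := (mul_eq_zero.1 h4).resolve_left hφb
      rw [h5, mul_zero]
      exact zero_mem _
  · intro x hx
    obtain ⟨r, hr⟩ := hab x hx
    exact ⟨r₁ * r, by rw [mul_comm b r₁, mul_assoc, hr, mul_assoc]⟩
  · rw [map_mul]
    exact mul_ne_zero hφb hr₁0
  · have h3 : (u ^ (j + n₁) * φ (b * r₁))⁻¹ = (u ^ j * φ b)⁻¹ * (u ^ n₁ * φ r₁)⁻¹ := by
      rw [← mul_inv, map_mul, pow_add]
      ring_nf
    rw [h3]
    exact mul_mem hub hr₁i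
  · have h3 : u ^ i * (u ^ i * η ⟨a, haJ⟩)⁻¹ * η ⟨a, haJ⟩ = 1 := by
      have h8 : u ^ i ≠ 0 := pow_ne_zero _ hu
      field_simp
    rw [h3, inv_one]
    exact one_mem _

/-- C1 (GAP A for pairs). -/
theorem exists_GP' [IsAlgClosed k] (p : ℕ) [Fact p.Prime] [CharP k p]
    (hP : IsPM 𝒜 P) (hinv : IsInv 𝒜 J) {t : K} (ht : Transcendental k t)
    [FiniteDimensional (IntermediateField.adjoin k {t}) K]
    [Algebra.IsSeparable (IntermediateField.adjoin k {t}) K] (φ : R →ₐ[k] K) (hφ : Mo.NV 𝒜 φ)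
    (η : J →ₗ[k] K) (hη : ∀ (r : R) (x : J), η (r • x) = φ r * η x) (hη0 : ∃ x, η x ≠ 0) :
    ∃ (N : ℕ) (g₀ : Polynomial k), g₀ ≠ 0 ∧ ∀ h : Polynomial k, g₀ ∣ h → h ≠ 0 →
      ∃ u v : K, IsGP 𝒜 P J N (IC (B0 t h)) (IC (B1 t h)) u v φ η := by
  classical
  have : Infinite k := IsAlgClosed.instInfinite
  have hηne := ExGP.ne hη hη0
  obtain ⟨g1, N, x, d, g, hg1, hN, hfr, hne, h1⟩ := ga_chart0 p hP ht φ hφ
  obtain ⟨T, α, β, dα, dβ, hα, hβ, hαJ, hgen, hcov⟩ := id hinv
  obtain ⟨τ, hτ⟩ := gp_cover hcov φ hφ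
  have ha0 := hηne ⟨α τ, hαJ τ⟩ (β τ) hτ (hgen τ)
  obtain ⟨g2, hg2, h2⟩ := ga_mem_finset ht
    {(φ (β τ))⁻¹, η ⟨α τ, hαJ τ⟩, (η ⟨α τ, hαJ τ⟩)⁻¹}
  refine ⟨N, g1 * g2, mul_ne_zero hg1 hg2, fun h hgg hg => ?_⟩
  obtain ⟨hφ0, hun0, hfr0⟩ := h1 h ((dvd_mul_right _ _).trans hgg) hg
  have hmem0 : ∀ z ∈ ({(φ (β τ))⁻¹, η ⟨α τ, hαJ τ⟩, (η ⟨α τ, hαJ τ⟩)⁻¹} : Finset K),
      z ∈ IC (B0 t h) := fun z hz => ga_IC0_le ht ((dvd_mul_left _ _).trans hgg) hg (h2 z hz)
  have hb0i : (φ (β τ))⁻¹ ∈ IC (B0 t h) := hmem0 _ (by simp)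
  have ha0m : η ⟨α τ, hαJ τ⟩ ∈ IC (B0 t h) := hmem0 _ (by simp)
  have ha0i : (η ⟨α τ, hαJ τ⟩)⁻¹ ∈ IC (B0 t h) := hmem0 _ (by simp)
  have hcl := closed_IC1 (K := K) ht hg
  obtain ⟨u, hu, hs1, hun1⟩ := ga_chart1 hP ht φ hφ hg
  have hmp : IsMp 𝒜 (IC (B0 t h)) (IC (B1 t h)) u φ :=
    ⟨hu, fun n r hr => mem_Sec.2 ⟨hφ0 r, hs1 n r hr⟩, hun0, hun1⟩
  obtain ⟨x', d', g', hfr1⟩ := fr1_of_mp hP hmp hcl.1 hcl.2 hfr hne
    (fun Y h1 h2 h3 => exists_frame_finset p hP Y h1 h2 h3)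
  obtain ⟨v, hv, hsv, hloc1⟩ := ExGP.chart1 hP hinv hmp hcl.1 hcl.2 η hη hη0
  have hη0m : ∀ x, η x ∈ IC (B0 t h) := by
    intro x
    obtain ⟨r, hr⟩ := hgen τ x x.2
    have h3 : η (β τ • x) = η (r • ⟨α τ, hαJ τ⟩) := congrArg η (Subtype.ext hr)
    rw [hη, hη] at h3
    have h4 : η x = (φ (β τ))⁻¹ * (φ r * η ⟨α τ, hαJ τ⟩) := by
      rw [← h3]
      field_simp
    rw [h4]
    exact mul_mem hb0i (mul_mem (hφ0 r) ha0m)
  obtain ⟨n₀, hn₀, r₀, hr₀, hr₀0, hr₀i⟩ := hun0
  exact ⟨u, v,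
    { mp := hmp
      v_ne := hv
      lin := hη
      secη := fun n x hx => ⟨hη0m x, hsv n x hx⟩
      loc0 := ⟨dα τ, dβ τ + n₀, ⟨α τ, hαJ τ⟩, β τ * r₀, by omega, hα τ,
        SetLike.mul_mem_graded (hβ τ) hr₀, fun x hx => by
          obtain ⟨r, hr⟩ := hgen τ x hx
          exact ⟨r₀ * r, by rw [mul_comm (β τ) r₀, mul_assoc, hr, mul_assoc]⟩,
        by rw [map_mul]; exact mul_ne_zero hτ hr₀0,
        by rw [map_mul, mul_inv]; exact mul_mem hb0i hr₀i, ha0, ha0i⟩
      loc1 := hloc1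
      Npos := hN
      frames := ⟨x, d, g, x', d', g', hfr0, hfr1⟩ }⟩

/-- C1 (GAP A for pairs). -/
theorem exists_GP [IsAlgClosed k] [IsDomain R] (p : ℕ) [Fact p.Prime] [CharP k p]
    (hP : IsPM 𝒜 P) (hJ : J.IsHomogeneous 𝒜) (hinv : IsInv 𝒜 J) {t : K} (ht : Transcendental k t)
    [FiniteDimensional (IntermediateField.adjoin k {t}) K]
    [Algebra.IsSeparable (IntermediateField.adjoin k {t}) K] (φ : R →ₐ[k] K) (hφ : Mo.NV 𝒜 φ)
    (η : J →ₗ[k] K) (hη : ∀ (r : R) (x : J), η (r • x) = φ r * η x) (hη0 : ∃ x, η x ≠ 0) :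
    ∃ (N : ℕ) (A₀ A₁ : Subalgebra k K) (u v : K), IsCh t A₀ A₁ ∧
      IsGP 𝒜 P J N A₀ A₁ u v φ η := by
  obtain ⟨N, g, hg, h⟩ := exists_GP' p hP hinv ht φ hφ η hη hη0
  obtain ⟨u, v, hGP⟩ := h g dvd_rfl hg
  exact ⟨N, IC (B0 t g), IC (B1 t g), u, v, ⟨g, hg, rfl, rfl⟩, hGP⟩

end Vale.Agent.P292.Dv
end

section

/-! # P292, Part III, block T2, leaf C7: the degree of the divisor is bounded by the degree of the
curve. -/

namespace Vale.Agent.P292.Dv

open Vale.Agent.P292.Mo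

universe u v w

section C

variable {k : Type u} [Field k] {R : Type v} [CommRing R] [Algebra k R]
  {𝒜 : ℕ → Submodule k R} [GradedAlgebra 𝒜] {P : R →ₗ[k] R →ₗ[k] R} {J : Ideal R}

/-- C7. The degree of the divisor is bounded by the degree of the curve. -/
theorem neg_idx_le [IsAlgClosed k] [Algebra.FiniteType k R] (hJ : J.IsHomogeneous 𝒜) :
    ∃ κ : ℕ, ∀ {K : Type w} [Field K] [Algebra k K] {A₀ A₁ : Subalgebra k K}, IsCD A₀ A₁ →
      ∀ {N : ℕ} {u v : K} {φ : R →ₐ[k] K} {η : J →ₗ[k] K}, IsGP 𝒜 P J N A₀ A₁ u v φ η →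
      0 ≤ idx A₁ u ∧ - idx A₁ v ≤ κ * idx A₁ u := by
  classical
  have hN : IsNoetherianRing R := Algebra.FiniteType.isNoetherianRing k R
  obtain ⟨S, hS⟩ : J.FG := IsNoetherian.noetherian J
  have hSJ : ∀ x ∈ S, x ∈ J := fun x hx => by
    rw [← hS]
    exact Ideal.subset_span hx
  refine ⟨S.sup fun x => (DirectSum.decompose 𝒜 x).support.sup id, ?_⟩
  intro K _ _ A₀ A₁ hcd N u v φ η h
  have hu := h.mp.u_ne
  have hv := h.v_ne
  have h1 : 0 ≤ idx A₁ u := by
    obtain ⟨n, hn, r, hr, hr0, -⟩ := h.mp.unit0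
    have h2 := h.mp.sec n r hr
    rw [mem_Sec] at h2
    have h3 : 0 ≤ idx A₁ (u ^ n * φ r) := by
      rw [hcd.idx_of_mem h2.2]
      exact Int.natCast_nonneg _
    rw [hcd.idx_mul (pow_ne_zero n hu) hr0, hcd.idx_pow hu] at h3
    have h4 := hcd.idx_le h2.1 hr0
    have hn' : (0 : ℤ) < n := by exact_mod_cast hn
    by_contra hneg
    have h5 : (n : ℤ) * idx A₁ u < 0 := mul_neg_of_pos_of_neg hn' (not_le.1 hneg)
    omega
  refine ⟨h1, ?_⟩
  obtain ⟨i, x, hx, hi, hx0⟩ : ∃ (i : ℕ) (x : J), (x : R) ∈ 𝒜 i ∧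
      i ≤ (S.sup fun x => (DirectSum.decompose 𝒜 x).support.sup id) ∧ η x ≠ 0 := by
    by_contra hcon
    push Not at hcon
    have hz : ∀ x ∈ S, ∀ hx : x ∈ J, η ⟨x, hx⟩ = 0 := by
      intro x hxS hx
      have e1 : (⟨x, hx⟩ : J) = ∑ i ∈ (DirectSum.decompose 𝒜 x).support,
          (⟨(DirectSum.decompose 𝒜 x i : R), hJ i hx⟩ : J) := by
        apply Subtype.ext
        rw [AddSubmonoidClass.coe_finsetSum]
        exact (DirectSum.sum_support_decompose 𝒜 x).symm
      rw [e1, map_sum]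
      refine Finset.sum_eq_zero fun i hi => ?_
      refine hcon i _ (DirectSum.decompose 𝒜 x i).2 ?_
      exact (Finset.le_sup (f := id) hi).trans
        (Finset.le_sup (f := fun x => (DirectSum.decompose 𝒜 x).support.sup id) hxS)
    have hall : ∀ x, ∀ hx : x ∈ J, η ⟨x, hx⟩ = 0 := by
      intro x hx
      have hx' : x ∈ Ideal.span (S : Set R) := by
        rw [show Ideal.span (S : Set R) = J from hS]
        exact hx
      have hsub : Ideal.span (S : Set R) ≤ J := le_of_eq hS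
      revert hx
      induction hx' using Submodule.span_induction with
      | mem x hxS => exact hz x hxS
      | zero =>
        intro hx
        exact map_zero η
      | add a b ha hb iha ihb =>
        intro hx
        have e1 : (⟨a + b, hx⟩ : J) = ⟨a, hsub ha⟩ + ⟨b, hsub hb⟩ := rfl
        rw [e1, map_add, iha (hsub ha), ihb (hsub hb), add_zero]
      | smul r a ha iha =>
        intro hx
        have e1 : (⟨r • a, hx⟩ : J) = r • ⟨a, hsub ha⟩ := rfl
        rw [e1, h.lin, iha (hsub ha), mul_zero]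
    obtain ⟨_, _, a, _, _, _, _, _, _, _, ha0, _⟩ := h.loc0
    exact ha0 (hall a a.2)
  have h2 := h.secη i x hx
  have h3 : 0 ≤ idx A₁ (u ^ i * v * η x) := by
    rw [hcd.idx_of_mem h2.2]
    exact Int.natCast_nonneg _
  rw [hcd.idx_mul (mul_ne_zero (pow_ne_zero i hu) hv) hx0, hcd.idx_mul (pow_ne_zero i hu) hv,
    hcd.idx_pow hu] at h3
  have h4 := hcd.idx_le h2.1 hx0
  have h5 : (i : ℤ) * idx A₁ u ≤
      ((S.sup fun x => (DirectSum.decompose 𝒜 x).support.sup id : ℕ) : ℤ) * idx A₁ u :=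
    mul_le_mul_of_nonneg_right (by exact_mod_cast hi) h1
  linarith

end C

end Vale.Agent.P292.Dv
end

section

/-! # P292, Part III, block T2, leaf I2: the degree on the divisor is positive. -/

namespace Vale.Agent.P292.Dv

open Vale.Agent.P292.Mo

set_option linter.unusedSectionVars false
set_option linter.unusedVariables false

universe u v w

namespace IdxNeg

variable {k : Type u} [Field k] {K : Type w} [Field K] [Algebra k K]

/-- An element of the second chart of index zero is a unit there. -/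
theorem inv_mem_of_idx {A₀ A₁ : Subalgebra k K} (cd : IsCD A₀ A₁) {x : K} (hx : x ∈ A₁)
    (h0 : x ≠ 0) (hi : idx A₁ x = 0) : x⁻¹ ∈ A₁ := by
  have hfin := cd.finQ x hx h0
  rw [cd.idx_of_mem hx] at hi
  have h1 : Module.finrank k (↥(Subalgebra.toSubmodule A₁) ⧸
      ((Subalgebra.toSubmodule A₁).map (LinearMap.mulLeft k x)).comap
        (Subalgebra.toSubmodule A₁).subtype) = 0 := by exact_mod_cast hi
  have h2 := Module.finrank_zero_iff.mp h1
  have h3 : (⟨1, A₁.one_mem⟩ : ↥(Subalgebra.toSubmodule A₁)) ∈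
      ((Subalgebra.toSubmodule A₁).map (LinearMap.mulLeft k x)).comap
        (Subalgebra.toSubmodule A₁).subtype :=
    (Submodule.Quotient.mk_eq_zero _).1 (Subsingleton.elim _ _)
  obtain ⟨y, hy, hxy⟩ := h3
  have h4 : x * y = 1 := hxy
  have h5 : x⁻¹ = y := inv_eq_of_mul_eq_one_right h4
  rw [h5]
  exact hy

/-- Nonnegativity of the index on the second chart. -/
theorem idx_nonneg {A₀ A₁ : Subalgebra k K} (cd : IsCD A₀ A₁) {x : K} (hx : x ∈ A₁) :
    0 ≤ idx A₁ x := by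
  rw [cd.idx_of_mem hx]
  exact Int.natCast_nonneg _

/-- A unit of a subalgebra contained in `V` has valuation one. -/
theorem val_one {B : Subalgebra k K} (V : ValuationSubring K) (hB : ∀ a ∈ B, a ∈ V) {x : K}
    (hx : x ∈ B) (hx' : x⁻¹ ∈ B) (h0 : x ≠ 0) : V.valuation x = 1 := by
  have h1 := (V.valuation_le_one_iff x).2 (hB x hx)
  have h2 := (V.valuation_le_one_iff x⁻¹).2 (hB _ hx')
  have h3 : V.valuation x * V.valuation x⁻¹ = 1 := by
    rw [← map_mul, mul_inv_cancel₀ h0, map_one]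
  refine le_antisymm h1 ?_
  rw [← h3]
  exact mul_le_of_le_one_right' h2

/-- The quotient of a unit by a regular element has valuation at least one. -/
theorem not_lt {V : ValuationSubring K} {a s : K} {n i : ℕ} (ha : V.valuation a = 1)
    (hs : V.valuation s ≤ 1) (hs0 : s ≠ 0) : ¬ V.valuation (a ^ n / s ^ i) < 1 := by
  intro h
  rw [map_div₀, map_pow, ha, one_pow, map_pow, one_div] at h
  have h1 : V.valuation s ^ i ≤ 1 := pow_le_one' hs i
  have h2 : V.valuation s ^ i ≠ 0 := pow_ne_zero _ ((Valuation.ne_zero_iff _).2 hs0)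
  exact absurd h (_root_.not_lt.2 ((one_le_inv₀ (zero_lt_iff.2 h2)).2 h1))

end IdxNeg

section

variable {k : Type u} [Field k] {R : Type v} [CommRing R] [Algebra k R]
  {𝒜 : ℕ → Submodule k R} [GradedAlgebra 𝒜] {P : R →ₗ[k] R →ₗ[k] R} {J : Ideal R}

/-- I2. Its degree on the divisor is positive. -/
theorem idx_neg_of_meets [IsAlgClosed k] [IsDomain R] {K : Type w} [Field K] [Algebra k K] {t : K}
    (ht : Transcendental k t) [FiniteDimensional (IntermediateField.adjoin k {t}) K]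
    [Algebra.IsSeparable (IntermediateField.adjoin k {t}) K] {A₀ A₁ : Subalgebra k K} {u v : K}
    {φ : R →ₐ[k] K} {η : J →ₗ[k] K} {N : ℕ} (hch : IsCh t A₀ A₁)
    (h : IsGP 𝒜 P J N A₀ A₁ u v φ η) (hη : ∀ x : J, η x = φ x) (V : ValuationSubring K)
    (hVt : V ≠ ⊤) (hVk : ∀ c : k, algebraMap k K c ∈ V) {n : ℕ} (hn : 0 < n) {s : R}
    (hs : s ∈ 𝒜 n) (hs0 : φ s ≠ 0) (hV : ∀ r ∈ 𝒜 n, φ r / φ s ∈ V)
    (hVJ : ∀ i, ∀ x ∈ J, x ∈ 𝒜 i → V.valuation (φ x ^ n / φ s ^ i) < 1) :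
    idx A₁ v < 0 := by
  obtain ⟨g, hg, rfl, rfl⟩ := hch
  have cd := isCD_IC (K := K) ht hg
  have hu := h.mp.u_ne
  have hv := h.v_ne
  -- the element of the second chart
  have hv1 : v⁻¹ ∈ IC (B1 t g) := by
    obtain ⟨i, j, a, b, hj, ha, hb, hab, hφb, hφb', hηa, hηa'⟩ := h.loc1
    rw [hη] at hηa hηa'
    have h1 := (mem_Sec.mp (h.mp.sec i a ha)).2
    have h2 : v⁻¹ = u ^ i * φ a * (u ^ i * v * φ a)⁻¹ := by
      have hui : u ^ i ≠ 0 := pow_ne_zero _ hu
      field_simp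
    rw [h2]
    exact (IC (B1 t g)).mul_mem h1 hηa'
  have hle := IdxNeg.idx_nonneg cd hv1
  have hvi := cd.idx_inv hv
  by_contra hcon
  have hzero : idx (IC (B1 t g)) v⁻¹ = 0 := by omega
  have hv2 : v ∈ IC (B1 t g) := by
    have := IdxNeg.inv_mem_of_idx cd hv1 (inv_ne_zero hv) hzero
    rwa [inv_inv] at this
  rcases place_IC ht hg V hVk with hV0 | hV1
  · obtain ⟨i, j, a, b, hj, ha, hb, hab, hφb, hφb', hηa, hηa'⟩ := h.loc0
    rw [hη] at hηa hηa'
    have h1 := (mem_Sec.mp (h.mp.sec i a ha)).1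
    have h2 := (mem_Sec.mp (h.mp.sec n s hs)).1
    have h3 := IdxNeg.val_one V hV0 h1 hηa' hηa
    exact IdxNeg.not_lt h3 ((V.valuation_le_one_iff _).2 (hV0 _ h2)) hs0 (hVJ i a a.2 ha)
  · obtain ⟨i, j, a, b, hj, ha, hb, hab, hφb, hφb', hηa, hηa'⟩ := h.loc1
    rw [hη] at hηa hηa'
    have h1 := (mem_Sec.mp (h.mp.sec i a ha)).2
    have h2 := (mem_Sec.mp (h.mp.sec n s hs)).2
    have hui : u ^ i ≠ 0 := pow_ne_zero _ hu
    have hun : u ^ n ≠ 0 := pow_ne_zero _ hu
    have h4 : (u ^ i * φ a)⁻¹ ∈ IC (B1 t g) := by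
      have e : (u ^ i * φ a)⁻¹ = v * (u ^ i * v * φ a)⁻¹ := by
        field_simp
      rw [e]
      exact (IC (B1 t g)).mul_mem hv2 hηa'
    have h3 := IdxNeg.val_one V hV1 h1 h4 (mul_ne_zero hui hηa)
    have h5 := IdxNeg.not_lt (n := n) (i := i) h3 ((V.valuation_le_one_iff _).2 (hV1 _ h2))
      (mul_ne_zero hun hs0)
    refine h5 ?_
    have e : (u ^ i * φ a) ^ n / (u ^ n * φ s) ^ i = φ a ^ n / φ s ^ i := by
      rw [mul_pow, mul_pow, ← pow_mul, ← pow_mul, mul_comm n i, mul_div_mul_left]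
      exact pow_ne_zero _ hu
    rw [e]
    exact hVJ i a a.2 ha

end

end Vale.Agent.P292.Dv
end

section

/-! # P292, Part III, block T2, Q3: the charts of the line. -/

namespace Vale.Agent.P292.Dv

open Vale.Agent.P292.Mo

universe u v w

namespace LineQ3

variable {k : Type u} [Field k]

theorem fd_of_top {K : Type u} [Field K] [Algebra k K] {F : IntermediateField k K} (h : F = ⊤) :
    FiniteDimensional F K ∧ Algebra.IsSeparable F K := by
  have hs : Function.Surjective (algebraMap F K) := fun x => ⟨⟨x, by rw [h]; trivial⟩, rfl⟩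
  have h1 : FiniteDimensional F K :=
    Module.Finite.of_surjective (Algebra.linearMap F K) hs
  refine ⟨h1, ⟨fun x => ?_⟩⟩
  obtain ⟨y, rfl⟩ := hs x
  exact isSeparable_algebraMap y

end LineQ3

/-- Q3. The charts of the line. -/
theorem line_charts {k : Type u} [Field k] [IsAlgClosed k] :
    Transcendental k (RatFunc.X : RatFunc k) ∧
    FiniteDimensional (IntermediateField.adjoin k {(RatFunc.X : RatFunc k)}) (RatFunc k) ∧
    Algebra.IsSeparable (IntermediateField.adjoin k {(RatFunc.X : RatFunc k)}) (RatFunc k) ∧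
    ∀ A₀ A₁ : Subalgebra k (RatFunc k), IsCh (RatFunc.X : RatFunc k) A₀ A₁ →
      1 ≤ chi0 A₀ A₁ := by
  have ht : Transcendental k (RatFunc.X : RatFunc k) := RatFunc.transcendental_X
  have htop : IntermediateField.adjoin k {(RatFunc.X : RatFunc k)} = ⊤ := RatFunc.adjoin_X
  obtain ⟨h1, h2⟩ := LineQ3.fd_of_top htop
  refine ⟨ht, h1, h2, ?_⟩
  rintro _ _ ⟨g, hg, rfl, rfl⟩
  have hcd : IsCD (IC (B0 (RatFunc.X : RatFunc k) g)) (IC (B1 (RatFunc.X : RatFunc k) g)) :=
    isCD_IC ht hg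
  have hsup : Subalgebra.toSubmodule (IC (B0 (RatFunc.X : RatFunc k) g)) ⊔
      Subalgebra.toSubmodule (IC (B1 (RatFunc.X : RatFunc k) g)) = ⊤ := by
    rw [eq_top_iff]
    intro x _
    obtain ⟨a, ha, b, hb, hab⟩ := b0_add_b1 ht hg (x := x) (by rw [htop]; trivial)
    rw [hab]
    exact Submodule.add_mem_sup (cd_le_IC ha) (cd_le_IC hb)
  have h3 : Module.finrank k (RatFunc k ⧸ (Subalgebra.toSubmodule
      (IC (B0 (RatFunc.X : RatFunc k) g)) ⊔
      Subalgebra.toSubmodule (IC (B1 (RatFunc.X : RatFunc k) g)))) = 0 := by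
    rw [hsup]
    have : Subsingleton (RatFunc k ⧸ (⊤ : Submodule k (RatFunc k))) :=
      Submodule.Quotient.subsingleton_iff.2 rfl
    exact Module.finrank_zero_of_subsingleton
  have h4 := hcd.fin0
  have h5 : 0 < Module.finrank k ↥(Subalgebra.toSubmodule
      (IC (B0 (RatFunc.X : RatFunc k) g)) ⊓
      Subalgebra.toSubmodule (IC (B1 (RatFunc.X : RatFunc k) g))) := by
    have : Nontrivial ↥(Subalgebra.toSubmodule
      (IC (B0 (RatFunc.X : RatFunc k) g)) ⊓
      Subalgebra.toSubmodule (IC (B1 (RatFunc.X : RatFunc k) g))) := by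
      refine ⟨⟨⟨1, Subalgebra.one_mem _, Subalgebra.one_mem _⟩, 0, fun h => ?_⟩⟩
      exact one_ne_zero (congrArg Subtype.val h)
    exact Module.finrank_pos
  rw [chi0, h3]
  omega

end Vale.Agent.P292.Dv
end

section

/-! # P292, Part III, block T2, leaf Q4: a closed pair which is positive on the divisor has
positive degree. -/

namespace Vale.Agent.P292.Dv

open MvPolynomial

universe u v

variable {k : Type u} [Field k] {R : Type v} [CommRing R] [Algebra k R]
  {𝒜 : ℕ → Submodule k R} [GradedAlgebra 𝒜] {J : Ideal R}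

/-- Q4. A closed pair has positive degree if it is positive on the divisor. -/
theorem pair_deg_pos {e δ : ℕ} {φ : R →ₐ[k] MvPolynomial (Fin 2) k}
    {η : J →ₗ[k] MvPolynomial (Fin 2) k} (hJ : J.IsHomogeneous 𝒜) (h : IsPair 𝒜 J e δ φ η)
    (hδ : 0 < δ) : 0 < e := by
  classical
  by_contra he
  have he0 : e = 0 := Nat.eq_zero_of_not_pos he
  obtain ⟨x, hx⟩ := h.bpfη (fun _ => 1) (fun h0 => one_ne_zero (congrFun h0 0))
  apply hx
  have hc : ∀ j, ((DirectSum.decompose 𝒜 (x : R) j : 𝒜 j) : R) ∈ J := fun j => hJ j x.2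
  have hs : x = ∑ j ∈ (DirectSum.decompose 𝒜 (x : R)).support,
      (⟨((DirectSum.decompose 𝒜 (x : R) j : 𝒜 j) : R), hc j⟩ : J) := by
    apply Subtype.ext
    rw [AddSubmonoidClass.coe_finsetSum]
    exact (DirectSum.sum_support_decompose 𝒜 (x : R)).symm
  have hz : η x = 0 := by
    rw [hs, map_sum]
    refine Finset.sum_eq_zero fun j _ => ?_
    refine h.zeroη j _ (SetLike.coe_mem _) ?_
    rw [he0, Nat.zero_mul]
    exact hδ
  rw [hz, map_zero]

end Vale.Agent.P292.Dv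
end

section

/-! # C6: zero count, bound of the base multiplicity. -/

namespace Vale.Agent.P292.Dv

open TensorProduct
open Vale.Agent.P292.Mo

set_option linter.unusedSectionVars false

universe u v w

namespace MultLe

variable {k : Type u} [Field k] {K : Type w} [Field K] [Algebra k K] {A₀ A₁ : Subalgebra k K}

/-- The order of zero at a point of the second chart is at most the index. -/
theorem order_le (hC : IsCD A₀ A₁) {a : K} (ha : a ∈ A₁) (ha0 : a ≠ 0)
    (ex : A₁ →ₐ[k] PowerSeries k)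
    (hs : ∀ (n : ℕ) (s : PowerSeries k), ∃ x, (PowerSeries.X : PowerSeries k) ^ n ∣ ex x - s)
    (b : ℕ) (hb : (PowerSeries.X : PowerSeries k) ^ b ∣ ex ⟨a, ha⟩) : (b : ℤ) ≤ idx A₁ a := by
  classical
  rw [hC.idx_of_mem ha]
  have hfin := hC.finQ a ha ha0
  let T : ↥A₁ →ₗ[k] (Fin b → k) :=
    LinearMap.pi fun j => (PowerSeries.coeff (j : ℕ)) ∘ₗ ex.toLinearMap
  have hT : ∀ x (j : Fin b), T x j = PowerSeries.coeff (j : ℕ) (ex x) := fun x j => rfl
  have hker : ((Subalgebra.toSubmodule A₁).map (LinearMap.mulLeft k a)).comap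
      (Subalgebra.toSubmodule A₁).subtype ≤ LinearMap.ker T := by
    rintro x ⟨y, hy, hxy⟩
    rw [LinearMap.mem_ker]
    funext j
    rw [hT]
    have h3 : x = (⟨a, ha⟩ : A₁) * ⟨y, hy⟩ := Subtype.ext hxy.symm
    have h4 : (PowerSeries.X : PowerSeries k) ^ b ∣ ex x := by
      rw [h3, map_mul]
      exact Dvd.dvd.mul_right hb _
    exact PowerSeries.X_pow_dvd_iff.mp h4 _ j.2
  have hTs : Function.Surjective T := by
    intro y
    obtain ⟨x, hx⟩ := hs b (PowerSeries.mk fun j => if h : j < b then y ⟨j, h⟩ else 0)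
    refine ⟨x, ?_⟩
    funext j
    rw [hT]
    have h5 := PowerSeries.X_pow_dvd_iff.mp hx j j.2
    rw [map_sub, PowerSeries.coeff_mk, dif_pos j.2, sub_eq_zero] at h5
    exact h5
  let T' : (↥(Subalgebra.toSubmodule A₁) ⧸
      ((Subalgebra.toSubmodule A₁).map (LinearMap.mulLeft k a)).comap
        (Subalgebra.toSubmodule A₁).subtype) →ₗ[k] (Fin b → k) :=
    Submodule.liftQ _ T hker
  have hT's : Function.Surjective T' := by
    intro y
    obtain ⟨x, hx⟩ := hTs y
    exact ⟨Submodule.Quotient.mk x, hx⟩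
  have h6 := LinearMap.finrank_le_finrank_of_surjective hT's
  rw [Module.finrank_fin_fun] at h6
  exact_mod_cast h6

theorem aux_int {n β : ℕ} {i : ℤ} (hn : 0 < n) (h : ((β * n + 1 : ℕ) : ℤ) ≤ n * i) :
    (β : ℤ) + 1 ≤ i := by
  by_contra hcon
  push Not at hcon
  have h1 : i ≤ β := by omega
  have h2 : (n : ℤ) * i ≤ n * β := mul_le_mul_of_nonneg_left h1 (by positivity)
  push_cast at h
  nlinarith

end MultLe

section C

variable {k : Type u} [Field k] {R : Type v} [CommRing R] [Algebra k R]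
  {𝒜 : ℕ → Submodule k R} [GradedAlgebra 𝒜] {P : R →ₗ[k] R →ₗ[k] R} {J : Ideal R}
  {K : Type w} [Field K] [Algebra k K]

/-- C6. Zero count: bound of the base multiplicity (`E + 1` is excluded when there are two
marks). -/
theorem mult_le [IsAlgClosed k] {t : K} (ht : Transcendental k t)
    [FiniteDimensional (IntermediateField.adjoin k {t}) K]
    [Algebra.IsSeparable (IntermediateField.adjoin k {t}) K]
    {A₀ A₁ : Subalgebra k K} {u v : K} (hu : u ≠ 0) (hch : IsCh t A₀ A₁)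
    {F : R →ₐ[k] PowerSeries A₀} {H : J →ₗ[k] PowerSeries A₀} (hF : IsPF 𝒜 J A₀ A₁ u v F H)
    {c : Fin 2 → (A₀ →ₐ[k] k)} (hc : Function.Injective c)
    (hm : ∀ l, ∀ j, 0 < j → ∀ r ∈ 𝒜 j, c l (PowerSeries.constantCoeff (F r)) = 0) :
    (∀ ex : A₀ →ₐ[k] PowerSeries k, Function.Injective ex →
      (∀ (n : ℕ) (s : PowerSeries k), ∃ a, PowerSeries.X ^ n ∣ ex a - s) → ∀ β : ℕ,
      (∀ n, ∀ r ∈ 𝒜 n, (PowerSeries.X : PowerSeries k) ^ (β * n) ∣
        ex (PowerSeries.constantCoeff (F r))) → (β : ℤ) + 1 ≤ idx A₁ u) ∧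
    (∀ ex : A₁ →ₐ[k] PowerSeries k, Function.Injective ex →
      (∀ (n : ℕ) (s : PowerSeries k), ∃ a, PowerSeries.X ^ n ∣ ex a - s) → ∀ β : ℕ,
      (∀ n, ∀ r ∈ 𝒜 n, ∀ a : A₁, (a : K) = u ^ n * (PowerSeries.constantCoeff (F r) : A₀) →
        (PowerSeries.X : PowerSeries k) ^ (β * n) ∣ ex a) → (β : ℤ) + 1 ≤ idx A₁ u) := by
  classical
  obtain ⟨g, hg, rfl, rfl⟩ := hch
  have cd : IsCD (IC (B0 t g)) (IC (B1 t g)) := isCD_IC ht hg
  obtain ⟨n, hn, r, hr, hne⟩ := hF.ne
  set a : IC (B0 t g) := PowerSeries.constantCoeff (F r) with ha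
  have ha0 : (a : K) ≠ 0 := fun h => hne (Subtype.ext h)
  have hsec : (a : K) ∈ Sec (IC (B0 t g)) (IC (B1 t g)) u n := by
    have := hF.sec n r hr 0
    rwa [PowerSeries.coeff_zero_eq_constantCoeff_apply] at this
  refine ⟨?_, ?_⟩
  · intro ex hex hd β hβ
    let c₀ : IC (B0 t g) →ₐ[k] k :=
      { toRingHom := (PowerSeries.constantCoeff (R := k)).comp (ex : IC (B0 t g) →+* PowerSeries k)
        commutes' := fun x => by
          change PowerSeries.constantCoeff (ex (algebraMap k _ x)) = x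
          rw [ex.commutes, PowerSeries.algebraMap_apply, PowerSeries.constantCoeff_C]
          rfl }
    have hc₀ : ∀ x, PowerSeries.constantCoeff (ex x) = c₀ x := fun x => rfl
    obtain ⟨l, hl⟩ : ∃ l, c₀ ≠ c l := by
      by_contra hcon
      push Not at hcon
      have := hc ((hcon 0).symm.trans (hcon 1))
      exact absurd this (by decide)
    obtain ⟨ex', -, hexc, hexd⟩ := expansion_IC ht hg (c l)
    have hinj : Function.Injective ![c₀, c l] := by
      intro i j hij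
      fin_cases i <;> fin_cases j
      · rfl
      · exact absurd hij hl
      · exact absurd hij.symm hl
      · rfl
    have key := Ct.sum_order_le cd hu hsec ha0 ![c₀, c l] hinj ![ex, ex']
      (by
        intro i x
        fin_cases i
        · exact hc₀ x
        · exact hexc x)
      (by
        intro i
        fin_cases i
        · exact hd
        · exact hexd) ![β * n, 1]
      (by
        intro i
        fin_cases i
        · exact hβ n r hr
        · change (PowerSeries.X : PowerSeries k) ^ 1 ∣ ex' a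
          rw [pow_one, PowerSeries.X_dvd_iff, hexc]
          exact hm l n hn r hr)
    rw [Fin.sum_univ_two] at key
    exact MultLe.aux_int hn key
  · intro ex hex hd β hβ
    obtain ⟨ex', -, hexc, hexd⟩ := expansion_IC ht hg (c 0)
    -- a zero in the first chart
    have h1 : (a : K) ∈ Sec (IC (B0 t g)) (IC (B1 t g)) (a : K)⁻¹ 1 := by
      refine mem_Sec.2 ⟨a.2, ?_⟩
      rw [pow_one, inv_mul_cancel₀ ha0]
      exact one_mem _
    have hinj : Function.Injective (fun _ : Fin 1 => c 0) := fun i j _ => Subsingleton.elim i j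
    have key1 := Ct.sum_order_le cd (inv_ne_zero ha0) h1 ha0 (fun _ : Fin 1 => c 0) hinj
      (fun _ => ex') (fun _ x => hexc x) (fun _ => hexd) (fun _ => 1)
      (by
        intro i
        change (PowerSeries.X : PowerSeries k) ^ 1 ∣ ex' a
        rw [pow_one, PowerSeries.X_dvd_iff, hexc]
        exact hm 0 n hn r hr)
    rw [cd.idx_inv ha0] at key1
    have h2 : u ^ n * (a : K) ∈ IC (B1 t g) := (mem_Sec.1 hsec).2
    have h3 : u ^ n * (a : K) ≠ 0 := mul_ne_zero (pow_ne_zero n hu) ha0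
    have key2 := MultLe.order_le cd h2 h3 ex hd (β * n) (hβ n r hr ⟨_, h2⟩ rfl)
    rw [cd.idx_mul (pow_ne_zero n hu) ha0, cd.idx_pow hu] at key2
    refine MultLe.aux_int hn ?_
    simp only [Finset.univ_unique, Finset.sum_const, Finset.card_singleton, smul_eq_mul, mul_one,
      Nat.cast_one, one_mul] at key1
    push_cast at key2 ⊢
    linarith

end C

end Vale.Agent.P292.Dv
end

section

/-! # P292, Part III, C8: the Frobenius twist of the standard charts. -/

namespace Vale.Agent.P292.Dv.TwGP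

open Vale.Agent.P292.Mo

universe u v w

section ch

variable {k : Type u} [Field k] {K L : Type w} [Field K] [Algebra k K] [Field L] [Algebra k L]
  {σ : k ≃+* k} {τ : L ≃+* K} (hτ : IsSl σ τ)

include hτ

open Polynomial in
/-- Values of the twisted polynomial. -/
theorem aeval_map (g : Polynomial k) (x : L) :
    τ (Polynomial.aeval x (g.map (σ.symm : k →+* k))) = Polynomial.aeval (τ x) g := by
  induction g using Polynomial.induction_on' with
  | add p q hp hq => rw [Polynomial.map_add, map_add, map_add, map_add, hp, hq]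
  | monomial n a =>
    rw [Polynomial.map_monomial, Polynomial.aeval_monomial, Polynomial.aeval_monomial, map_mul,
      map_pow, hτ.al]
    congr 2
    exact σ.apply_symm_apply a

open Polynomial in
theorem aeval_map' (g : Polynomial k) (x : L) :
    Polynomial.aeval (τ x) (g.map (σ : k →+* k)) = τ (Polynomial.aeval x g) := by
  rw [← aeval_map hτ, Polynomial.map_map]
  congr 2
  have : (σ.symm : k →+* k).comp (σ : k →+* k) = RingHom.id k := by
    ext x
    exact σ.symm_apply_apply x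
  rw [this, Polynomial.map_id]

/-- The twist of the first chart of the line. -/
theorem B0_eq (t : L) (g : Polynomial k) :
    hτ.A (B0 (τ t) g) = B0 t (g.map (σ.symm : k →+* k)) := by
  apply le_antisymm
  · intro x hx
    rw [hτ.mem_A] at hx
    have key : ∀ y ∈ B0 (τ t) g, τ.symm y ∈ B0 t (g.map (σ.symm : k →+* k)) := by
      intro y hy
      refine Algebra.adjoin_induction (p := fun y _ => τ.symm y ∈ B0 t (g.map (σ.symm : k →+* k)))
        ?_ ?_ ?_ ?_ hy
      · intro z hz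
        rcases hz with rfl | hz
        · rw [τ.symm_apply_apply]
          exact Algebra.subset_adjoin (Or.inl rfl)
        · rw [Set.mem_singleton_iff] at hz
          subst hz
          rw [← aeval_map hτ, map_inv₀, τ.symm_apply_apply]
          exact Algebra.subset_adjoin (Or.inr rfl)
      · intro c
        have := hτ.sm (σ.symm c)
        rw [σ.apply_symm_apply] at this
        rw [this]
        exact Subalgebra.algebraMap_mem _ _
      · intro a b _ _ ha hb
        rw [map_add]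
        exact add_mem ha hb
      · intro a b _ _ ha hb
        rw [map_mul]
        exact mul_mem ha hb
    have := key _ hx
    rwa [τ.symm_apply_apply] at this
  · refine Algebra.adjoin_le ?_
    rintro z (rfl | hz)
    · exact Algebra.subset_adjoin (Or.inl rfl)
    · rw [Set.mem_singleton_iff] at hz
      subst hz
      change τ _ ∈ B0 (τ t) g
      rw [map_inv₀, aeval_map hτ]
      exact Algebra.subset_adjoin (Or.inr rfl)

/-- The twist of the second chart of the line. -/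
theorem B1_eq (t : L) (g : Polynomial k) :
    hτ.A (B1 (τ t) g) = B1 t (g.map (σ.symm : k →+* k)) := by
  have hmm : ∀ f : Polynomial k, (f.map (σ : k →+* k)).map (σ.symm : k →+* k) = f := by
    intro f
    rw [Polynomial.map_map]
    have : (σ.symm : k →+* k).comp (σ : k →+* k) = RingHom.id k := by
      ext x
      exact σ.symm_apply_apply x
    rw [this, Polynomial.map_id]
  have hmm' : ∀ f : Polynomial k, (f.map (σ.symm : k →+* k)).map (σ : k →+* k) = f := by
    intro f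
    rw [Polynomial.map_map]
    have : (σ : k →+* k).comp (σ.symm : k →+* k) = RingHom.id k := by
      ext x
      exact σ.apply_symm_apply x
    rw [this, Polynomial.map_id]
  ext x
  rw [hτ.mem_A]
  constructor
  · rintro ⟨a, b, hb, hc, hd, hx⟩
    refine ⟨a.map (σ.symm : k →+* k), b.map (σ.symm : k →+* k), ?_, ?_, ?_, ?_⟩
    · intro h0
      apply hb
      rw [← aeval_map hτ, h0, map_zero]
    · exact hc.map (Polynomial.mapRingHom (σ.symm : k →+* k))
    · exact (Polynomial.natDegree_map_le).trans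
        (hd.trans (Polynomial.natDegree_map_eq_of_injective σ.symm.injective b).ge)
    · apply τ.injective
      rw [map_div₀, aeval_map hτ, aeval_map hτ, hx]
  · rintro ⟨a, b, hb, hc, hd, hx⟩
    refine ⟨a.map (σ : k →+* k), b.map (σ : k →+* k), ?_, ?_, ?_, ?_⟩
    · rw [aeval_map' hτ]
      exact (map_ne_zero τ).2 hb
    · have := hc.map (Polynomial.mapRingHom (σ : k →+* k))
      rw [Polynomial.coe_mapRingHom, hmm'] at this
      exact this
    · exact (Polynomial.natDegree_map_le).trans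
        (hd.trans (Polynomial.natDegree_map_eq_of_injective σ.injective b).ge)
    · rw [aeval_map' hτ, aeval_map' hτ, ← map_div₀, ← hx]

/-- The twist of the integral closure. -/
theorem IC_eq (B : Subalgebra k K) : hτ.A (IC B) = IC (hτ.A B) := by
  ext x
  rw [hτ.mem_A]
  change IsIntegral B (τ x) ↔ IsIntegral (hτ.A B) x
  constructor
  · rintro ⟨f, hf, hfx⟩
    refine ⟨f.map ((hτ.R B).symm : B →+* hτ.A B), hf.map _, ?_⟩
    rw [Polynomial.eval₂_map]
    apply τ.injective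
    rw [map_zero, ← hfx]
    change (τ : L →+* K) _ = _
    rw [Polynomial.hom_eval₂]
    have h1 : (τ : L →+* K).comp ((algebraMap (↥(hτ.A B)) L).comp
        ((hτ.R B).symm : B →+* hτ.A B)) = algebraMap (↥B) K := by
      ext y
      exact τ.apply_symm_apply y.1
    rw [h1]
    rfl
  · rintro ⟨f, hf, hfx⟩
    refine ⟨f.map ((hτ.R B) : hτ.A B →+* B), hf.map _, ?_⟩
    rw [Polynomial.eval₂_map]
    have := congrArg (τ : L →+* K) hfx
    rw [map_zero, Polynomial.hom_eval₂] at this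
    rw [← this]
    rfl

/-- The twist of the standard charts. -/
theorem isCh {t : L} {A₀ A₁ : Subalgebra k K} (h : IsCh (τ t) A₀ A₁) :
    IsCh t (hτ.A A₀) (hτ.A A₁) := by
  obtain ⟨g, hg, rfl, rfl⟩ := h
  refine ⟨g.map (σ.symm : k →+* k), ?_, ?_, ?_⟩
  · rwa [Ne, Polynomial.map_eq_zero]
  · rw [IC_eq hτ, B0_eq hτ]
  · rw [IC_eq hτ, B1_eq hτ]

end ch

end Vale.Agent.P292.Dv.TwGP
end

section

/-! # P292, Part III, GAP A: the Euler characteristic of the charts is bounded below. -/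

namespace Vale.Agent.P292.Dv

open Vale.Agent.P292.Mo

universe u v w

variable {k : Type u} [Field k] {K : Type w} [Field K] [Algebra k K]

/-- An element which is integral over `k[t]` has bounded poles at infinity. -/
theorem gc_scale {t : K} (ht : Transcendental k t) {x : K}
    (hx : x ∈ IC (B0 t (1 : Polynomial k))) :
    ∃ N : ℕ, ∀ (g : Polynomial k) (l : k), g.eval l ≠ 0 → ∀ M, N ≤ M →
      ((t - algebraMap k K l)⁻¹) ^ M * x ∈ IC (B1 t g) := by
  classical
  obtain ⟨P, hP, hPx⟩ := (hx : IsIntegral (B0 t (1 : Polynomial k)) x)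
  have hc : ∀ i, ∃ c : Polynomial k, ((P.coeff i : B0 t (1 : Polynomial k)) : K) =
      Polynomial.aeval t c := by
    intro i
    have h1 := ga_B0_one_le (P.coeff i).2
    rw [Algebra.adjoin_singleton_eq_range_aeval] at h1
    obtain ⟨c, hc⟩ := h1
    exact ⟨c, hc.symm⟩
  choose c hc using hc
  refine ⟨∑ i ∈ Finset.range P.natDegree, (c i).natDegree, fun g l hl M hM => ?_⟩
  set s : K := (t - algebraMap k K l)⁻¹ with hs
  set m := P.natDegree with hm
  set PK : Polynomial K := P.map (algebraMap (B0 t (1 : Polynomial k)) K) with hPK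
  have hPKm : PK.Monic := hP.map _
  have hdeg : PK.natDegree = m := hP.natDegree_map _
  set Q := PK.scaleRoots (s ^ M) with hQ
  have hQm : Q.Monic := (Polynomial.monic_scaleRoots_iff _).2 hPKm
  have hQdeg : Q.natDegree = m := by rw [hQ, Polynomial.natDegree_scaleRoots, hdeg]
  have hco : ∀ i, Q.coeff i ∈ B1 t g := by
    intro i
    rcases lt_trichotomy i m with h | h | h
    · rw [hQ, Polynomial.coeff_scaleRoots, hdeg, hPK, Polynomial.coeff_map]
      have h1 : (algebraMap (B0 t (1 : Polynomial k)) K) (P.coeff i) = Polynomial.aeval t (c i) :=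
        hc i
      rw [h1, ← pow_mul, mul_comm]
      refine F5a_mem_B1 ht hl (c i) ?_
      have h2 : (c i).natDegree ≤ M :=
        (Finset.single_le_sum (f := fun i => (c i).natDegree) (fun _ _ => Nat.zero_le _)
          (Finset.mem_range.2 h)).trans hM
      exact h2.trans (Nat.le_mul_of_pos_right _ (by omega))
    · have h1 : Q.coeff i = 1 := by
        rw [h, ← hQdeg]
        exact hQm
      rw [h1]
      exact one_mem _
    · rw [Polynomial.coeff_eq_zero_of_natDegree_lt (by omega)]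
      exact zero_mem _
  have hlift : Q ∈ Polynomial.lifts (algebraMap (B1 t g) K) := by
    rw [Polynomial.lifts_iff_coeff_lifts]
    intro i
    exact ⟨⟨_, hco i⟩, rfl⟩
  obtain ⟨q, hq, -, hqm⟩ := Polynomial.lifts_and_degree_eq_and_monic hlift hQm
  have hroot : Polynomial.eval₂ (RingHom.id K) x PK = 0 := by
    rw [hPK, Polynomial.eval₂_map, RingHom.id_comp]
    exact hPx
  have h2 := Polynomial.scaleRoots_eval₂_eq_zero (RingHom.id K) (s := s ^ M) hroot
  refine (⟨q, hqm, ?_⟩ : IsIntegral (B1 t g) (s ^ M * x))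
  rw [RingHom.id_apply, ← hQ, ← hq, Polynomial.eval₂_map, RingHom.id_comp] at h2
  exact h2

/-- Expansion at infinity. -/
theorem gc_expand {t : K} (ht : Transcendental k t) {g : Polynomial k} (l : k) (N : ℕ) :
    ∀ x ∈ B1 t g, ∃ c : Fin N → k, ∃ y ∈ B1 t g,
      x = ∑ j : Fin N, algebraMap k K (c j) * ((t - algebraMap k K l)⁻¹) ^ (j : ℕ) +
        ((t - algebraMap k K l)⁻¹) ^ N * y := by
  induction N with
  | zero => exact fun x hx => ⟨Fin.elim0, x, hx, by simp⟩
  | succ N ih =>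
    intro x hx
    obtain ⟨c, y, hy, h⟩ := ih x hx
    obtain ⟨c', y', hy', h'⟩ := idxic_decomp ht l y hy
    refine ⟨Fin.snoc c c', y', hy', ?_⟩
    rw [Fin.sum_univ_castSucc]
    simp only [Fin.snoc_castSucc, Fin.snoc_last, Fin.val_castSucc, Fin.val_last]
    rw [h, h', pow_succ]
    ring

/-- The Euler characteristic is bounded below, uniformly in the charts. -/
theorem gap_chi [IsAlgClosed k] {t : K} (ht : Transcendental k t)
    [FiniteDimensional (IntermediateField.adjoin k {t}) K]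
    [Algebra.IsSeparable (IntermediateField.adjoin k {t}) K] :
    ∃ C : ℕ, ∀ g : Polynomial k, g ≠ 0 → - (C : ℤ) ≤ chi0 (IC (B0 t g)) (IC (B1 t g)) := by
  classical
  have : Infinite k := IsAlgClosed.instInfinite
  obtain ⟨n, ω, hω⟩ : ∃ (n : ℕ) (ω : Module.Basis (Fin n) (IntermediateField.adjoin k {t}) K),
      ∀ i, ω i ∈ IC (B0 t (1 : Polynomial k)) := by
    obtain ⟨-, ω, hω, -⟩ := crv_basis0 (K := K) ht (one_ne_zero : (1 : Polynomial k) ≠ 0)
    exact ⟨_, ω, hω⟩
  choose N hN using fun i => gc_scale ht (hω i)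
  set M := ∑ i, N i with hM
  have hNM : ∀ i, N i ≤ M := fun i =>
    Finset.single_le_sum (f := fun i => N i) (fun _ _ => Nat.zero_le _) (Finset.mem_univ i)
  refine ⟨n * M, fun g hg => ?_⟩
  obtain ⟨l, hl⟩ := crv_exists_l hg
  set s : K := (t - algebraMap k K l)⁻¹ with hs
  set W : Submodule k K := Subalgebra.toSubmodule (IC (B0 t g)) ⊔
    Subalgebra.toSubmodule (IC (B1 t g)) with hW
  have h0 : ∀ i, ω i ∈ IC (B0 t g) := fun i => ga_IC0_le ht (one_dvd g) hg (hω i)
  have h1 : ∀ i, s ^ M * ω i ∈ IC (B1 t g) := fun i => hN i g l hl M (hNM i)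
  let f : (Fin n × Fin M → k) →ₗ[k] K :=
    Fintype.linearCombination k (fun p : Fin n × Fin M => s ^ (p.2 : ℕ) * ω p.1)
  have hsurj : Function.Surjective (W.mkQ.comp f) := by
    intro y
    obtain ⟨x, rfl⟩ := W.mkQ_surjective y
    choose b0 hb0 b1 hb1 hb using fun i => b0_add_b1 ht hg (ω.repr x i).2
    choose c z hz hcz using fun i => gc_expand ht (g := g) l M (b1 i) (hb1 i)
    refine ⟨fun p => c p.1 p.2, ?_⟩
    rw [LinearMap.comp_apply, eq_comm, ← sub_eq_zero, ← map_sub, Submodule.mkQ_apply,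
      Submodule.Quotient.mk_eq_zero]
    have e : x - f (fun p => c p.1 p.2) = ∑ i, b0 i * ω i + ∑ i, z i * (s ^ M * ω i) := by
      have e1 : f (fun p => c p.1 p.2) =
          ∑ i, ∑ j : Fin M, (algebraMap k K (c i j) * s ^ (j : ℕ)) * ω i := by
        rw [Fintype.linearCombination_apply, Fintype.sum_prod_type]
        refine Finset.sum_congr rfl fun i _ => Finset.sum_congr rfl fun j _ => ?_
        rw [Algebra.smul_def, mul_assoc]
      rw [e1]
      conv_lhs => rw [cd_sum ω x]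
      rw [← Finset.sum_sub_distrib, ← Finset.sum_add_distrib]
      refine Finset.sum_congr rfl fun i _ => ?_
      rw [hb i, hcz i, ← Finset.sum_mul]
      ring
    rw [e]
    refine Submodule.add_mem_sup ?_ ?_
    · exact Subalgebra.sum_mem _ fun i _ => Subalgebra.mul_mem _ (cd_le_IC (hb0 i)) (h0 i)
    · exact Subalgebra.sum_mem _ fun i _ => Subalgebra.mul_mem _ (cd_le_IC (hz i)) (h1 i)
  have h2 := LinearMap.finrank_le_finrank_of_surjective hsurj
  rw [Module.finrank_fintype_fun_eq_card, Fintype.card_prod, Fintype.card_fin,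
    Fintype.card_fin] at h2
  rw [chi0]
  have h3 : (Module.finrank k (K ⧸ W) : ℤ) ≤ ((n * M : ℕ) : ℤ) := by exact_mod_cast h2
  have h4 : (0 : ℤ) ≤ Module.finrank k ↥(Subalgebra.toSubmodule (IC (B0 t g)) ⊓
    Subalgebra.toSubmodule (IC (B1 t g))) := by positivity
  linarith

end Vale.Agent.P292.Dv
end

section

/-! # The charts of the twisted field are twists of charts (C2, helper784). -/

namespace Vale.Agent.P292.Dv

open Vale.Agent.P292.Mo Polynomial

universe u v w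

namespace TwC

section sl

variable {k : Type u} [Field k] {K L : Type w} [Field K] [Algebra k K] [Field L] [Algebra k L]
  {σ : k ≃+* k} {τ : L ≃+* K} (hτ : IsSl σ τ)

include hτ

theorem aeval_tw (f : k[X]) (t : L) :
    τ (Polynomial.aeval t f) = Polynomial.aeval (τ t) (f.map (σ : k →+* k)) := by
  induction f using Polynomial.induction_on' with
  | add a b ha hb => rw [map_add, map_add, ha, hb, Polynomial.map_add, map_add]
  | monomial n c =>
    rw [Polynomial.aeval_monomial, Polynomial.map_monomial, Polynomial.aeval_monomial, map_mul,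
      map_pow, hτ.al]
    rfl

omit hτ in
theorem map_symm_map (f : k[X]) : (f.map (σ.symm : k →+* k)).map (σ : k →+* k) = f := by
  rw [Polynomial.map_map]
  have : (σ : k →+* k).comp (σ.symm : k →+* k) = RingHom.id k := by
    ext c
    simp
  rw [this, Polynomial.map_id]

theorem B0_tw (t : L) (g : k[X]) : B0 t g = hτ.A (B0 (τ t) (g.map (σ : k →+* k))) := by
  apply le_antisymm
  · rw [B0, Algebra.adjoin_le_iff]
    rintro x (rfl | rfl)
    · change τ _ ∈ B0 _ _
      exact Algebra.subset_adjoin (Set.mem_insert _ _)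
    · change τ _ ∈ B0 _ _
      rw [map_inv₀, aeval_tw hτ]
      exact Algebra.subset_adjoin (Set.mem_insert_of_mem _ rfl)
  · intro x hx
    change τ x ∈ B0 _ _ at hx
    obtain ⟨y, rfl⟩ : ∃ y, x = τ.symm y := ⟨τ x, (τ.symm_apply_apply x).symm⟩
    rw [τ.apply_symm_apply] at hx
    induction hx using Algebra.adjoin_induction with
    | mem y hy =>
      rcases hy with rfl | rfl
      · rw [τ.symm_apply_apply]
        exact Algebra.subset_adjoin (Set.mem_insert _ _)
      · rw [← aeval_tw hτ, ← map_inv₀, τ.symm_apply_apply]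
        exact Algebra.subset_adjoin (Set.mem_insert_of_mem _ rfl)
    | algebraMap c =>
      have := hτ.sm (σ.symm c)
      rw [σ.apply_symm_apply] at this
      rw [this]
      exact Subalgebra.algebraMap_mem _ _
    | add x y _ _ h1 h2 => rw [map_add]; exact add_mem h1 h2
    | mul x y _ _ h1 h2 => rw [map_mul]; exact mul_mem h1 h2

theorem B1_tw (t : L) (g : k[X]) : B1 t g = hτ.A (B1 (τ t) (g.map (σ : k →+* k))) := by
  have hdeg : ∀ f : k[X], (f.map (σ : k →+* k)).natDegree = f.natDegree := fun f =>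
    Polynomial.natDegree_map _
  ext x
  rw [hτ.mem_A]
  constructor
  · rintro ⟨a, b, hb, hc, hd, rfl⟩
    have hc' : IsCoprime (b.map (σ : k →+* k)) (g.map (σ : k →+* k)) := by
      have h1 := hc.map (Polynomial.mapRingHom (σ : k →+* k))
      rwa [Polynomial.coe_mapRingHom] at h1
    refine ⟨a.map (σ : k →+* k), b.map (σ : k →+* k), ?_, hc', ?_, ?_⟩
    · rw [← aeval_tw hτ]
      exact (map_ne_zero τ).2 hb
    · rw [hdeg, hdeg]
      exact hd
    · rw [map_div₀, aeval_tw hτ, aeval_tw hτ]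
  · rintro ⟨a, b, hb, hc, hd, hx⟩
    refine ⟨a.map (σ.symm : k →+* k), b.map (σ.symm : k →+* k), ?_, ?_, ?_, ?_⟩
    · rw [← map_ne_zero τ, aeval_tw hτ, map_symm_map]
      exact hb
    · have h1 := hc.map (Polynomial.mapRingHom (σ.symm : k →+* k))
      rw [Polynomial.coe_mapRingHom] at h1
      have h2 : (g.map (σ : k →+* k)).map (σ.symm : k →+* k) = g := by
        rw [Polynomial.map_map]
        have h3 : (σ.symm : k →+* k).comp (σ : k →+* k) = RingHom.id k := by
          ext c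
          simp
        rw [h3, Polynomial.map_id]
      rw [h2] at h1
      exact h1
    · rw [Polynomial.natDegree_map, Polynomial.natDegree_map]
      exact hd
    · apply τ.injective
      rw [hx, map_div₀, aeval_tw hτ, aeval_tw hτ, map_symm_map, map_symm_map]

theorem IC_tw (B : Subalgebra k K) : IC (hτ.A B) = hτ.A (IC B) := by
  have key : ∀ (x : L), x ∈ IC (hτ.A B) ↔ τ x ∈ IC B := by
    intro x
    change IsIntegral (hτ.A B) x ↔ IsIntegral B (τ x)
    constructor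
    · rintro ⟨P, hP, hx⟩
      let ρ : hτ.A B →+* B :=
        { toFun := fun y => ⟨τ y.1, y.2⟩
          map_one' := Subtype.ext (map_one τ)
          map_mul' := fun a b => Subtype.ext (map_mul τ _ _)
          map_zero' := Subtype.ext (map_zero τ)
          map_add' := fun a b => Subtype.ext (map_add τ _ _) }
      refine ⟨P.map ρ, hP.map ρ, ?_⟩
      rw [Polynomial.eval₂_map]
      have h1 : (algebraMap B K).comp ρ = (τ : L →+* K).comp (algebraMap (hτ.A B) L) := rfl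
      rw [h1, ← RingHom.coe_coe τ, ← Polynomial.hom_eval₂, hx, map_zero]
    · rintro ⟨P, hP, hx⟩
      let ρ : B →+* hτ.A B :=
        { toFun := fun y => ⟨τ.symm y.1, by rw [hτ.mem_A, τ.apply_symm_apply]; exact y.2⟩
          map_one' := Subtype.ext (map_one τ.symm)
          map_mul' := fun a b => Subtype.ext (map_mul τ.symm _ _)
          map_zero' := Subtype.ext (map_zero τ.symm)
          map_add' := fun a b => Subtype.ext (map_add τ.symm _ _) }
      refine ⟨P.map ρ, hP.map ρ, ?_⟩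
      rw [Polynomial.eval₂_map]
      have h1 : (algebraMap (hτ.A B) L).comp ρ = (τ.symm : K →+* L).comp (algebraMap B K) := rfl
      have h2 : x = (τ.symm : K →+* L) (τ x) := (τ.symm_apply_apply x).symm
      rw [h1, h2, ← Polynomial.hom_eval₂, hx, map_zero]
  ext x
  exact key x

end sl

end TwC

/-- C2. The Euler characteristic is bounded below, uniformly in the charts (and in the twist). -/
theorem exists_chi_bound_of {k : Type u} [Field k] {K : Type w} [Field K] [Algebra k K]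
    [IsAlgClosed k] {t : K} (p : ℕ) [Fact p.Prime] [CharP k p]
    (h0 : ∃ C : ℕ, ∀ g : Polynomial k, g ≠ 0 → - (C : ℤ) ≤ chi0 (IC (B0 t g)) (IC (B1 t g))) :
    ∃ C : ℕ, ∀ (j : ℕ) (A₀ A₁ : Subalgebra k (Tw p j K)), IsCh (K := Tw p j K) t A₀ A₁ →
      - (C : ℤ) ≤ chi0 A₀ A₁ := by
  obtain ⟨C, hC⟩ := h0
  refine ⟨C, fun j A₀ A₁ h => ?_⟩
  obtain ⟨g, hg, rfl, rfl⟩ := h
  have hq0 : 0 < p ^ j := pow_pos (Fact.out : p.Prime).pos j
  have hs : Function.Surjective (iterateFrobenius k p j) := by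
    intro c
    obtain ⟨z, hz⟩ := IsAlgClosed.exists_pow_nat_eq c hq0
    exact ⟨z, by rw [iterateFrobenius_def, hz]⟩
  let σ : k ≃+* k := RingEquiv.ofBijective (iterateFrobenius k p j)
    ⟨(iterateFrobenius k p j).injective, hs⟩
  let τ : Tw p j K ≃+* K := RingEquiv.refl K
  have hτ : IsSl σ τ := ⟨fun c => rfl⟩
  have h1 := TwC.B0_tw hτ (L := Tw p j K) t g
  have h2 := TwC.B1_tw hτ (L := Tw p j K) t g
  rw [h1, h2, TwC.IC_tw hτ, TwC.IC_tw hτ, hτ.chi0]
  exact hC _ (by rwa [Ne, Polynomial.map_eq_zero])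

end Vale.Agent.P292.Dv
end

section

/-! # C2: the Euler characteristic is bounded below, uniformly in the charts and in the twist. -/

namespace Vale.Agent.P292.Dv

open Vale.Agent.P292.Mo

universe u v w

/-- C2. The Euler characteristic is bounded below, uniformly in the charts (and in the twist). -/
theorem exists_chi_bound {k : Type u} [Field k] {K : Type w} [Field K] [Algebra k K]
    [IsAlgClosed k] {t : K} (ht : Transcendental k t)
    [FiniteDimensional (IntermediateField.adjoin k {t}) K]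
    [Algebra.IsSeparable (IntermediateField.adjoin k {t}) K] (p : ℕ) [Fact p.Prime] [CharP k p] :
    ∃ C : ℕ, ∀ (j : ℕ) (A₀ A₁ : Subalgebra k (Tw p j K)), IsCh (K := Tw p j K) t A₀ A₁ →
      - (C : ℤ) ≤ chi0 A₀ A₁ :=
  exists_chi_bound_of p (gap_chi ht)

end Vale.Agent.P292.Dv
end

section

/-! # Degrees of line bundles in different charts. -/

namespace Vale.Agent.P292.Dv

open Vale.Agent.P292.Mo Module

universe u v w

section

variable {k : Type u} [Field k] {K : Type w} [Field K] [Algebra k K]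
  {A₀ A₁ B₀ B₁ : Subalgebra k K} {w w' : K}

/-- Powers of a section bound the first cohomology of the powers of a line bundle. -/
theorem chart_h1_le (h : IsCD B₀ B₁) {w s : K} {m : ℕ} (hs : s ∈ Sec B₀ B₁ w m)
    (hs0 : s ≠ 0) (j : ℕ) :
    finrank k (K ⧸ (Subalgebra.toSubmodule B₀ ⊔
      (Subalgebra.toSubmodule B₁).comap (LinearMap.mulLeft k (w ^ (m * j))))) ≤
    finrank k (K ⧸ (Subalgebra.toSubmodule B₀ ⊔ Subalgebra.toSubmodule B₁)) := by
  have hfin := h.fin1
  have hle : (Subalgebra.toSubmodule B₀ ⊔ Subalgebra.toSubmodule B₁) ≤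
      (Subalgebra.toSubmodule B₀ ⊔ (Subalgebra.toSubmodule B₁).comap
        (LinearMap.mulLeft k (w ^ (m * j)))).comap (LinearMap.mulLeft k (s ^ j)) := by
    refine sup_le ?_ ?_
    · intro x hx
      exact Submodule.mem_sup_left (B₀.mul_mem (B₀.pow_mem (mem_Sec.1 hs).1 j) hx)
    · intro x hx
      refine Submodule.mem_sup_right ?_
      change w ^ (m * j) * (s ^ j * x) ∈ B₁
      have h1 : w ^ (m * j) * (s ^ j * x) = (w ^ m * s) ^ j * x := by
        rw [pow_mul, mul_pow]; ring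
      rw [h1]
      exact B₁.mul_mem (B₁.pow_mem (mem_Sec.1 hs).2 j) hx
  let T : (K ⧸ (Subalgebra.toSubmodule B₀ ⊔ Subalgebra.toSubmodule B₁)) →ₗ[k]
      (K ⧸ (Subalgebra.toSubmodule B₀ ⊔ (Subalgebra.toSubmodule B₁).comap
        (LinearMap.mulLeft k (w ^ (m * j))))) :=
    Submodule.mapQ _ _ (LinearMap.mulLeft k (s ^ j)) hle
  have hT : Function.Surjective T := by
    intro y
    obtain ⟨y, rfl⟩ := Submodule.mkQ_surjective _ y
    refine ⟨Submodule.mkQ _ ((s ^ j)⁻¹ * y), ?_⟩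
    change Submodule.mapQ _ _ _ hle (Submodule.Quotient.mk _) = _
    rw [Submodule.mapQ_apply, LinearMap.mulLeft_apply, mul_inv_cancel_left₀ (pow_ne_zero j hs0)]
    rfl
  exact LinearMap.finrank_le_finrank_of_surjective hT

/-- **Comparison of degrees.** If all sections of the powers of `(A, w)` are sections of the powers
of `(B, w')`, and `w` has positive degree, then `deg w ≤ deg w'`. -/
theorem chart_idx_le (hA : IsCD A₀ A₁) (hB : IsCD B₀ B₁) {w w' a : K} (hw : w ≠ 0) (hw' : w' ≠ 0)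
    (ha : a ≠ 0) (hpos : 0 < idx A₁ w)
    (hin : ∀ n, ∀ x ∈ Sec A₀ A₁ w n, a ^ n * x ∈ Sec B₀ B₁ w' n) :
    idx A₁ w ≤ idx B₁ w' := by
  have hle : ∀ n, finrank k ↥(Sec A₀ A₁ w n) ≤ finrank k ↥(Sec B₀ B₁ w' n) := by
    intro n
    have := (hB.chi_Sec hw' n).1
    let T : ↥(Sec A₀ A₁ w n) →ₗ[k] ↥(Sec B₀ B₁ w' n) :=
      ((LinearMap.mulLeft k (a ^ n)).comp (Sec A₀ A₁ w n).subtype).codRestrict _
        fun x => hin n x x.2
    refine LinearMap.finrank_le_finrank_of_injective (f := T) ?_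
    intro x y hxy
    have h1 : a ^ n * (x : K) = a ^ n * (y : K) := congrArg Subtype.val hxy
    exact Subtype.ext (mul_left_cancel₀ (pow_ne_zero n ha) h1)
  -- a nonzero section of some positive power
  have hex : ∃ m : ℕ, 0 < m ∧ ∃ s ∈ Sec B₀ B₁ w' m, s ≠ 0 := by
    obtain ⟨m, hm⟩ : ∃ m : ℕ, 0 < chi0 A₀ A₁ + m * idx A₁ w ∧ 0 < m := by
      refine ⟨(|chi0 A₀ A₁| + 1).toNat, ?_, ?_⟩
      · have h1 : ((|chi0 A₀ A₁| + 1).toNat : ℤ) = |chi0 A₀ A₁| + 1 :=
          Int.toNat_of_nonneg (by positivity)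
        rw [h1]
        have h2 := neg_abs_le (chi0 A₀ A₁)
        have h3 : |chi0 A₀ A₁| + 1 ≤ (|chi0 A₀ A₁| + 1) * idx A₁ w := by
          have := abs_nonneg (chi0 A₀ A₁)
          nlinarith
        linarith
      · have := abs_nonneg (chi0 A₀ A₁)
        omega
    refine ⟨m, hm.2, ?_⟩
    have h1 := (hA.chi_Sec hw m).2.2
    have h2 : 0 < finrank k ↥(Sec A₀ A₁ w m) := by
      have : (0 : ℤ) ≤ finrank k (K ⧸ (Subalgebra.toSubmodule A₀ ⊔
        (Subalgebra.toSubmodule A₁).comap (LinearMap.mulLeft k (w ^ m)))) := Int.natCast_nonneg _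
      have h3 : (0 : ℤ) < finrank k ↥(Sec A₀ A₁ w m) := by linarith [hm.1]
      exact_mod_cast h3
    have h3 := h2.trans_le (hle m)
    have := (hB.chi_Sec hw' m).1
    obtain ⟨s, hs⟩ := Module.finrank_pos_iff_exists_ne_zero.1 h3
    exact ⟨s, s.2, fun h => hs (Subtype.ext h)⟩
  obtain ⟨m, hm, s, hs, hs0⟩ := hex
  by_contra hcon
  push Not at hcon
  -- growth
  have key : ∀ j : ℕ, (j : ℤ) ≤ chi0 B₀ B₁ - chi0 A₀ A₁ +
      finrank k (K ⧸ (Subalgebra.toSubmodule B₀ ⊔ Subalgebra.toSubmodule B₁)) := by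
    intro j
    have h1 := (hA.chi_Sec hw (m * j)).2.2
    have h2 := (hB.chi_Sec hw' (m * j)).2.2
    have h3 := chart_h1_le hB hs hs0 j
    have h4 : ((finrank k ↥(Sec A₀ A₁ w (m * j)) : ℕ) : ℤ) ≤
        finrank k ↥(Sec B₀ B₁ w' (m * j)) := by exact_mod_cast hle (m * j)
    have h5 : ((finrank k (K ⧸ (Subalgebra.toSubmodule B₀ ⊔
      (Subalgebra.toSubmodule B₁).comap (LinearMap.mulLeft k (w' ^ (m * j))))) : ℕ) : ℤ) ≤
      finrank k (K ⧸ (Subalgebra.toSubmodule B₀ ⊔ Subalgebra.toSubmodule B₁)) := by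
        exact_mod_cast h3
    have h6 : (0 : ℤ) ≤ finrank k (K ⧸ (Subalgebra.toSubmodule A₀ ⊔
      (Subalgebra.toSubmodule A₁).comap (LinearMap.mulLeft k (w ^ (m * j))))) :=
        Int.natCast_nonneg _
    have h7 : ((m * j : ℕ) : ℤ) * idx B₁ w' + (m * j : ℕ) ≤ ((m * j : ℕ) : ℤ) * idx A₁ w := by
      have : ((m * j : ℕ) : ℤ) * (idx B₁ w' + 1) ≤ ((m * j : ℕ) : ℤ) * idx A₁ w :=
        mul_le_mul_of_nonneg_left (by omega) (Int.natCast_nonneg _)
      linarith
    have h8 : (j : ℤ) ≤ (m * j : ℕ) := by exact_mod_cast Nat.le_mul_of_pos_left j hm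
    linarith
  have h1 := key ((chi0 B₀ B₁ - chi0 A₀ A₁ +
      finrank k (K ⧸ (Subalgebra.toSubmodule B₀ ⊔ Subalgebra.toSubmodule B₁))).toNat + 1)
  have h2 := Int.self_le_toNat (chi0 B₀ B₁ - chi0 A₀ A₁ +
      finrank k (K ⧸ (Subalgebra.toSubmodule B₀ ⊔ Subalgebra.toSubmodule B₁)))
  push_cast at h1
  linarith

/-- The line bundle of the cocycle `w` is contained in the line bundle of the cocycle `w'`. -/
structure IsDom (A₀ A₁ : Subalgebra k K) (w : K) (B₀ B₁ : Subalgebra k K) (w' : K) : Prop where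
  c10 : ∀ V : ValuationSubring K, (∀ x ∈ A₁, x ∈ V) → (∀ x ∈ B₀, x ∈ V) → w⁻¹ ∈ V
  c01 : ∀ V : ValuationSubring K, (∀ x ∈ A₀, x ∈ V) → (∀ x ∈ B₁, x ∈ V) → w' ∈ V
  c11 : ∀ V : ValuationSubring K, (∀ x ∈ A₁, x ∈ V) → (∀ x ∈ B₁, x ∈ V) → w' * w⁻¹ ∈ V

/-- The first place condition. -/
def HasP1 (A₀ A₁ : Subalgebra k K) : Prop :=
  ∀ V : ValuationSubring K, (∀ c : k, algebraMap k K c ∈ V) → (∀ a ∈ A₀, a ∈ V) ∨ (∀ a ∈ A₁, a ∈ V)

/-- `B` is an intersection of valuation rings. -/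
def IsNor (B : Subalgebra k K) : Prop :=
  ∀ x : K, (∀ V : ValuationSubring K, (∀ b ∈ B, b ∈ V) → x ∈ V) → x ∈ B

theorem isNor_of_isIntegrallyClosedIn {B : Subalgebra k K}
    (h : ∀ x : K, IsIntegral B x → x ∈ B) : IsNor B := by
  intro x hx
  have : IsIntegrallyClosedIn B.toSubring K := by
    rw [isIntegrallyClosedIn_iff]
    refine ⟨Subtype.val_injective, fun {y} hy => ?_⟩
    exact ⟨⟨y, h y hy⟩, rfl⟩
  have h1 := Subring.eq_iInf_of_isIntegrallyClosedIn (R := B.toSubring)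
  have h2 : x ∈ B.toSubring := by
    rw [h1, Subring.mem_iInf]
    intro V
    exact hx V.1 fun b hb => V.2 hb
  exact h2

theorem IsDom.sec (hw : w ≠ 0)
    (hP : HasP1 A₀ A₁) (h0 : IsNor B₀) (h1 : IsNor B₁) (h : IsDom A₀ A₁ w B₀ B₁ w') (n : ℕ)
    (x : K) (hx : x ∈ Sec A₀ A₁ w n) : x ∈ Sec B₀ B₁ w' n := by
  have hk : ∀ (B : Subalgebra k K) (V : ValuationSubring K), (∀ b ∈ B, b ∈ V) →
      ∀ c : k, algebraMap k K c ∈ V := fun B V hV c => hV _ (B.algebraMap_mem c)
  refine mem_Sec.2 ⟨h0 x fun V hV => ?_, h1 _ fun V hV => ?_⟩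
  · rcases hP V (hk _ V hV) with hA | hA
    · exact hA x (mem_Sec.1 hx).1
    · have h2 := V.mul_mem _ _ (pow_mem (h.c10 V hA hV) n) (hA _ (mem_Sec.1 hx).2)
      rwa [← mul_assoc, ← mul_pow, inv_mul_cancel₀ hw, one_pow, one_mul] at h2
  · rcases hP V (hk _ V hV) with hA | hA
    · exact V.mul_mem _ _ (pow_mem (h.c01 V hA hV) n) (hA x (mem_Sec.1 hx).1)
    · have h2 := V.mul_mem _ _ (pow_mem (h.c11 V hA hV) n) (hA _ (mem_Sec.1 hx).2)
      have h3 : (w' * w⁻¹) ^ n * (w ^ n * x) = w' ^ n * x := by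
        rw [← mul_assoc, ← mul_pow, mul_assoc, inv_mul_cancel₀ hw, mul_one]
      rwa [h3] at h2

/-- **Comparison of degrees**, local form. -/
theorem IsDom.idx_le (hA : IsCD A₀ A₁) (hB : IsCD B₀ B₁) (hw : w ≠ 0) (hw' : w' ≠ 0)
    (hP : HasP1 A₀ A₁) (h0 : IsNor B₀) (h1 : IsNor B₁) (h : IsDom A₀ A₁ w B₀ B₁ w')
    (hpos : 0 < idx A₁ w) : idx A₁ w ≤ idx B₁ w' :=
  chart_idx_le hA hB (a := 1) hw hw' one_ne_zero hpos fun n x hx => by
    rw [one_pow, one_mul]
    exact h.sec hw hP h0 h1 n x hx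

theorem mem_of_pow_mem {V : ValuationSubring K} {x : K} {n : ℕ} (hn : 0 < n) (h : x ^ n ∈ V) :
    x ∈ V := by
  rcases V.mem_or_inv_mem x with h1 | h1
  · exact h1
  · by_cases hx : x = 0
    · rw [hx]; exact V.zero_mem
    obtain ⟨m, rfl⟩ : ∃ m, n = m + 1 := ⟨n - 1, by omega⟩
    have h2 := V.mul_mem _ _ h (pow_mem h1 m)
    have h3 : x ^ (m + 1) * x⁻¹ ^ m = x := by
      rw [pow_succ, mul_comm (x ^ m) x, mul_assoc, ← mul_pow, mul_inv_cancel₀ hx, one_pow, mul_one]
    rwa [h3] at h2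

end

end Vale.Agent.P292.Dv
end

section

/-! # P292, T2, Q2, part a: the two charts of the line. -/

namespace Vale.Agent.P292.Dv.LineQ2

open Polynomial Vale.Agent.P292.Mo

universe u

variable {k : Type u} [Field k]


theorem q2_aeval (p : k[X]) : aeval (RatFunc.X : RatFunc k) p = (algebraMap (Polynomial k) (RatFunc k)) p := by
  rw [← RatFunc.algebraMap_X, aeval_algebraMap_apply, aeval_X_left_apply]

theorem q2_ne {p : k[X]} (hp : p ≠ 0) : (algebraMap (Polynomial k) (RatFunc k)) p ≠ 0 := RatFunc.algebraMap_ne_zero hp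

theorem q2_transc : Transcendental k (RatFunc.X : RatFunc k) := by
  rw [transcendental_iff]
  intro p hp
  rw [q2_aeval] at hp
  by_contra h
  exact q2_ne h hp

theorem q2_finrank : Module.finrank (IntermediateField.adjoin k {(RatFunc.X : RatFunc k)})
    (RatFunc k) = 1 := by
  rw [RatFunc.adjoin_X]
  exact IntermediateField.finrank_top

theorem q2_fin : FiniteDimensional (IntermediateField.adjoin k {(RatFunc.X : RatFunc k)})
    (RatFunc k) := FiniteDimensional.of_finrank_pos (by rw [q2_finrank]; exact one_pos)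

theorem q2_sep : Algebra.IsSeparable (IntermediateField.adjoin k {(RatFunc.X : RatFunc k)})
    (RatFunc k) := by
  rw [RatFunc.adjoin_X]
  refine ⟨fun x => ?_⟩
  have h := isSeparable_algebraMap (F := (⊤ : IntermediateField k (RatFunc k))) (K := RatFunc k)
    (⟨x, IntermediateField.mem_top⟩ : (⊤ : IntermediateField k (RatFunc k)))
  exact h

theorem q2_int (B : Subalgebra k (RatFunc k)) (M : Submonoid k[X])
    (hB : ∀ b ∈ B, ∃ d ∈ M, ∃ p : k[X], (algebraMap (Polynomial k) (RatFunc k)) d * b = (algebraMap (Polynomial k) (RatFunc k)) p) {x : RatFunc k} (hx : x ∈ IC B) :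
    ∃ d ∈ M, ∃ p : k[X], (algebraMap (Polynomial k) (RatFunc k)) d * x = (algebraMap (Polynomial k) (RatFunc k)) p := by
  classical
  obtain ⟨f, hf, hfx⟩ := (hx : IsIntegral B x)
  set n := f.natDegree with hn
  have hB' : ∀ i, ∃ d ∈ M, ∃ p : k[X], (algebraMap (Polynomial k) (RatFunc k)) d * (f.coeff i : RatFunc k) = (algebraMap (Polynomial k) (RatFunc k)) p := fun i =>
    hB _ (f.coeff i).2
  choose D hDM P hP using hB'
  set d := ∏ i ∈ Finset.range n, D i with hd
  have hdM : d ∈ M := Submonoid.prod_mem _ fun i _ => hDM i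
  have hc : ∀ i, ∃ c : k[X], i ∈ Finset.range n → (algebraMap (Polynomial k) (RatFunc k)) d * (f.coeff i : RatFunc k) = (algebraMap (Polynomial k) (RatFunc k)) c := by
    intro i
    refine ⟨(∏ j ∈ (Finset.range n).erase i, D j) * P i, fun hi => ?_⟩
    rw [hd, ← Finset.mul_prod_erase _ _ hi, map_mul, map_mul, ← hP i]
    ring
  choose c hc using hc
  let h : Polynomial k[X] := X ^ n + ∑ i ∈ Finset.range n, C (d ^ (n - 1 - i) * c i) * X ^ i
  have hmon : h.Monic := by
    refine monic_X_pow_add ?_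
    refine (degree_sum_le _ _).trans_lt ((Finset.sup_lt_iff (WithBot.bot_lt_coe n)).2 ?_)
    intro i hi
    exact (degree_C_mul_X_pow_le _ _).trans_lt (Nat.cast_lt.2 (Finset.mem_range.1 hi))
  have h0 : eval₂ (algebraMap (Polynomial k) (RatFunc k)) ((algebraMap (Polynomial k) (RatFunc k)) d * x) h = 0 := by
    have h1 : eval₂ (algebraMap (Polynomial k) (RatFunc k)) ((algebraMap (Polynomial k) (RatFunc k)) d * x) h = (algebraMap (Polynomial k) (RatFunc k)) d ^ n * eval₂ (algebraMap B (RatFunc k)) x f := by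
      rw [eval₂_eq_sum_range (p := f), ← hn, Finset.sum_range_succ, hn, hf.coeff_natDegree, ← hn, map_one,
        one_mul, mul_add, Finset.mul_sum]
      simp only [h, eval₂_add, eval₂_pow, eval₂_X, eval₂_finsetSum, eval₂_mul, eval₂_C]
      rw [mul_pow, add_comm]
      congr 1
      refine Finset.sum_congr rfl fun i hi => ?_
      have h2 := hc i hi
      have hi' := Finset.mem_range.1 hi
      have h3 : n = (n - 1 - i) + 1 + i := by omega
      have h4 : algebraMap B (RatFunc k) (f.coeff i) = (f.coeff i : RatFunc k) := rfl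
      rw [map_mul, map_pow, ← h2, h4, mul_pow]
      conv_rhs => rw [h3, pow_add, pow_succ]
      ring
    rw [h1, hfx, mul_zero]
  have hint : IsIntegral k[X] ((algebraMap (Polynomial k) (RatFunc k)) d * x) := ⟨h, hmon, h0⟩
  obtain ⟨p, hp⟩ := IsIntegrallyClosed.isIntegral_iff.1 hint
  exact ⟨d, hdM, p, hp.symm⟩

/-- The first chart. -/
theorem q2_IC0 {g : k[X]} (hg : g ≠ 0) {x : RatFunc k} (hx : x ∈ IC (B0 RatFunc.X g)) :
    ∃ (p : k[X]) (n : ℕ), (algebraMap (Polynomial k) (RatFunc k)) (g ^ n) * x = (algebraMap (Polynomial k) (RatFunc k)) p := by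
  obtain ⟨d, ⟨n, rfl⟩, p, hp⟩ := q2_int (B0 RatFunc.X g) (Submonoid.powers g) (fun b hb => by
    obtain ⟨a, n, ha⟩ := pf_B0_elim q2_transc hg hb
    refine ⟨g ^ n, ⟨n, rfl⟩, a, ?_⟩
    rw [q2_aeval, q2_aeval] at ha
    rw [map_pow, mul_comm, ha]) hx
  exact ⟨p, n, hp⟩

/-- The polynomials prime to `g`. -/
def q2_M (g : k[X]) : Submonoid k[X] where
  carrier := {d | d ≠ 0 ∧ IsCoprime d g}
  one_mem' := ⟨one_ne_zero, isCoprime_one_left⟩
  mul_mem' := fun ha hb => ⟨mul_ne_zero ha.1 hb.1, ha.2.mul_left hb.2⟩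

theorem q2_deg [DecidableEq (RatFunc k)] {p q : k[X]} (hq : q ≠ 0) :
    RatFunc.inftyValuation k ((algebraMap (Polynomial k) (RatFunc k)) p / (algebraMap (Polynomial k) (RatFunc k)) q) ≤ 1 ↔ p.natDegree ≤ q.natDegree := by
  by_cases hp : p = 0
  · subst hp
    simp
  · rw [map_div₀, RatFunc.inftyValuation_apply, RatFunc.inftyValuation_apply,
      RatFunc.inftyValuation.polynomial _ hp,
      RatFunc.inftyValuation.polynomial _ hq, div_le_one₀ (by simp)]
    simp

/-- The second chart. -/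
theorem q2_IC1 {g : k[X]} {x : RatFunc k} (hx : x ∈ IC (B1 RatFunc.X g)) :
    ∃ p q : k[X], q ≠ 0 ∧ IsCoprime q g ∧ p.natDegree ≤ q.natDegree ∧ x = (algebraMap (Polynomial k) (RatFunc k)) p / (algebraMap (Polynomial k) (RatFunc k)) q := by
  classical
  obtain ⟨d, hd, p, hp⟩ := q2_int (B1 RatFunc.X g) (q2_M g) (fun b hb => by
    obtain ⟨a, q, hq, hc, -, rfl⟩ := hb
    rw [q2_aeval] at hq
    have hq0 : q ≠ 0 := fun h => hq (by rw [h, map_zero])
    refine ⟨q, ⟨hq0, hc⟩, a, ?_⟩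
    rw [q2_aeval, q2_aeval]
    field_simp) hx
  have hx' : x = (algebraMap (Polynomial k) (RatFunc k)) p / (algebraMap (Polynomial k) (RatFunc k)) d := by
    rw [← hp]
    have := q2_ne hd.1
    field_simp
  refine ⟨p, d, hd.1, hd.2, ?_, hx'⟩
  rw [← q2_deg hd.1, ← hx']
  let v := RatFunc.inftyValuation k
  have hle : ∀ b : B1 (RatFunc.X : RatFunc k) g, (b : RatFunc k) ∈ v.integer := by
    rintro ⟨_, a, q, hq, hc, hdeg, rfl⟩
    rw [q2_aeval] at hq
    have hq0 : q ≠ 0 := fun h => hq (by rw [h, map_zero])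
    change v (aeval RatFunc.X a / aeval RatFunc.X q) ≤ 1
    rw [q2_aeval, q2_aeval]
    exact (q2_deg hq0).2 hdeg
  obtain ⟨f, hf, hfx⟩ := (hx : IsIntegral (B1 (RatFunc.X : RatFunc k) g) x)
  let ρ : B1 (RatFunc.X : RatFunc k) g →+* v.integer :=
    ((B1 (RatFunc.X : RatFunc k) g).val : _ →+* RatFunc k).codRestrict v.integer hle
  have hint : IsIntegral v.integer x := by
    refine ⟨f.map ρ, hf.map ρ, ?_⟩
    rw [eval₂_map]
    exact hfx
  exact (Valuation.integer.integers v).mem_of_integral hint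

section
variable [IsAlgClosed k]

theorem q2_cd {g : k[X]} (hg : g ≠ 0) :
    IsCD (IC (B0 (RatFunc.X : RatFunc k) g)) (IC (B1 (RatFunc.X : RatFunc k) g)) := by
  have := q2_fin (k := k)
  have := q2_sep (k := k)
  exact isCD_IC q2_transc hg

omit [IsAlgClosed k] in
theorem q2_B1_le {g : k[X]} {x : RatFunc k} (hx : x ∈ B1 (RatFunc.X : RatFunc k) g) :
    x ∈ IC (B1 (RatFunc.X : RatFunc k) g) :=
  (integralClosure (B1 (RatFunc.X : RatFunc k) g) (RatFunc k)).algebraMap_mem ⟨x, hx⟩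

omit [IsAlgClosed k] in
theorem q2_B0_le {g : k[X]} {x : RatFunc k} (hx : x ∈ B0 (RatFunc.X : RatFunc k) g) :
    x ∈ IC (B0 (RatFunc.X : RatFunc k) g) :=
  (integralClosure (B0 (RatFunc.X : RatFunc k) g) (RatFunc k)).algebraMap_mem ⟨x, hx⟩

theorem q2_idx {g α : k[X]} (hg : g ≠ 0) (hα : α ≠ 0) (hc : IsCoprime α g) :
    idx (IC (B1 (RatFunc.X : RatFunc k) g)) ((algebraMap (Polynomial k) (RatFunc k)) α) = - (α.natDegree : ℤ) := by
  have hinf : Infinite k := IsAlgClosed.instInfinite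
  have h1 := q2_fin (k := k)
  have h2 := q2_sep (k := k)
  obtain ⟨l, hl⟩ : ∃ l : k, g.eval l ≠ 0 := by
    by_contra hcon
    push Not at hcon
    exact hg (Polynomial.funext (fun r => by rw [hcon r, eval_zero]))
  have hcd := q2_cd hg
  have hs := idx_IC (K := RatFunc k) q2_transc hg l hl
  rw [q2_finrank] at hs
  set A₁ := IC (B1 (RatFunc.X : RatFunc k) g) with hA₁
  have e1 : (RatFunc.X : RatFunc k) - algebraMap k (RatFunc k) l = (algebraMap (Polynomial k) (RatFunc k)) (X - C l) := by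
    rw [map_sub, RatFunc.algebraMap_X]
    rfl
  rw [e1] at hs
  have hl0 : (algebraMap (Polynomial k) (RatFunc k)) (X - C l) ≠ 0 := q2_ne (X_sub_C_ne_zero l)
  have hα0 := q2_ne (k := k) hα
  have hcl : IsCoprime ((X - C l) ^ α.natDegree) g := by
    refine IsCoprime.pow_left ?_
    rw [(irreducible_X_sub_C l).coprime_iff_not_dvd, dvd_iff_isRoot]
    exact hl
  have hdeg : ((X - C l) ^ α.natDegree).natDegree = α.natDegree := by
    rw [natDegree_pow, natDegree_X_sub_C, mul_one]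
  have hp0 : (X - C l) ^ α.natDegree ≠ 0 := pow_ne_zero _ (X_sub_C_ne_zero l)
  have hm1 : (algebraMap (Polynomial k) (RatFunc k)) α * ((algebraMap (Polynomial k) (RatFunc k)) (X - C l))⁻¹ ^ α.natDegree ∈ A₁ := by
    refine q2_B1_le ⟨α, (X - C l) ^ α.natDegree, ?_, hcl, hdeg.ge, ?_⟩
    · rw [q2_aeval]; exact q2_ne hp0
    · rw [q2_aeval, q2_aeval, map_pow, inv_pow, div_eq_mul_inv]
  have hm2 : ((algebraMap (Polynomial k) (RatFunc k)) α * ((algebraMap (Polynomial k) (RatFunc k)) (X - C l))⁻¹ ^ α.natDegree)⁻¹ ∈ A₁ := by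
    refine q2_B1_le ⟨(X - C l) ^ α.natDegree, α, ?_, hc, hdeg.le, ?_⟩
    · rw [q2_aeval]; exact hα0
    · rw [q2_aeval, q2_aeval, map_pow, mul_inv, inv_pow, inv_inv, div_eq_mul_inv, mul_comm]
  have h3 := hcd.idx_unit1 hm1 hm2 (mul_ne_zero hα0 (pow_ne_zero _ (inv_ne_zero hl0)))
  rw [hcd.idx_mul hα0 (pow_ne_zero _ (inv_ne_zero hl0)), hcd.idx_pow (inv_ne_zero hl0), hs] at h3
  push_cast at h3
  linarith

end

end Vale.Agent.P292.Dv.LineQ2
end

section

/-! # Quotients of graded algebras by homogeneous ideals. -/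

namespace Vale.Agent.P292.Dv

universe u v

variable {k : Type u} [Field k] {R : Type v} [CommRing R] [Algebra k R]

/-- The grading of the quotient by a homogeneous ideal. -/
theorem dr_graded (𝒜 : ℕ → Submodule k R) [GradedAlgebra 𝒜] (I : Ideal R)
    (hI : I.IsHomogeneous 𝒜) :
    Nonempty (GradedAlgebra (fun n => (𝒜 n).map (Ideal.Quotient.mkₐ k I).toLinearMap)) := by
  classical
  let ℬ : ℕ → Submodule k (R ⧸ I) := fun n => (𝒜 n).map (Ideal.Quotient.mkₐ k I).toLinearMap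
  have hmem : ∀ n, ∀ r ∈ 𝒜 n, Ideal.Quotient.mkₐ k I r ∈ ℬ n := fun n r hr => ⟨r, hr, rfl⟩
  have hgm : SetLike.GradedMonoid ℬ :=
    { one_mem := ⟨1, SetLike.GradedOne.one_mem, (Ideal.Quotient.mk I).map_one⟩
      mul_mem := by
        rintro i j _ _ ⟨a, ha, rfl⟩ ⟨b, hb, rfl⟩
        exact ⟨a * b, SetLike.GradedMul.mul_mem ha hb, map_mul (Ideal.Quotient.mkₐ k I) a b⟩ }
  let g : (DirectSum ℕ fun i => 𝒜 i) →ₐ[k] DirectSum ℕ fun i => ℬ i :=
    DirectSum.toAlgebra k (fun i => 𝒜 i)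
      (fun i => (DirectSum.lof k ℕ (fun i => ℬ i) i) ∘ₗ
        ((Ideal.Quotient.mkₐ k I).toLinearMap.restrict (p := 𝒜 i) (q := ℬ i) (hmem i)))
      (by
        change DirectSum.of (fun i => ℬ i) 0 _ = DirectSum.of (fun i => ℬ i) 0 _
        congr 1)
      (fun {i j} a b => by
        change DirectSum.of (fun i => ℬ i) _ _ =
          DirectSum.of (fun i => ℬ i) _ _ * DirectSum.of (fun i => ℬ i) _ _
        rw [DirectSum.of_mul_of]
        congr 1)
  have hg : ∀ i (a : 𝒜 i), g (DirectSum.of (fun i => 𝒜 i) i a) =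
      DirectSum.of (fun i => ℬ i) i ⟨Ideal.Quotient.mkₐ k I a, hmem i a a.2⟩ := by
    intro i a
    simp only [g, DirectSum.toAlgebra_apply]
    exact DirectSum.toSemiring_of _ _ _ _ _
  let F : R →ₐ[k] DirectSum ℕ fun i => ℬ i :=
    g.comp (DirectSum.decomposeAlgEquiv 𝒜 : R →ₐ[k] DirectSum ℕ fun i => 𝒜 i)
  have hF : ∀ i, ∀ r (hr : r ∈ 𝒜 i), F r =
      DirectSum.of (fun i => ℬ i) i ⟨Ideal.Quotient.mkₐ k I r, hmem i r hr⟩ := by
    intro i r hr
    have h1 : (DirectSum.decomposeAlgEquiv 𝒜 : R →ₐ[k] DirectSum ℕ fun i => 𝒜 i) r =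
        DirectSum.of (fun i => 𝒜 i) i ⟨r, hr⟩ := DirectSum.decompose_of_mem 𝒜 hr
    change g ((DirectSum.decomposeAlgEquiv 𝒜 : R →ₐ[k] DirectSum ℕ fun i => 𝒜 i) r) = _
    rw [h1, hg]
  have hFI : ∀ r ∈ I, F r = 0 := by
    intro r hr
    rw [← DirectSum.sum_support_decompose 𝒜 r, map_sum]
    refine Finset.sum_eq_zero fun i _ => ?_
    rw [hF i _ (SetLike.coe_mem _)]
    have h2 : (Ideal.Quotient.mkₐ k I (DirectSum.decompose 𝒜 r i : R)) = 0 :=
      Ideal.Quotient.eq_zero_iff_mem.2 (hI i hr)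
    have h3 : (⟨Ideal.Quotient.mkₐ k I (DirectSum.decompose 𝒜 r i : R),
        hmem i _ (SetLike.coe_mem _)⟩ : ℬ i) = 0 := Subtype.ext h2
    rw [h3, map_zero]
  let G : (R ⧸ I) →ₐ[k] DirectSum ℕ fun i => ℬ i := Ideal.Quotient.liftₐ I F hFI
  have hG : ∀ r, G (Ideal.Quotient.mkₐ k I r) = F r := fun r => rfl
  refine ⟨GradedAlgebra.ofAlgHom ℬ G ?_ ?_⟩
  · refine Ideal.Quotient.algHom_ext _ ?_
    ext r
    change DirectSum.coeAlgHom ℬ (F r) = Ideal.Quotient.mkₐ k I r
    rw [← DirectSum.sum_support_decompose 𝒜 r, map_sum, map_sum, map_sum]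
    refine Finset.sum_congr rfl fun i _ => ?_
    rw [hF i _ (SetLike.coe_mem _), DirectSum.coeAlgHom_of]
  · rintro i ⟨_, r, hr, rfl⟩
    exact hF i r hr

end Vale.Agent.P292.Dv
end

section

/-! # Passing to a quotient of a graded Poisson algebra. -/

namespace Vale.Agent.P292.Dv

open MvPolynomial Vale.Agent.P292 Vale.Agent.P292.Mo

universe u v w

variable {k : Type u} [Field k] {S : Type v} [CommRing S] [Algebra k S]
  {ℬ : ℕ → Submodule k S} {Q : S →ₗ[k] S →ₗ[k] S}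
  {S' : Type v} [CommRing S'] [Algebra k S'] {Q' : S' →ₗ[k] S' →ₗ[k] S'}

/-- The bracket descends. -/
theorem dq_bracket (Q : S →ₗ[k] S →ₗ[k] S) (halt : ∀ a, Q a a = 0) (f : S →ₐ[k] S')
    (hf : Function.Surjective f) (hQ : ∀ a r, f r = 0 → f (Q a r) = 0) :
    ∃ Q' : S' →ₗ[k] S' →ₗ[k] S', ∀ a b, Q' (f a) (f b) = f (Q a b) := by
  obtain ⟨σ, hσ⟩ := LinearMap.exists_rightInverse_of_surjective f.toLinearMap
    (LinearMap.range_eq_top.2 hf)
  have hσ' : ∀ a, f (σ a) = a := fun a => DFunLike.congr_fun hσ a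
  refine ⟨(Q.compl₁₂ σ σ).compr₂ f.toLinearMap, fun a b => ?_⟩
  have hskew : ∀ a b, Q a b = - Q b a := by
    intro a b
    have h1 := halt (a + b)
    rw [map_add, map_add, LinearMap.add_apply, LinearMap.add_apply, halt, halt, zero_add,
      add_zero] at h1
    exact eq_neg_of_add_eq_zero_right h1
  change f (Q (σ (f a)) (σ (f b))) = f (Q a b)
  have h1 : f (σ (f a) - a) = 0 := by rw [map_sub, hσ', sub_self]
  have h2 : f (σ (f b) - b) = 0 := by rw [map_sub, hσ', sub_self]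
  have h3 : Q (σ (f a)) (σ (f b)) = Q a b + Q a (σ (f b) - b) - Q (σ (f b)) (σ (f a) - a) := by
    have h4 : Q (σ (f b)) (σ (f a) - a) = - (Q (σ (f a)) (σ (f b))) + Q a (σ (f b)) := by
      rw [map_sub, hskew (σ (f b)) (σ (f a)), hskew (σ (f b)) a]
      ring
    rw [h4, map_sub]
    ring
  rw [h3, map_sub, map_add, hQ _ _ h1, hQ _ _ h2, add_zero, sub_zero]

/-- Frames map to frames. -/
theorem dq_frame {𝒢 : ℕ → Submodule k S'} (f : S →ₐ[k] S') (hf : Function.Surjective f)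
    (h𝒢 : ∀ n, 𝒢 n = (ℬ n).map f.toLinearMap) {N : ℕ} {x : Fin N → S}
    {d : Fin N → ℕ} {g : S} (h : IsFr ℬ x d g) : IsFr 𝒢 (fun i => f (x i)) d (f g) := by
  refine ⟨fun i => ?_, ?_, ?_⟩
  · rw [h𝒢]
    exact ⟨x i, h.hom i, rfl⟩
  · obtain ⟨l, hl⟩ := h.ghom
    refine ⟨l, ?_⟩
    rw [h𝒢]
    exact ⟨g, hl, rfl⟩
  · intro r'
    obtain ⟨r, rfl⟩ := hf r'
    obtain ⟨c, hc⟩ := h.gen r
    let _ : Algebra S S' := f.toRingHom.toAlgebra
    have : IsScalarTower k S S' := IsScalarTower.of_algebraMap_eq fun a => (f.commutes a).symm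
    refine ⟨fun i => f (c i), ?_⟩
    have h1 := congrArg (KaehlerDifferential.map k k S S') hc
    rw [map_smul, map_sum, KaehlerDifferential.map_D] at h1
    have h2 : ∀ (a : S) (m : KaehlerDifferential k S'), a • m = f a • m :=
      fun a m => (algebraMap_smul S' a m).symm
    rw [h2] at h1
    change f g • KaehlerDifferential.D k S' (f r) = _ at h1
    rw [h1]
    refine Finset.sum_congr rfl fun i _ => ?_
    rw [map_smul, KaehlerDifferential.map_D, h2]
    rfl

theorem dq_det (f : S →ₐ[k] S') (hQ' : ∀ a b, Q' (f a) (f b) = f (Q a b)) {N : ℕ}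
    (x : Fin N → S) : (brM Q' (fun i => f (x i))).det = f (brM Q x).det := by
  have h1 : (brM Q' (fun i => f (x i))) = (f : S →+* S').mapMatrix (brM Q x) := by
    ext i j
    exact hQ' _ _
  rw [h1, ← RingHom.map_det]
  rfl

theorem dq_nv {𝒢 : ℕ → Submodule k S'} (f : S →ₐ[k] S')
    (h𝒢 : ∀ n, 𝒢 n = (ℬ n).map f.toLinearMap) (y : S' →ₐ[k] k) :
    Mo.NV 𝒢 y ↔ Mo.NV ℬ (y.comp f) := by
  constructor
  · rintro ⟨n, hn, r, hr, hyr⟩
    rw [h𝒢] at hr
    obtain ⟨r, hr, rfl⟩ := hr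
    exact ⟨n, hn, r, hr, hyr⟩
  · rintro ⟨n, hn, r, hr, hyr⟩
    refine ⟨n, hn, f r, ?_, hyr⟩
    rw [h𝒢]
    exact ⟨r, hr, rfl⟩

/-- Ranks. -/
theorem dq_rk {𝒢 : ℕ → Submodule k S'} (f : S →ₐ[k] S') (hf : Function.Surjective f)
    (h𝒢 : ∀ n, 𝒢 n = (ℬ n).map f.toLinearMap) (hQ' : ∀ a b, Q' (f a) (f b) = f (Q a b))
    (y : S' →ₐ[k] k) {N : ℕ} (h : HasRk ℬ Q (y.comp f) N) : HasRk 𝒢 Q' y N := by
  obtain ⟨x, d, g, hx, hy⟩ := h
  refine ⟨_, d, f g, dq_frame f hf h𝒢 hx, ?_⟩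
  rw [dq_det f hQ', ← map_mul]
  exact hy

/-- A quotient of a graded Poisson algebra is one if it is smooth. -/
theorem dq_isPM [GradedAlgebra ℬ] {𝒢 : ℕ → Submodule k S'} [GradedAlgebra 𝒢] (f : S →ₐ[k] S')
    (hf : Function.Surjective f) (h𝒢 : ∀ n, 𝒢 n = (ℬ n).map f.toLinearMap)
    (hQ' : ∀ a b, Q' (f a) (f b) = f (Q a b)) (hPM : IsPM ℬ Q)
    (hsm : ∀ n : ℕ, 0 < n → ∀ s ∈ ℬ n, Algebra.FormallySmooth k (Localization.Away (f s))) :
    IsPM 𝒢 Q' where
  finiteType := by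
    have := hPM.finiteType
    exact Algebra.FiniteType.of_surjective f hf
  connected := by
    intro r hr
    rw [h𝒢] at hr
    obtain ⟨r, hr, rfl⟩ := hr
    obtain ⟨c, rfl⟩ := hPM.connected r hr
    exact ⟨c, f.commutes c⟩
  alternating := by
    intro a
    obtain ⟨a, rfl⟩ := hf a
    rw [hQ', hPM.alternating, map_zero]
  leibniz := by
    intro a b c
    obtain ⟨a, rfl⟩ := hf a
    obtain ⟨b, rfl⟩ := hf b
    obtain ⟨c, rfl⟩ := hf c
    rw [← map_mul, hQ', hPM.leibniz, hQ', hQ', map_add, map_mul, map_mul]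
  degree := by
    intro i j n hij a ha b hb
    rw [h𝒢] at ha hb
    obtain ⟨a, ha, rfl⟩ := ha
    obtain ⟨b, hb, rfl⟩ := hb
    rw [h𝒢]
    exact ⟨Q a b, hPM.degree i j n hij a ha b hb, (hQ' a b).symm⟩
  frame := by
    intro y hy
    obtain ⟨N, x, d, g, hx, hyx⟩ := hPM.frame (y.comp f) ((dq_nv f h𝒢 y).1 hy)
    refine ⟨N, _, d, f g, dq_frame f hf h𝒢 hx, ?_⟩
    rw [dq_det f hQ', ← map_mul]
    exact hyx
  smooth := by
    intro n hn s hs
    rw [h𝒢] at hs
    obtain ⟨s, hs, rfl⟩ := hs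
    exact hsm n hn s hs
  lineBundle := by
    intro y hy d hd
    refine hPM.lineBundle (y.comp f) ((dq_nv f h𝒢 y).1 hy) d fun n r hr hne => ?_
    refine hd n (f r) ?_ hne
    rw [h𝒢]
    exact ⟨r, hr, rfl⟩

/-- Noether normalisation. -/
theorem dq_isNoe {p e n : ℕ} {y : Fin n → S} {𝒢 : ℕ → Submodule k S'} (f : S →ₐ[k] S')
    (hf : Function.Surjective f) (h𝒢 : ∀ n, 𝒢 n = (ℬ n).map f.toLinearMap)
    (hN : IsNoe ℬ p e y) (hi : AlgebraicIndependent k fun i => f (y i)) :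
    IsNoe 𝒢 p e fun i => f (y i) where
  e_pos := hN.e_pos
  two_le := hN.two_le
  hom := fun i => by
    rw [h𝒢]
    exact ⟨y i, hN.hom i, rfl⟩
  indep := hi
  gens := by
    classical
    obtain ⟨T, hT, hspan⟩ := hN.gens
    refine ⟨T.image f, Finset.card_image_le.trans_lt hT, ?_⟩
    rw [eq_top_iff]
    rintro r' -
    obtain ⟨r, rfl⟩ := hf r'
    have hr : r ∈ Submodule.span (Algebra.adjoin k (Set.range y)) (T : Set S) := by
      rw [hspan]
      exact Submodule.mem_top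
    induction hr using Submodule.span_induction with
    | mem x hx =>
      exact Submodule.subset_span (Finset.mem_coe.2 (Finset.mem_image_of_mem f hx))
    | zero =>
      rw [map_zero]
      exact zero_mem _
    | add x x' _ _ h h' =>
      rw [map_add]
      exact add_mem h h'
    | smul c x _ h =>
      have hc : f c ∈ Algebra.adjoin k (Set.range fun i => f (y i)) := by
        have h1 : (c : S) ∈ Algebra.adjoin k (Set.range y) := c.2
        have h2 : Set.range (fun i => f (y i)) = f '' Set.range y := by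
          rw [← Set.range_comp]
          rfl
        rw [h2, ← AlgHom.map_adjoin]
        exact ⟨c, h1, rfl⟩
      have h3 : f (c • x) = (⟨f c, hc⟩ : Algebra.adjoin k (Set.range fun i => f (y i))) • f x := by
        change f ((c : S) * x) = f c * f x
        exact map_mul f _ _
      rw [h3]
      exact Submodule.smul_mem _ _ h

/-- Invertible ideals. -/
theorem dq_isInv {𝒢 : ℕ → Submodule k S'} (f : S →ₐ[k] S')
    (hf : Function.Surjective f) (h𝒢 : ∀ n, 𝒢 n = (ℬ n).map f.toLinearMap) {𝔮 : Ideal S}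
    (h : IsInv ℬ 𝔮) : IsInv 𝒢 (𝔮.map f) := by
  obtain ⟨T, a, b, da, db, ha, hb, haq, hab, hr⟩ := h
  refine ⟨T, fun t => f (a t), fun t => f (b t), da, db, fun t => ?_, fun t => ?_,
    fun t => Ideal.mem_map_of_mem f (haq t), ?_, ?_⟩
  · rw [h𝒢]
    exact ⟨a t, ha t, rfl⟩
  · rw [h𝒢]
    exact ⟨b t, hb t, rfl⟩
  · intro t x' hx'
    obtain ⟨x, hx, rfl⟩ := (Ideal.mem_map_iff_of_surjective f hf).1 hx'
    obtain ⟨r, hr⟩ := hab t x hx
    exact ⟨f r, by rw [← map_mul, hr, map_mul]⟩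
  · intro n hn r' hr'
    rw [h𝒢] at hr'
    obtain ⟨r, hr', rfl⟩ := hr'
    obtain ⟨N, hN⟩ := hr n hn r hr'
    refine ⟨N, ?_⟩
    have h1 := Ideal.mem_map_of_mem f hN
    rw [Ideal.map_span, ← Set.range_comp, map_pow] at h1
    exact h1

/-- Homogeneous ideals. -/
theorem dq_hom [GradedAlgebra ℬ] {𝒢 : ℕ → Submodule k S'} [GradedAlgebra 𝒢] (f : S →ₐ[k] S')
    (h𝒢 : ∀ n, 𝒢 n = (ℬ n).map f.toLinearMap) {𝔮 : Ideal S} (h : 𝔮.IsHomogeneous ℬ) :
    (𝔮.map f).IsHomogeneous 𝒢 := by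
  rw [Ideal.IsHomogeneous.iff_exists] at h ⊢
  obtain ⟨T, hT⟩ := h
  have hT' : ∀ x : T, f ((x : SetLike.homogeneousSubmonoid ℬ) : S) ∈
      SetLike.homogeneousSubmonoid 𝒢 := by
    rintro ⟨⟨x, i, hx⟩, -⟩
    refine ⟨i, ?_⟩
    rw [h𝒢]
    exact ⟨x, hx, rfl⟩
  refine ⟨Set.range fun x : T => ⟨_, hT' x⟩, ?_⟩
  rw [hT, Ideal.map_span]
  congr 1
  ext z
  constructor
  · rintro ⟨x, ⟨x', hx', rfl⟩, rfl⟩
    exact ⟨_, ⟨⟨x', hx'⟩, rfl⟩, rfl⟩
  · rintro ⟨_, ⟨x, rfl⟩, rfl⟩
    exact ⟨x, ⟨_, x.2, rfl⟩, rfl⟩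

/-- Curves positive on a divisor. -/
theorem dq_pos {𝒢 : ℕ → Submodule k S'} (f : S →ₐ[k] S')
    (hf : Function.Surjective f) (h𝒢 : ∀ n, 𝒢 n = (ℬ n).map f.toLinearMap) {𝔮 : Ideal S}
    {K : Type w} [Field K] [Algebra k K] (h : Pos 𝒢 (𝔮.map f) K) : Pos ℬ 𝔮 K := by
  obtain ⟨e, δ, φ, η, he, hδ, hp⟩ := h
  let F : 𝔮 →ₗ[k] (𝔮.map f : Ideal S') :=
    { toFun := fun x => ⟨f x, Ideal.mem_map_of_mem f x.2⟩
      map_add' := fun x y => Subtype.ext (map_add f _ _)
      map_smul' := fun c x => Subtype.ext (map_smul f _ _) }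
  have hF : ∀ x, ((F x : (𝔮.map f : Ideal S')) : S') = f x := fun x => rfl
  refine ⟨e, δ, φ.comp f, η.comp F, he, hδ, ?_, ?_, ?_, ?_, ?_, ?_⟩
  · intro j r hr
    refine hp.deg j (f r) ?_
    rw [h𝒢]
    exact ⟨r, hr, rfl⟩
  · intro a ha
    obtain ⟨j, hj, r, hr, hne⟩ := hp.bpf a ha
    rw [h𝒢] at hr
    obtain ⟨r, hr, rfl⟩ := hr
    exact ⟨j, hj, r, hr, hne⟩
  · intro r x
    have h1 : F (r • x) = f r • F x := Subtype.ext (map_mul f _ _)
    change η (F (r • x)) = φ (f r) * η (F x)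
    rw [h1, hp.lin]
  · intro j x hx m hm
    refine hp.degη j (F x) ?_ m hm
    rw [h𝒢]
    exact ⟨x, hx, rfl⟩
  · intro j x hx hj
    refine hp.zeroη j (F x) ?_ hj
    rw [h𝒢]
    exact ⟨x, hx, rfl⟩
  · intro a ha
    obtain ⟨⟨x', hx'⟩, hne⟩ := hp.bpfη a ha
    obtain ⟨x, hx, rfl⟩ := (Ideal.mem_map_iff_of_surjective f hf).1 hx'
    exact ⟨⟨x, hx⟩, hne⟩

end Vale.Agent.P292.Dv
end

section

/-! # The component through a point is smooth. -/

namespace Vale.Agent.P292.Dv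

universe u v

theorem dr_nullst {k : Type u} [Field k] [IsAlgClosed k] {R : Type v} [CommRing R] [Algebra k R]
    [Algebra.FiniteType k R] (I : Ideal R) (r : R)
    (h : ∀ y : R →ₐ[k] k, (∀ x ∈ I, y x = 0) → y r = 0) : r ∈ I.radical := by
  have hJ : IsJacobsonRing R := by
    have : IsJacobsonRing k := inferInstance
    exact isJacobsonRing_of_finiteType (A := k) (B := R)
  rw [Ideal.radical_eq_jacobson, Ideal.jacobson, Ideal.mem_sInf]
  rintro M ⟨hIM, hM⟩
  have : Algebra.FiniteType k (R ⧸ M) :=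
    Algebra.FiniteType.of_surjective (Ideal.Quotient.mkₐ k M) (Ideal.Quotient.mkₐ_surjective k M)
  let _ : Field (R ⧸ M) := Ideal.Quotient.field M
  have hfin : Module.Finite k (R ⧸ M) := finite_of_finite_type_of_isJacobsonRing k (R ⧸ M)
  have hsurj : Function.Bijective (algebraMap k (R ⧸ M)) :=
    IsAlgClosed.algebraMap_bijective_of_isIntegral
  let e : k ≃ₐ[k] (R ⧸ M) := AlgEquiv.ofBijective (Algebra.ofId k (R ⧸ M)) hsurj
  have h1 := h (e.symm.toAlgHom.comp (Ideal.Quotient.mkₐ k M)) (fun x hx => by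
    change e.symm (Ideal.Quotient.mk M x) = 0
    rw [Ideal.Quotient.eq_zero_iff_mem.2 (hIM hx), map_zero])
  have h2 : Ideal.Quotient.mk M r = 0 := by
    apply e.symm.injective
    rw [map_zero]
    exact h1
  exact Ideal.Quotient.eq_zero_iff_mem.1 h2

/-- The component of the closed point `w` is smooth. -/
theorem dr_smooth {k : Type u} [Field k] [IsAlgClosed k] {R : Type v} [CommRing R] [Algebra k R]
    [Algebra.FiniteType k R] (w : R →ₐ[k] k) (𝔫 : Ideal R)
    (h𝔫 : ∀ r, r ∈ 𝔫 ↔ ∃ c, w c ≠ 0 ∧ c * r = 0) (hpr : 𝔫.IsPrime) (s : R)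
    (hsm : Algebra.FormallySmooth k (Localization.Away s))
    (hdom : ∀ y : R →ₐ[k] k, y s ≠ 0 → ∀ a b, a * b = 0 → ∃ c, y c ≠ 0 ∧ (c * a = 0 ∨ c * b = 0)) :
    Algebra.FormallySmooth k (Localization.Away (Ideal.Quotient.mk 𝔫 s)) := by
  classical
  let A := Localization.Away s
  let B := Localization.Away (Ideal.Quotient.mk 𝔫 s)
  let f : A →+* B := IsLocalization.Away.map A B (Ideal.Quotient.mk 𝔫) s
  have hf : ∀ r, f (algebraMap R A r) = algebraMap (R ⧸ 𝔫) B (Ideal.Quotient.mk 𝔫 r) := fun r =>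
    IsLocalization.map_eq _ r
  let _ : Algebra A B := f.toAlgebra
  have hfA : ∀ z, algebraMap A B z = f z := fun _ => rfl
  have htow : IsScalarTower k A B := by
    refine IsScalarTower.of_algebraMap_eq fun c => ?_
    rw [hfA, IsScalarTower.algebraMap_apply k R A, hf,
      IsScalarTower.algebraMap_apply k (R ⧸ 𝔫) B]
    rfl
  have hsurj : Function.Surjective (algebraMap A B) := by
    intro z
    obtain ⟨⟨a, ⟨_, n, rfl⟩⟩, hz⟩ := IsLocalization.surj (Submonoid.powers (Ideal.Quotient.mk 𝔫 s)) z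
    obtain ⟨a, rfl⟩ := Ideal.Quotient.mk_surjective a
    refine ⟨IsLocalization.mk' A a (⟨s ^ n, n, rfl⟩ : Submonoid.powers s), ?_⟩
    have hu : IsUnit (algebraMap (R ⧸ 𝔫) B (Ideal.Quotient.mk 𝔫 s ^ n)) :=
      IsLocalization.map_units B (⟨_, n, rfl⟩ : Submonoid.powers (Ideal.Quotient.mk 𝔫 s))
    apply hu.mul_left_injective
    have h0 := IsLocalization.mk'_spec A a (⟨s ^ n, n, rfl⟩ : Submonoid.powers s)
    have h00 := congrArg f h0
    rw [map_mul, hf, hf, map_pow] at h00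
    change _ * _ = _ * _
    rw [hfA]
    exact h00.trans hz.symm
  have hsu : IsUnit (algebraMap R A s) := IsLocalization.Away.algebraMap_isUnit s
  set K : Ideal A := RingHom.ker (algebraMap A B) with hK
  -- elements of `𝔫`
  have h1 : ∀ a ∈ 𝔫, algebraMap R A a ∈ K := by
    intro a ha
    rw [hK, RingHom.mem_ker, hfA, hf, Ideal.Quotient.eq_zero_iff_mem.2 ha, map_zero]
  have h2 : ∀ a ∈ 𝔫, algebraMap R A a ∈ K * K := by
    intro a ha
    let T : Ideal R :=
      { carrier := {t | algebraMap R A (t * a) ∈ K * K}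
        add_mem' := fun {x y} hx hy => by
          change algebraMap R A ((x + y) * a) ∈ K * K
          rw [add_mul, map_add]
          exact add_mem hx hy
        zero_mem' := by
          change algebraMap R A (0 * a) ∈ K * K
          rw [zero_mul, map_zero]
          exact zero_mem _
        smul_mem' := fun c x hx => by
          change algebraMap R A (c * x * a) ∈ K * K
          rw [mul_assoc, map_mul]
          exact Ideal.mul_mem_left _ _ hx }
    have hT : ∀ t, t ∈ T ↔ algebraMap R A (t * a) ∈ K * K := fun t => Iff.rfl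
    have h3 : s ∈ T.radical := by
      refine dr_nullst (k := k) T s fun y hy => ?_
      by_contra hys
      by_cases hyn : ∀ b ∈ 𝔫, y b = 0
      · obtain ⟨c, hc, hca⟩ := (h𝔫 a).1 ha
        obtain ⟨t, ht, ht'⟩ := hdom y hys c a hca
        rcases ht' with ht' | ht'
        · have h4 : c ∉ 𝔫 := by
            intro hc'
            obtain ⟨c', hc1, hc2⟩ := (h𝔫 c).1 hc'
            have h5 := congrArg w hc2
            rw [map_mul, map_zero] at h5
            exact (mul_ne_zero hc1 hc) h5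
          have h5 : t * c ∈ 𝔫 := by rw [ht']; exact zero_mem _
          exact ht (hyn t ((hpr.mem_or_mem h5).resolve_right h4))
        · apply ht
          apply hy
          rw [hT, ht', map_zero]
          exact zero_mem _
      · push Not at hyn
        obtain ⟨b, hb, hb'⟩ := hyn
        apply hb'
        apply hy
        rw [hT, map_mul]
        exact Ideal.mul_mem_mul (h1 b hb) (h1 a ha)
    obtain ⟨N, hN⟩ := h3
    rw [hT, map_mul, map_pow] at hN
    exact (Ideal.unit_mul_mem_iff_mem _ (hsu.pow N)).1 hN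
  have hid : IsIdempotentElem K := by
    change K * K = K
    refine le_antisymm Ideal.mul_le_left fun z hz => ?_
    obtain ⟨⟨a, ⟨_, n, rfl⟩⟩, hz'⟩ := IsLocalization.surj (Submonoid.powers s) z
    have h3 : algebraMap R A a ∈ K := by
      rw [← hz']
      exact Ideal.mul_mem_right _ _ hz
    rw [hK, RingHom.mem_ker, hfA, hf] at h3
    obtain ⟨⟨_, m, rfl⟩, hm⟩ := (IsLocalization.map_eq_zero_iff
      (Submonoid.powers (Ideal.Quotient.mk 𝔫 s)) B _).1 h3
    have h4 : s ^ m * a ∈ 𝔫 := by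
      rw [← Ideal.Quotient.eq_zero_iff_mem, map_mul, map_pow]
      exact hm
    have h5 := h2 _ h4
    rw [map_mul, map_pow] at h5
    have h6 := (Ideal.unit_mul_mem_iff_mem _ (hsu.pow m)).1 h5
    rw [← hz'] at h6
    have h7 : z * algebraMap R A (s ^ n) ∈ K * K := h6
    rw [map_pow, mul_comm z] at h7
    exact (Ideal.unit_mul_mem_iff_mem _ (hsu.pow n)).1 h7
  have hAB : Algebra.FormallySmooth A B := (Algebra.FormallySmooth.iff_of_surjective hsurj).2 hid
  exact Algebra.FormallySmooth.comp k A B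

end Vale.Agent.P292.Dv
end

section

/-! # Forms in two variables: quotients, comparison, lifting of zeros. -/

namespace Vale.Agent.P292.Dv

open MvPolynomial Vale.Agent.P292

universe u v w

section forms

variable {K : Type v} [Field K]

/-- The quotient of a form by a form is a form. -/
theorem pz_homog_quot {l q : MvPolynomial (Fin 2) K} {n m : ℕ} (hl : l.IsHomogeneous n)
    (hl0 : l ≠ 0) (h : (l * q).IsHomogeneous (n + m)) : q.IsHomogeneous m := by
  classical
  let _ : GradedAlgebra (homogeneousSubmodule (Fin 2) K) := MvPolynomial.gradedAlgebra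
  have key : ∀ i, i ≠ m → homogeneousComponent i q = 0 := by
    intro i hi
    have h1 : (DirectSum.decompose (homogeneousSubmodule (Fin 2) K) (l * q) (n + i) :
        MvPolynomial (Fin 2) K) =
        l * (DirectSum.decompose (homogeneousSubmodule (Fin 2) K) q i :
          MvPolynomial (Fin 2) K) :=
      DirectSum.coe_decompose_mul_add_of_left_mem (homogeneousSubmodule (Fin 2) K)
        ((mem_homogeneousSubmodule _ _).2 hl)
    have h2 : (DirectSum.decompose (homogeneousSubmodule (Fin 2) K) (l * q) (n + i) :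
        MvPolynomial (Fin 2) K) = 0 :=
      DirectSum.decompose_of_mem_ne _ ((mem_homogeneousSubmodule _ _).2 h) (by omega)
    rw [h2] at h1
    have h3 := (mul_eq_zero.1 h1.symm).resolve_left hl0
    have h4 : (DirectSum.decompose (homogeneousSubmodule (Fin 2) K) q i :
          MvPolynomial (Fin 2) K) = homogeneousComponent i q :=
      decomposition.decompose'_apply q i
    rw [← h4]
    exact h3
  rw [← sum_homogeneousComponent q]
  refine IsHomogeneous.sum _ _ _ fun i _ => ?_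
  by_cases hi : i = m
  · subst hi
    exact homogeneousComponent_isHomogeneous _ _
  · rw [key i hi]
    exact isHomogeneous_zero _ _ _

/-- Rank one comparison: if `f i * A' = g i * A` for all `i`, and the form `A'` has larger degree
than the form `A`, then the `g i` have a common zero. -/
theorem pz_compare [IsAlgClosed K] {ι : Type w} (f g : ι → MvPolynomial (Fin 2) K) :
    ∀ (m m' : ℕ) (A A' : MvPolynomial (Fin 2) K), A.IsHomogeneous m → A'.IsHomogeneous m' →
      A ≠ 0 → A' ≠ 0 → (∀ i, f i * A' = g i * A) → m < m' →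
      ∃ a : Fin 2 → K, a ≠ 0 ∧ ∀ i, eval a (g i) = 0 := by
  intro m
  induction m with
  | zero =>
    intro m' A A' hA hA' hA0 hA'0 h hm
    obtain ⟨a, ha, ha0⟩ := fr_exists_zero hm hA'
    refine ⟨a, ha, fun i => ?_⟩
    have h1 := congrArg (eval a) (h i)
    rw [map_mul, map_mul, ha0, mul_zero] at h1
    refine (mul_eq_zero.1 h1.symm).resolve_right ?_
    have hAC : A = C (coeff 0 A) :=
      totalDegree_eq_zero_iff_eq_C.1 ((totalDegree_zero_iff_isHomogeneous _).2 hA)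
    rw [hAC, eval_C]
    intro h2
    apply hA0
    rw [hAC, h2, map_zero]
  | succ m ih =>
    intro m' A A' hA hA' hA0 hA'0 h hm
    obtain ⟨a, ha, ha0⟩ := fr_exists_zero (by omega : 0 < m') hA'
    by_cases hAa : eval a A = 0
    · obtain ⟨q, hq⟩ := frL_dvd ha hA hAa
      obtain ⟨q', hq'⟩ := frL_dvd ha hA' ha0
      obtain ⟨m'', rfl⟩ : ∃ m'', m' = 1 + m'' := ⟨m' - 1, by omega⟩
      refine ih m'' q q' (pz_homog_quot (frL_homog a) (frL_ne ha) ?_)
        (pz_homog_quot (frL_homog a) (frL_ne ha) ?_) ?_ ?_ ?_ (by omega)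
      · rw [← hq, add_comm]
        exact hA
      · rw [← hq']
        exact hA'
      · rintro rfl
        exact hA0 (by rw [hq, mul_zero])
      · rintro rfl
        exact hA'0 (by rw [hq', mul_zero])
      · intro i
        have h1 := h i
        rw [hq, hq'] at h1
        apply mul_left_cancel₀ (frL_ne ha)
        linear_combination h1
    · refine ⟨a, ha, fun i => ?_⟩
      have h1 := congrArg (eval a) (h i)
      rw [map_mul, map_mul, ha0, mul_zero] at h1
      exact (mul_eq_zero.1 h1.symm).resolve_right hAa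

/-- The greatest common divisor of a family of forms. -/
theorem pz_exists_gcd [IsAlgClosed K] {ι : Type w} (f : ι → MvPolynomial (Fin 2) K) (d : ι → ℕ)
    (hf : ∀ i, (f i).IsHomogeneous (d i)) (h0 : ∃ i, f i ≠ 0) :
    ∃ (g : ℕ) (G : MvPolynomial (Fin 2) K), G.IsHomogeneous g ∧ G ≠ 0 ∧ (∀ i, G ∣ f i) ∧
      ∀ h : ι → MvPolynomial (Fin 2) K, (∀ i, f i = G * h i) →
        ∀ a : Fin 2 → K, a ≠ 0 → ∃ i, eval a (h i) ≠ 0 := by
  classical
  obtain ⟨i₀, hi₀⟩ := h0
  let S : Set ℕ := {g | ∃ G : MvPolynomial (Fin 2) K, G.IsHomogeneous g ∧ G ≠ 0 ∧ ∀ i, G ∣ f i}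
  have hne : S.Nonempty := ⟨0, 1, isHomogeneous_one _ _, one_ne_zero, fun i => one_dvd _⟩
  have hb : ∀ g ∈ S, g ≤ d i₀ := by
    rintro g ⟨G, hG, hG0, hd⟩
    obtain ⟨q, hq⟩ := hd i₀
    have hq0 : q ≠ 0 := by
      rintro rfl
      exact hi₀ (by rw [hq, mul_zero])
    have h1 := totalDegree_mul_of_isDomain hG0 hq0
    rw [← hq, hG.totalDegree hG0, (hf i₀).totalDegree hi₀] at h1
    omega
  obtain ⟨g, ⟨G, hG, hG0, hd⟩, hmax⟩ : ∃ g ∈ S, ∀ g' ∈ S, g' ≤ g :=
    ⟨sSup S, Nat.sSup_mem hne ⟨_, hb⟩, fun g' hg' => le_csSup ⟨_, hb⟩ hg'⟩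
  refine ⟨g, G, hG, hG0, hd, ?_⟩
  intro h hh a ha
  by_contra hcon
  push Not at hcon
  have h1 : g + 1 ∈ S := by
    refine ⟨G * frL a, hG.mul (frL_homog a), mul_ne_zero hG0 (frL_ne ha), fun i => ?_⟩
    rw [hh i]
    apply mul_dvd_mul_left
    by_cases hi : h i = 0
    · rw [hi]
      exact dvd_zero _
    · have hfi : f i ≠ 0 := by rw [hh i]; exact mul_ne_zero hG0 hi
      have h2 := totalDegree_mul_of_isDomain hG0 hi
      rw [← hh i, hG.totalDegree hG0, (hf i).totalDegree hfi] at h2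
      have h3 : (h i).IsHomogeneous (d i - g) := by
        apply pz_homog_quot hG hG0
        rw [← hh i]
        have h4 : g + (d i - g) = d i := by omega
        rw [h4]
        exact hf i
      exact frL_dvd ha h3 (hcon i)
  have := hmax _ h1
  omega

/-- Forms without a common zero contain powers of the variables. -/
theorem pz_pow_mem [IsAlgClosed K] {ι : Type w} (Ψ : ι → MvPolynomial (Fin 2) K)
    (h : ∀ a : Fin 2 → K, a ≠ 0 → ∃ i, eval a (Ψ i) ≠ 0) (l : Fin 2) :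
    ∃ N : ℕ, X l ^ N ∈ Ideal.span (Set.range Ψ) := by
  have h1 : (X l : MvPolynomial (Fin 2) K) ∈ (Ideal.span (Set.range Ψ)).radical := by
    rw [← vanishingIdeal_zeroLocus_eq_radical (K := K), mem_vanishingIdeal_iff]
    intro a ha
    rw [mem_zeroLocus_iff] at ha
    rw [aeval_X]
    by_contra hne
    obtain ⟨i, hi⟩ := h a (fun h0 => hne (by rw [h0]; rfl))
    exact hi (ha _ (Ideal.subset_span ⟨i, rfl⟩))
  obtain ⟨N, hN⟩ := h1
  exact ⟨N, hN⟩

/-- Forms without a common zero have no common zero over any overfield. -/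
theorem pz_base_change [IsAlgClosed K] {ι : Type w} (Ψ : ι → MvPolynomial (Fin 2) K)
    (h : ∀ a : Fin 2 → K, a ≠ 0 → ∃ i, eval a (Ψ i) ≠ 0) {κ : Type u} [Field κ] (j : K →+* κ)
    (a : Fin 2 → κ) (ha : a ≠ 0) : ∃ i, eval a (MvPolynomial.map j (Ψ i)) ≠ 0 := by
  by_contra hcon
  push Not at hcon
  apply ha
  funext l
  obtain ⟨N, hN⟩ := pz_pow_mem Ψ h l
  have h1 : Ideal.span (Set.range Ψ) ≤ RingHom.ker ((eval a).comp (MvPolynomial.map j)) := by
    rw [Ideal.span_le]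
    rintro _ ⟨i, rfl⟩
    exact hcon i
  have h2 := h1 hN
  rw [RingHom.mem_ker, RingHom.comp_apply, map_pow, map_pow, map_X, eval_X] at h2
  exact eq_zero_of_pow_eq_zero h2

/-- A nonzero form does not vanish on a line which does not pass through the origin. -/
theorem pz_line_ne_zero [Infinite K] {m : ℕ} {H : MvPolynomial (Fin 2) K} (hH : H.IsHomogeneous m)
    (hH0 : H ≠ 0) {a w : Fin 2 → K} (haw : a 0 * w 1 - a 1 * w 0 ≠ 0) :
    ∃ x : K, eval (fun i => a i + w i * x) H ≠ 0 := by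
  by_contra hcon
  push Not at hcon
  apply hH0
  have h1 : (X 0 : MvPolynomial (Fin 2) K) *
      aeval (fun i => C (a i) * X 0 + C (w i) * X 1) H = 0 := by
    apply MvPolynomial.funext
    intro z
    rw [map_mul, eval_X, map_zero]
    by_cases hz : z 0 = 0
    · rw [hz, zero_mul]
    · have h2 : eval z (aeval (fun i => (C (a i) * X 0 + C (w i) * X 1 : MvPolynomial (Fin 2) K)) H)
          = eval (fun i => z 0 * (a i + w i * (z 1 / z 0))) H := by
        have h3 : (fun i => z 0 * (a i + w i * (z 1 / z 0))) =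
            fun i => eval z (C (a i) * X 0 + C (w i) * X 1 : MvPolynomial (Fin 2) K) := by
          funext i
          simp only [map_add, map_mul, eval_C, eval_X]
          rw [mul_add]
          congr 1
          · ring
          · rw [mul_div_assoc', mul_div_assoc']
            rw [mul_comm (z 0), mul_div_cancel_right₀ _ hz]
        rw [h3, ← aeval_eq_eval, ← aeval_eq_eval, MvPolynomial.comp_aeval_apply]
      rw [h2, ni7_eval_smul hH, hcon, mul_zero, mul_zero]
  have h2 := (mul_eq_zero.1 h1).resolve_left (X_ne_zero 0)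
  apply MvPolynomial.funext
  intro z
  rw [map_zero]
  set D := a 0 * w 1 - a 1 * w 0 with hD
  have h3 := congrArg (eval ![(z 0 * w 1 - z 1 * w 0) / D, (a 0 * z 1 - a 1 * z 0) / D]) h2
  rw [map_zero] at h3
  rw [← h3]
  have h4 : z = fun i => eval ![(z 0 * w 1 - z 1 * w 0) / D, (a 0 * z 1 - a 1 * z 0) / D]
      (C (a i) * X 0 + C (w i) * X 1 : MvPolynomial (Fin 2) K) := by
    funext i
    simp only [map_add, map_mul, eval_C, eval_X]
    fin_cases i
    · simp
      field_simp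
      rw [hD]
      ring
    · simp
      field_simp
      rw [hD]
      ring
  conv_lhs => rw [h4]
  rw [← aeval_eq_eval, ← aeval_eq_eval, MvPolynomial.comp_aeval_apply]

end forms

section lift

variable {K : Type v} [Field K] [IsAlgClosed K] (O : ValuationSubring K) {κ : Type w} [Field κ]
  (π : O →+* κ) (hπ : Function.Surjective π)

omit [IsAlgClosed K] in
theorem pz_val_lt_one {x : O} (h : π x = 0) : O.valuation (x : K) < 1 := by
  rw [← ValuationSubring.valuation_lt_one_iff, IsLocalRing.mem_maximalIdeal, mem_nonunits_iff]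
  intro hu
  exact (hu.map π).ne_zero h

omit [IsAlgClosed K] in
include hπ in
theorem pz_val_eq_one {x : O} (h : π x ≠ 0) : O.valuation (x : K) = 1 := by
  rw [← ValuationSubring.valuation_eq_one_iff]
  by_contra hu
  have h1 : RingHom.ker π = IsLocalRing.maximalIdeal O :=
    IsLocalRing.eq_maximalIdeal (RingHom.ker_isMaximal_of_surjective π hπ)
  apply h
  rw [← RingHom.mem_ker, h1, IsLocalRing.mem_maximalIdeal]
  exact hu

include hπ in
/-- Zeros of the reduction of a primitive form lift. -/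
theorem pz_lift {m : ℕ} {H : MvPolynomial (Fin 2) O} (hH : H.IsHomogeneous m)
    (hH0 : MvPolynomial.map π H ≠ 0) {a : Fin 2 → κ} (ha : a ≠ 0)
    (h : eval a (MvPolynomial.map π H) = 0) :
    ∃ b : Fin 2 → O, (∀ i, π (b i) = a i) ∧ eval b H = 0 := by
  classical
  have hκ : Infinite κ := by
    have : IsAlgClosed κ := by
      have h1 : RingHom.ker π = IsLocalRing.maximalIdeal O :=
        IsLocalRing.eq_maximalIdeal (RingHom.ker_isMaximal_of_surjective π hπ)
      refine IsAlgClosed.of_exists_root _ fun p hp hirr => ?_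
      obtain ⟨q, hq, hqd, hqm⟩ := Polynomial.lifts_and_natDegree_eq_and_monic
        (f := π) (p := p) ((Polynomial.mem_lifts _).2
          (Polynomial.map_surjective π hπ p)) hp
      have hdeg : (q.map O.subtype).degree ≠ 0 := by
        rw [Polynomial.degree_map_eq_of_injective Subtype.val_injective]
        intro h2
        have h3 : q.natDegree = 0 := Polynomial.natDegree_eq_of_degree_eq_some h2
        rw [hqd] at h3
        have h4 := hirr.natDegree_pos
        rw [h3] at h4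
        exact lt_irrefl _ h4
      obtain ⟨x, hx⟩ := IsAlgClosed.exists_root _ hdeg
      have hx1 : IsIntegral O x := ⟨q, hqm, by
        rw [Polynomial.IsRoot, Polynomial.eval_map] at hx
        exact hx⟩
      obtain ⟨y, rfl⟩ := IsIntegrallyClosed.isIntegral_iff.1 hx1
      refine ⟨π y, ?_⟩
      rw [← hq, Polynomial.eval_map, Polynomial.eval₂_at_apply]
      have h4 : q.eval y = 0 := by
        apply Subtype.val_injective
        rw [Polynomial.IsRoot, Polynomial.eval_map] at hx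
        have h5 : Polynomial.eval₂ O.subtype (O.subtype y) q = 0 := hx
        rw [Polynomial.eval₂_at_apply] at h5
        exact h5
      rw [h4, map_zero]
    exact IsAlgClosed.instInfinite
  choose a₀ ha₀ using fun i => hπ (a i)
  obtain ⟨w, hw⟩ : ∃ w : Fin 2 → O, a 0 * π (w 1) - a 1 * π (w 0) ≠ 0 := by
    by_cases h0 : a 0 = 0
    · have h1 : a 1 ≠ 0 := fun h1 => ha (by ext i; fin_cases i <;> simp [h0, h1])
      exact ⟨![1, 0], by simpa [h0] using h1⟩
    · exact ⟨![0, 1], by simpa using h0⟩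
  let P : Polynomial O := aeval (fun i => Polynomial.C (a₀ i) + Polynomial.C (w i) * Polynomial.X) H
  have hPev : ∀ x : O, P.eval x = eval (fun i => a₀ i + w i * x) H := by
    intro x
    change Polynomial.eval x (aeval _ H) = _
    rw [← Polynomial.coe_aeval_eq_eval, ← aeval_eq_eval, MvPolynomial.comp_aeval_apply
      (f := fun i => Polynomial.C (a₀ i) + Polynomial.C (w i) * Polynomial.X)
      (Polynomial.aeval x) H]
    congr 2
    funext i
    simp
  have hP0 : O.valuation ((P.map O.subtype).coeff 0) < 1 := by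
    rw [Polynomial.coeff_map]
    apply pz_val_lt_one O π
    rw [Polynomial.coeff_zero_eq_eval_zero, hPev]
    have h1 : π (eval (fun i => a₀ i + w i * 0) H) = eval a (MvPolynomial.map π H) := by
      rw [MvPolynomial.map_eval]
      congr 2
      funext i
      simp [ha₀]
    rw [h1, h]
  have hPne : P.map π ≠ 0 := by
    intro h0
    obtain ⟨x, hx⟩ := pz_line_ne_zero (w := fun i => π (w i)) (hH.map π) hH0 hw
    obtain ⟨x, rfl⟩ := hπ x
    apply hx
    have h1 : eval (fun i => a i + π (w i) * π x) (MvPolynomial.map π H) = π (P.eval x) := by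
      rw [hPev, MvPolynomial.map_eval]
      congr 2
      funext i
      simp [ha₀]
    have h2 : π (P.eval x) = (P.map π).eval (π x) := by
      rw [Polynomial.eval_map, Polynomial.eval₂_at_apply]
    refine Eq.trans h1 ?_
    rw [h2, h0, Polynomial.eval_zero]
  obtain ⟨i, hi⟩ : ∃ i, (P.map π).coeff i ≠ 0 := by
    by_contra hcon
    push Not at hcon
    exact hPne (Polynomial.ext fun i => by rw [hcon i, Polynomial.coeff_zero])
  rw [Polynomial.coeff_map] at hi
  obtain ⟨x, hx1, hx0⟩ := exists_root_lt_one O (P.map O.subtype)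
    (fun i => by
      rw [Polynomial.coeff_map]
      exact (ValuationSubring.valuation_le_one_iff O _).2 (P.coeff i).2) hP0
    ⟨i, by
      rw [Polynomial.coeff_map]
      exact pz_val_eq_one O π hπ hi⟩
  have hxO : x ∈ O := (ValuationSubring.valuation_le_one_iff O _).1 hx1.le
  let y : O := ⟨x, hxO⟩
  have hy0 : π y = 0 := by
    by_contra hne
    have := pz_val_eq_one O π hπ hne
    exact hx1.ne this
  refine ⟨fun i => a₀ i + w i * y, fun i => ?_, ?_⟩
  · rw [map_add, map_mul, hy0, mul_zero, add_zero, ha₀]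
  · rw [← hPev]
    apply Subtype.val_injective
    have h5 : Polynomial.eval₂ O.subtype (O.subtype y) P = 0 := by
      rw [← Polynomial.eval_map]
      exact hx0
    rw [Polynomial.eval₂_at_apply] at h5
    exact h5

end lift

end Vale.Agent.P292.Dv
end

section

/-! # Definitions for the dimension counts (T3, T4). -/

namespace Vale.Agent.P292.Dv

open MvPolynomial

universe u v

variable {R : Type u} [CommRing R] [Algebra ℂ R]

/-- The curve has a pull back of `p`, of degree `-δ`. -/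
def HasPair (𝒜 : ℕ → Submodule ℂ R) (p : Ideal R) (e δ : ℕ) {K : Type v} [Field K] [Algebra ℂ K]
    (φ : R →ₐ[ℂ] MvPolynomial (Fin 2) K) : Prop :=
  ∃ η : p →ₗ[ℂ] MvPolynomial (Fin 2) K, IsPair 𝒜 p e δ φ η

/-- The algebra generated by the values at both ends. -/
noncomputable def ends {K : Type v} [Field K] [Algebra ℂ K]
    (φ : R →ₐ[ℂ] MvPolynomial (Fin 2) K) : Subalgebra ℂ K :=
  Algebra.adjoin ℂ (Set.range (pt φ ![1, 0]) ∪ Set.range (pt φ ![0, 1]))

end Vale.Agent.P292.Dv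
end

section

/-! # The model of a curve over the algebra of its coefficients (leaves E4, E5). -/

namespace Vale.Agent.P292.Dv

open MvPolynomial TensorProduct

universe u v w

variable {R : Type u} [CommRing R] [Algebra ℂ R] {𝒜 : ℕ → Submodule ℂ R}

/-- Descent of a linear combination to the field of fractions. -/
theorem e4_descend {D : Type v} [CommRing D] [IsDomain D] {K : Type u} [Field K] [Algebra D K]
    (hinj : Function.Injective (algebraMap D K)) {n : ℕ} (c : Fin n → MvPolynomial (Fin 2) K)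
    (f : Fin n → MvPolynomial (Fin 2) D) (g : MvPolynomial (Fin 2) D)
    (h : ∑ j, c j * map (algebraMap D K) (f j) = map (algebraMap D K) g) :
    ∃ (b : D) (q : Fin n → MvPolynomial (Fin 2) D), b ≠ 0 ∧ ∑ j, q j * f j = C b * g := by
  classical
  have hfs : FaithfulSMul D K := (faithfulSMul_iff_algebraMap_injective D K).2 hinj
  let _ : Algebra (FractionRing D) K := FractionRing.liftAlgebra D K
  have htower : IsScalarTower D (FractionRing D) K := FractionRing.isScalarTower_liftAlgebra D K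
  obtain ⟨l, hl⟩ := (Algebra.linearMap (FractionRing D) K).exists_leftInverse_of_injective
    (LinearMap.ker_eq_bot.2 (algebraMap (FractionRing D) K).injective)
  set L : K →ₗ[D] FractionRing D := l.restrictScalars D with hL
  have hL1 : L 1 = 1 := by
    have h1 := DFunLike.congr_fun hl 1
    simp only [LinearMap.comp_apply, Algebra.linearMap_apply, map_one, LinearMap.id_apply] at h1
    exact h1
  have hLalg : ∀ (x : K) (d : D), L (x * algebraMap D K d) = L x * algebraMap D _ d := by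
    intro x d
    rw [mul_comm, ← Algebra.smul_def, map_smul, Algebra.smul_def, mul_comm]
  set S : Finset (FractionRing D) :=
    Finset.univ.biUnion fun j => (c j).support.image (fun a => L (coeff a (c j))) with hS
  obtain ⟨b, hb⟩ := IsLocalization.exist_integer_multiples_of_finset (nonZeroDivisors D) S
  have hz : ∀ j a, ∃ z : D, algebraMap D (FractionRing D) z =
      algebraMap D _ (b : D) * L (coeff a (c j)) ∧ (a ∉ (c j).support → z = 0) := by
    intro j a
    by_cases ha : a ∈ (c j).support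
    · obtain ⟨z, hz⟩ := hb (L (coeff a (c j))) (by
        rw [hS]
        exact Finset.mem_biUnion.2 ⟨j, Finset.mem_univ _, Finset.mem_image.2 ⟨a, ha, rfl⟩⟩)
      refine ⟨z, ?_, fun h => absurd ha h⟩
      rw [hz, Algebra.smul_def]
    · refine ⟨0, ?_, fun _ => rfl⟩
      rw [notMem_support_iff] at ha
      rw [ha, map_zero, map_zero, mul_zero]
  choose z hz hz0 using hz
  have hco : ∀ j a, coeff a (∑ e ∈ (c j).support, monomial e (z j e)) = z j a := by
    intro j a
    rw [coeff_sum]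
    simp only [coeff_monomial]
    rw [Finset.sum_ite_eq']
    by_cases ha : a ∈ (c j).support
    · rw [if_pos ha]
    · rw [if_neg ha, hz0 j a ha]
  refine ⟨b, fun j => ∑ e ∈ (c j).support, monomial e (z j e), nonZeroDivisors.ne_zero b.2, ?_⟩
  ext m
  apply IsFractionRing.injective D (FractionRing D)
  rw [coeff_sum, coeff_C_mul, map_sum, map_mul]
  have h2 : algebraMap D (FractionRing D) (coeff m g) = L (coeff m (map (algebraMap D K) g)) := by
    rw [coeff_map]
    have := hLalg 1 (coeff m g)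
    rw [one_mul, hL1, one_mul] at this
    exact this.symm
  rw [h2, ← h, coeff_sum, map_sum, Finset.mul_sum]
  refine Finset.sum_congr rfl fun j _ => ?_
  rw [coeff_mul, coeff_mul, map_sum, map_sum, Finset.mul_sum]
  refine Finset.sum_congr rfl fun x _ => ?_
  rw [map_mul, hco, hz, coeff_map, hLalg, mul_assoc]

/-- The algebra of the coefficients is of finite type. -/
theorem e4_finiteType [Algebra.FiniteType ℂ R] {A : Type v} [CommRing A] [Algebra ℂ A]
    (φ : R →ₐ[ℂ] MvPolynomial (Fin 2) A) : Algebra.FiniteType ℂ (cfs φ) := by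
  classical
  obtain ⟨G, hG⟩ := Algebra.FiniteType.out (R := ℂ) (A := R)
  set S : Finset A := G.biUnion (fun g => (φ g).coeffs) with hS
  have h1 : cfs φ = Algebra.adjoin ℂ (S : Set A) := by
    refine le_antisymm (cfs_le φ hG _ fun r hr m => ?_) (Algebra.adjoin_le ?_)
    · by_cases hm : coeff m (φ r) = 0
      · rw [hm]
        exact Subalgebra.zero_mem _
      · refine Algebra.subset_adjoin ?_
        rw [hS, Finset.coe_biUnion]
        simp only [Set.mem_iUnion]
        exact ⟨r, hr, coeff_mem_coeffs m hm⟩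
    · intro a ha
      rw [hS] at ha
      simp only [Finset.coe_biUnion, Set.mem_iUnion, Finset.mem_coe] at ha
      obtain ⟨g, _, hg⟩ := ha
      rw [mem_coeffs_iff] at hg
      obtain ⟨m, _, rfl⟩ := hg
      exact coeff_mem_cfs φ g m
  rw [h1]
  exact (Subalgebra.fg_iff_finiteType _).mp (Subalgebra.fg_adjoin_finset _)

/-- The model of a curve over the algebra of its coefficients. -/
theorem e4_model {A : Type v} [CommRing A] [Algebra ℂ A]
    (φ : R →ₐ[ℂ] MvPolynomial (Fin 2) A) :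
    ∃ φ₀ : R →ₐ[ℂ] MvPolynomial (Fin 2) (cfs φ), (mapAlgHom (cfs φ).val).comp φ₀ = φ := by
  set M : MvPolynomial (Fin 2) (cfs φ) →ₐ[ℂ] MvPolynomial (Fin 2) A := mapAlgHom (cfs φ).val
    with hMdef
  have hM : Function.Injective M := MvPolynomial.map_injective _ Subtype.val_injective
  have hrange : ∀ r, φ r ∈ M.range := by
    intro r
    have : φ r ∈ Set.range (MvPolynomial.map (algebraMap (cfs φ) A)) := by
      rw [mem_range_map_iff_coeffs_subset]
      intro e he
      rw [Finset.mem_coe, mem_coeffs_iff] at he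
      obtain ⟨m, _, rfl⟩ := he
      exact ⟨⟨_, coeff_mem_cfs φ r m⟩, rfl⟩
    exact this
  set e := AlgEquiv.ofInjective M hM with he
  refine ⟨(e.symm : M.range →ₐ[ℂ] MvPolynomial (Fin 2) (cfs φ)).comp
    (φ.codRestrict M.range hrange), ?_⟩
  ext1 r
  have h1 : (e ((e.symm : M.range →ₐ[ℂ] MvPolynomial (Fin 2) (cfs φ)).comp
    (φ.codRestrict M.range hrange) r) : MvPolynomial (Fin 2) A) = φ r := by
    simp
  rw [← h1]
  rfl

/-- A nonzero element of the algebra of the coefficients outside whose zeros the model is base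
point free. -/
theorem e4_bpf {K : Type u} [Field K] [IsAlgClosed K] [Algebra ℂ K] {d : ℕ}
    {φ : R →ₐ[ℂ] MvPolynomial (Fin 2) K} (hφ : IsCurve 𝒜 d φ)
    (φ₀ : R →ₐ[ℂ] MvPolynomial (Fin 2) (cfs φ)) (hφ₀ : (mapAlgHom (cfs φ).val).comp φ₀ = φ) :
    ∃ h : cfs φ, h ≠ 0 ∧ ∀ {κ : Type w} [Field κ] [Algebra ℂ κ] (σ : cfs φ →ₐ[ℂ] κ),
      σ h ≠ 0 → IsCurve 𝒜 d ((mapAlgHom σ).comp φ₀) := by
  have hφr : ∀ r, map (algebraMap (cfs φ) K) (φ₀ r) = φ r := fun r => DFunLike.congr_fun hφ₀ r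
  have key : ∀ i : Fin 2, ∃ (b : cfs φ) (N n : ℕ) (q : Fin n → MvPolynomial (Fin 2) (cfs φ))
      (r : Fin n → R) (k : Fin n → ℕ), b ≠ 0 ∧ (∀ j, 0 < k j) ∧ (∀ j, r j ∈ 𝒜 (k j)) ∧
      ∑ j, q j * φ₀ (r j) = C b * X i ^ N := by
    intro i
    obtain ⟨N, n, c, r, k, hk, hr, h0⟩ := hφ.exists_pow i
    obtain ⟨b, q, hb, hq⟩ := e4_descend (D := cfs φ) (K := K) Subtype.val_injective c
      (fun j => φ₀ (r j)) (X i ^ N) (by
        rw [map_pow, map_X, ← h0]
        exact Finset.sum_congr rfl fun j _ => by rw [hφr])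
    exact ⟨b, N, n, q, r, k, hb, hk, hr, hq⟩
  choose b N n q r k hb hk hr hq using key
  refine ⟨b 0 * b 1, mul_ne_zero (hb 0) (hb 1), fun {κ} _ _ σ hσ => ⟨?_, ?_⟩⟩
  · intro j r hr m hm
    have hm' : coeff m (φ₀ r) ≠ 0 := by
      intro h
      apply hm
      change coeff m (map (σ : cfs φ →+* κ) (φ₀ r)) = 0
      rw [coeff_map, h, map_zero]
    refine hφ.degree j r hr ?_
    rw [← hφr, coeff_map]
    intro h3
    exact hm' (Subtype.ext h3)
  · intro x hx
    rw [map_mul] at hσ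
    have hb' : ∀ i, σ (b i) ≠ 0 := by
      intro i
      fin_cases i
      · exact left_ne_zero_of_mul hσ
      · exact right_ne_zero_of_mul hσ
    obtain ⟨i, hxi⟩ : ∃ i, x i ≠ 0 := by
      by_contra hcon
      push Not at hcon
      exact hx (funext hcon)
    by_contra hcon
    push Not at hcon
    have h6 : aeval x (mapAlgHom σ (∑ j, q i j * φ₀ (r i j))) = 0 := by
      rw [map_sum, map_sum]
      refine Finset.sum_eq_zero fun j _ => ?_
      rw [map_mul, map_mul]
      have h7 := hcon (k i j) (hk i j) (r i j) (hr i j)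
      rw [AlgHom.comp_apply] at h7
      rw [h7, mul_zero]
    rw [hq i, map_mul, map_mul, map_pow, map_pow] at h6
    have h8 : mapAlgHom σ (X i : MvPolynomial (Fin 2) (cfs φ)) = X i := by
      change map (σ : cfs φ →+* κ) (X i) = X i
      rw [map_X]
    have h9 : mapAlgHom σ (C (b i) : MvPolynomial (Fin 2) (cfs φ)) = C (σ (b i)) := by
      change map (σ : cfs φ →+* κ) (C (b i)) = C (σ (b i))
      rw [map_C]
      rfl
    rw [h8, h9, aeval_X, aeval_C] at h6
    exact mul_ne_zero (hb' i) (pow_ne_zero _ hxi) h6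

/-- The end of a family, over any algebra. -/
noncomputable def e4_pt {A : Type v} [CommRing A] [Algebra ℂ A]
    (φ : R →ₐ[ℂ] MvPolynomial (Fin 2) A) (a : Fin 2 → A) : R →ₐ[ℂ] A :=
  ((aeval a : MvPolynomial (Fin 2) A →ₐ[A] A).restrictScalars ℂ).comp φ

theorem e4_pt_apply {A : Type v} [CommRing A] [Algebra ℂ A]
    (φ : R →ₐ[ℂ] MvPolynomial (Fin 2) A) (a : Fin 2 → A) (r : R) :
    e4_pt φ a r = eval a (φ r) := by
  rw [e4_pt, AlgHom.comp_apply]
  exact aeval_eq_eval a ▸ rfl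

/-- The algebra of the ends, over any algebra. -/
noncomputable def e4_ends {A : Type v} [CommRing A] [Algebra ℂ A]
    (φ : R →ₐ[ℂ] MvPolynomial (Fin 2) A) : Subalgebra ℂ A :=
  (e4_pt φ ![1, 0]).range ⊔ (e4_pt φ ![0, 1]).range

theorem e4_ends_fg [Algebra.FiniteType ℂ R] {A : Type v} [CommRing A] [Algebra ℂ A]
    (φ : R →ₐ[ℂ] MvPolynomial (Fin 2) A) : (e4_ends φ).FG := by
  have h1 : (⊤ : Subalgebra ℂ R).FG := Algebra.FiniteType.out
  have h2 : ∀ a, ((e4_pt φ a).range).FG := fun a => by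
    rw [← Algebra.map_top]
    exact h1.map _
  exact (h2 _).sup (h2 _)

theorem e4_map_vec {A : Type v} {B : Type w} [CommRing A] [CommRing B] (f : A →+* B) (a b : ℕ)
    (p : MvPolynomial (Fin 2) A) :
    eval (![(a : B), (b : B)]) (map f p) = f (eval (![(a : A), (b : A)]) p) := by
  have h1 : (![(a : B), (b : B)]) = fun i => ((![a, b] i : ℕ) : B) := by
    funext i
    fin_cases i <;> rfl
  have h2 : (![(a : A), (b : A)]) = fun i => ((![a, b] i : ℕ) : A) := by
    funext i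
    fin_cases i <;> rfl
  rw [h1, h2]
  exact h_eval_nat f ![a, b] p

theorem e4_eval10 {A : Type v} {B : Type w} [CommRing A] [CommRing B] (f : A →+* B)
    (p : MvPolynomial (Fin 2) A) :
    eval (![(1 : B), 0]) (map f p) = f (eval (![(1 : A), 0]) p) := by
  have := e4_map_vec f 1 0 p
  simpa using this

theorem e4_eval01 {A : Type v} {B : Type w} [CommRing A] [CommRing B] (f : A →+* B)
    (p : MvPolynomial (Fin 2) A) :
    eval (![(0 : B), 1]) (map f p) = f (eval (![(0 : A), 1]) p) := by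
  have := e4_map_vec f 0 1 p
  simpa using this

/-- Over the algebra of the coefficients, the family has constant ends and a pole, if some
coefficient is transcendental over the ends. -/
theorem e4_family [Algebra.FiniteType ℂ R] {K : Type u} [Field K] [Algebra ℂ K]
    (φ : R →ₐ[ℂ] MvPolynomial (Fin 2) K) (r₀ : R) (m₀ : Fin 2 →₀ ℕ)
    (ha : ¬ IsAlgebraic (ends φ) (coeff m₀ (φ r₀)))
    (φ₀ : R →ₐ[ℂ] MvPolynomial (Fin 2) (cfs φ)) (hφ₀ : (mapAlgHom (cfs φ).val).comp φ₀ = φ)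
    (h : cfs φ)
    (E1 : Algebra.FiniteType ℂ (cfs φ) → ∀ E : Subalgebra ℂ (cfs φ), E.FG → ∀ a : cfs φ,
      Transcendental E a → ∃ f : cfs φ →ₐ[ℂ] LaurentSeries ℂ,
        (∀ x ∈ E, ∃ c : ℂ, f x = algebraMap ℂ (LaurentSeries ℂ) c) ∧
        f h ≠ 0 ∧ ∃ b : cfs φ, f b ∉ Set.range (HahnSeries.ofPowerSeries ℤ ℂ)) :
    ∃ (f : cfs φ →ₐ[ℂ] LaurentSeries ℂ) (w₀ w₁ : R →ₐ[ℂ] ℂ), f h ≠ 0 ∧
      (∀ r, eval ![1, 0] (mapAlgHom f (φ₀ r)) = algebraMap ℂ (LaurentSeries ℂ) (w₀ r)) ∧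
      (∀ r, eval ![0, 1] (mapAlgHom f (φ₀ r)) = algebraMap ℂ (LaurentSeries ℂ) (w₁ r)) ∧
      ∃ r m, coeff m (mapAlgHom f (φ₀ r)) ∉ Set.range (HahnSeries.ofPowerSeries ℤ ℂ) := by
  have hft := e4_finiteType φ
  have hφr : ∀ r, map (algebraMap (cfs φ) K) (φ₀ r) = φ r := fun r => DFunLike.congr_fun hφ₀ r
  have hco : ∀ r m, ((coeff m (φ₀ r) : cfs φ) : K) = coeff m (φ r) := fun r m => by
    rw [← hφr, coeff_map]
    rfl
  set a : cfs φ := coeff m₀ (φ₀ r₀) with hadef
  -- the ends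
  have hle : (e4_ends φ₀).map (cfs φ).val ≤ ends φ := by
    rw [e4_ends, Algebra.map_sup, sup_le_iff]
    constructor
    · rintro _ ⟨_, ⟨r, rfl⟩, rfl⟩
      refine Algebra.subset_adjoin (Or.inl ⟨r, ?_⟩)
      change pt φ ![1, 0] r = algebraMap (cfs φ) K (e4_pt φ₀ ![1, 0] r)
      rw [e4_pt_apply, ← e4_eval10, hφr, ← e4_pt_apply]
      rfl
    · rintro _ ⟨_, ⟨r, rfl⟩, rfl⟩
      refine Algebra.subset_adjoin (Or.inr ⟨r, ?_⟩)
      change pt φ ![0, 1] r = algebraMap (cfs φ) K (e4_pt φ₀ ![0, 1] r)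
      rw [e4_pt_apply, ← e4_eval01, hφr, ← e4_pt_apply]
      rfl
  have hT : Transcendental (e4_ends φ₀) a := by
    intro hcon
    apply ha
    let g : e4_ends φ₀ →+* ends φ :=
      (((cfs φ).val : cfs φ →+* K).comp (algebraMap (e4_ends φ₀) (cfs φ))).codRestrict
        (ends φ).toSubring (fun x => hle ⟨x.1, x.2, rfl⟩)
    have hg : Function.Injective g := fun x y hxy => by
      have h1 := congrArg Subtype.val hxy
      exact Subtype.ext (Subtype.ext h1)
    have h2 := hcon.ringHom_of_comp_eq g (((cfs φ).val : cfs φ →+* K)) hg (by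
      ext x
      rfl)
    have h3 : ((cfs φ).val : cfs φ →+* K) a = coeff m₀ (φ r₀) := hco r₀ m₀
    rwa [h3] at h2
  obtain ⟨f, hf, hfh, b, hb⟩ := E1 hft (e4_ends φ₀) (e4_ends_fg φ₀) a hT
  have hinj : Function.Injective (algebraMap ℂ (LaurentSeries ℂ)) :=
    (algebraMap ℂ (LaurentSeries ℂ)).injective
  have hw : ∀ v : R →ₐ[ℂ] cfs φ, (∀ r, v r ∈ e4_ends φ₀) →
      ∃ w : R →ₐ[ℂ] ℂ, ∀ r, f (v r) = algebraMap ℂ (LaurentSeries ℂ) (w r) := by
    intro v hv
    let ι : ℂ →ₐ[ℂ] LaurentSeries ℂ := Algebra.ofId ℂ (LaurentSeries ℂ)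
    have hι : Function.Injective ι := hinj
    have hr : ∀ r, (f.comp v) r ∈ ι.range := fun r => by
      obtain ⟨c, hc⟩ := hf _ (hv r)
      exact ⟨c, hc.symm⟩
    set e := AlgEquiv.ofInjective ι hι with he
    refine ⟨(e.symm : ι.range →ₐ[ℂ] ℂ).comp ((f.comp v).codRestrict ι.range hr), fun r => ?_⟩
    have h1 : (e ((e.symm : ι.range →ₐ[ℂ] ℂ).comp ((f.comp v).codRestrict ι.range hr) r) :
      LaurentSeries ℂ) = (f.comp v) r := by
      simp
    rw [← AlgHom.comp_apply, ← h1]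
    rfl
  obtain ⟨w₀, hw₀⟩ := hw (e4_pt φ₀ ![1, 0]) (fun r =>
    (le_sup_left : (e4_pt φ₀ ![1, 0]).range ≤ e4_ends φ₀) ⟨r, rfl⟩)
  obtain ⟨w₁, hw₁⟩ := hw (e4_pt φ₀ ![0, 1]) (fun r =>
    (le_sup_right : (e4_pt φ₀ ![0, 1]).range ≤ e4_ends φ₀) ⟨r, rfl⟩)
  refine ⟨f, w₀, w₁, hfh, fun r => ?_, fun r => ?_, ?_⟩
  · rw [← hw₀ r, e4_pt_apply]
    exact e4_eval10 (f : cfs φ →+* LaurentSeries ℂ) (φ₀ r)
  · rw [← hw₁ r, e4_pt_apply]
    exact e4_eval01 (f : cfs φ →+* LaurentSeries ℂ) (φ₀ r)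
  · by_contra hcon
    push Not at hcon
    apply hb
    -- the subalgebra of the power series
    let S : Subalgebra ℂ (LaurentSeries ℂ) :=
      { (HahnSeries.ofPowerSeries ℤ ℂ).range with
        algebraMap_mem' := fun c => ⟨algebraMap ℂ (PowerSeries ℂ) c, rfl⟩ }
    have hS : ∀ x : LaurentSeries ℂ, x ∈ S ↔ x ∈ Set.range (HahnSeries.ofPowerSeries ℤ ℂ) :=
      fun x => Iff.rfl
    have h1 : (cfs φ) ≤ (S.comap f).map (cfs φ).val := by
      refine (Algebra.adjoin_le ?_ :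
        Algebra.adjoin ℂ {c | ∃ r m, c = coeff m (φ r)} ≤ (S.comap f).map (cfs φ).val)
      rintro _ ⟨r, m, rfl⟩
      refine ⟨coeff m (φ₀ r), ?_, hco r m⟩
      change f (coeff m (φ₀ r)) ∈ S
      rw [hS]
      have h2 := hcon r m
      change coeff m (map (f : cfs φ →+* LaurentSeries ℂ) (φ₀ r)) ∈ _ at h2
      rwa [coeff_map] at h2
    obtain ⟨b', hb', hbb⟩ := h1 b.2
    have h3 : b' = b := Subtype.ext hbb
    rw [h3] at hb'
    exact (hS _).1 hb'

end Vale.Agent.P292.Dv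
end

section

/-! # G3: the curve algebra of the line. -/

namespace Vale.Agent.P292.Dv

open Polynomial Vale.Agent.P292.Mo

universe u w

namespace DataH

variable {k : Type u} [Field k] {K : Type w} [Field K] [Algebra k K]

theorem ic_eq (B : Subalgebra k K) (hpir : IsPrincipalIdealRing B)
    (hfr : ∀ x : K, ∃ a ∈ B, ∃ b ∈ B, b ≠ 0 ∧ x = a / b) : IC B = B := by
  have hF : IsFractionRing B K := IsFractionRing.of_field B K fun z => by
    obtain ⟨a, ha, b, hb, -, h⟩ := hfr z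
    exact ⟨⟨a, ha⟩, ⟨b, hb⟩, h⟩
  have hI : IsIntegrallyClosed B := inferInstance
  apply le_antisymm
  · intro x hx
    rw [mem_IC_iff] at hx
    obtain ⟨y, rfl⟩ := (IsIntegrallyClosed.isIntegral_iff (R := B)).1 hx
    exact y.2
  · intro x hx
    exact le_IC B hx

theorem aeval_inj {t : K} (ht : Transcendental k t) {a b : k[X]} (h : aeval t a = aeval t b) :
    a = b := (transcendental_iff_injective.1 ht) h

/-- The sections on the line are the polynomials of bounded degree. -/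
theorem mem_sec {t : K} (ht : Transcendental k t) {g : k[X]} (hg : g ≠ 0) {l : k}
    (hl : g.eval l ≠ 0) (e n : ℕ) (a : K) :
    a ∈ Sec (B0 t g) (B1 t g) (((t - algebraMap k K l) ^ e)⁻¹) n ↔
      ∃ q : k[X], q.natDegree ≤ e * n ∧ a = aeval t q := by
  have htl : t - algebraMap k K l = aeval t (X - C l) := by simp
  have hX : (X - C l : k[X]) ≠ 0 := X_sub_C_ne_zero l
  have htl0 : t - algebraMap k K l ≠ 0 := crv_ne_C ht l
  rw [mem_Sec]
  constructor
  · rintro ⟨h0, h1⟩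
    obtain ⟨p, m, rfl⟩ := crv_mem_B0 (crv_ne ht hg) h0
    obtain ⟨a', b', hb', hc, hd, h⟩ := ClosedIC1.mem_B1.1 h1
    have hg0 := crv_ne ht hg
    have h2 : aeval t (p * b') = aeval t ((X - C l) ^ (e * n) * g ^ m * a') := by
      rw [map_mul, map_mul, map_mul, map_pow, map_pow, ← htl, pow_mul]
      have hT : ((t - algebraMap k K l) ^ e) ^ n ≠ 0 := pow_ne_zero _ (pow_ne_zero _ htl0)
      have hgm : aeval t g ^ m ≠ 0 := pow_ne_zero _ hg0
      generalize ((t - algebraMap k K l) ^ e) = T at h hT ⊢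
      rw [inv_pow] at h
      generalize T ^ n = T' at h hT ⊢
      generalize aeval t g ^ m = G at h hgm ⊢
      generalize aeval t b' = b1 at h hb' ⊢
      field_simp at h
      linear_combination h
    have h3 := aeval_inj ht h2
    have h4 : g ^ m ∣ p := by
      have h5 : g ^ m ∣ p * b' := by
        rw [h3]
        exact ⟨(X - C l) ^ (e * n) * a', by ring⟩
      exact (hc.symm.pow_left).dvd_of_dvd_mul_right h5
    obtain ⟨q, rfl⟩ := h4
    have h6 : q * b' = (X - C l) ^ (e * n) * a' := by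
      apply mul_left_cancel₀ (pow_ne_zero m hg)
      linear_combination h3
    refine ⟨q, ?_, ?_⟩
    · by_cases hq : q = 0
      · simp [hq]
      have hb0 : b' ≠ 0 := fun h => hb' (by rw [h, map_zero])
      have ha0 : a' ≠ 0 := by
        rintro rfl
        rw [mul_zero] at h6
        exact mul_ne_zero hq hb0 h6
      have h7 := congrArg natDegree h6
      rw [natDegree_mul hq hb0, natDegree_mul (pow_ne_zero _ hX) ha0, natDegree_pow,
        natDegree_X_sub_C, mul_one] at h7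
      omega
    · rw [map_mul, map_pow, mul_div_cancel_left₀ _ (pow_ne_zero m hg0)]
  · rintro ⟨q, hq, rfl⟩
    refine ⟨crv_aeval_mem (crv_t_mem_B0 t g) q, ClosedIC1.mem_B1.2 ⟨q, (X - C l) ^ (e * n), ?_, ?_, ?_, ?_⟩⟩
    · rw [map_pow, ← htl]
      exact pow_ne_zero _ htl0
    · refine IsCoprime.pow_left ?_
      rw [(irreducible_X_sub_C l).coprime_iff_not_dvd, dvd_iff_isRoot]
      exact hl
    · rw [natDegree_pow, natDegree_X_sub_C, mul_one]
      exact hq
    · rw [map_pow, ← htl, inv_pow, ← pow_mul, div_eq_inv_mul]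

theorem frac_of_top {t : K} (htop : IntermediateField.adjoin k {t} = ⊤) (x : K) :
    x ∈ IntermediateField.adjoin k {t} := by
  rw [htop]
  trivial

theorem ic0 {t : K} (ht : Transcendental k t) (htop : IntermediateField.adjoin k {t} = ⊤)
    {g : k[X]} (hg : g ≠ 0) : IC (B0 t g) = B0 t g :=
  ic_eq _ (crv_B0_pir (crv_ne ht hg)) fun x => crv_B0_frac t g x (frac_of_top htop x)

theorem ic1 [Infinite k] {t : K} (ht : Transcendental k t)
    (htop : IntermediateField.adjoin k {t} = ⊤)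
    {g : k[X]} (hg : g ≠ 0) : IC (B1 t g) = B1 t g :=
  ic_eq _ (crv_B1_pir ht hg) fun x => crv_B1_frac ht hg x (frac_of_top htop x)

theorem cd_line [IsAlgClosed k] {t : K} (ht : Transcendental k t)
    (htop : IntermediateField.adjoin k {t} = ⊤) {g : k[X]} (hg : g ≠ 0) :
    IsCD (B0 t g) (B1 t g) := by
  have hs : Function.Surjective (algebraMap (IntermediateField.adjoin k {t}) K) :=
    fun x => ⟨⟨x, frac_of_top htop x⟩, rfl⟩
  have h1 : FiniteDimensional (IntermediateField.adjoin k {t}) K :=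
    Module.Finite.of_surjective (Algebra.linearMap _ K) hs
  have h2 : Algebra.IsSeparable (IntermediateField.adjoin k {t}) K := ⟨fun x => by
    obtain ⟨y, rfl⟩ := hs x
    exact isSeparable_algebraMap y⟩
  have h3 := isCD_IC ht hg
  rw [ic0 ht htop hg, ic1 ht htop hg] at h3
  exact h3

theorem sup_line {t : K} (ht : Transcendental k t)
    (htop : IntermediateField.adjoin k {t} = ⊤) {g : k[X]} (hg : g ≠ 0) :
    Subalgebra.toSubmodule (B0 t g) ⊔ Subalgebra.toSubmodule (B1 t g) = ⊤ := by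
  rw [eq_top_iff]
  intro x _
  obtain ⟨a, ha, b, hb, hab⟩ := b0_add_b1 ht hg (frac_of_top htop x)
  rw [hab]
  exact Submodule.add_mem_sup ha hb

theorem finrank_sec {t : K} (ht : Transcendental k t) {g : k[X]} (hg : g ≠ 0) {l : k}
    (hl : g.eval l ≠ 0) (e n : ℕ) :
    Module.finrank k ↥(Sec (B0 t g) (B1 t g) (((t - algebraMap k K l) ^ e)⁻¹) n) = e * n + 1 := by
  have h1 : Sec (B0 t g) (B1 t g) (((t - algebraMap k K l) ^ e)⁻¹) n =
      (degreeLT k (e * n + 1)).map (aeval t : k[X] →ₐ[k] K).toLinearMap := by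
    ext a
    rw [mem_sec ht hg hl, Submodule.mem_map]
    constructor
    · rintro ⟨q, hq, rfl⟩
      exact ⟨q, by rw [degreeLT_succ_eq_degreeLE]; exact
        mem_degreeLE.2 (natDegree_le_iff_degree_le.1 hq), rfl⟩
    · rintro ⟨q, hq, rfl⟩
      rw [degreeLT_succ_eq_degreeLE] at hq
      exact ⟨q, natDegree_le_iff_degree_le.2 (mem_degreeLE.1 hq), rfl⟩
  rw [h1, ← (Submodule.equivMapOfInjective (aeval t : k[X] →ₐ[k] K).toLinearMap
    (transcendental_iff_injective.1 ht) (degreeLT k (e * n + 1))).finrank_eq,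
    (degreeLTEquiv k (e * n + 1)).finrank_eq, Module.finrank_fin_fun]

theorem chi0_line {t : K} (ht : Transcendental k t)
    (htop : IntermediateField.adjoin k {t} = ⊤) {g : k[X]} (hg : g ≠ 0) {l : k}
    (hl : g.eval l ≠ 0) : chi0 (B0 t g) (B1 t g) = 1 := by
  have h1 := finrank_sec (K := K) ht hg hl 0 0
  have h2 : Sec (B0 t g) (B1 t g) (((t - algebraMap k K l) ^ 0)⁻¹) 0 =
      Subalgebra.toSubmodule (B0 t g) ⊓ Subalgebra.toSubmodule (B1 t g) := by
    ext a
    rw [mem_Sec, pow_zero, one_mul]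
    rfl
  have h3 : Module.finrank k (K ⧸ (Subalgebra.toSubmodule (B0 t g) ⊔
      Subalgebra.toSubmodule (B1 t g))) = 0 := by
    rw [sup_line ht htop hg]
    have : Subsingleton (K ⧸ (⊤ : Submodule k K)) := Submodule.Quotient.subsingleton_iff.2 rfl
    exact Module.finrank_zero_of_subsingleton
  rw [h2] at h1
  rw [chi0, h1, h3]
  simp

theorem idx_line [IsAlgClosed k] {t : K} (ht : Transcendental k t)
    (htop : IntermediateField.adjoin k {t} = ⊤) {g : k[X]} (hg : g ≠ 0) {l : k}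
    (hl : g.eval l ≠ 0) (e : ℕ) : idx (B1 t g) (((t - algebraMap k K l) ^ e)⁻¹) = e := by
  have hu : ((t - algebraMap k K l) ^ e)⁻¹ ≠ 0 := inv_ne_zero (pow_ne_zero _ (crv_ne_C ht l))
  obtain ⟨-, -, h1⟩ := (cd_line ht htop hg).chi_Sec hu 1
  rw [finrank_sec ht hg hl, chi0_line ht htop hg hl] at h1
  have hmem : ((t - algebraMap k K l) ^ e)⁻¹ ∈ B1 t g := by
    rw [← inv_pow]
    exact pow_mem (crv_s_mem_B1 ht hl) e
  have h2 : Subalgebra.toSubmodule (B0 t g) ⊔ (Subalgebra.toSubmodule (B1 t g)).comap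
      (LinearMap.mulLeft k ((((t - algebraMap k K l) ^ e)⁻¹) ^ 1)) = ⊤ := by
    rw [eq_top_iff, ← sup_line ht htop hg]
    refine sup_le_sup le_rfl fun a ha => ?_
    rw [Submodule.mem_comap, pow_one]
    exact (B1 t g).mul_mem hmem ha
  rw [h2] at h1
  have h3 : Module.finrank k (K ⧸ (⊤ : Submodule k K)) = 0 := by
    have : Subsingleton (K ⧸ (⊤ : Submodule k K)) := Submodule.Quotient.subsingleton_iff.2 rfl
    exact Module.finrank_zero_of_subsingleton
  rw [h3] at h1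
  push_cast at h1
  linarith

end DataH

end Vale.Agent.P292.Dv
end
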