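import Vale.Agent.P292.Dn.B1
import Vale.Agent.P292.Bn.N13

set_option linter.all false

section

/-! # Part III, T2: deformations of homomorphisms graded by a monoid. -/

namespace Vale.Agent.P292.Dv

open TensorProduct MvPolynomial Vale.Agent.P292.Mo

universe u v w

section twist
variable {k : Type*} [Field k] {R : Type*} [CommRing R] [Algebra k R]
  {ι : Type} [AddCommMonoid ι] [DecidableEq ι] (𝒜 : ι → Submodule k R) [GradedAlgebra 𝒜]

theorem linearMap_eq_of_homogG {M : Type*} [AddCommGroup M] [Module k M] (f g : R →ₗ[k] M)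
    (h : ∀ n, ∀ r ∈ 𝒜 n, f r = g r) (r : R) : f r = g r := by
  classical
  rw [← DirectSum.sum_support_decompose 𝒜 r, map_sum, map_sum]
  exact Finset.sum_congr rfl (fun i _ => h i _ (SetLike.coe_mem _))

variable {C : Type*} [CommRing C] [Algebra k C]

/-- `r ↦ c n * ψ r` for `r` of degree `n` -/
noncomputable def twG (c : ι → C) (h0 : c 0 = 1) (hm : ∀ i j, c (i + j) = c i * c j)
    (ψ : R →ₐ[k] C) : R →ₐ[k] C :=
  (DirectSum.toAlgebra k (fun n => 𝒜 n)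
    (fun n => (LinearMap.mulLeft k (c n)) ∘ₗ ψ.toLinearMap ∘ₗ (𝒜 n).subtype)
    (by
      change c 0 * ψ ((1 : 𝒜 0) : R) = 1
      rw [h0, one_mul]
      exact map_one ψ)
    (fun {i j} ai aj => by
      change c (i + j) * ψ ((ai : R) * (aj : R)) = (c i * ψ ai) * (c j * ψ aj)
      rw [map_mul, hm]
      ring)).comp (DirectSum.decomposeAlgEquiv 𝒜).toAlgHom

theorem twG_apply (c : ι → C) (h0 : c 0 = 1) (hm : ∀ i j, c (i + j) = c i * c j)
    (ψ : R →ₐ[k] C) {n : ι} {r : R} (hr : r ∈ 𝒜 n) :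
    twG 𝒜 c h0 hm ψ r = c n * ψ r := by
  classical
  change DirectSum.toModule k ι C
    (fun n => (LinearMap.mulLeft k (c n)) ∘ₗ ψ.toLinearMap ∘ₗ (𝒜 n).subtype)
    (DirectSum.decompose 𝒜 r) = _
  rw [DirectSum.decompose_of_mem 𝒜 hr]
  change DirectSum.toModule k ι C _ (DirectSum.lof k ι (fun n => 𝒜 n) n ⟨r, hr⟩) = _
  rw [DirectSum.toModule_lof]
  rfl

theorem exists_homog_gensG [Algebra.FiniteType k R] :
    ∃ (M : ℕ) (x : Fin M → R) (d : Fin M → ι), (∀ i, x i ∈ 𝒜 (d i)) ∧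
      Function.Surjective (MvPolynomial.aeval (R := k) x) := by
  classical
  obtain ⟨S, hS⟩ := (inferInstance : Algebra.FiniteType k R).out
  let T : Finset R := S.biUnion fun s =>
    (DirectSum.decompose 𝒜 s).support.image fun i => (DirectSum.decompose 𝒜 s i : R)
  have hT : ∀ t ∈ T, ∃ n, t ∈ 𝒜 n := by
    intro t ht
    obtain ⟨s, -, h⟩ := Finset.mem_biUnion.1 ht
    obtain ⟨i, -, rfl⟩ := Finset.mem_image.1 h
    exact ⟨i, SetLike.coe_mem _⟩
  let x : Fin T.card → R := fun i => (T.equivFin.symm i : R)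
  have hx : ∀ i, ∃ n, x i ∈ 𝒜 n := fun i => hT _ (T.equivFin.symm i).2
  choose d hd using hx
  have hrange : Set.range x = (T : Set R) := by
    ext t
    constructor
    · rintro ⟨i, rfl⟩
      exact (T.equivFin.symm i).2
    · intro ht
      refine ⟨T.equivFin ⟨t, ht⟩, ?_⟩
      change ((T.equivFin.symm (T.equivFin ⟨t, ht⟩)) : R) = t
      rw [Equiv.symm_apply_apply]
  have hadj : Algebra.adjoin k (Set.range x) = ⊤ := by
    rw [hrange, eq_top_iff, ← hS, Algebra.adjoin_le_iff]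
    intro s hs
    rw [SetLike.mem_coe, ← DirectSum.sum_support_decompose 𝒜 s]
    refine sum_mem fun i hi => Algebra.subset_adjoin ?_
    exact Finset.mem_biUnion.2 ⟨s, hs, Finset.mem_image.2 ⟨i, hi, rfl⟩⟩
  refine ⟨T.card, x, d, hd, ?_⟩
  rw [← AlgHom.range_eq_top, ← Algebra.adjoin_range_eq_range_aeval, hadj]

end twist

section lifts
variable {k : Type*} [Field k] {R : Type*} [CommRing R] [Algebra k R]
  {ι : Type} [AddCommMonoid ι] [DecidableEq ι] {𝒜 : ι → Submodule k R}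
  [GradedAlgebra 𝒜] {K : Type*} [Field K] [Algebra k K]
  {A₁ : Subalgebra k K} {U : ι → K} {φ : R →ₐ[k] K}
  {O₁ O : Type*} [CommRing O₁] [CommRing O] [Algebra k O₁] [Algebra k O]
  {π : O₁ →ₐ[k] O} {e₁ : O₁ →ₐ[k] k}

omit [DecidableEq ι] in
theorem tmG0 (B : Type*) [CommRing B] [Algebra k B] (hU0 : U 0 = 1) :
    ((1 : B) ⊗ₜ[k] U 0) = 1 := by
  rw [hU0]
  rfl

omit [DecidableEq ι] in
theorem tmGm (B : Type*) [CommRing B] [Algebra k B] (hUm : ∀ i j, U (i + j) = U i * U j)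
    (i j : ι) : ((1 : B) ⊗ₜ[k] U (i + j)) = (1 ⊗ₜ U i) * (1 ⊗ₜ U j) := by
  rw [Algebra.TensorProduct.tmul_mul_tmul, one_mul, hUm]

/-- the lift on the second chart -/
theorem exists_lift1G (hs : IsSmall π e₁) (hU0 : U 0 = 1) (hUm : ∀ i j, U (i + j) = U i * U j)
    (hu : ∀ i, U i ≠ 0) {n : ι} {s : R} (hsA : s ∈ 𝒜 n)
    (hsm : Algebra.FormallySmooth k (Localization.Away s)) (hs0 : φ s ≠ 0)
    (hs1 : (U n * φ s)⁻¹ ∈ A₁) (e : O →ₐ[k] k) (he : ∀ a, e (π a) = e₁ a)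
    (Ψ : R →ₐ[k] O ⊗[k] K) (hΨe : ∀ r, ez K e (Ψ r) = φ r)
    (hΨ : ∀ n, ∀ r ∈ 𝒜 n, (1 ⊗ₜ (U n)) * Ψ r ∈ subB O A₁) :
    ∃ Ψ₁ : R →ₐ[k] O₁ ⊗[k] K, (∀ r, chg K π (Ψ₁ r) = Ψ r) ∧
      (∀ n, ∀ r ∈ 𝒜 n, (1 ⊗ₜ (U n)) * Ψ₁ r ∈ subB O₁ A₁) := by
  set tw1 := twG 𝒜 (fun i => (1 : O) ⊗ₜ[k] U i) (tmG0 O hU0) (tmGm O hUm) Ψ with htw1
  have hΦa : ∀ n, ∀ r ∈ 𝒜 n, tw1 r = (1 ⊗ₜ (U n)) * Ψ r := fun n r hr => by
    rw [htw1, twG_apply _ _ _ _ _ hr]
  have hΦm : ∀ r, tw1 r ∈ subB O A₁ := by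
    classical
    intro r
    rw [← DirectSum.sum_support_decompose 𝒜 r, map_sum]
    refine sum_mem fun i _ => ?_
    rw [hΦa i _ (SetLike.coe_mem _)]
    exact hΨ i _ (SetLike.coe_mem _)
  obtain ⟨g, hg⟩ := exists_factor (S := A₁) tw1 hΦm
  have hunit : IsUnit (g s) := by
    refine isUnit_of_ez (lift1_nil hs e he) ?_
    have h1 : ((ez A₁ e (g s) : A₁) : K) = U n * φ s := by
      rw [coe_ez, hg, hΦa n s hsA, map_mul, ez_tmul, map_one, one_smul, hΨe]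
    refine isUnit_iff_exists_inv.2 ⟨⟨(U n * φ s)⁻¹, hs1⟩, ?_⟩
    apply Subtype.ext
    change ((ez A₁ e (g s) : A₁) : K) * (U n * φ s)⁻¹ = 1
    rw [h1, mul_inv_cancel₀ (mul_ne_zero (hu n) hs0)]
  have hnil : IsNilpotent (RingHom.ker (chg A₁ π)) :=
    ⟨2, by rw [Ideal.zero_eq_bot]; exact hs.ker_sq (K := A₁)⟩
  obtain ⟨g', hg'⟩ := exists_lift_of_smooth hsm (chg A₁ π) (chg_surjective hs) hnil g hunit
  have hV0 : (U 0)⁻¹ = 1 := by rw [hU0, inv_one]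
  have hVm : ∀ i j, (U (i + j))⁻¹ = (U i)⁻¹ * (U j)⁻¹ := fun i j => by rw [hUm, mul_inv]
  set tw2 := twG 𝒜 (fun i => (1 : O₁) ⊗ₜ[k] (U i)⁻¹) (tmG0 (U := fun i => (U i)⁻¹) O₁ hV0)
    (tmGm (U := fun i => (U i)⁻¹) O₁ hVm) ((incB O₁ A₁).comp g') with htw2
  have htw2a : ∀ n, ∀ r ∈ 𝒜 n, tw2 r = (1 ⊗ₜ (U n)⁻¹) * incB O₁ A₁ (g' r) := fun n r hr => by
    rw [htw2, twG_apply _ _ _ _ _ hr]
    rfl
  refine ⟨tw2, fun r => ?_, fun m r hr => ?_⟩
  · refine linearMap_eq_of_homogG 𝒜 ((chg K π).comp tw2).toLinearMap Ψ.toLinearMap ?_ r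
    intro m r hr
    change chg K π (tw2 r) = Ψ r
    rw [htw2a m r hr, map_mul, chg_tmul, map_one, ← incB_chg,
      hg', hg, hΦa m r hr, ← mul_assoc, Algebra.TensorProduct.tmul_mul_tmul, mul_one,
      inv_mul_cancel₀ (hu m), ← Algebra.TensorProduct.one_def, one_mul]
  · rw [htw2a m r hr, ← mul_assoc, Algebra.TensorProduct.tmul_mul_tmul, mul_one,
      mul_inv_cancel₀ (hu m), ← Algebra.TensorProduct.one_def, one_mul]
    exact mem_subB_iff.2 ⟨g' r, rfl⟩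

end lifts

section key
variable {k : Type*} [Field k] {R : Type*} [CommRing R] [Algebra k R] {ι : Type}
  {𝒜 : ι → Submodule k R}
  {K : Type*} [Field K] [Algebra k K] {M : ℕ} {x : Fin M → R} {d : Fin M → ι}
  {A₀ A₁ : Subalgebra k K} {U : ι → K} {I : Submodule k K} {φ : R →ₐ[k] K}
  {O₁ O : Type*} [CommRing O₁] [CommRing O] [Algebra k O₁] [Algebra k O]
  {π : O₁ →ₐ[k] O} {e₁ : O₁ →ₐ[k] k}

theorem key_claimG [∀ i, Module.Finite k ↥(I ⊓ SecG A₀ A₁ (U (d i)))]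
    (hs : IsSmall π e₁) (hx : ∀ i, x i ∈ 𝒜 (d i)) (hu : ∀ i, U i ≠ 0) (hI : ∀ a ∈ I, a ∈ A₀)
    (hφ : ∀ n, ∀ r ∈ 𝒜 n, φ r ∈ SecG A₀ A₁ (U n))
    (q1 : MvPolynomial (Idx fun i => I ⊓ SecG A₀ A₁ (U (d i))) k →ₐ[k] O₁)
    (hq1 : ∀ s, e₁ (q1 (X s)) = 0)
    (hqJ : ∀ f ∈ eqs x (fun i => I ⊓ SecG A₀ A₁ (U (d i))) φ, π (q1 f) = 0)
    {Ψ : R →ₐ[k] O ⊗[k] K}
    (hΨ : ∀ i, Ψ (x i) = chg K π (chg K q1 (pre x (fun i => I ⊓ SecG A₀ A₁ (U (d i))) φ (X i))))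
    {Ψ₀ Ψ₁ : R →ₐ[k] O₁ ⊗[k] K}
    (h0 : ∀ r, chg K π (Ψ₀ r) = Ψ r) (h1 : ∀ r, chg K π (Ψ₁ r) = Ψ r)
    (he0 : ∀ r, ez K e₁ (Ψ₀ r) = φ r)
    (h0I : ∀ r, Ψ₀ r - 1 ⊗ₜ φ r ∈ InB O₁ I)
    (h1A : ∀ n, ∀ r ∈ 𝒜 n, (1 ⊗ₜ (U n)) * Ψ₁ r ∈ subB O₁ A₁)
    (l : Module.Dual k O₁) (hl : obs Ψ₀ Ψ₁ l ∈ Der0 φ I ⊔ Der1G 𝒜 φ A₁ U) :
    ∃ c : (Idx fun i => I ⊓ SecG A₀ A₁ (U (d i))) → k,
      ∀ f ∈ eqs x (fun i => I ⊓ SecG A₀ A₁ (U (d i))) φ,
        l (q1 f) = - ∑ s, c s * coeff (Finsupp.single s 1) f := by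
  by_cases hW : ∃ w, π w = 0 ∧ l w ≠ 0
  swap
  · push Not at hW
    exact ⟨0, fun f hf => by rw [hW _ (hqJ f hf)]; simp⟩
  obtain ⟨w, hw, hlw⟩ := hW
  set w0 := (l w)⁻¹ • w with hw0d
  have hw0 : π w0 = 0 := by rw [hw0d, map_smul, hw, smul_zero]
  have hlw0 : l w0 = 1 := by rw [hw0d, map_smul, smul_eq_mul, inv_mul_cancel₀ hlw]
  obtain ⟨L, hL, hε0⟩ := exists_quot hs l hw0 hlw0
  obtain ⟨δ0, hδ0, δ1, hδ1, hδ⟩ := Submodule.mem_sup.1 hl
  rw [mem_Der0, mem_DerS] at hδ0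
  rw [mem_Der1G, mem_DerS] at hδ1
  set ε : O₁ ⧸ L := Ideal.Quotient.mk L w0 with hεd
  set ql := Ideal.Quotient.mkₐ k L with hql
  have hεε : ε * ε = 0 := by
    have h3 : w0 * w0 = 0 := by rw [hs.small w0 hw0, hs.le w0 hw0, zero_smul]
    rw [hεd, ← map_mul, h3, map_zero]
  have hεa : ∀ a, ε * ql a = e₁ a • ε := by
    intro a
    have h3 : w0 * a = e₁ a • w0 := by rw [mul_comm, hs.small w0 hw0]
    change Ideal.Quotient.mk L w0 * Ideal.Quotient.mk L a = e₁ a • Ideal.Quotient.mk L w0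
    rw [← map_mul, h3]
    rfl
  -- the homomorphism
  have hmul : ∀ r s, chg K ql (Ψ₀ (r * s)) + ε ⊗ₜ[k] δ0 (r * s) =
      (chg K ql (Ψ₀ r) + ε ⊗ₜ[k] δ0 r) * (chg K ql (Ψ₀ s) + ε ⊗ₜ[k] δ0 s) := by
    intro r s
    have h3 := mk_eps_mul hs hw0 L (δ0 s) (Ψ₀ r)
    have h4 := mk_eps_mul hs hw0 L (δ0 r) (Ψ₀ s)
    have h5 : (ε ⊗ₜ[k] δ0 r) * (ε ⊗ₜ[k] δ0 s) = 0 := by
      rw [Algebra.TensorProduct.tmul_mul_tmul, hεε, TensorProduct.zero_tmul]
    rw [he0] at h3 h4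
    rw [add_mul, mul_add, mul_add, h5, add_zero, h3, mul_comm (ε ⊗ₜ[k] δ0 r), h4, hδ0.1,
      map_mul, map_mul, TensorProduct.tmul_add]
    ring
  have hδ0one : δ0 1 = 0 := by
    have h3 := hδ0.1 1 1
    rw [mul_one, map_one φ, one_mul] at h3
    exact left_eq_add.1 h3
  let Φ : R →ₐ[k] (O₁ ⧸ L) ⊗[k] K := AlgHom.ofLinearMap
    ((chg K ql).toLinearMap ∘ₗ Ψ₀.toLinearMap + (TensorProduct.mk k (O₁ ⧸ L) K ε) ∘ₗ δ0)
    (by
      change chg K ql (Ψ₀ 1) + ε ⊗ₜ[k] δ0 1 = 1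
      rw [hδ0one, TensorProduct.tmul_zero, map_one, map_one, add_zero])
    (fun r s => hmul r s)
  have hΦ : ∀ r, Φ r = chg K ql (Ψ₀ r) + ε ⊗ₜ[k] δ0 r := fun r => rfl
  have hΦ1 : ∀ r, Φ r = chg K ql (Ψ₁ r) - ε ⊗ₜ[k] δ1 r := by
    intro r
    have h3 := chg_mk_ker (K := K) hL (chg_dd h0 h1 r)
    have h4 : mu K l (dd Ψ₀ Ψ₁ r) = δ0 r + δ1 r := by
      have h5 := LinearMap.congr_fun hδ r
      rw [LinearMap.add_apply] at h5
      rw [h5]
      rfl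
    rw [h4, dd_apply, map_sub, TensorProduct.tmul_add] at h3
    rw [hΦ, eq_sub_iff_add_eq, add_assoc]
    change _ + (ε ⊗ₜ[k] δ0 r + ε ⊗ₜ[k] δ1 r) = _
    rw [← h3]
    exact add_sub_cancel _ _
  -- admissible
  have hadm : ∀ i, Φ (x i) - 1 ⊗ₜ φ (x i) ∈ InB (O₁ ⧸ L) (I ⊓ SecG A₀ A₁ (U (d i))) := by
    intro i
    have hA : Φ (x i) - 1 ⊗ₜ φ (x i) ∈ InB (O₁ ⧸ L) I := by
      have h3 := chg_mem_InB ql (h0I (x i))
      rw [map_sub, chg_tmul, map_one] at h3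
      rw [hΦ, add_sub_right_comm]
      exact add_mem h3 (tmul_mem_InB _ _ (hδ0.2 _))
    have hB : Φ (x i) - 1 ⊗ₜ φ (x i) ∈ InB (O₁ ⧸ L)
        ((Subalgebra.toSubmodule A₁).comap (LinearMap.mulLeft k (U (d i)))) := by
      rw [mem_InB_comap (hu _), mul_sub, Algebra.TensorProduct.tmul_mul_tmul, hΦ1,
        mul_sub, Algebra.TensorProduct.tmul_mul_tmul, one_mul, one_mul]
      have h3 : (1 ⊗ₜ (U (d i))) * chg K ql (Ψ₁ (x i)) = chg K ql ((1 ⊗ₜ (U (d i))) * Ψ₁ (x i)) := by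
        rw [map_mul, chg_tmul, map_one]
      rw [h3]
      refine sub_mem (sub_mem ?_ ?_) ?_
      · exact mem_subB.2 (chg_mem_InB ql (mem_subB.1 (h1A _ _ (hx i))))
      · exact mem_subB.2 (tmul_mem_InB _ _ (hδ1.2 _ _ (hx i)))
      · exact mem_subB.2 (tmul_mem_InB _ _ (mem_SecG.1 (hφ _ _ (hx i))).2)
    refine mem_InB_inf _ hA (mem_InB_inf _ ?_ hB)
    exact InB_mono _ (fun a ha => hI a ha) hA
  obtain ⟨τ, hτJ, hτ⟩ := exists_point_of_hom x (fun i => I ⊓ SecG A₀ A₁ (U (d i))) φ Φ hadm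
  -- comparison
  have hcomp : ∀ i, ∃ γ : K, ∑ j, (τ (X ⟨i, j⟩) - ql (q1 (X ⟨i, j⟩))) ⊗ₜ[k]
      (Module.finBasis k ↥(I ⊓ SecG A₀ A₁ (U (d i))) j : K) = ε ⊗ₜ[k] γ := by
    intro i
    have h3 : chg K π (Ψ₀ (x i) -
        chg K q1 (pre x (fun i => I ⊓ SecG A₀ A₁ (U (d i))) φ (X i))) = 0 := by
      rw [map_sub, h0, hΨ, sub_self]
    have h4 := chg_mk_ker (K := K) hL h3
    refine ⟨mu K l (Ψ₀ (x i) -
        chg K q1 (pre x (fun i => I ⊓ SecG A₀ A₁ (U (d i))) φ (X i))) + δ0 (x i), ?_⟩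
    rw [TensorProduct.tmul_add]
    change _ = Ideal.Quotient.mk L w0 ⊗ₜ[k] _ + ε ⊗ₜ[k] δ0 (x i)
    rw [← h4, map_sub, sub_add_eq_add_sub]
    change _ = (chg K ql (Ψ₀ (x i)) + ε ⊗ₜ[k] δ0 (x i)) - _
    rw [← hΦ, hτ, chg_comp, chg_pre_X, add_sub_add_left_eq_sub, ← Finset.sum_sub_distrib]
    refine Finset.sum_congr rfl fun j _ => ?_
    rw [TensorProduct.sub_tmul]
    rfl
  choose γ hγ using hcomp
  choose c hc using fun i => coord_eps (Module.finBasis k ↥(I ⊓ SecG A₀ A₁ (U (d i)))) (hγ i)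
  refine ⟨fun s => c s.1 s.2, fun f hf => ?_⟩
  have h5 := taylor τ (ql.comp q1) ε (fun s => c s.1 s.2) (fun s => by
    rw [AlgHom.comp_apply, hεa, hq1, zero_smul]) hεε (fun s => by
      have h6 := hc s.1 s.2
      rw [sub_eq_iff_eq_add'] at h6
      exact h6) f
  have h6 : τ f = 0 := hτJ hf
  have h7 : (ql.comp q1) f = l (q1 f) • ε := hL _ (hqJ f hf)
  rw [h6, h7, ← add_smul] at h5
  have h8 := (smul_eq_zero.1 h5.symm).resolve_right hε0
  exact eq_neg_of_add_eq_zero_left h8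

end key

section main

variable {k : Type*} [Field k] {R : Type*} [CommRing R] [Algebra k R]
  {ι : Type} {𝒜 : ι → Submodule k R} {K : Type*} [Field K] [Algebra k K]

theorem defsd_derG {A₁ : Subalgebra k K} {U : ι → K} {I : Submodule k K} {φ : R →ₐ[k] K}
    {δ : R →ₗ[k] K} (hδ : δ ∈ T0G 𝒜 φ I A₁ U) : ∀ r s, δ (r * s) = φ r * δ s + φ s * δ r :=
  hδ.1.1

theorem defsd_memG {A₀ A₁ : Subalgebra k K} {U : ι → K} {I : Submodule k K}
    (hI : ∀ a ∈ I, a ∈ A₀) {φ : R →ₐ[k] K} {δ : R →ₗ[k] K} (hδ : δ ∈ T0G 𝒜 φ I A₁ U) {n : ι}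
    {r : R} (hr : r ∈ 𝒜 n) : δ r ∈ I ⊓ SecG A₀ A₁ (U n) :=
  ⟨hδ.1.2 r, mem_SecG.2 ⟨hI _ (hδ.1.2 r), hδ.2.2 n r hr⟩⟩

/-- The coordinates of a tangent vector. -/
noncomputable def defsdMapG {M : ℕ} {x : Fin M → R} {d : Fin M → ι} (hx : ∀ i, x i ∈ 𝒜 (d i))
    {A₀ A₁ : Subalgebra k K} {U : ι → K} {I : Submodule k K} (hI : ∀ a ∈ I, a ∈ A₀)
    {φ : R →ₐ[k] K} [∀ i, Module.Finite k ↥(I ⊓ SecG A₀ A₁ (U (d i)))] :
    ↥(T0G 𝒜 φ I A₁ U) →ₗ[k] (Idx (fun i => I ⊓ SecG A₀ A₁ (U (d i))) → k) where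
  toFun δ s := (Module.finBasis k ↥(I ⊓ SecG A₀ A₁ (U (d s.1)))).repr
    ⟨δ.1 (x s.1), defsd_memG hI δ.2 (hx s.1)⟩ s.2
  map_add' a b := by
    funext s
    rw [Pi.add_apply, ← Finsupp.add_apply, ← map_add]
    rfl
  map_smul' a b := by
    funext s
    rw [Pi.smul_apply, RingHom.id_apply, ← Finsupp.smul_apply, ← map_smul]
    rfl

/-- (D) -/
theorem finrank_T0G_le {M : ℕ} (x : Fin M → R) (d : Fin M → ι) (hx : ∀ i, x i ∈ 𝒜 (d i))
    (hgen : Function.Surjective (MvPolynomial.aeval (R := k) x))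
    (A₀ A₁ : Subalgebra k K) (U : ι → K) (I : Submodule k K) (hI : ∀ a ∈ I, a ∈ A₀) (φ : R →ₐ[k] K)
    [∀ i, Module.Finite k ↥(I ⊓ SecG A₀ A₁ (U (d i)))] :
    Module.finrank k (T0G 𝒜 φ I A₁ U) ≤
      Module.finrank k (tanJ (eqs x (fun i => I ⊓ SecG A₀ A₁ (U (d i))) φ)) := by
  set V : Fin M → Submodule k K := fun i => I ⊓ SecG A₀ A₁ (U (d i)) with hV
  let Θ := defsdMapG (𝒜 := 𝒜) (φ := φ) hx hI (x := x) (U := U) (A₁ := A₁)
  have hsum : ∀ (δ : ↥(T0G 𝒜 φ I A₁ U)) (i : Fin M), δ.1 (x i) =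
      ∑ j, Θ δ ⟨i, j⟩ • (Module.finBasis k (V i) j : K) := by
    intro δ i
    have h1 := (Module.finBasis k (V i)).sum_repr ⟨δ.1 (x i), defsd_memG hI δ.2 (hx i)⟩
    have h2 := congrArg Subtype.val h1
    rw [AddSubmonoidClass.coe_finsetSum] at h2
    exact h2.symm
  have hinj : Function.Injective Θ := by
    intro a b hab
    have h1 : (a - b).1 = 0 := defsd_ext hgen (defsd_derG (a - b).2) fun i => by
      change a.1 (x i) - b.1 (x i) = 0
      rw [hsum a i, hsum b i, hab, sub_self]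
    exact sub_eq_zero.1 (Subtype.ext h1)
  have hmem : ∀ δ : ↥(T0G 𝒜 φ I A₁ U), Θ δ ∈ tanJ (eqs x V φ) := by
    intro δ
    obtain ⟨τ, hτ1, hτ2⟩ := exists_point_of_hom x V φ (B := DualNumber k)
      (dualHom φ δ.1 (defsd_derG δ.2)) (fun i => by
        rw [dualHom_apply, add_sub_cancel_left]
        exact tmul_mem_InB _ _ (defsd_memG hI δ.2 (hx i)))
    have hτ3 : ∀ s : Idx V, τ (MvPolynomial.X s) = Θ δ s • (DualNumber.eps : DualNumber k) := by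
      rintro ⟨i, j⟩
      have h1 := hτ2 i
      rw [dualHom_apply, add_right_inj, hsum δ i, tmul_sum] at h1
      have h2 := coord_unique (B := DualNumber k) (Module.finBasis k (V i))
        (t := fun j => Θ δ ⟨i, j⟩ • (DualNumber.eps : DualNumber k))
        (t' := fun j => τ (MvPolynomial.X ⟨i, j⟩)) (by
          rw [← h1]
          refine Finset.sum_congr rfl fun j _ => ?_
          rw [smul_tmul])
      exact (congrFun h2 j).symm
    intro f hf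
    have h3 := taylor τ (MvPolynomial.aeval fun _ => 0) (DualNumber.eps : DualNumber k) (Θ δ)
      (fun s => by rw [MvPolynomial.aeval_X, mul_zero]) DualNumber.eps_mul_eps
      (fun s => by rw [MvPolynomial.aeval_X, zero_add, hτ3]) f
    have h4 : τ f = 0 := hτ1 hf
    rw [h4, MvPolynomial.aeval_zero'] at h3
    have h5 := congrArg TrivSqZeroExt.snd h3
    simp [TrivSqZeroExt.algebraMap_eq_inl] at h5
    exact h5.symm
  exact LinearMap.finrank_le_finrank_of_injective (f := Θ.codRestrict _ hmem)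
    (fun a b h => hinj (congrArg Subtype.val h))

end main

section admissible
variable {k : Type*} [Field k] {R : Type*} [CommRing R] [Algebra k R]
  {ι : Type} [AddCommMonoid ι] [DecidableEq ι] {𝒜 : ι → Submodule k R}
  [GradedAlgebra 𝒜] {K : Type*} [Field K] [Algebra k K] {M : ℕ} {x : Fin M → R} {d : Fin M → ι}
  {A₀ A₁ : Subalgebra k K} {U : ι → K} {I : Submodule k K} {φ : R →ₐ[k] K}
  {B : Type*} [CommRing B] [Algebra k B]

/-- the conditions on the generators imply the conditions everywhere -/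
theorem admissibleG (hU0 : U 0 = 1) (hUm : ∀ i j, U (i + j) = U i * U j)
    (hx : ∀ i, x i ∈ 𝒜 (d i))
    (hgen : Function.Surjective (MvPolynomial.aeval (R := k) x)) (hu : ∀ i, U i ≠ 0)
    (hI : ∀ a ∈ I, a ∈ A₀) (hIm : ∀ a ∈ A₀, ∀ b ∈ I, a * b ∈ I)
    (hφ : ∀ n, ∀ r ∈ 𝒜 n, φ r ∈ SecG A₀ A₁ (U n)) (hφ0 : ∀ r, φ r ∈ A₀)
    (ψ : R →ₐ[k] B ⊗[k] K)
    (h : ∀ i, ψ (x i) - 1 ⊗ₜ φ (x i) ∈ InB B (I ⊓ SecG A₀ A₁ (U (d i)))) :
    (∀ r, ψ r - 1 ⊗ₜ φ r ∈ InB B I) ∧ (∀ n, ∀ r ∈ 𝒜 n, (1 ⊗ₜ (U n)) * ψ r ∈ subB B A₁) ∧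
      (∀ n, ∀ r ∈ 𝒜 n, ψ r ∈ InB B (SecG A₀ A₁ (U n))) := by
  have hA : ∀ r, ψ r - 1 ⊗ₜ φ r ∈ InB B I := by
    intro r
    obtain ⟨f, rfl⟩ := hgen r
    exact sub_mem_of_X (x := x) hI hIm φ hφ0 (ψ.comp (aeval x)) (fun i => by
      rw [AlgHom.comp_apply, aeval_X]
      exact InB_mono B inf_le_left (h i)) f
  have hB : ∀ n, ∀ r ∈ 𝒜 n, (1 ⊗ₜ (U n)) * ψ r ∈ subB B A₁ := by
    intro n r hr
    set tw1 := twG 𝒜 (fun i => (1 : B) ⊗ₜ[k] U i) (tmG0 B hU0) (tmGm B hUm) ψ with htw1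
    have htw : ∀ n, ∀ r ∈ 𝒜 n, tw1 r = (1 ⊗ₜ (U n)) * ψ r := fun n r hr => by
      rw [htw1, twG_apply _ _ _ _ _ hr]
    have h1 : ∀ r, tw1 r ∈ subB B A₁ := by
      intro r
      obtain ⟨f, rfl⟩ := hgen r
      refine mem_of_X (tw1.comp (aeval x)) (subB B A₁) (fun i => ?_) f
      rw [AlgHom.comp_apply, aeval_X, htw _ _ (hx i)]
      have h2 : ψ (x i) = (ψ (x i) - 1 ⊗ₜ φ (x i)) + 1 ⊗ₜ φ (x i) := by rw [sub_add_cancel]
      rw [h2, ← mem_InB_comap (hu _)]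
      refine add_mem (InB_mono B (inf_le_right.trans inf_le_right) (h i)) ?_
      exact tmul_mem_InB B _ ((hφ _ _ (hx i)).2)
    rw [← htw n r hr]
    exact h1 r
  refine ⟨hA, hB, fun n r hr => ?_⟩
  refine mem_InB_inf _ ?_ ((mem_InB_comap (hu _)).2 (hB n r hr))
  have h2 : ψ r = (ψ r - 1 ⊗ₜ φ r) + 1 ⊗ₜ φ r := by rw [sub_add_cancel]
  rw [h2]
  exact add_mem (InB_mono B (fun a ha => hI a ha) (hA r)) (tmul_mem_InB B _ (hφ0 _))

end admissible

/-- the obstruction map -/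
theorem exists_obsG {k : Type*} [Field k] {R : Type*} [CommRing R] [Algebra k R]
    {ι : Type} {𝒜 : ι → Submodule k R} {K : Type*} [Field K] [Algebra k K]
    {A₁ : Subalgebra k K} {U : ι → K} {I : Submodule k K} {φ : R →ₐ[k] K}
    {O₁ O : Type*} [CommRing O₁] [CommRing O] [Algebra k O₁] [Algebra k O]
    {π : O₁ →ₐ[k] O} {e₁ : O₁ →ₐ[k] k}
    (hs : IsSmall π e₁) {Ψ : R →ₐ[k] O ⊗[k] K} {Ψ₀ Ψ₁ : R →ₐ[k] O₁ ⊗[k] K}
    (h0 : ∀ r, chg K π (Ψ₀ r) = Ψ r) (h1 : ∀ r, chg K π (Ψ₁ r) = Ψ r)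
    (he0 : ∀ r, ez K e₁ (Ψ₀ r) = φ r) (he1 : ∀ r, ez K e₁ (Ψ₁ r) = φ r) :
    ∃ ob : Module.Dual k O₁ →ₗ[k] ↥(ObG 𝒜 φ I A₁ U),
      ∀ l, ob l = 0 → obs Ψ₀ Ψ₁ l ∈ Der0 φ I ⊔ Der1G 𝒜 φ A₁ U := by
  refine ⟨LinearMap.codRestrict (ObG 𝒜 φ I A₁ U)
    ((Der0 φ I ⊔ Der1G 𝒜 φ A₁ U).mkQ ∘ₗ obs Ψ₀ Ψ₁)
    (fun l => Submodule.mem_map_of_mem (obs_mem hs h0 h1 he0 he1 l)), fun l hl => ?_⟩
  have h2 := congrArg Subtype.val hl
  exact (Submodule.Quotient.mk_eq_zero _).1 h2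

/-- **The deformation lemma**, for a homomorphism graded by a monoid. -/
theorem exists_family_gr {k : Type u} [Field k] {R : Type v} [CommRing R] [Algebra k R]
    {ι : Type} [AddCommMonoid ι] [DecidableEq ι] (𝒜 : ι → Submodule k R)
    [GradedAlgebra 𝒜] [Algebra.FiniteType k R] {K : Type w} [Field K] [Algebra k K]
    {A₀ A₁ : Subalgebra k K} {U : ι → K} (hu : ∀ n, U n ≠ 0) (hU0 : U 0 = 1)
    (hUm : ∀ a b, U (a + b) = U a * U b) {φ : R →ₐ[k] K}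
    (hφ : ∀ n, ∀ r ∈ 𝒜 n, φ r ∈ SecG A₀ A₁ (U n))
    (unit0 : ∃ n, ∃ s ∈ 𝒜 n, Algebra.FormallySmooth k (Localization.Away s) ∧ φ s ≠ 0 ∧
      (φ s)⁻¹ ∈ A₀)
    (unit1 : ∃ n, ∃ s ∈ 𝒜 n, Algebra.FormallySmooth k (Localization.Away s) ∧ φ s ≠ 0 ∧
      (U n * φ s)⁻¹ ∈ A₁)
    (I : Submodule k K) (hI : ∀ a ∈ I, a ∈ A₀) (hIm : ∀ a ∈ A₀, ∀ b ∈ I, a * b ∈ I)
    (hfin : ∀ n, Module.Finite k (SecG A₀ A₁ (U n)))
    (hOb : Module.Finite k (ObG 𝒜 φ I A₁ U))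
    (hlt : Module.finrank k (ObG 𝒜 φ I A₁ U) < Module.finrank k (T0G 𝒜 φ I A₁ U)) :
    FamOutG 𝒜 A₀ A₁ U φ I := by
  classical
  obtain ⟨M, x, d, hx, hgen⟩ := exists_homog_gensG (k := k) 𝒜
  have hVfin : ∀ i, Module.Finite k ↥(I ⊓ SecG A₀ A₁ (U (d i))) := fun i => by
    have := hfin (d i)
    exact Submodule.finiteDimensional_of_le (inf_le_right : I ⊓ SecG A₀ A₁ (U (d i)) ≤ _)
  set V : Fin M → Submodule k K := fun i => I ⊓ SecG A₀ A₁ (U (d i)) with hV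
  have hVfin' : ∀ i, Module.Finite k (V i) := hVfin
  have hφ0 : ∀ r, φ r ∈ A₀ := by
    intro r
    rw [← DirectSum.sum_support_decompose 𝒜 r, map_sum]
    exact sum_mem fun i _ => (mem_SecG.1 (hφ i _ (SetLike.coe_mem _))).1
  let P := MvPolynomial (Idx V) k
  let τ₀ : P →ₐ[k] k := aeval (fun _ => (0 : k))
  have hτ₀X : ∀ s, τ₀ (X s) = 0 := fun s => aeval_X _ _
  have hτ₀ : ∀ f, τ₀ f = constantCoeff f := fun f => by
    have h1 : (τ₀ : P →+* k) = constantCoeff := by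
      refine MvPolynomial.ringHom_ext (fun a => ?_) (fun s => ?_)
      · rw [constantCoeff_C]
        exact MvPolynomial.aeval_C _ a
      · rw [constantCoeff_X]
        exact MvPolynomial.aeval_X _ s
    exact DFunLike.congr_fun h1 f
  set J : Ideal P := eqs x V φ with hJd
  have hJτ : J ≤ RingHom.ker τ₀ := by
    rw [hJd, eqs_le_iff]
    intro f hf
    rw [chg_pre_zero x V φ τ₀ hτ₀X, hf, map_zero, TensorProduct.tmul_zero]
  have hJ : J ≤ m0 k (Idx V) := by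
    intro f hf
    have h1 : τ₀ f = 0 := hJτ hf
    rw [hτ₀] at h1
    exact h1
  let qJ : P →ₐ[k] P ⧸ J := Ideal.Quotient.mkₐ k J
  have hqJ : J ≤ RingHom.ker qJ := fun f hf => Ideal.Quotient.eq_zero_iff_mem.2 hf
  obtain ⟨Ψ, hΨ⟩ := exists_hom_of_point x hgen V φ qJ hqJ
  let e : (P ⧸ J) →ₐ[k] k := Ideal.Quotient.liftₐ J τ₀ (fun f hf => hJτ hf)
  have he : ∀ f, e (Ideal.Quotient.mk J f) = constantCoeff f := fun f => hτ₀ f
  have hΨX : ∀ i, Ψ (x i) = chg K qJ (pre x V φ (X i)) := fun i => by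
    rw [← hΨ, aeval_X]
  obtain ⟨a1, a2, a3⟩ := admissibleG hU0 hUm (B := P ⧸ J) hx hgen hu hI hIm hφ hφ0 Ψ (fun i => by
    rw [hΨX]
    exact chg_pre_sub_mem x V φ qJ i)
  refine ⟨P ⧸ J, inferInstance, inferInstance, inferInstance, e, Ψ, ?_, a3, a1, ?_, ?_⟩
  · intro m _ hm hArt
    obtain ⟨N, hN, hart⟩ := exists_pow_le J hJ e he m hm hArt
    obtain ⟨L, hJL, hLm, e₁, he₁, hs, hdim⟩ := exists_small_obs J hJ hN hart
    set π := Ideal.Quotient.factorₐ k (Ideal.mul_le_right : m0 k (Idx V) * L ≤ L) with hπ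
    let q1 : P →ₐ[k] P ⧸ (m0 k (Idx V) * L) := Ideal.Quotient.mkₐ k _
    have hq1 : ∀ s, e₁ (q1 (X s)) = 0 := fun s => by
      have h1 := he₁ (X s)
      rw [constantCoeff_X] at h1
      exact h1
    have hπq : ∀ f, π (q1 f) = Ideal.Quotient.mk L f := fun f => rfl
    have hπJ : ∀ f ∈ J, π (q1 f) = 0 := fun f hf => Ideal.Quotient.eq_zero_iff_mem.2 (hJL hf)
    obtain ⟨ΨO, hΨO⟩ := exists_hom_of_point x hgen V φ (π.comp q1) (fun f hf => hπJ f hf)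
    let eO : (P ⧸ L) →ₐ[k] k := Ideal.Quotient.liftₐ L τ₀ (fun f hf => by
      change τ₀ f = 0
      rw [hτ₀]
      exact hLm hf)
    have heO : ∀ a, eO (π a) = e₁ a := by
      intro a
      obtain ⟨f, rfl⟩ := Ideal.Quotient.mk_surjective a
      rw [he₁, ← hτ₀]
      rfl
    have heOe : eO.comp π = e₁ := AlgHom.ext heO
    have hΨOX : ∀ i, ΨO (x i) = chg K (π.comp q1) (pre x V φ (X i)) := fun i => by
      rw [← hΨO, aeval_X]
    obtain ⟨b1, b2, b3⟩ := admissibleG hU0 hUm (B := P ⧸ L) hx hgen hu hI hIm hφ hφ0 ΨO (fun i => by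
      rw [hΨOX]
      exact chg_pre_sub_mem x V φ (π.comp q1) i)
    have hΨOe : ∀ r, ez K eO (ΨO r) = φ r := by
      intro r
      obtain ⟨f, rfl⟩ := hgen r
      rw [hΨO]
      refine ez_pre x V φ (π.comp q1) eO (fun s => ?_) f
      rw [AlgHom.comp_apply, heO, hq1]
    -- the two lifts
    obtain ⟨n0, s0, hs0A, hsm0, hs0, hs0i⟩ := unit0
    obtain ⟨n1, s1, hs1A, hsm1, hs1, hs1i⟩ := unit1
    obtain ⟨Ψ₀, c1, c2, c3⟩ := exists_lift0 (A₀ := A₀) (I := I) (φ := φ) hs hgen hI hIm hφ0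
      hsm0 hs0 hs0i ΨO ((chg K q1).comp (pre x V φ))
      (fun i => by
        rw [AlgHom.comp_apply]
        exact InB_mono _ inf_le_left (chg_pre_sub_mem x V φ q1 i))
      (fun i => by
        rw [AlgHom.comp_apply, ez_pre x V φ q1 e₁ hq1, aeval_X])
      (fun f => by
        rw [AlgHom.comp_apply, chg_comp, hΨO])
    obtain ⟨Ψ₁, d1, d2⟩ := exists_lift1G (φ := φ) hs hU0 hUm hu hs1A hsm1 hs1 hs1i eO heO ΨO
      hΨOe b2
    have he0 : ∀ r, ez K e₁ (Ψ₀ r) = φ r := fun r => by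
      rw [← heOe, ← ez_chg, c2, hΨOe]
    have he1 : ∀ r, ez K e₁ (Ψ₁ r) = φ r := fun r => by
      rw [← heOe, ← ez_chg, d1, hΨOe]
    obtain ⟨ob, hob⟩ := exists_obsG (𝒜 := 𝒜) (A₁ := A₁) (U := U) (I := I) hs c2 d1 he0 he1
    have h3 := hdim ob (fun l hl => key_claimG hs hx hu hI hφ q1 hq1 hπJ
      (fun i => by
        rw [hΨOX, chg_comp]) c2 d1 he0 c3 d2 l (hob l hl))
    have h4 := finrank_T0G_le (𝒜 := 𝒜) x d hx hgen A₀ A₁ U I hI φ
    exact absurd (h4.trans h3) (not_le.2 hlt)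
  · intro r l
    rw [lamB_ez]
    obtain ⟨f, rfl⟩ := hgen r
    rw [hΨ]
    congr 1
    exact ez_pre x V φ qJ e (fun s => by
      have h1 := he (X s)
      rw [constantCoeff_X] at h1
      exact h1) f
  · set S := Algebra.adjoin k {a : P ⧸ J | ∃ r, ∃ l : K →ₗ[k] k, lamB (P ⧸ J) l (Ψ r) = a} with hS
    rw [eq_top_iff]
    rintro a -
    obtain ⟨f, rfl⟩ := Ideal.Quotient.mk_surjective a
    change qJ f ∈ S
    induction f using MvPolynomial.induction_on with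
    | C a =>
      rw [← MvPolynomial.algebraMap_eq, AlgHom.commutes]
      exact S.algebraMap_mem a
    | add p q hp hq => rw [map_add]; exact add_mem hp hq
    | mul_X p s hp =>
      rw [map_mul]
      refine mul_mem hp ?_
      obtain ⟨i, j⟩ := s
      obtain ⟨l, hl⟩ := exists_dual (Module.finBasis k (V i)) j
      have h1 : lamB (P ⧸ J) l (Ψ (x i)) = l (φ (x i)) • 1 + qJ (X ⟨i, j⟩) := by
        rw [hΨX, chg_pre_X, map_add, map_sum, lamB_tmul]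
        congr 1
        simp [hl]
      have h2 : qJ (X ⟨i, j⟩) = lamB (P ⧸ J) l (Ψ (x i)) - l (φ (x i)) • 1 := by
        rw [h1, add_sub_cancel_left]
      rw [h2]
      exact sub_mem (Algebra.subset_adjoin ⟨x i, l, rfl⟩) (S.smul_mem S.one_mem _)

end Vale.Agent.P292.Dv
end

section

/-! # Part III, block S: part 5 (the local statement at the points of a curve). -/

namespace Vale.Agent.P292.Dv

open Vale.Agent.P292.Mo

universe u v w

section sat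

variable {k : Type u} [Field k] {R : Type v} [CommRing R] [Algebra k R] {𝒜 : ℕ → Submodule k R}
  [GradedAlgebra 𝒜] {J : Ideal R}

theorem constantCoeff_mapAlgHom {A B : Type*} [CommRing A] [Algebra k A] [CommRing B]
    [Algebra k B] (g : A →ₐ[k] B) (f : PowerSeries A) :
    PowerSeries.constantCoeff (PowerSeries.mapAlgHom g f) = g (PowerSeries.constantCoeff f) := by
  rw [← PowerSeries.coeff_zero_eq_constantCoeff_apply,
    ← PowerSeries.coeff_zero_eq_constantCoeff_apply]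
  exact PowerSeries.coeff_map _ _ _

theorem not_posC_of_noPos (hJ : J.IsHomogeneous 𝒜) {β : ℕ} (h : NoPos 𝒜 J β) :
    ¬ PosC 𝒜 J β := by
  intro hpos
  obtain ⟨e, δ, φ, η, h1, h2, h3, h4⟩ := hpos.pair hJ
  exact h e δ h1 h2 h3 φ η h4

/-- The local statement at a point of a curve. -/
theorem sat_core [IsAlgClosed k] [Algebra.FiniteType k R] (hLB : IsLB 𝒜)
    (hJ : J.IsHomogeneous 𝒜) {A : Type*} [CommRing A] [Algebra k A] {F : R →ₐ[k] PowerSeries A}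
    {H : ℕ → R → PowerSeries A} (hη : IsEta 𝒜 J F H)
    (hne : ∃ n, 0 < n ∧ ∃ r ∈ 𝒜 n, PowerSeries.constantCoeff (F r) ≠ 0)
    (hneη : ∃ n x, x ∈ 𝒜 n ∧ x ∈ J ∧ PowerSeries.constantCoeff (H n x) ≠ 0) {L : ℕ}
    (hL : (PowerSeries.X : PowerSeries A) ^ L ∈ imI 𝒜 F) (ex : A →ₐ[k] PowerSeries k)
    (hex : Function.Injective ex) :
    ∃ β : ℕ, (∀ n, ∀ r ∈ 𝒜 n, (PowerSeries.X : PowerSeries k) ^ (β * n) ∣
        ex (PowerSeries.constantCoeff (F r))) ∧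
      (∃ n, 0 < n ∧ ∃ r ∈ 𝒜 n, PowerSeries.coeff (β * n)
        (ex (PowerSeries.constantCoeff (F r))) ≠ 0) ∧
      (¬ PosC 𝒜 J β → ∀ n x, x ∈ 𝒜 n → x ∈ J → (PowerSeries.X : PowerSeries k) ^ (β * n) ∣
        ex (PowerSeries.constantCoeff (H n x))) := by
  obtain ⟨N, x, d, hx, hgen⟩ := exists_gens 𝒜
  have : IsNoetherianRing R := Algebra.FiniteType.isNoetherianRing k R
  obtain ⟨M, hM⟩ := exists_genIn hJ
  let E := PowerSeries.mapAlgHom ex
  have hcc : ∀ f, PowerSeries.constantCoeff (E f) = ex (PowerSeries.constantCoeff f) :=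
    fun f => constantCoeff_mapAlgHom ex f
  have hne₂ : ∀ a, a ≠ 0 → ex a ≠ 0 := fun a ha h => ha (hex (h.trans (map_zero ex).symm))
  obtain ⟨β, G, hG, j₀, hj₀, r₀, hr₀, hne₀⟩ := lead hLB hx hgen
    ((ccA k (PowerSeries k)).comp (E.comp F)) (by
      obtain ⟨j, hj, r, hr, h⟩ := hne
      refine ⟨j, hj, r, hr, ?_⟩
      change PowerSeries.constantCoeff (E (F r)) ≠ 0
      rw [hcc]
      exact hne₂ _ h)
  have hdvd : ∀ j, ∀ r ∈ 𝒜 j, PowerSeries.X ^ (β * j) ∣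
      ((ccA k (PowerSeries k)).comp (E.comp F)) r := fun j r hr => ⟨G r, hG j r hr⟩
  obtain ⟨b, hb, hb'⟩ := exists_ord (β := β) hM hdvd
    ((hη.map E).map (ccA k (PowerSeries k))) (by
      obtain ⟨j, y, hy, hy', h⟩ := hneη
      refine ⟨j, y, hy, hy', ?_⟩
      change PowerSeries.constantCoeff (E (H j y)) ≠ 0
      rw [hcc]
      exact hne₂ _ h)
  have hGe : PowerSeries.coeff (β * j₀) (PowerSeries.constantCoeff (E (F r₀))) ≠ 0 := by
    have h1 : PowerSeries.constantCoeff (E (F r₀)) = _ := hG j₀ r₀ hr₀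
    rw [h1, PowerSeries.coeff_X_pow_mul', if_pos le_rfl, Nat.sub_self,
      PowerSeries.coeff_zero_eq_constantCoeff]
    exact hne₀
  have hg : Germ 𝒜 J (E.comp F) (fun j x => E (H j x)) β (β * M) b :=
    ⟨hη.map E, hdvd, ⟨j₀, hj₀, r₀, hr₀, hGe⟩, hb, hb'⟩
  refine ⟨β, fun n r hr => ?_, ⟨j₀, hj₀, r₀, hr₀, ?_⟩, fun hpos n y hy hy' => ?_⟩
  · rw [← hcc]; exact hdvd n r hr
  · rw [← hcc]; exact hGe
  · have hL' : PowerSeries.X ^ L ∈ imI 𝒜 (E.comp F) := by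
      have h1 := imI_map F E hL
      have h2 : E (PowerSeries.X : PowerSeries A) = PowerSeries.X := PowerSeries.map_X _
      rwa [map_pow, h2] at h1
    have hab := (germ_main hLB hx hgen hM β L _ _ _ b hg hL').resolve_right hpos
    rw [← hcc]
    exact hg.dvd_of_le hab hy hy'

theorem exists_factor_alg {A B : Type*} [CommRing A] [Algebra k A] [CommRing B] [Algebra k B]
    (g : A →ₐ[k] B) (hg : Function.Injective g) (f : R →ₐ[k] B) (h : ∀ r, f r ∈ g.range) :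
    ∃ f' : R →ₐ[k] A, ∀ r, g (f' r) = f r := by
  let F₁ : R →ₐ[k] g.range := f.codRestrict g.range h
  refine ⟨((AlgEquiv.ofInjective g hg).symm : g.range →ₐ[k] A).comp F₁, fun r => ?_⟩
  have h1 : (AlgEquiv.ofInjective g hg)
      ((((AlgEquiv.ofInjective g hg).symm : g.range →ₐ[k] A).comp F₁) r) = F₁ r := by
    simp
  have h2 := congrArg Subtype.val h1
  rw [AlgEquiv.ofInjective_apply] at h2
  exact h2

variable {P : R →ₗ[k] R →ₗ[k] R} {K : Type w} [Field K] [Algebra k K] {A₀ A₁ : Subalgebra k K}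
  {u v : K}

omit [GradedAlgebra 𝒜] in
/-- The second component as a graded function. -/
theorem isEta_of_linear {A : Type*} [CommRing A] [Algebra k A] {F : R →ₐ[k] PowerSeries A}
    {H : J →ₗ[k] PowerSeries A} (h : ∀ (r : R) (x : J), H (r • x) = F r * H x) :
    ∃ H' : ℕ → R → PowerSeries A, IsEta 𝒜 J F H' ∧ ∀ j (x : J), H' j x = H x := by
  classical
  refine ⟨fun _ x => if hx : x ∈ J then H ⟨x, hx⟩ else 0, ⟨fun j x y hx hx' hy hy' => ?_,
    fun i j r x hr hx hx' => ?_⟩, fun j x => ?_⟩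
  · change (if hx : x + y ∈ J then H ⟨x + y, hx⟩ else 0) = (if hx : x ∈ J then H ⟨x, hx⟩ else 0) +
      (if hx : y ∈ J then H ⟨y, hx⟩ else 0)
    rw [dif_pos (J.add_mem hx' hy'), dif_pos hx', dif_pos hy', ← map_add]
    rfl
  · change (if hx : r * x ∈ J then H ⟨r * x, hx⟩ else 0) =
      F r * (if hx : x ∈ J then H ⟨x, hx⟩ else 0)
    rw [dif_pos (J.mul_mem_left _ hx'), dif_pos hx', ← h]
    rfl
  · change (if hx : (x : R) ∈ J then H ⟨x, hx⟩ else 0) = H x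
    rw [dif_pos x.2]

/-- A homogeneous element on which a linear map does not vanish. -/
theorem exists_homog_ne (hJ : J.IsHomogeneous 𝒜) {V : Type*} [AddCommGroup V] [Module k V]
    (f : J →ₗ[k] V) (h : ∃ x, f x ≠ 0) : ∃ j, ∃ x : J, (x : R) ∈ 𝒜 j ∧ f x ≠ 0 := by
  classical
  obtain ⟨x₀, hx₀⟩ := h
  by_contra hcon
  push Not at hcon
  apply hx₀
  have h1 : x₀ = ∑ j ∈ (DirectSum.decompose 𝒜 (x₀ : R)).support,
      (⟨_, mem_of_homog hJ x₀.2 j⟩ : J) := by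
    apply Subtype.ext
    rw [AddSubmonoidClass.coe_finsetSum]
    exact (DirectSum.sum_support_decompose 𝒜 (x₀ : R)).symm
  rw [h1, map_sum]
  exact Finset.sum_eq_zero (fun j _ => hcon j _ (SetLike.coe_mem _))

theorem isLB_of_isPM (hP : IsPM 𝒜 P) : IsLB 𝒜 := fun q hq d hd => hP.lineBundle q hq d hd

/-- S0. The local statement at the points of the first chart. -/
theorem sAt0 [IsAlgClosed k] [IsDomain R] (hP : IsPM 𝒜 P) (hJ : J.IsHomogeneous 𝒜)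
    (hinv : IsInv 𝒜 J) {F : R →ₐ[k] PowerSeries A₀} {H : J →ₗ[k] PowerSeries A₀}
    (h : IsPF 𝒜 J A₀ A₁ u v F H) (ex : A₀ →ₐ[k] PowerSeries k) (hex : Function.Injective ex)
    (hd : ∀ (n : ℕ) (s : PowerSeries k), ∃ a, PowerSeries.X ^ n ∣ ex a - s) :
    SAt 𝒜 J ex (fun _ r a => a = PowerSeries.constantCoeff (F r))
      (fun _ x a => a = PowerSeries.constantCoeff (H x)) := by
  have := hP.finiteType
  obtain ⟨H', hH', hHH⟩ := isEta_of_linear (𝒜 := 𝒜) h.lin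
  obtain ⟨L, hL⟩ := h.b0
  obtain ⟨j, x, hx, hxne⟩ := exists_homog_ne hJ ((ccA k A₀).toLinearMap ∘ₗ H) h.neη
  obtain ⟨β, h1, h2, h3⟩ := sat_core (isLB_of_isPM hP) hJ hH' h.ne
    ⟨j, x, hx, x.2, by rw [hHH]; exact hxne⟩ hL ex hex
  refine ⟨β, fun n r hr a ha => ?_, ?_, fun hno i x hx a ha => ?_⟩
  · rw [ha]; exact h1 n r hr
  · obtain ⟨n, hn, r, hr, hne⟩ := h2
    exact ⟨n, hn, r, hr, _, rfl, hne⟩
  · rw [ha, ← hHH i]
    exact h3 (not_posC_of_noPos hJ hno) i x hx x.2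

/-- S1. The local statement at the points of the second chart. -/
theorem sAt1 [IsAlgClosed k] [IsDomain R] (hP : IsPM 𝒜 P) (hJ : J.IsHomogeneous 𝒜)
    (hinv : IsInv 𝒜 J) (hu : u ≠ 0) (hv : v ≠ 0) {F : R →ₐ[k] PowerSeries A₀}
    {H : J →ₗ[k] PowerSeries A₀}
    (h : IsPF 𝒜 J A₀ A₁ u v F H) (ex : A₁ →ₐ[k] PowerSeries k) (hex : Function.Injective ex)
    (hd : ∀ (n : ℕ) (s : PowerSeries k), ∃ a, PowerSeries.X ^ n ∣ ex a - s) :
    SAt 𝒜 J ex (fun n r a => (a : K) = u ^ n * (PowerSeries.constantCoeff (F r) : A₀))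
      (fun n x a => (a : K) = u ^ n * v * (PowerSeries.constantCoeff (H x) : A₀)) := by
  classical
  have := hP.finiteType
  let E₀ : PowerSeries A₀ →ₐ[k] PowerSeries K := PowerSeries.mapAlgHom A₀.val
  let E₁ : PowerSeries A₁ →ₐ[k] PowerSeries K := PowerSeries.mapAlgHom A₁.val
  have hc₀ : ∀ f i, PowerSeries.coeff i (E₀ f) = ((PowerSeries.coeff i f : A₀) : K) :=
    fun f i => PowerSeries.coeff_map _ _ _
  have hc₁ : ∀ f i, PowerSeries.coeff i (E₁ f) = ((PowerSeries.coeff i f : A₁) : K) :=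
    fun f i => PowerSeries.coeff_map _ _ _
  have hE₁ : Function.Injective E₁ := by
    intro f g hfg
    ext i
    rw [← hc₁, ← hc₁, hfg]
  have hran : ∀ f : PowerSeries K, (∀ i, PowerSeries.coeff i f ∈ A₁) → f ∈ E₁.range := by
    intro f hf
    refine ⟨PowerSeries.mk fun i => ⟨PowerSeries.coeff i f, hf i⟩, ?_⟩
    ext i
    change PowerSeries.coeff i (E₁ _) = _
    rw [hc₁, PowerSeries.coeff_mk]
  -- the family on the second chart
  obtain ⟨G, hG⟩ := bubble_twist 𝒜 (E₀.comp F) (PowerSeries.C u)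
  have hGh : ∀ n, ∀ r ∈ 𝒜 n, G r ∈ E₁.range := by
    intro n r hr
    refine hran _ fun i => ?_
    rw [hG n r hr, AlgHom.comp_apply, ← map_pow, PowerSeries.coeff_C_mul, hc₀]
    exact (mem_Sec.mp (h.sec n r hr i)).2
  obtain ⟨F₁, hF₁⟩ := exists_factor_alg E₁ hE₁ G (by
    intro r
    rw [← DirectSum.sum_support_decompose 𝒜 r, map_sum]
    exact Subalgebra.sum_mem _ fun n _ => hGh n _ (SetLike.coe_mem _))
  have hF₁' : ∀ n, ∀ r ∈ 𝒜 n, ∀ i, ((PowerSeries.coeff i (F₁ r) : A₁) : K) =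
      u ^ n * (PowerSeries.coeff i (F r) : A₀) := by
    intro n r hr i
    rw [← hc₁, hF₁, hG n r hr, AlgHom.comp_apply, ← map_pow, PowerSeries.coeff_C_mul, hc₀]
  have h1 : ∀ n x, ∃ y : PowerSeries A₁, ∀ (hx : x ∈ 𝒜 n) (hx' : x ∈ J),
      E₁ y = PowerSeries.C (u ^ n * v) * E₀ (H ⟨x, hx'⟩) := by
    intro n x
    by_cases hx : x ∈ 𝒜 n ∧ x ∈ J
    · obtain ⟨y, hy⟩ := hran (PowerSeries.C (u ^ n * v) * E₀ (H ⟨x, hx.2⟩)) (fun i => by
        rw [PowerSeries.coeff_C_mul, hc₀]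
        exact h.secη n ⟨x, hx.2⟩ hx.1 i)
      exact ⟨y, fun _ _ => hy⟩
    · exact ⟨0, fun h1 h2 => absurd ⟨h1, h2⟩ hx⟩
  choose H₁ hH₁ using h1
  have hη₁ : IsEta 𝒜 J F₁ H₁ := by
    refine ⟨fun j x y hx hx' hy hy' => hE₁ ?_, fun i j r x hr hx hx' => hE₁ ?_⟩
    · rw [hH₁ j _ ((𝒜 j).add_mem hx hy) (J.add_mem hx' hy'), map_add, hH₁ j x hx hx',
        hH₁ j y hy hy', ← mul_add, ← map_add, ← map_add]
      rfl
    · rw [hH₁ (i + j) _ (SetLike.mul_mem_graded hr hx) (J.mul_mem_left _ hx'), map_mul E₁,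
        hH₁ j x hx hx', hF₁, hG i r hr, AlgHom.comp_apply]
      have h2 : (⟨r * x, J.mul_mem_left _ hx'⟩ : J) = r • ⟨x, hx'⟩ := rfl
      have h3 : (PowerSeries.C (u ^ (i + j) * v) : PowerSeries K) =
          PowerSeries.C u ^ i * PowerSeries.C (u ^ j * v) := by
        rw [← map_pow, ← map_mul]
        congr 1
        ring
      rw [h2, h.lin, map_mul E₀, h3]
      ring
  have hcH : ∀ n (x : J), (x : R) ∈ 𝒜 n → ((PowerSeries.constantCoeff (H₁ n x) : A₁) : K) =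
      u ^ n * v * (PowerSeries.constantCoeff (H x) : A₀) := by
    intro n x hx
    rw [← PowerSeries.coeff_zero_eq_constantCoeff_apply, ← hc₁, hH₁ n x hx x.2,
      PowerSeries.coeff_C_mul, hc₀, PowerSeries.coeff_zero_eq_constantCoeff_apply]
  have hcF : ∀ n, ∀ r ∈ 𝒜 n, ((PowerSeries.constantCoeff (F₁ r) : A₁) : K) =
      u ^ n * (PowerSeries.constantCoeff (F r) : A₀) := by
    intro n r hr
    rw [← PowerSeries.coeff_zero_eq_constantCoeff_apply,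
      ← PowerSeries.coeff_zero_eq_constantCoeff_apply]
    exact hF₁' n r hr 0
  obtain ⟨L, hL⟩ := h.b1
  have hL₁ : (PowerSeries.X : PowerSeries A₁) ^ L ∈ imI 𝒜 F₁ := by
    refine Ideal.span_mono ?_ hL
    rintro y ⟨j, hj, r, hr, hy⟩
    refine ⟨j, hj, r, hr, ?_⟩
    ext i
    rw [hy i, hF₁' j r hr i]
  obtain ⟨j, x, hx, hxne⟩ := exists_homog_ne hJ ((ccA k A₀).toLinearMap ∘ₗ H) h.neη
  have hxne' : PowerSeries.constantCoeff (H x) ≠ 0 := hxne
  obtain ⟨β, h1, h2, h3⟩ := sat_core (isLB_of_isPM hP) hJ hη₁ (by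
      obtain ⟨n, hn, r, hr, hne⟩ := h.ne
      refine ⟨n, hn, r, hr, fun h0 => hne ?_⟩
      have h2 := hcF n r hr
      rw [h0] at h2
      have h3 := (mul_eq_zero.mp h2.symm).resolve_left (pow_ne_zero _ hu)
      exact Subtype.ext h3) ⟨j, x, hx, x.2, fun h0 => hxne' (by
      have h2 := hcH j x hx
      rw [h0] at h2
      have h3 := (mul_eq_zero.mp h2.symm).resolve_left (mul_ne_zero (pow_ne_zero _ hu) hv)
      exact Subtype.ext h3)⟩ hL₁ ex hex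
  refine ⟨β, fun n r hr a ha => ?_, ?_, fun hno i x hx a ha => ?_⟩
  · have h4 : a = PowerSeries.constantCoeff (F₁ r) := Subtype.ext (by rw [ha, hcF n r hr])
    rw [h4]; exact h1 n r hr
  · obtain ⟨n, hn, r, hr, hne⟩ := h2
    exact ⟨n, hn, r, hr, _, hcF n r hr, hne⟩
  · have h4 : a = PowerSeries.constantCoeff (H₁ i x) := Subtype.ext (by rw [ha, hcH i x hx])
    rw [h4]
    exact h3 (not_posC_of_noPos hJ hno) i x hx x.2

end sat

end Vale.Agent.P292.Dv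
end

section

/-! # From a family of pairs to a Laurent family of pairs. -/

namespace Vale.Agent.P292.Dv

open TensorProduct
open Vale.Agent.P292.Mo Vale.Agent.P292.Mo.Sc Vale.Agent.P292.Mo.Fm

universe u v w x y

section cert

variable {k : Type u} [Field k] {K : Type w} [Field K] [Algebra k K]
  {A₀ A₁ : Subalgebra k K} {D : Type x} [CommRing D] [Algebra k D]

/-- A certificate of base point freeness for a family of sections. -/
theorem pf_cert [IsFractionRing A₀ K]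
    (P1 : ∀ V : ValuationSubring K, (∀ c : k, algebraMap k K c ∈ V) →
      (∀ a ∈ A₀, a ∈ V) ∨ (∀ a ∈ A₁, a ∈ V))
    (P2 : ∀ 𝔭 : Ideal A₀, 𝔭.IsPrime → 𝔭 ≠ ⊥ → Function.Surjective (algebraMap k (A₀ ⧸ 𝔭)))
    (e : D →ₐ[k] k) {Q : Type*} (g : Q → D ⊗[k] K) (t : Q → K)
    (h0 : ∀ q, ∃ y : D ⊗[k] A₀, incB D A₀ y = g q)
    (h1 : ∀ q, ∃ y : D ⊗[k] A₁, incB D A₁ y = (1 ⊗ₜ t q) * g q)
    (u0 : ∃ q, evT e K (g q) ≠ 0 ∧ (evT e K (g q))⁻¹ ∈ A₀)
    (u1 : ∃ q, t q ≠ 0 ∧ evT e K (g q) ≠ 0 ∧ (t q * evT e K (g q))⁻¹ ∈ A₁) :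
    ∃ h : D, e h ≠ 0 ∧ h ⊗ₜ[k] (1 : A₀) ∈ Ideal.span {y | ∃ q, incB D A₀ y = g q} := by
  have P2' : ∀ p : Ideal A₀, p.IsPrime → p ≠ ⊥ →
      ∀ a : A₀, ∃ c : k, a - algebraMap k A₀ c ∈ p := by
    intro p hp hp0 a
    obtain ⟨c, hc⟩ := P2 p hp hp0 (Ideal.Quotient.mk p a)
    refine ⟨c, ?_⟩
    rw [← Ideal.Quotient.eq_zero_iff_mem, map_sub, ← hc]
    exact sub_self _
  refine exists_bpf_cert A₀ A₁ P1 P2' e (Ideal.span {y | ∃ q, incB D A₀ y = g q})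
    (Ideal.span {y | ∃ q, incB D A₁ y = (1 ⊗ₜ t q) * g q}) ?_ ?_ ?_
  · rw [Ideal.map_span, Ideal.span_le]
    rintro _ ⟨y, ⟨q, hq⟩, rfl⟩
    obtain ⟨y0, hy0⟩ := h0 q
    have h2 : (Algebra.TensorProduct.map (AlgHom.id k D) A₁.val) y =
        (1 ⊗ₜ t q) * (Algebra.TensorProduct.map (AlgHom.id k D) A₀.val) y0 := by
      have h3 : incB D A₁ y = (1 ⊗ₜ t q) * incB D A₀ y0 := by rw [hq, hy0]
      exact h3
    rw [SetLike.mem_coe, h2]
    exact Ideal.mul_mem_left _ _ (Ideal.mem_map_of_mem _ (Ideal.subset_span ⟨q, hy0⟩))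
  · obtain ⟨q, hq0, hqA⟩ := u0
    obtain ⟨y0, hy0⟩ := h0 q
    refine Ideal.eq_top_of_isUnit_mem _ (Ideal.mem_map_of_mem _
      (Ideal.subset_span ⟨q, hy0⟩)) ?_
    refine IsUnit.of_mul_eq_one ⟨(evT e K (g q))⁻¹, hqA⟩ (Subtype.ext ?_)
    change ((evT e A₀ y0 : A₀) : K) * (evT e K (g q))⁻¹ = 1
    rw [← evT_incB, hy0, mul_inv_cancel₀ hq0]
  · obtain ⟨q, hqt, hq0, hqA⟩ := u1
    obtain ⟨y1, hy1⟩ := h1 q
    refine Ideal.eq_top_of_isUnit_mem _ (Ideal.mem_map_of_mem _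
      (Ideal.subset_span ⟨q, hy1⟩)) ?_
    refine IsUnit.of_mul_eq_one ⟨(t q * evT e K (g q))⁻¹, hqA⟩ (Subtype.ext ?_)
    change ((evT e A₁ y1 : A₁) : K) * (t q * evT e K (g q))⁻¹ = 1
    rw [← evT_incB, hy1, map_mul, evT_tmul, map_one, map_one, one_mul,
      mul_inv_cancel₀ (mul_ne_zero hqt hq0)]

theorem pf_tmul_mem {n : ℕ} {t : K} {z : D ⊗[k] K} (hz : z ∈ InB D (Sec A₀ A₁ t n)) :
    (1 ⊗ₜ (t ^ n)) * z ∈ InB D (Subalgebra.toSubmodule A₁) := by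
  refine InB_induction D
    (p := fun y => (1 ⊗ₜ (t ^ n)) * y ∈ InB D (Subalgebra.toSubmodule A₁)) ?_ ?_ ?_ hz
  · rw [mul_zero]; exact zero_mem _
  · intro b v hv
    rw [Algebra.TensorProduct.tmul_mul_tmul]
    exact tmul_mem_InB D _ (mem_Sec.mp hv).2
  · intro x y hx hy
    rw [mul_add]; exact add_mem hx hy

end cert

section pf1

variable {k : Type u} [Field k] {R : Type v} [CommRing R] [Algebra k R]
  {𝒜 : ℕ → Submodule k R} [GradedAlgebra 𝒜] {K : Type w} [Field K] [Algebra k K]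
  {A₀ A₁ : Subalgebra k K} {u v : K} {J : Ideal R} {D : Type x} [CommRing D] [Algebra k D]
  {S : Type y} [CommRing S] [Algebra k S] {ρ : R →ₐ[k] S} {T : J →ₗ[k] S} {Φ : S →ₐ[k] K}

/-- **From a family of pairs to a Laurent family of pairs.** -/
theorem pf_laurent [IsAlgClosed k] (mp : IsMp 𝒜 A₀ A₁ u (Φ.comp ρ)) [IsFractionRing A₀ K]
    (P1 : ∀ V : ValuationSubring K, (∀ c : k, algebraMap k K c ∈ V) →
      (∀ a ∈ A₀, a ∈ V) ∨ (∀ a ∈ A₁, a ∈ V))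
    (P2 : ∀ 𝔭 : Ideal A₀, 𝔭.IsPrime → 𝔭 ≠ ⊥ → Function.Surjective (algebraMap k (A₀ ⧸ 𝔭)))
    [IsFractionRing A₁ K]
    (P3 : ∀ 𝔭 : Ideal A₁, 𝔭.IsPrime → 𝔭 ≠ ⊥ → Function.Surjective (algebraMap k (A₁ ⧸ 𝔭)))
    (hST : Algebra.adjoin k (Set.range ρ ∪ Set.range T) = ⊤) (hJ : J.IsHomogeneous 𝒜) (hv : v ≠ 0)
    (unit0 : ∃ n, ∃ x : J, (x : R) ∈ 𝒜 n ∧ Φ (T x) ≠ 0 ∧ (Φ (T x))⁻¹ ∈ A₀)
    (unit1 : ∃ n, ∃ x : J, (x : R) ∈ 𝒜 n ∧ Φ (T x) ≠ 0 ∧ (v * u ^ n * Φ (T x))⁻¹ ∈ A₁)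
    {ι : Type*} (c : ι → (A₀ →ₐ[k] k)) (w : ι → (S →ₐ[k] k))
    (hw : ∀ l s, ∃ h : Φ s ∈ A₀, w l s = c l ⟨Φ s, h⟩)
    (I : Submodule k K) (hI : ∀ a ∈ I, ∃ h : a ∈ A₀, ∀ l, c l ⟨a, h⟩ = 0)
    [Algebra.FiniteType k D] (e : D →ₐ[k] k)
    (hart : ∀ (m : Ideal D) [m.IsMaximal], m = RingHom.ker e →
      ¬ IsArtinianRing (Localization.AtPrime m))
    (Ψ : S →ₐ[k] D ⊗[k] K) (hsec : ∀ n, ∀ r ∈ 𝒜 n, Ψ (ρ r) ∈ InB D (Sec A₀ A₁ u n))
    (hsecT : ∀ n, ∀ x : J, (x : R) ∈ 𝒜 n → Ψ (T x) ∈ InB D (Sec A₀ A₁ (v * u ^ n) 1))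
    (hmark : ∀ s, Ψ s - 1 ⊗ₜ Φ s ∈ InB D I) (he : ∀ s, evT e K (Ψ s) = Φ s)
    (hD : Algebra.adjoin k {d : D | ∃ s, ∃ l : K →ₗ[k] k, lamB D l (Ψ s) = d} = ⊤) :
    ∃ F : S →ₐ[k] LaurentSeries A₀,
      (∀ n, ∀ r ∈ 𝒜 n, ∀ i, (((F (ρ r)).coeff i : A₀) : K) ∈ Sec A₀ A₁ u n) ∧
      (∀ n, ∀ x : J, (x : R) ∈ 𝒜 n → ∀ i,
        (((F (T x)).coeff i : A₀) : K) ∈ Sec A₀ A₁ (v * u ^ n) 1) ∧
      (∀ l s (i : ℤ), c l ((F s).coeff i) = if i = 0 then w l s else 0) ∧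
      (∃ s, F s ∉ Set.range (HahnSeries.ofPowerSeries ℤ A₀)) ∧
      Ideal.span {y | ∃ j : ℕ, 0 < j ∧ ∃ r ∈ 𝒜 j, y = F (ρ r)} = ⊤ ∧
      Ideal.span {y | ∃ j : ℕ, ∃ x : J, (x : R) ∈ 𝒜 j ∧ y = F (T x)} = ⊤ ∧
      Ideal.span {y : LaurentSeries A₁ | ∃ j : ℕ, 0 < j ∧ ∃ r ∈ 𝒜 j,
        ∀ i, ((y.coeff i : A₁) : K) = u ^ j * ((F (ρ r)).coeff i : A₀)} = ⊤ ∧
      Ideal.span {y : LaurentSeries A₁ | ∃ j : ℕ, ∃ x : J, (x : R) ∈ 𝒜 j ∧
        ∀ i, ((y.coeff i : A₁) : K) = v * u ^ j * ((F (T x)).coeff i : A₀)} = ⊤ := by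
  classical
  -- the family on the first chart
  have hsub : ∀ s, Ψ s ∈ subB D A₀ := by
    intro s
    have hs : s ∈ Algebra.adjoin k (Set.range ρ ∪ Set.range T) := by rw [hST]; trivial
    have h : Algebra.adjoin k (Set.range ρ ∪ Set.range T) ≤ (subB D A₀).comap Ψ := by
      refine Algebra.adjoin_le ?_
      rintro _ (⟨r, rfl⟩ | ⟨x, rfl⟩)
      · change Ψ (ρ r) ∈ subB D A₀
        rw [← DirectSum.sum_support_decompose 𝒜 r, map_sum, map_sum]
        refine Subalgebra.sum_mem _ fun n _ => ?_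
        rw [mem_subB]
        exact InB_mono D (fun a ha => (mem_Sec.mp ha).1)
          (hsec n _ (DirectSum.decompose 𝒜 r n).2)
      · change Ψ (T x) ∈ subB D A₀
        have hx : x = ∑ n ∈ (DirectSum.decompose 𝒜 (x : R)).support,
            (⟨DirectSum.decompose 𝒜 (x : R) n, hJ n x.2⟩ : J) := by
          apply Subtype.ext
          rw [AddSubmonoidClass.coe_finsetSum]
          exact (DirectSum.sum_support_decompose 𝒜 (x : R)).symm
        rw [hx, map_sum, map_sum]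
        refine Subalgebra.sum_mem _ fun n _ => ?_
        rw [mem_subB]
        exact InB_mono D (fun a ha => (mem_Sec.mp ha).1)
          (hsecT n _ (DirectSum.decompose 𝒜 (x : R) n).2)
    exact h hs
  obtain ⟨Ψ0, hΨ0⟩ := exists_factor Ψ hsub
  -- certificates
  have h1 : ∀ (z : D ⊗[k] K), z ∈ InB D (Subalgebra.toSubmodule A₁) →
      ∃ y : D ⊗[k] A₁, incB D A₁ y = z := by
    intro z hz
    rw [← mem_subB] at hz
    exact mem_subB_iff.1 hz
  obtain ⟨g, hg, hgm⟩ := pf_cert P1 P2 e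
    (Q := {q : ℕ × R // 0 < q.1 ∧ q.2 ∈ 𝒜 q.1}) (fun q => Ψ (ρ q.1.2)) (fun q => u ^ q.1.1)
    (fun q => ⟨_, hΨ0 _⟩) (fun q => h1 _ (pf_tmul_mem (hsec _ _ q.2.2))) (by
      obtain ⟨n, hn, r, hr, hr0, hrA⟩ := mp.unit0
      refine ⟨⟨(n, r), hn, hr⟩, ?_⟩
      rw [he]
      exact ⟨hr0, hrA⟩) (by
      obtain ⟨n, hn, r, hr, hr0, hrA⟩ := mp.unit1
      refine ⟨⟨(n, r), hn, hr⟩, pow_ne_zero _ mp.u_ne, ?_⟩
      rw [he]
      exact ⟨hr0, hrA⟩)
  obtain ⟨g', hg', hgm'⟩ := pf_cert P1 P2 e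
    (Q := {q : ℕ × J // (q.2 : R) ∈ 𝒜 q.1}) (fun q => Ψ (T q.1.2)) (fun q => v * u ^ q.1.1)
    (fun q => ⟨_, hΨ0 _⟩) (fun q => h1 _ (by
      have := pf_tmul_mem (hsecT _ _ q.2)
      rwa [pow_one] at this)) (by
      obtain ⟨n, x, hx, hx0, hxA⟩ := unit0
      refine ⟨⟨(n, x), hx⟩, ?_⟩
      rw [he]
      exact ⟨hx0, hxA⟩) (by
      obtain ⟨n, x, hx, hx0, hxA⟩ := unit1
      refine ⟨⟨(n, x), hx⟩, mul_ne_zero hv (pow_ne_zero _ mp.u_ne), ?_⟩
      rw [he]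
      exact ⟨hx0, hxA⟩)
  have P1' : ∀ V : ValuationSubring K, (∀ c : k, algebraMap k K c ∈ V) →
      (∀ a ∈ A₁, a ∈ V) ∨ (∀ a ∈ A₀, a ∈ V) := fun V hV => (P1 V hV).symm
  have hinv : ∀ (t : K), t ≠ 0 → ∀ z : D ⊗[k] K, (1 ⊗ₜ t⁻¹) * ((1 ⊗ₜ t) * z) = z := by
    intro t ht z
    rw [← mul_assoc, Algebra.TensorProduct.tmul_mul_tmul, one_mul, inv_mul_cancel₀ ht,
      ← Algebra.TensorProduct.one_def, one_mul]
  have hevT : ∀ (t : K) (s : S), evT e K ((1 ⊗ₜ t) * Ψ s) = t * Φ s := by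
    intro t s
    rw [map_mul, evT_tmul, he, map_one, map_one, one_mul]
  obtain ⟨g₁, hg₁, hgm₁⟩ := pf_cert P1' P3 e
    (Q := {q : ℕ × R // 0 < q.1 ∧ q.2 ∈ 𝒜 q.1}) (fun q => (1 ⊗ₜ (u ^ q.1.1)) * Ψ (ρ q.1.2))
    (fun q => (u ^ q.1.1)⁻¹) (fun q => h1 _ (pf_tmul_mem (hsec _ _ q.2.2)))
    (fun q => ⟨_, (hΨ0 _).trans (hinv _ (pow_ne_zero _ mp.u_ne) _).symm⟩) (by
      obtain ⟨n, hn, r, hr, hr0, hrA⟩ := mp.unit1
      refine ⟨⟨(n, r), hn, hr⟩, ?_⟩
      rw [hevT]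
      exact ⟨mul_ne_zero (pow_ne_zero _ mp.u_ne) hr0, hrA⟩) (by
      obtain ⟨n, hn, r, hr, hr0, hrA⟩ := mp.unit0
      refine ⟨⟨(n, r), hn, hr⟩, inv_ne_zero (pow_ne_zero _ mp.u_ne), ?_⟩
      rw [hevT, inv_mul_cancel_left₀ (pow_ne_zero _ mp.u_ne)]
      exact ⟨mul_ne_zero (pow_ne_zero _ mp.u_ne) hr0, hrA⟩)
  obtain ⟨g₁', hg₁', hgm₁'⟩ := pf_cert P1' P3 e
    (Q := {q : ℕ × J // (q.2 : R) ∈ 𝒜 q.1}) (fun q => (1 ⊗ₜ (v * u ^ q.1.1)) * Ψ (T q.1.2))
    (fun q => (v * u ^ q.1.1)⁻¹) (fun q => h1 _ (by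
      have := pf_tmul_mem (hsecT _ _ q.2)
      rwa [pow_one] at this))
    (fun q => ⟨_, (hΨ0 _).trans (hinv _ (mul_ne_zero hv (pow_ne_zero _ mp.u_ne)) _).symm⟩) (by
      obtain ⟨n, x, hx, hx0, hxA⟩ := unit1
      refine ⟨⟨(n, x), hx⟩, ?_⟩
      rw [hevT]
      exact ⟨mul_ne_zero (mul_ne_zero hv (pow_ne_zero _ mp.u_ne)) hx0, hxA⟩) (by
      obtain ⟨n, x, hx, hx0, hxA⟩ := unit0
      have hvu : v * u ^ n ≠ 0 := mul_ne_zero hv (pow_ne_zero _ mp.u_ne)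
      refine ⟨⟨(n, x), hx⟩, inv_ne_zero hvu, ?_⟩
      rw [hevT, inv_mul_cancel_left₀ hvu]
      exact ⟨mul_ne_zero hvu hx0, hxA⟩)
  -- the Laurent family
  have hsurj_e : Function.Surjective e := fun a => ⟨algebraMap k D a, by
    rw [AlgHom.commutes]; rfl⟩
  have hmax : (RingHom.ker e).IsMaximal := RingHom.ker_isMaximal_of_surjective e hsurj_e
  obtain ⟨f, hfh, hfa⟩ := exists_pole (k := k) (RingHom.ker e) (hart _ rfl)
    (g * g' * (g₁ * g₁')) (by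
    rw [RingHom.mem_ker, map_mul, map_mul, map_mul]
    exact mul_ne_zero (mul_ne_zero hg hg') (mul_ne_zero hg₁ hg₁'))
  rw [map_mul, map_mul, map_mul] at hfh
  have hfg := left_ne_zero_of_mul (left_ne_zero_of_mul hfh)
  have hfg' := right_ne_zero_of_mul (left_ne_zero_of_mul hfh)
  have hfg₁ := left_ne_zero_of_mul (right_ne_zero_of_mul hfh)
  have hfg₁' := right_ne_zero_of_mul (right_ne_zero_of_mul hfh)
  let F : S →ₐ[k] LaurentSeries A₀ := (Lam f A₀).comp Ψ0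
  have hF : ∀ r i, (((F r).coeff i : A₀) : K) = (Lam f K (Ψ r)).coeff i := by
    intro r i
    rw [← hΨ0, Lam_incB]
    rfl
  have hinc : Function.Injective (incB D A₀) := incB_injective A₀
  -- coefficients on the second chart
  have hF1 : ∀ (y : D ⊗[k] A₁) (t : K) (s : S), incB D A₁ y = (1 ⊗ₜ t) * Ψ s →
      ∀ i, (((Lam f A₁ y).coeff i : A₁) : K) = t * ((F s).coeff i : A₀) := by
    intro y t s hy i
    rw [hF, ← Lam_incB, hy, map_mul, Lam_tmul, map_one, map_one, one_mul, C_mul_coeff]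
  refine ⟨F, ?_, ?_, ?_, ?_, ?_, ?_, ?_, ?_⟩
  · intro n r hr i
    rw [hF]
    exact Lam_coeff_mem f (hsec n r hr) i
  · intro n x hx i
    rw [hF]
    exact Lam_coeff_mem f (hsecT n x hx) i
  · intro l r i
    have h1 := Lam_coeff_mem f (hmark r) i
    rw [map_sub, HahnSeries.coeff_sub, ← hF, Lam_coeff_tmul, map_one] at h1
    obtain ⟨h3, h4⟩ := hI _ h1
    obtain ⟨hrA0, hwr⟩ := hw l r
    have h5 : (⟨(((F r).coeff i : A₀) : K) - (1 : LaurentSeries k).coeff i • Φ r, h3⟩ : A₀) =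
        (F r).coeff i - (1 : LaurentSeries k).coeff i • (⟨Φ r, hrA0⟩ : A₀) := rfl
    have h6 := h4 l
    rw [h5, map_sub, map_smul, ← hwr, sub_eq_zero] at h6
    rw [h6]
    by_cases hi : i = 0
    · rw [if_pos hi, hi, HahnSeries.coeff_one, if_pos rfl, one_smul]
    · rw [if_neg hi, HahnSeries.coeff_one, if_neg hi, zero_smul]
  · obtain ⟨r, i, hi, hri⟩ := exists_pole_family f Ψ hD hfa
    refine ⟨r, fun hr => hri ?_⟩
    rw [mem_range_ofPowerSeries] at hr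
    rw [← hF, hr i hi]
    rfl
  · have h1 := Ideal.mem_map_of_mem (Lam f A₀) hgm
    have h3 : IsUnit (Lam f A₀ (g ⊗ₜ 1)) := by
      rw [Lam_tmul, map_one, mul_one]
      exact (IsUnit.mk0 (f g) hfg).map (mapL k A₀)
    have h4 := Ideal.eq_top_of_isUnit_mem _ h1 h3
    rw [eq_top_iff, ← h4, Ideal.map_span, Ideal.span_le]
    rintro _ ⟨y, ⟨q, hq⟩, rfl⟩
    refine Ideal.subset_span ⟨q.1.1, q.2.1, q.1.2, q.2.2, ?_⟩
    have h5 : y = Ψ0 (ρ q.1.2) := hinc (by rw [hq, hΨ0])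
    rw [h5]
    rfl
  · have h1 := Ideal.mem_map_of_mem (Lam f A₀) hgm'
    have h3 : IsUnit (Lam f A₀ (g' ⊗ₜ 1)) := by
      rw [Lam_tmul, map_one, mul_one]
      exact (IsUnit.mk0 (f g') hfg').map (mapL k A₀)
    have h4 := Ideal.eq_top_of_isUnit_mem _ h1 h3
    rw [eq_top_iff, ← h4, Ideal.map_span, Ideal.span_le]
    rintro _ ⟨y, ⟨q, hq⟩, rfl⟩
    refine Ideal.subset_span ⟨q.1.1, q.1.2, q.2, ?_⟩
    have h5 : y = Ψ0 (T q.1.2) := hinc (by rw [hq, hΨ0])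
    rw [h5]
    rfl
  · have h1 := Ideal.mem_map_of_mem (Lam f A₁) hgm₁
    have h3 : IsUnit (Lam f A₁ (g₁ ⊗ₜ 1)) := by
      rw [Lam_tmul, map_one, mul_one]
      exact (IsUnit.mk0 (f g₁) hfg₁).map (mapL k A₁)
    have h4 := Ideal.eq_top_of_isUnit_mem _ h1 h3
    rw [eq_top_iff, ← h4, Ideal.map_span, Ideal.span_le]
    rintro _ ⟨y, ⟨q, hq⟩, rfl⟩
    exact Ideal.subset_span ⟨q.1.1, q.2.1, q.1.2, q.2.2, hF1 y _ _ hq⟩
  · have h1 := Ideal.mem_map_of_mem (Lam f A₁) hgm₁'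
    have h3 : IsUnit (Lam f A₁ (g₁' ⊗ₜ 1)) := by
      rw [Lam_tmul, map_one, mul_one]
      exact (IsUnit.mk0 (f g₁') hfg₁').map (mapL k A₁)
    have h4 := Ideal.eq_top_of_isUnit_mem _ h1 h3
    rw [eq_top_iff, ← h4, Ideal.map_span, Ideal.span_le]
    rintro _ ⟨y, ⟨q, hq⟩, rfl⟩
    exact Ideal.subset_span ⟨q.1.1, q.1.2, q.2, hF1 y _ _ hq⟩

/-- The residue fields of the second chart. -/
theorem pf_P3 [IsAlgClosed k] (cd : IsCD A₀ A₁) (𝔭 : Ideal A₁) (h𝔭 : 𝔭.IsPrime) (h0 : 𝔭 ≠ ⊥) :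
    Function.Surjective (algebraMap k (A₁ ⧸ 𝔭)) := by
  obtain ⟨a, ha, ha0⟩ := Submodule.exists_mem_ne_zero_of_ne_bot h0
  have hfin := cd.finQ (a : K) a.2 (fun h => ha0 (Subtype.ext h))
  let f : ↥(Subalgebra.toSubmodule A₁) →ₗ[k] A₁ ⧸ 𝔭 :=
    { toFun := fun x => Ideal.Quotient.mk 𝔭 ⟨x.1, x.2⟩
      map_add' := fun x y => (Ideal.Quotient.mk 𝔭).map_add ⟨x.1, x.2⟩ ⟨y.1, y.2⟩
      map_smul' := fun c x => by
        have h1 : (⟨(c • x).1, (c • x).2⟩ : A₁) = c • (⟨x.1, x.2⟩ : A₁) := rfl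
        rw [h1]
        rfl }
  have hf : Function.Surjective f := by
    intro y
    obtain ⟨x, rfl⟩ := Ideal.Quotient.mk_surjective y
    exact ⟨⟨x.1, x.2⟩, rfl⟩
  have hle : ((Subalgebra.toSubmodule A₁).map (LinearMap.mulLeft k (a : K))).comap
      (Subalgebra.toSubmodule A₁).subtype ≤ LinearMap.ker f := by
    rintro x ⟨y, hy, hyx⟩
    rw [LinearMap.mem_ker]
    change Ideal.Quotient.mk 𝔭 ⟨x.1, x.2⟩ = 0
    rw [Ideal.Quotient.eq_zero_iff_mem]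
    have h1 : (⟨x.1, x.2⟩ : A₁) = a * ⟨y, hy⟩ := Subtype.ext hyx.symm
    rw [h1]
    exact 𝔭.mul_mem_right _ ha
  have hfd : FiniteDimensional k (A₁ ⧸ 𝔭) :=
    Module.Finite.of_surjective (Submodule.liftQ _ f hle) (by
      intro y
      obtain ⟨x, hx⟩ := hf y
      exact ⟨Submodule.Quotient.mk x, hx⟩)
  have : IsDomain (A₁ ⧸ 𝔭) := Ideal.Quotient.isDomain 𝔭
  have hint : Algebra.IsIntegral k (A₁ ⧸ 𝔭) := Algebra.IsIntegral.of_finite k (A₁ ⧸ 𝔭)
  exact (IsAlgClosed.algebraMap_bijective_of_isIntegral (k := k) (K := A₁ ⧸ 𝔭)).2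

end pf1

end Vale.Agent.P292.Dv
end

section

/-! # Scaling of Laurent families of pairs. -/

namespace Vale.Agent.P292.Dv

open Vale.Agent.P292.Mo Vale.Agent.P292.Mo.Sc Vale.Agent.P292.Mo.Fm

universe u v w x y

section gen

variable {k : Type u} [Field k] {R : Type v} [CommRing R] [Algebra k R] {𝒜 : ℕ → Submodule k R}
  [GradedAlgebra 𝒜] {p : Ideal R}

/-- Finitely many homogeneous generators of a homogeneous ideal, as an induction principle. -/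
theorem exists_genFin [IsNoetherianRing R] (hp : p.IsHomogeneous 𝒜) :
    ∃ s : Finset (ℕ × R), (∀ q ∈ s, q.2 ∈ 𝒜 q.1 ∧ q.2 ∈ p) ∧ ∀ P : ℕ → R → Prop,
      (∀ q ∈ s, P q.1 q.2) → (∀ j, P j 0) →
      (∀ j x y, x ∈ 𝒜 j → x ∈ p → y ∈ 𝒜 j → y ∈ p → P j x → P j y → P j (x + y)) →
      (∀ i j r x, r ∈ 𝒜 i → x ∈ 𝒜 j → x ∈ p → P j x → P (i + j) (r * x)) →
      ∀ j x, x ∈ 𝒜 j → x ∈ p → P j x := by
  classical
  obtain ⟨s, hs⟩ := (isNoetherianRing_iff_ideal_fg R).mp inferInstance p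
  refine ⟨s.biUnion fun g => (DirectSum.decompose 𝒜 g).support.image fun j =>
    (j, (DirectSum.decompose 𝒜 g j : R)), ?_, fun P h1 h0 h2 h3 => ?_⟩
  · intro q hq
    obtain ⟨g, hg, hq⟩ := Finset.mem_biUnion.1 hq
    obtain ⟨j, -, rfl⟩ := Finset.mem_image.1 hq
    exact ⟨SetLike.coe_mem _, mem_of_homog hp (hs ▸ Ideal.subset_span hg) j⟩
  have key : ∀ x, x ∈ Ideal.span (s : Set R) → x ∈ p ∧ ∀ j, P j (DirectSum.decompose 𝒜 x j : R) := by
    intro x hx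
    induction hx using Submodule.span_induction with
    | mem g hg =>
      refine ⟨hs ▸ Ideal.subset_span hg, fun j => ?_⟩
      by_cases hj : j ∈ (DirectSum.decompose 𝒜 g).support
      · exact h1 _ (Finset.mem_biUnion.2 ⟨g, hg, Finset.mem_image.2 ⟨j, hj, rfl⟩⟩)
      · have h4 : DirectSum.decompose 𝒜 g j = 0 := by
          by_contra h
          exact hj (DFinsupp.mem_support_iff.2 h)
        rw [h4]
        exact h0 j
    | zero =>
      refine ⟨zero_mem _, fun j => ?_⟩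
      rw [DirectSum.decompose_zero]
      exact h0 j
    | add x y _ _ hx hy =>
      refine ⟨add_mem hx.1 hy.1, fun j => ?_⟩
      rw [DirectSum.decompose_add, DirectSum.add_apply, Submodule.coe_add]
      exact h2 j _ _ (SetLike.coe_mem _) (mem_of_homog hp hx.1 j) (SetLike.coe_mem _)
        (mem_of_homog hp hy.1 j) (hx.2 j) (hy.2 j)
    | smul r x _ hx =>
      refine ⟨p.mul_mem_left _ hx.1, fun j => ?_⟩
      rw [smul_eq_mul]
      have h5 : ∀ r : R, r * x ∈ p := fun r => p.mul_mem_left _ hx.1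
      induction r using DirectSum.Decomposition.inductionOn 𝒜 generalizing j with
      | zero => rw [zero_mul, DirectSum.decompose_zero]; exact h0 j
      | @homogeneous i r =>
        rcases Nat.lt_or_ge j i with h | h
        · rw [DirectSum.coe_decompose_mul_of_left_mem_of_not_le 𝒜 r.2 (by omega)]
          exact h0 j
        · rw [DirectSum.coe_decompose_mul_of_left_mem_of_le 𝒜 r.2 h]
          have h6 := h3 i (j - i) _ _ r.2 (SetLike.coe_mem (DirectSum.decompose 𝒜 x (j - i)))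
            (mem_of_homog hp hx.1 _) (hx.2 _)
          rwa [Nat.add_sub_cancel' h] at h6
      | add a b ha hb =>
        rw [add_mul, DirectSum.decompose_add, DirectSum.add_apply, Submodule.coe_add]
        exact h2 j _ _ (SetLike.coe_mem _) (mem_of_homog hp (h5 a) j) (SetLike.coe_mem _)
          (mem_of_homog hp (h5 b) j) (ha j) (hb j)
  intro j x hx hx'
  have h4 := (key x (hs ▸ hx')).2 j
  rwa [DirectSum.decompose_of_mem_same 𝒜 hx] at h4

end gen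

section scale

variable {k : Type u} [Field k] {R : Type v} [CommRing R] [Algebra k R] {𝒜 : ℕ → Submodule k R}
  [GradedAlgebra 𝒜] {p : Ideal R} {B : Type w} [CommRing B] [Algebra k B]

/-- The regular part of a Laurent series. -/
noncomputable def psOf (y : LaurentSeries B) : PowerSeries B := PowerSeries.mk fun n => y.coeff n

theorem ofPS_psOf {y : LaurentSeries B} (hy : ∀ i : ℤ, i < 0 → y.coeff i = 0) :
    ofPS k B (psOf y) = y := by
  ext i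
  rcases lt_or_ge i 0 with hi | hi
  · rw [hy i hi]
    exact ofPS_coeff_neg _ i hi
  · obtain ⟨n, rfl⟩ := Int.eq_ofNat_of_zero_le hi
    exact (ofPS_coeff_nat (k := k) _ n).trans (PowerSeries.coeff_mk _ _)

/-- **Scaling of the second component.** -/
theorem eta_scale [IsNoetherianRing R] (hp : p.IsHomogeneous 𝒜) {F : R →ₐ[k] LaurentSeries B}
    {G : ℕ → R → LaurentSeries B} (hG : IsEta 𝒜 p F G) {c : ℕ} {hc : 0 < c} {μ : ℤ}
    {φ' : R →ₐ[k] PowerSeries B}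
    (hφ' : ∀ n, ∀ r ∈ 𝒜 n, ofPS k B (φ' r) = HahnSeries.single (μ * n) 1 * expand k c hc (F r))
    (hne : ∃ j x, x ∈ 𝒜 j ∧ x ∈ p ∧ G j x ≠ 0) :
    ∃ (a : ℤ) (η' : ℕ → R → PowerSeries B), IsEta 𝒜 p φ' η' ∧
      (∀ n x, x ∈ 𝒜 n → x ∈ p → ofPS k B (η' n x) =
        HahnSeries.single (μ * n + a) 1 * expand k c hc (G n x)) ∧
      ∃ j x, x ∈ 𝒜 j ∧ x ∈ p ∧ PowerSeries.constantCoeff (η' j x) ≠ 0 := by
  classical
  obtain ⟨s, hs, hind⟩ := exists_genFin (k := k) hp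
  have hEz : ∀ y : LaurentSeries B, y ≠ 0 → expand k c hc y ≠ 0 := by
    intro y hy h0
    apply hy
    ext i
    rw [← expand_coeff_mul (k := k) c hc, h0]
    rfl
  -- a generator which is not zero
  have hgen : ∃ q ∈ s, G q.1 q.2 ≠ 0 := by
    by_contra hcon
    push Not at hcon
    obtain ⟨j, x, hx, hx', h⟩ := hne
    apply h
    refine hind (fun j x => G j x = 0) hcon (fun j => hG.zero j) ?_ ?_ j x hx hx'
    · intro j x y hx hx' hy hy' h1 h2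
      rw [hG.add j x y hx hx' hy hy', h1, h2, add_zero]
    · intro i j r x hr hx hx' h1
      rw [hG.mul i j r x hr hx hx', h1, mul_zero]
  obtain ⟨q, hq, hmin⟩ := (s.filter fun q => G q.1 q.2 ≠ 0).exists_min_image
    (fun q => (expand k c hc (G q.1 q.2)).order + μ * q.1) (by
      obtain ⟨q, hq, hq'⟩ := hgen
      exact ⟨q, Finset.mem_filter.mpr ⟨hq, hq'⟩⟩)
  rw [Finset.mem_filter] at hq
  obtain ⟨hqs, hq0⟩ := hq
  set a : ℤ := -((expand k c hc (G q.1 q.2)).order + μ * q.1) with ha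
  have hreg : ∀ n x, x ∈ 𝒜 n → x ∈ p →
      HahnSeries.single (μ * n + a) 1 * expand k c hc (G n x) ∈ (ofPS k B).range := by
    refine hind (fun n x => HahnSeries.single (μ * n + a) 1 * expand k c hc (G n x) ∈
      (ofPS k B).range) ?_ ?_ ?_ ?_
    · intro q' hq'
      by_cases h0 : G q'.1 q'.2 = 0
      · rw [h0, map_zero, mul_zero]; exact zero_mem _
      · have h1 := hmin q' (Finset.mem_filter.mpr ⟨hq', h0⟩)
        rw [mem_range_ofPS]
        intro i hi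
        rw [single_mul_coeff]
        apply HahnSeries.coeff_eq_zero_of_lt_order
        linarith
    · intro j
      rw [hG.zero j, map_zero, mul_zero]; exact zero_mem _
    · intro j x y hx hx' hy hy' h1 h2
      rw [hG.add j x y hx hx' hy hy', map_add, mul_add]
      exact add_mem h1 h2
    · intro i j r x hr hx hx' h1
      have h2 : HahnSeries.single (μ * (i + j : ℕ) + a) (1 : B) * expand k c hc (G (i + j) (r * x)) =
          ofPS k B (φ' r) * (HahnSeries.single (μ * j + a) 1 * expand k c hc (G j x)) := by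
        rw [hG.mul i j r x hr hx hx', map_mul, hφ' i r hr]
        have h3 : HahnSeries.single (μ * (i + j : ℕ) + a) (1 : B) =
            HahnSeries.single (μ * i) 1 * HahnSeries.single (μ * j + a) 1 := by
          have h4 : μ * ((i + j : ℕ) : ℤ) + a = μ * i + (μ * j + a) := by push_cast; ring
          rw [HahnSeries.single_mul_single, one_mul, h4]
        rw [h3]
        exact mul_mul_mul_comm _ _ _ _
      rw [h2]
      exact (ofPS k B).range.mul_mem ⟨_, rfl⟩ h1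
  let η' : ℕ → R → PowerSeries B := fun n x =>
    psOf (HahnSeries.single (μ * n + a) 1 * expand k c hc (G n x))
  have hη' : ∀ n x, x ∈ 𝒜 n → x ∈ p → ofPS k B (η' n x) =
      HahnSeries.single (μ * n + a) 1 * expand k c hc (G n x) := fun n x hx hx' =>
    ofPS_psOf ((mem_range_ofPS (k := k)).1 (hreg n x hx hx'))
  have hinj : Function.Injective (ofPS k B) := ofPS_injective
  refine ⟨a, η', ⟨?_, ?_⟩, hη', q.1, q.2, (hs q hqs).1, (hs q hqs).2, ?_⟩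
  · intro j x y hx hx' hy hy'
    apply hinj
    rw [map_add, hη' j _ (add_mem hx hy) (p.add_mem hx' hy'), hη' j x hx hx', hη' j y hy hy',
      hG.add j x y hx hx' hy hy', map_add, mul_add]
  · intro i j r x hr hx hx'
    apply hinj
    rw [map_mul, hη' _ _ (SetLike.mul_mem_graded hr hx) (p.mul_mem_left _ hx'), hη' j x hx hx',
      hG.mul i j r x hr hx hx', map_mul, hφ' i r hr]
    have h3 : HahnSeries.single (μ * (i + j : ℕ) + a) (1 : B) =
        HahnSeries.single (μ * i) 1 * HahnSeries.single (μ * j + a) 1 := by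
      have h4 : μ * ((i + j : ℕ) : ℤ) + a = μ * i + (μ * j + a) := by push_cast; ring
      rw [HahnSeries.single_mul_single, one_mul, h4]
    rw [h3]
    exact mul_mul_mul_comm _ _ _ _
  · have h1 : PowerSeries.constantCoeff (η' q.1 q.2) =
        (expand k c hc (G q.1 q.2)).coeff ((expand k c hc (G q.1 q.2)).order) := by
      rw [← PowerSeries.coeff_zero_eq_constantCoeff_apply, ← ofPS_coeff_nat (k := k),
        hη' _ _ (hs q hqs).1 (hs q hqs).2, single_mul_coeff]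
      congr 1
      rw [ha]
      push_cast
      ring
    rw [h1]
    exact HahnSeries.coeff_order_eq_zero.not.mpr (hEz _ hq0)

omit [GradedAlgebra 𝒜] in
/-- The ideal of the second component contains a power of the parameter. -/
theorem eta_pow_mem {G : ℕ → R → LaurentSeries B} {c : ℕ} {hc : 0 < c} {μ a : ℤ}
    {η' : ℕ → R → PowerSeries B}
    (h : ∀ n x, x ∈ 𝒜 n → x ∈ p → ofPS k B (η' n x) =
        HahnSeries.single (μ * n + a) 1 * expand k c hc (G n x))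
    (hb : Ideal.span {y | ∃ j : ℕ, ∃ x ∈ 𝒜 j, x ∈ p ∧ y = G j x} = ⊤) :
    ∃ L : ℕ, (PowerSeries.X : PowerSeries B) ^ L ∈
      Ideal.span {y | ∃ j : ℕ, ∃ x ∈ 𝒜 j, x ∈ p ∧ y = η' j x} := by
  have h1 : (1 : LaurentSeries B) ∈
      (Ideal.span {y | ∃ j : ℕ, ∃ x ∈ 𝒜 j, x ∈ p ∧ y = η' j x}).map
        (algebraMap (PowerSeries B) (LaurentSeries B)) := by
    have h2 : (1 : LaurentSeries B) ∈ (Ideal.span {y | ∃ j : ℕ, ∃ x ∈ 𝒜 j, x ∈ p ∧ y = G j x}).map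
        (expand k c hc).toRingHom := by
      rw [hb, Ideal.map_top]
      trivial
    have h3 : (Ideal.span {y | ∃ j : ℕ, ∃ x ∈ 𝒜 j, x ∈ p ∧ y = G j x}).map
        (expand k c hc).toRingHom ≤
        (Ideal.span {y | ∃ j : ℕ, ∃ x ∈ 𝒜 j, x ∈ p ∧ y = η' j x}).map
        (algebraMap (PowerSeries B) (LaurentSeries B)) := by
      rw [Ideal.map_span, Ideal.span_le]
      rintro _ ⟨_, ⟨j, x, hx, hx', rfl⟩, rfl⟩
      have h5 : (expand k c hc).toRingHom (G j x) =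
          HahnSeries.single (-(μ * j + a)) (1 : B) * ofPS k B (η' j x) := by
        rw [h j x hx hx', ← mul_assoc, HahnSeries.single_mul_single, neg_add_cancel, mul_one]
        exact (one_mul _).symm
      rw [SetLike.mem_coe, h5]
      refine Ideal.mul_mem_left _ _ ?_
      exact Ideal.mem_map_of_mem (algebraMap (PowerSeries B) (LaurentSeries B))
        (Ideal.subset_span ⟨j, x, hx, hx', rfl⟩)
    exact h3 h2
  rw [IsLocalization.mem_map_algebraMap_iff (Submonoid.powers (PowerSeries.X : PowerSeries B))]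
    at h1
  obtain ⟨⟨y, ⟨_, L, rfl⟩⟩, hy⟩ := h1
  refine ⟨L, ?_⟩
  rw [one_mul] at hy
  have h7 : (PowerSeries.X : PowerSeries B) ^ L = y :=
    HahnSeries.ofPowerSeries_injective hy
  rw [h7]
  exact y.2

omit [GradedAlgebra 𝒜] in
/-- Values of the second component at a mark. -/
theorem eta_mark {C : Type*} [CommRing C] [Algebra k C] {G : ℕ → R → LaurentSeries B} {c : ℕ}
    {hc : 0 < c} {μ a : ℤ} {η' : ℕ → R → PowerSeries B}
    (h : ∀ n x, x ∈ 𝒜 n → x ∈ p → ofPS k B (η' n x) =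
        HahnSeries.single (μ * n + a) 1 * expand k c hc (G n x))
    (m : B →ₐ[k] C) (w : ℕ → R → C)
    (hmark : ∀ n x, x ∈ 𝒜 n → x ∈ p → ∀ i : ℤ, m ((G n x).coeff i) = if i = 0 then w n x else 0)
    {n : ℕ} {x : R} (hx : x ∈ 𝒜 n) (hx' : x ∈ p) (j : ℕ) :
    m (PowerSeries.coeff j (η' n x)) = if (j : ℤ) = μ * n + a then w n x else 0 := by
  rw [← ofPS_coeff_nat (k := k), h n x hx hx', single_mul_coeff]
  by_cases hdv : (c : ℤ) ∣ (j - (μ * n + a) : ℤ)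
  · obtain ⟨i, hi⟩ := hdv
    rw [hi, expand_coeff_mul, hmark n x hx hx']
    by_cases hi0 : i = 0
    · rw [if_pos hi0, if_pos]
      rw [hi0, mul_zero, sub_eq_zero] at hi
      exact hi
    · rw [if_neg hi0, if_neg]
      intro h3
      rw [h3, sub_self] at hi
      rcases mul_eq_zero.mp hi.symm with h4 | h4
      · have : c = 0 := by exact_mod_cast h4
        omega
      · exact hi0 h4
  · rw [expand_coeff_of_not_dvd _ _ _ _ hdv, map_zero, if_neg]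
    intro h3
    apply hdv
    rw [h3, sub_self]
    exact dvd_zero _

end scale

end Vale.Agent.P292.Dv
end

section

/-! # From a family of pairs to a degenerating family over the power series. -/

namespace Vale.Agent.P292.Dv

open TensorProduct
open Vale.Agent.P292.Mo Vale.Agent.P292.Mo.Sc Vale.Agent.P292.Mo.Fm

universe u v w x y

section total

variable {k : Type u} [Field k] {R : Type v} [CommRing R] [Algebra k R] {𝒜 : ℕ → Submodule k R}
  [GradedAlgebra 𝒜] {p : Ideal R}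

/-- From homogeneous elements to a linear map. -/
theorem eta_total (hp : p.IsHomogeneous 𝒜) {S : Type w} [CommRing S] [Algebra k S]
    {φ : R →ₐ[k] S} {η : ℕ → R → S} (h : IsEta 𝒜 p φ η) :
    ∃ H : p →ₗ[k] S, (∀ (r : R) (x : p), H (r • x) = φ r * H x) ∧
      ∀ j, ∀ x : p, (x : R) ∈ 𝒜 j → H x = η j x := by
  classical
  obtain ⟨T, hT⟩ := exists_total (𝒜 := 𝒜) (p := p) η h.add (fun j c x hx hx' => h.smul c hx hx')
  have h1 : ∀ j, ∀ x ∈ 𝒜 j, x ∈ p → ∀ r, T (r * x) = φ r * T x := by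
    intro j x hxj hx r
    induction r using DirectSum.Decomposition.inductionOn 𝒜 with
    | zero => rw [zero_mul, map_zero, map_zero, zero_mul]
    | @homogeneous i r =>
      rw [hT (i + j) _ (SetLike.mul_mem_graded r.2 hxj) (p.mul_mem_left _ hx),
        h.mul i j _ x r.2 hxj hx, hT j x hxj hx]
    | add a b ha hb => rw [add_mul, map_add, ha, hb, map_add, add_mul]
  have key : ∀ x ∈ p, ∀ r, T (r * x) = φ r * T x := by
    intro x hx r
    have hx' := DirectSum.sum_support_decompose 𝒜 x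
    rw [← hx', Finset.mul_sum, map_sum, map_sum, Finset.mul_sum]
    refine Finset.sum_congr rfl fun j _ => ?_
    exact h1 j _ (DirectSum.decompose 𝒜 x j).2 (mem_of_homog hp hx j) r
  refine ⟨{ toFun := fun x => T x
            map_add' := fun x y => by
              rw [Submodule.coe_add, map_add]
            map_smul' := fun c x => by
              rw [RingHom.id_apply, Submodule.coe_smul_of_tower, map_smul] }, ?_, ?_⟩
  · intro r x
    exact key x x.2 r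
  · intro j x hx
    exact hT j x hx x.2

omit [GradedAlgebra 𝒜] in
/-- From a linear map on the Rees algebra to homogeneous elements. -/
theorem exists_etaG {J : Ideal R} {S : Type y} [CommRing S] [Algebra k S] {ρ : R →ₐ[k] S}
    {T : J →ₗ[k] S} (hT : ∀ (r : R) (x : J), T (r • x) = ρ r * T x) {S' : Type w} [CommRing S']
    [Algebra k S'] (F : S →ₐ[k] S') :
    ∃ G : ℕ → R → S', IsEta 𝒜 J (F.comp ρ) G ∧ ∀ j (x : J), G j x = F (T x) := by
  classical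
  refine ⟨fun _ x => if h : x ∈ J then F (T ⟨x, h⟩) else 0, ⟨?_, ?_⟩, ?_⟩
  · intro j x y _ hx _ hy
    rw [dif_pos (J.add_mem hx hy), dif_pos hx, dif_pos hy, ← map_add, ← map_add]
    rfl
  · intro i j r x _ _ hx
    rw [dif_pos (J.mul_mem_left _ hx), dif_pos hx]
    have h1 : (⟨r * x, J.mul_mem_left _ hx⟩ : J) = r • (⟨x, hx⟩ : J) := rfl
    rw [h1, hT, map_mul]
    rfl
  · intro j x
    simp only []
    rw [dif_pos x.2]

end total

section pow

variable {k : Type u} [Field k] {B : Type w} [CommRing B] [Algebra k B]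

theorem pf_pow_mem {c : ℕ} {hc : 0 < c} {U : Set (LaurentSeries B)} {U' : Set (PowerSeries B)}
    (h : ∀ y ∈ U, ∃ y' ∈ U', ∃ a : ℤ, ofPS k B y' =
      HahnSeries.single a 1 * expand k c hc y) (hb : Ideal.span U = ⊤) :
    ∃ L : ℕ, (PowerSeries.X : PowerSeries B) ^ L ∈ Ideal.span U' := by
  have h1 : (1 : LaurentSeries B) ∈
      (Ideal.span U').map (algebraMap (PowerSeries B) (LaurentSeries B)) := by
    have h2 : (1 : LaurentSeries B) ∈ (Ideal.span U).map (expand k c hc).toRingHom := by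
      rw [hb, Ideal.map_top]
      trivial
    have h3 : (Ideal.span U).map (expand k c hc).toRingHom ≤
        (Ideal.span U').map (algebraMap (PowerSeries B) (LaurentSeries B)) := by
      rw [Ideal.map_span, Ideal.span_le]
      rintro _ ⟨y, hy, rfl⟩
      obtain ⟨y', hy', a, ha⟩ := h y hy
      have h5 : (expand k c hc).toRingHom y = HahnSeries.single (-a) (1 : B) * ofPS k B y' := by
        rw [ha, ← mul_assoc, HahnSeries.single_mul_single, neg_add_cancel, mul_one]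
        exact (one_mul _).symm
      rw [SetLike.mem_coe, h5]
      refine Ideal.mul_mem_left _ _ ?_
      exact Ideal.mem_map_of_mem (algebraMap (PowerSeries B) (LaurentSeries B))
        (Ideal.subset_span hy')
    exact h3 h2
  rw [IsLocalization.mem_map_algebraMap_iff (Submonoid.powers (PowerSeries.X : PowerSeries B))]
    at h1
  obtain ⟨⟨y, ⟨_, L, rfl⟩⟩, hy⟩ := h1
  refine ⟨L, ?_⟩
  rw [one_mul] at hy
  have h7 : (PowerSeries.X : PowerSeries B) ^ L = y :=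
    HahnSeries.ofPowerSeries_injective hy
  rw [h7]
  exact y.2

variable {K : Type w} [Field K] [Algebra k K] {A₀ A₁ : Subalgebra k K}

theorem pf_coeff_eq {c : ℕ} {hc : 0 < c} {y : LaurentSeries A₁} {z : LaurentSeries A₀} {t : K}
    (h : ∀ i, ((y.coeff i : A₁) : K) = t * (z.coeff i : A₀)) (a i : ℤ) :
    (((HahnSeries.single a 1 * expand k c hc y).coeff i : A₁) : K) =
      t * (((HahnSeries.single a 1 * expand k c hc z).coeff i : A₀) : K) := by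
  rw [single_mul_coeff, single_mul_coeff]
  by_cases hdv : (c : ℤ) ∣ (i - a)
  · obtain ⟨j, hj⟩ := hdv
    rw [hj, expand_coeff_mul, expand_coeff_mul, h]
  · rw [expand_coeff_of_not_dvd _ _ _ _ hdv, expand_coeff_of_not_dvd _ _ _ _ hdv]
    simp

/-- Transfer to the second chart. -/
theorem pf_second {c : ℕ} {hc : 0 < c} {y : LaurentSeries A₁} {z : LaurentSeries A₀} {t : K}
    (h : ∀ i, ((y.coeff i : A₁) : K) = t * (z.coeff i : A₀)) {a : ℤ} {z' : PowerSeries A₀}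
    (hz' : ofPS k A₀ z' = HahnSeries.single a 1 * expand k c hc z) :
    ∃ y' : PowerSeries A₁, (∀ i, ((PowerSeries.coeff i y' : A₁) : K) =
      t * (PowerSeries.coeff i z' : A₀)) ∧
      ofPS k A₁ y' = HahnSeries.single a 1 * expand k c hc y := by
  have h1 := pf_coeff_eq (c := c) (hc := hc) h a
  have h2 : ∀ i : ℤ, i < 0 → (HahnSeries.single a 1 * expand k c hc y).coeff i = 0 := by
    intro i hi
    apply Subtype.ext
    rw [h1, ← hz', ofPS_coeff_neg _ i hi]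
    simp
  refine ⟨psOf (HahnSeries.single a 1 * expand k c hc y), fun i => ?_, ofPS_psOf h2⟩
  rw [psOf, PowerSeries.coeff_mk, h1, ← hz', ofPS_coeff_nat]

theorem pf_coeff_mem {M : Submodule k K} {c : ℕ} {hc : 0 < c} {z : LaurentSeries A₀}
    (h : ∀ i, ((z.coeff i : A₀) : K) ∈ M) {a : ℤ} {z' : PowerSeries A₀}
    (hz' : ofPS k A₀ z' = HahnSeries.single a 1 * expand k c hc z) (i : ℕ) :
    ((PowerSeries.coeff i z' : A₀) : K) ∈ M := by
  rw [← ofPS_coeff_nat (k := k), hz', single_mul_coeff]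
  by_cases hdv : (c : ℤ) ∣ (i - a : ℤ)
  · obtain ⟨j, hj⟩ := hdv
    rw [hj, expand_coeff_mul]
    exact h j
  · rw [expand_coeff_of_not_dvd _ _ _ _ hdv]
    exact zero_mem _

end pow

section pole

variable {k : Type u} [Field k] {R : Type v} [CommRing R] [Algebra k R] {𝒜 : ℕ → Submodule k R}
  [GradedAlgebra 𝒜] {J : Ideal R} {S : Type y} [CommRing S] [Algebra k S] {ρ : R →ₐ[k] S}
  {T : J →ₗ[k] S} {B : Type w} [CommRing B] [Algebra k B]

/-- The first component has a pole. -/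
theorem pf_pole [IsNoetherianRing R] (hJ : J.IsHomogeneous 𝒜)
    (hT : ∀ (r : R) (x : J), T (r • x) = ρ r * T x)
    (hST : Algebra.adjoin k (Set.range ρ ∪ Set.range T) = ⊤) (F : S →ₐ[k] LaurentSeries B)
    (c₀ : B →ₐ[k] k) (w : S →ₐ[k] k)
    (hmark : ∀ s (i : ℤ), c₀ ((F s).coeff i) = if i = 0 then w s else 0)
    (ex : B →ₐ[k] PowerSeries k) (hexinj : Function.Injective ex)
    (hexc : ∀ x, PowerSeries.constantCoeff (ex x) = c₀ x)
    (hpole : ∃ s, F s ∉ Set.range (HahnSeries.ofPowerSeries ℤ B))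
    (hb : Ideal.span {y | ∃ j : ℕ, ∃ x : J, (x : R) ∈ 𝒜 j ∧ y = F (T x)} = ⊤)
    {i j : ℕ} {a : J} {b : R} (ha : (a : R) ∈ 𝒜 i) (hbj : b ∈ 𝒜 j)
    (hab : ∀ x ∈ J, ∃ r, b * x = r * a) (hwb : w (ρ b) ≠ 0) :
    ∃ r, F (ρ r) ∉ Set.range (HahnSeries.ofPowerSeries ℤ B) := by
  classical
  by_contra hcon
  push Not at hcon
  obtain ⟨G, hG, hGT⟩ := exists_etaG (𝒜 := 𝒜) hT F
  have hB0 : (1 : B) ≠ 0 := by
    intro h
    have h1 := hexc 1
    rw [h, map_zero, map_zero, map_zero] at h1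
    have h2 := hexinj (a₁ := 1) (a₂ := 0) (by rw [h])
    have h3 : c₀ 1 = 1 := map_one c₀
    rw [h, map_zero] at h3
    exact zero_ne_one h3
  obtain ⟨φ', hφ'⟩ := exists_lift (k := k) (F.comp ρ) hcon
  have hex1 : ∀ y : LaurentSeries B, expand k 1 one_pos y = y := by
    intro y
    ext i
    have := expand_coeff_mul (k := k) 1 one_pos y i
    rwa [Nat.cast_one, one_mul] at this
  have hφ'' : ∀ n, ∀ r ∈ 𝒜 n, ofPS k B (φ' r) =
      HahnSeries.single ((0 : ℤ) * n) 1 * expand k 1 one_pos ((F.comp ρ) r) := by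
    intro n r _
    rw [hφ', hex1, zero_mul]
    exact (one_mul _).symm
  -- a homogeneous element with a pole
  have hp1 : ∃ n, ∃ x : J, (x : R) ∈ 𝒜 n ∧ F (T x) ∉ (ofPS k B).range := by
    by_contra hc
    push Not at hc
    obtain ⟨s, hs⟩ := hpole
    apply hs
    have h1 : Algebra.adjoin k (Set.range ρ ∪ Set.range T) ≤ (ofPS k B).range.comap F := by
      refine Algebra.adjoin_le ?_
      rintro _ (⟨r, rfl⟩ | ⟨x, rfl⟩)
      · exact hcon r
      · change F (T x) ∈ (ofPS k B).range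
        have hx : x = ∑ n ∈ (DirectSum.decompose 𝒜 (x : R)).support,
            (⟨DirectSum.decompose 𝒜 (x : R) n, hJ n x.2⟩ : J) := by
          apply Subtype.ext
          rw [AddSubmonoidClass.coe_finsetSum]
          exact (DirectSum.sum_support_decompose 𝒜 (x : R)).symm
        rw [hx, map_sum, map_sum]
        exact Subalgebra.sum_mem _ fun n _ =>
          hc n _ (DirectSum.decompose 𝒜 (x : R) n).2
    have h2 : s ∈ Algebra.adjoin k (Set.range ρ ∪ Set.range T) := by rw [hST]; trivial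
    exact h1 h2
  obtain ⟨n₀, x₀, hx₀, hx₀'⟩ := hp1
  obtain ⟨α, η, hη, hηG, j₁, x₁, hx₁, hx₁', hne₁⟩ := eta_scale hJ hG hφ'' ⟨n₀, x₀, hx₀, x₀.2, by
    rw [hGT]
    intro h0
    exact hx₀' (by rw [h0]; exact zero_mem _)⟩
  have hα : 0 < α := by
    by_contra hα
    push Not at hα
    apply hx₀'
    have h1 := hηG n₀ x₀ hx₀ x₀.2
    rw [hGT, hex1, zero_mul, zero_add] at h1
    rw [mem_range_ofPS]
    intro l hl
    have h2 : (ofPS k B (η n₀ x₀)).coeff (l + α) = 0 := ofPS_coeff_neg _ _ (by omega)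
    rw [h1, single_mul_coeff, add_sub_cancel_right] at h2
    exact h2
  -- values at the mark
  have hm : ∀ n x, x ∈ 𝒜 n → x ∈ J → c₀ (PowerSeries.constantCoeff (η n x)) = 0 := by
    intro n x hx hx'
    have h1 := eta_mark (w := fun _ x => if h : x ∈ J then w (T ⟨x, h⟩) else 0) hηG c₀ (by
      intro n x hx hx' l
      have h2 := hGT n ⟨x, hx'⟩
      rw [h2, hmark, dif_pos hx']) hx hx' 0
    rw [PowerSeries.coeff_zero_eq_constantCoeff_apply, if_neg] at h1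
    · exact h1
    · push_cast
      omega
  obtain ⟨L, hL⟩ := eta_pow_mem hηG (by
    rw [← hb]
    congr 1
    ext y
    constructor
    · rintro ⟨j, x, hx, hx', rfl⟩
      exact ⟨j, ⟨x, hx'⟩, hx, hGT j ⟨x, hx'⟩⟩
    · rintro ⟨j, x, hx, rfl⟩
      exact ⟨j, x, hx, x.2, (hGT j x).symm⟩)
  -- the expansion
  let E : PowerSeries B →ₐ[k] PowerSeries (PowerSeries k) := PowerSeries.mapAlgHom ex
  have hEc : ∀ y l, PowerSeries.coeff l (E y) = ex (PowerSeries.coeff l y) := fun y l => by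
    change PowerSeries.coeff l (PowerSeries.map (ex : B →+* PowerSeries k) y) = _
    rw [PowerSeries.coeff_map]
    rfl
  have hEcc : ∀ y, PowerSeries.constantCoeff (E y) = ex (PowerSeries.constantCoeff y) := fun y => by
    rw [← PowerSeries.coeff_zero_eq_constantCoeff_apply, hEc,
      PowerSeries.coeff_zero_eq_constantCoeff_apply]
  have hunit : IsUnit (E (φ' b)) := by
    rw [PowerSeries.isUnit_iff_constantCoeff, hEcc, PowerSeries.isUnit_iff_constantCoeff, hexc,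
      isUnit_iff_ne_zero]
    have h1 := hmark (ρ b) 0
    rw [if_pos rfl] at h1
    have h2 : (F (ρ b)).coeff ((0 : ℕ) : ℤ) = PowerSeries.coeff 0 (φ' b) := by
      have h3 := hφ' b
      rw [AlgHom.comp_apply] at h3
      rw [← h3, ofPS_coeff_nat]
    rw [Nat.cast_zero] at h2
    rw [h2, PowerSeries.coeff_zero_eq_constantCoeff_apply] at h1
    rw [h1]
    exact hwb
  set g := E (η i a) with hg
  have hdvd : ∀ n x, x ∈ 𝒜 n → x ∈ J → g ∣ E (η n x) := by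
    intro n x hx hx'
    have h1 : E (η (j + n) (b * x)) = E (φ' b) * E (η n x) := by
      rw [hη.mul j n b x hbj hx hx', map_mul]
    rw [← hunit.dvd_mul_left, ← h1]
    obtain ⟨r, hr⟩ := hab x hx'
    have h2 : b * x = (DirectSum.decompose 𝒜 (r * a) (j + n) : R) := by
      rw [← hr, DirectSum.decompose_of_mem_same 𝒜 (SetLike.mul_mem_graded hbj hx)]
    rw [h2]
    rcases Nat.lt_or_ge (j + n) i with h3 | h3
    · rw [DirectSum.coe_decompose_mul_of_right_mem_of_not_le 𝒜 ha (by omega), hη.zero, map_zero]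
      exact dvd_zero _
    · rw [DirectSum.coe_decompose_mul_of_right_mem_of_le 𝒜 ha h3]
      have h4 := hη.mul (j + n - i) i _ a (DirectSum.decompose 𝒜 r (j + n - i)).2 ha a.2
      rw [Nat.sub_add_cancel h3] at h4
      rw [h4, map_mul]
      exact dvd_mul_left _ _
  have hgX : g ∣ PowerSeries.X ^ L := by
    have h1 := Ideal.mem_map_of_mem E.toRingHom hL
    have h2 : (Ideal.span {y | ∃ j : ℕ, ∃ x ∈ 𝒜 j, x ∈ J ∧ y = η j x}).map E.toRingHom ≤
        Ideal.span {g} := by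
      rw [Ideal.map_span, Ideal.span_le]
      rintro _ ⟨_, ⟨n, x, hx, hx', rfl⟩, rfl⟩
      rw [SetLike.mem_coe, Ideal.mem_span_singleton]
      exact hdvd n x hx hx'
    have h3 := h2 h1
    rw [Ideal.mem_span_singleton] at h3
    have h4 : E.toRingHom (PowerSeries.X ^ L) = PowerSeries.X ^ L := by
      rw [map_pow]
      congr 1
      change PowerSeries.map (ex : B →+* PowerSeries k) PowerSeries.X = _
      rw [PowerSeries.map_X]
    rwa [h4] at h3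
  obtain ⟨m, -, hm'⟩ := (dvd_prime_pow PowerSeries.X_prime L).1 hgX
  rcases Nat.eq_zero_or_pos m with h0 | h0
  · rw [h0, pow_zero, associated_one_iff_isUnit] at hm'
    rw [PowerSeries.isUnit_iff_constantCoeff, hEcc, PowerSeries.isUnit_iff_constantCoeff, hexc,
      hm i a ha a.2] at hm'
    exact not_isUnit_zero hm'
  · apply hne₁
    apply hexinj
    rw [map_zero, ← hEcc]
    have h1 : PowerSeries.X ∣ E (η j₁ x₁) :=
      ((dvd_pow_self _ h0.ne').trans hm'.symm.dvd).trans (hdvd j₁ x₁ hx₁ hx₁')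
    rwa [PowerSeries.X_dvd_iff] at h1

end pole

section rees

variable {k : Type u} [Field k] {R : Type v} [CommRing R] [Algebra k R] {𝒜 : ℕ → Submodule k R}

/-- The inclusion of the degree zero part of the Rees algebra. -/
noncomputable def rrho (k : Type u) [Field k] {R : Type v} [CommRing R] [Algebra k R]
    (J : Ideal R) : R →ₐ[k] reesAlgebra J :=
  { algebraMap R (reesAlgebra J) with
    commutes' := fun _ => rfl }

/-- The linear map of degree one elements. -/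
noncomputable def rTL (k : Type u) [Field k] {R : Type v} [CommRing R] [Algebra k R]
    (J : Ideal R) : J →ₗ[k] reesAlgebra J where
  toFun := rT J
  map_add' x y := Subtype.ext (by
    change Polynomial.monomial 1 ((x + y : J) : R) = Polynomial.monomial 1 (x : R) +
      Polynomial.monomial 1 (y : R)
    rw [Submodule.coe_add, map_add])
  map_smul' c x := Subtype.ext (by
    change Polynomial.monomial 1 ((c • x : J) : R) = c • Polynomial.monomial 1 (x : R)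
    rw [Submodule.coe_smul_of_tower, Polynomial.smul_monomial])

theorem rTL_smul (J : Ideal R) (r : R) (x : J) : rTL k J (r • x) = rrho k J r * rTL k J x :=
  Subtype.ext (by
    change Polynomial.monomial 1 ((r • x : J) : R) = Polynomial.C r * Polynomial.monomial 1 (x : R)
    rw [Polynomial.C_mul_monomial]
    rfl)

theorem adjoin_rees (J : Ideal R) :
    Algebra.adjoin k (Set.range (rrho k J) ∪ Set.range (rTL k J)) = ⊤ := by
  rw [eq_top_iff]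
  rintro ⟨f, hf⟩ -
  have key : ∀ f ∈ Algebra.adjoin R (Submodule.map (Polynomial.monomial 1 : R →ₗ[R] Polynomial R)
      J : Set (Polynomial R)), ∃ h : f ∈ reesAlgebra J, (⟨f, h⟩ : reesAlgebra J) ∈
      Algebra.adjoin k (Set.range (rrho k J) ∪ Set.range (rTL k J)) := by
    intro f hf
    induction hf using Algebra.adjoin_induction with
    | mem x hx =>
      obtain ⟨r, hr, rfl⟩ := hx
      exact ⟨by
        rw [reesAlgebra.monomial_mem, pow_one]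
        exact hr, Algebra.subset_adjoin (Or.inr ⟨⟨r, hr⟩, rfl⟩)⟩
    | algebraMap r =>
      exact ⟨(reesAlgebra J).algebraMap_mem r, Algebra.subset_adjoin (Or.inl ⟨r, rfl⟩)⟩
    | add x y _ _ hx hy =>
      obtain ⟨h1, h2⟩ := hx
      obtain ⟨h3, h4⟩ := hy
      have h5 := add_mem h2 h4
      rw [AddMemClass.mk_add_mk] at h5
      exact ⟨add_mem h1 h3, h5⟩
    | mul x y _ _ hx hy =>
      obtain ⟨h1, h2⟩ := hx
      obtain ⟨h3, h4⟩ := hy
      have h5 := mul_mem h2 h4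
      rw [MulMemClass.mk_mul_mk] at h5
      exact ⟨mul_mem h1 h3, h5⟩
  rw [← adjoin_monomial_eq_reesAlgebra] at hf
  exact (key f hf).2

theorem rrho_mem (J : Ideal R) {n : ℕ} {r : R} (hr : r ∈ 𝒜 n) : rrho k J r ∈ rgr 𝒜 J (n, 0) :=
  ⟨r, hr, rfl⟩

theorem rTL_mem (J : Ideal R) {n : ℕ} {x : J} (hx : (x : R) ∈ 𝒜 n) :
    rTL k J x ∈ rgr 𝒜 J (n, 1) := ⟨x, hx, rfl⟩

end rees

section main

variable {k : Type u} [Field k] {R : Type v} [CommRing R] [Algebra k R]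
  {𝒜 : ℕ → Submodule k R} [GradedAlgebra 𝒜] {P : R →ₗ[k] R →ₗ[k] R} {J : Ideal R}
  {K : Type w} [Field K] [Algebra k K] {N : ℕ} {A₀ A₁ : Subalgebra k K} {u v : K}
  {φ : R →ₐ[k] K} {η : J →ₗ[k] K}

/-- B2. From the family to a degenerating family over `k[[τ]]`; all marks are base points of the
central fibre. -/
theorem exists_PF' [IsAlgClosed k] (hP : IsPM 𝒜 P) (hJ : J.IsHomogeneous 𝒜)
    {t : K} (ht : Transcendental k t) [FiniteDimensional (IntermediateField.adjoin k {t}) K]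
    [Algebra.IsSeparable (IntermediateField.adjoin k {t}) K] (hch : IsCh t A₀ A₁)
    (h : IsGP 𝒜 P J N A₀ A₁ u v φ η) {m : ℕ} (hm : 0 < m) {c : Fin m → (A₀ →ₐ[k] k)}
    {Φ : reesAlgebra J →ₐ[k] K}
    (hΦ : ∀ r, Φ (algebraMap R (reesAlgebra J) r) = φ r) (hΦT : ∀ x, Φ (rT J x) = η x)
    (hfam : FamOutG (rgr 𝒜 J) A₀ A₁ (UU u v) Φ (markI c)) :
    ∃ (F : R →ₐ[k] PowerSeries A₀) (H : J →ₗ[k] PowerSeries A₀), IsPF 𝒜 J A₀ A₁ u v F H ∧
      ∀ l, ∀ j, 0 < j → ∀ r ∈ 𝒜 j, c l (PowerSeries.constantCoeff (F r)) = 0 := by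
  classical
  obtain ⟨g, hg, rfl, rfl⟩ := hch
  have hft : Algebra.FiniteType k R := hP.finiteType
  have hnoe : IsNoetherianRing R := Algebra.FiniteType.isNoetherianRing k R
  have hcd : IsCD (IC (B0 t g)) (IC (B1 t g)) := isCD_IC ht hg
  have hfrac0 : IsFractionRing (IC (B0 t g)) K := hitgc_frac (frac0_IC g)
  have hfrac1 : IsFractionRing (IC (B1 t g)) K := hitgc_frac hcd.frac
  obtain ⟨D, _, _, _, e, Ψ, hart, hsec, hmark, he, hD⟩ := hfam
  have hΦ' : Φ.comp (rrho k J) = φ := AlgHom.ext hΦ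
  have hmp : IsMp 𝒜 (IC (B0 t g)) (IC (B1 t g)) u (Φ.comp (rrho k J)) := by
    rw [hΦ']; exact h.mp
  have hΦA : ∀ s, Φ s ∈ IC (B0 t g) := by
    intro s
    have h1 : Algebra.adjoin k (Set.range (rrho k J) ∪ Set.range (rTL k J)) ≤
        (IC (B0 t g)).comap Φ := by
      refine Algebra.adjoin_le ?_
      rintro _ (⟨r, rfl⟩ | ⟨x, rfl⟩)
      · change Φ (algebraMap R (reesAlgebra J) r) ∈ IC (B0 t g)
        rw [hΦ, ← DirectSum.sum_support_decompose 𝒜 r, map_sum]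
        exact Subalgebra.sum_mem _ fun n _ =>
          (mem_Sec.mp (h.mp.sec n _ (DirectSum.decompose 𝒜 r n).2)).1
      · change Φ (rT J x) ∈ IC (B0 t g)
        have hx : x = ∑ n ∈ (DirectSum.decompose 𝒜 (x : R)).support,
            (⟨DirectSum.decompose 𝒜 (x : R) n, hJ n x.2⟩ : J) := by
          apply Subtype.ext
          rw [AddSubmonoidClass.coe_finsetSum]
          exact (DirectSum.sum_support_decompose 𝒜 (x : R)).symm
        rw [hΦT, hx, map_sum]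
        exact Subalgebra.sum_mem _ fun n _ =>
          (h.secη n _ (DirectSum.decompose 𝒜 (x : R) n).2).1
    have h2 : s ∈ Algebra.adjoin k (Set.range (rrho k J) ∪ Set.range (rTL k J)) := by
      rw [adjoin_rees]; trivial
    exact h1 h2
  let w : Fin m → (reesAlgebra J →ₐ[k] k) := fun l => (c l).comp (Φ.codRestrict _ hΦA)
  obtain ⟨F, hF1, hF2, hF3, hF4, hF5, hF6, hF7, hF8⟩ := pf_laurent (𝒜 := 𝒜) (J := J) (v := v)
    (ρ := rrho k J) (T := rTL k J) (Φ := Φ) hmp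
    (place_IC ht hg) (closed_IC0 ht hg) (pf_P3 hcd) (adjoin_rees J) hJ h.v_ne (by
      obtain ⟨i, j, a, b, -, ha, -, -, -, -, h1, h2⟩ := h.loc0
      have h3 : Φ (rTL k J a) = η a := hΦT a
      exact ⟨i, a, ha, by rw [h3]; exact h1, by rw [h3]; exact h2⟩) (by
      obtain ⟨i, j, a, b, -, ha, -, -, -, -, h1, h2⟩ := h.loc1
      have h3 : Φ (rTL k J a) = η a := hΦT a
      exact ⟨i, a, ha, by rw [h3]; exact h1, by rw [h3, mul_comm v]; exact h2⟩)
    c w (fun l s => ⟨hΦA s, rfl⟩) (markI c) (fun a ha => mem_markI.1 ha) e hart Ψ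
    (fun n r hr => InB_mono D (fun a ha => by
      have h1 := mem_SecG.1 ha
      have h2 : UU u v (n, 0) = u ^ n := by simp [UU]
      rw [h2] at h1
      exact mem_Sec.2 h1) (hsec _ _ (rrho_mem J hr)))
    (fun n x hx => InB_mono D (fun a ha => by
      have h1 := mem_SecG.1 ha
      have h2 : UU u v (n, 1) = v * u ^ n := by simp [UU, mul_comm]
      rw [h2] at h1
      refine mem_Sec.2 ⟨h1.1, ?_⟩
      rw [pow_one]
      exact h1.2) (hsec _ _ (rTL_mem J hx)))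
    hmark (fun s => hitgc_sep fun l => by rw [hitgc_evT, he]) hD
  -- the first component has a pole
  choose ex hex1 hex2 hex3 using fun l => expansion_IC (k := k) (K := K) ht hg (c l)
  have hrpole : ∃ r, F (rrho k J r) ∉ Set.range (HahnSeries.ofPowerSeries ℤ (IC (B0 t g))) := by
    obtain ⟨i, j, a, b, -, ha, hbj, hab, hb0, hbA, -, -⟩ := h.loc0
    refine pf_pole hJ (rTL_smul J) (adjoin_rees J) F (c ⟨0, hm⟩) (w ⟨0, hm⟩) (hF3 ⟨0, hm⟩)
      (ex ⟨0, hm⟩) (hex1 _) (hex2 _) hF4 hF6 ha hbj hab ?_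
    have hbA0 : φ b ∈ IC (B0 t g) := (mem_Sec.mp (h.mp.sec j b hbj)).1
    have h1 : (⟨φ b, hbA0⟩ : IC (B0 t g)) * ⟨(φ b)⁻¹, hbA⟩ = 1 := Subtype.ext (mul_inv_cancel₀ hb0)
    have h2 : w ⟨0, hm⟩ (rrho k J b) = c ⟨0, hm⟩ ⟨φ b, hbA0⟩ := by
      have h3 : (Φ.codRestrict _ hΦA) (rrho k J b) = (⟨φ b, hbA0⟩ : IC (B0 t g)) :=
        Subtype.ext (hΦ b)
      change c ⟨0, hm⟩ ((Φ.codRestrict _ hΦA) (rrho k J b)) = _
      rw [h3]
    rw [h2]
    intro h0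
    have h3 := congrArg (c ⟨0, hm⟩) h1
    rw [map_mul, h0, zero_mul, map_one] at h3
    exact zero_ne_one h3
  -- scaling
  obtain ⟨s, hs, hdeg⟩ := Vale.Agent.P292.Mo.Fm.exists_generators (k := k) 𝒜 hP.connected
  obtain ⟨d, hd, μ, φ', hμ, hφ', y, hys, n, hn, hyn, hy0⟩ :=
    exists_scaled_of_pole 𝒜 (F.comp (rrho k J)) s hs hdeg hrpole
  obtain ⟨G, hG, hGT⟩ := exists_etaG (𝒜 := 𝒜) (rTL_smul (k := k) J) F
  have hspan : Ideal.span {y | ∃ j : ℕ, ∃ x ∈ 𝒜 j, x ∈ J ∧ y = G j x} = ⊤ := by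
    rw [← hF6]
    congr 1
    ext y
    constructor
    · rintro ⟨j, x, hx, hx', rfl⟩
      exact ⟨j, ⟨x, hx'⟩, hx, hGT j ⟨x, hx'⟩⟩
    · rintro ⟨j, x, hx, rfl⟩
      exact ⟨j, x, hx, x.2, (hGT j x).symm⟩
  obtain ⟨a, η', hη', hηG, j₁, x₁, hx₁, hx₁', hne₁⟩ := eta_scale hJ hG hφ' (by
    by_contra hcon
    push Not at hcon
    have h1 : Ideal.span {y | ∃ j : ℕ, ∃ x ∈ 𝒜 j, x ∈ J ∧ y = G j x} = ⊥ := by
      rw [Ideal.span_eq_bot]
      rintro y ⟨j, x, hx, hx', rfl⟩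
      exact hcon j x hx hx'
    rw [hspan] at h1
    exact top_ne_bot h1)
  obtain ⟨H, hH1, hH2⟩ := eta_total hJ hη'
  have hHG : ∀ n, ∀ x : J, (x : R) ∈ 𝒜 n → ofPS k _ (H x) =
      HahnSeries.single (μ * n + a) 1 * expand k d hd (F (rTL k J x)) := by
    intro n x hx
    rw [hH2 n x hx, hηG n x hx x.2, hGT]
  refine ⟨φ', H, ⟨?_, ?_, hH1, ⟨n, hn, y, hyn, hy0⟩, ⟨⟨x₁, hx₁'⟩, ?_⟩, ?_, ?_, ?_, ?_⟩, ?_⟩
  · intro n r hr i
    exact pf_coeff_mem (hF1 n r hr) (hφ' n r hr) i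
  · intro n x hx i
    have h1 := pf_coeff_mem (hF2 n x hx) (hHG n x hx) i
    have h2 := (mem_Sec.1 h1).2
    rwa [pow_one, mul_comm v] at h2
  · rw [hH2 j₁ ⟨x₁, hx₁'⟩ hx₁]
    exact hne₁
  · refine pf_pow_mem (k := k) (c := d) (hc := hd) ?_ hF5
    rintro _ ⟨j, hj, r, hr, rfl⟩
    exact ⟨_, ⟨j, hj, r, hr, rfl⟩, _, hφ' j r hr⟩
  · refine pf_pow_mem (k := k) (c := d) (hc := hd) ?_ hF6
    rintro _ ⟨j, x, hx, rfl⟩
    exact ⟨_, ⟨x, rfl⟩, _, hHG j x hx⟩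
  · refine pf_pow_mem (k := k) (c := d) (hc := hd) ?_ hF7
    rintro z ⟨j, hj, r, hr, hz⟩
    obtain ⟨y', hy', hy''⟩ := pf_second (c := d) (hc := hd) hz (hφ' j r hr)
    exact ⟨y', ⟨j, hj, r, hr, hy'⟩, _, hy''⟩
  · refine pf_pow_mem (k := k) (c := d) (hc := hd) ?_ hF8
    rintro z ⟨j, x, hx, hz⟩
    obtain ⟨y', hy', hy''⟩ := pf_second (c := d) (hc := hd) hz (hHG j x hx)
    exact ⟨y', ⟨j, x, hx, fun i => by rw [hy', mul_comm v]⟩, _, hy''⟩
  · intro l j hj r hr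
    have h1 := mark_scaled 𝒜 hφ' (c l) (fun r => w l (rrho k J r)) (fun r i => hF3 l _ i) hr 0
    rw [PowerSeries.coeff_zero_eq_constantCoeff_apply, if_neg (by positivity)] at h1
    exact h1

/-- B2. From the family to a degenerating family over `k[[τ]]`; all marks are base points of the
central fibre. -/
theorem exists_PF [IsAlgClosed k] [IsDomain R] (hP : IsPM 𝒜 P) (hJ : J.IsHomogeneous 𝒜)
    {t : K} (ht : Transcendental k t) [FiniteDimensional (IntermediateField.adjoin k {t}) K]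
    [Algebra.IsSeparable (IntermediateField.adjoin k {t}) K] (hch : IsCh t A₀ A₁)
    (h : IsGP 𝒜 P J N A₀ A₁ u v φ η) {m : ℕ} (hm : 0 < m) {c : Fin m → (A₀ →ₐ[k] k)}
    (hc : Function.Injective c) {Φ : reesAlgebra J →ₐ[k] K}
    (hΦ : ∀ r, Φ (algebraMap R (reesAlgebra J) r) = φ r) (hΦT : ∀ x, Φ (rT J x) = η x)
    (hfam : FamOutG (rgr 𝒜 J) A₀ A₁ (UU u v) Φ (markI c)) :
    ∃ (F : R →ₐ[k] PowerSeries A₀) (H : J →ₗ[k] PowerSeries A₀), IsPF 𝒜 J A₀ A₁ u v F H ∧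
      ∀ l, ∀ j, 0 < j → ∀ r ∈ 𝒜 j, c l (PowerSeries.constantCoeff (F r)) = 0 :=
  have _ := hc
  exists_PF' hP hJ ht hch h hm hΦ hΦT hfam

end main

end Vale.Agent.P292.Dv
end
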