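import Mathlib
import Vale.Agent.P292.Bn.N16
import Vale.Agent.P292.Dn.B1
import Vale.Agent.P292.Bn.N9

set_option linter.all false

section

/-! # P292 Part III, block LF: LF3, change of Noether parameters -/

namespace Vale.Agent.P292.Dv

universe u v

/-- monomials of bounded degree times generators -/
def lf3Mon {S : Type v} [CommRing S] {s : ℕ} (z : Fin s → S) (F : Finset S) (d : ℕ) : Set S :=
  {x | ∃ γ : Fin s → ℕ, ∑ i, γ i ≤ d ∧ ∃ w ∈ F, x = (∏ i, z i ^ γ i) * w}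

theorem lf3Mon_mono {S : Type v} [CommRing S] {s : ℕ} (z : Fin s → S) (F : Finset S) {d e : ℕ}
    (h : d ≤ e) : lf3Mon z F d ⊆ lf3Mon z F e := by
  rintro x ⟨γ, hγ, w, hw, rfl⟩
  exact ⟨γ, hγ.trans h, w, hw, rfl⟩

theorem lf3_mul_var {k : Type u} [Field k] {S : Type v} [CommRing S] [Algebra k S] {s : ℕ}
    (z : Fin s → S) (F : Finset S) (i : Fin s) (d : ℕ) :
    ∀ x ∈ Submodule.span k (lf3Mon z F d), z i * x ∈ Submodule.span k (lf3Mon z F (d + 1)) := by
  classical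
  intro x hx
  refine Submodule.span_induction
    (p := fun x _ => z i * x ∈ Submodule.span k (lf3Mon z F (d + 1))) ?_ ?_ ?_ ?_ hx
  · rintro x ⟨γ, hγ, w, hw, rfl⟩
    refine Submodule.subset_span ⟨γ + Pi.single i 1, ?_, w, hw, ?_⟩
    · have h1 : ∑ j, (γ + (Pi.single i 1 : Fin s → ℕ)) j = ∑ j, γ j + 1 := by
        simp only [Pi.add_apply, Finset.sum_add_distrib]
        rw [Finset.sum_pi_single']
        simp
      rw [h1]
      omega
    · simp only [Pi.add_apply, pow_add, Finset.prod_mul_distrib]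
      have h2 : ∏ j, z j ^ (Pi.single i 1 : Fin s → ℕ) j = z i := by
        rw [Finset.prod_eq_single i]
        · simp
        · intro j _ hj
          rw [Pi.single_eq_of_ne hj, pow_zero]
        · intro h
          exact absurd (Finset.mem_univ i) h
      rw [h2]
      ring
  · simp
  · intro a b _ _ ha hb
    rw [mul_add]; exact Submodule.add_mem _ ha hb
  · intro c a _ ha
    rw [mul_smul_comm]; exact Submodule.smul_mem _ _ ha

theorem lf3_mul_adjoin {k : Type u} [Field k] {S : Type v} [CommRing S] [Algebra k S] {s : ℕ}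
    (z : Fin s → S) (F : Finset S) (a : S) (ha : a ∈ Algebra.adjoin k (Set.range z)) :
    ∀ d : ℕ, ∃ e : ℕ, ∀ x ∈ Submodule.span k (lf3Mon z F d),
      a * x ∈ Submodule.span k (lf3Mon z F e) := by
  refine Algebra.adjoin_induction (p := fun a _ => ∀ d : ℕ, ∃ e : ℕ,
    ∀ x ∈ Submodule.span k (lf3Mon z F d), a * x ∈ Submodule.span k (lf3Mon z F e)) ?_ ?_ ?_ ?_ ha
  · rintro x ⟨i, rfl⟩ d
    exact ⟨d + 1, lf3_mul_var z F i d⟩
  · intro r d
    refine ⟨d, fun x hx => ?_⟩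
    rw [← Algebra.smul_def]
    exact Submodule.smul_mem _ _ hx
  · intro a b _ _ ha hb d
    obtain ⟨e1, h1⟩ := ha d
    obtain ⟨e2, h2⟩ := hb d
    refine ⟨max e1 e2, fun x hx => ?_⟩
    rw [add_mul]
    exact Submodule.add_mem _
      (Submodule.span_mono (lf3Mon_mono z F (le_max_left _ _)) (h1 x hx))
      (Submodule.span_mono (lf3Mon_mono z F (le_max_right _ _)) (h2 x hx))
  · intro a b _ _ ha hb d
    obtain ⟨e1, h1⟩ := hb d
    obtain ⟨e2, h2⟩ := ha e1
    refine ⟨e2, fun x hx => ?_⟩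
    rw [mul_assoc]
    exact h2 _ (h1 x hx)

theorem lf3_exists_deg {k : Type u} [Field k] {S : Type v} [CommRing S] [Algebra k S] {s : ℕ}
    (z : Fin s → S) (F : Finset S)
    (hF : Submodule.span ↥(Algebra.adjoin k (Set.range z)) (F : Set S) = ⊤) (x : S) :
    ∃ d : ℕ, x ∈ Submodule.span k (lf3Mon z F d) := by
  have hx : x ∈ Submodule.span ↥(Algebra.adjoin k (Set.range z)) (F : Set S) := by
    rw [hF]; trivial
  refine Submodule.span_induction
    (p := fun x _ => ∃ d : ℕ, x ∈ Submodule.span k (lf3Mon z F d)) ?_ ?_ ?_ ?_ hx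
  · intro w hw
    exact ⟨0, Submodule.subset_span ⟨0, by simp, w, hw, by simp⟩⟩
  · exact ⟨0, Submodule.zero_mem _⟩
  · rintro a b _ _ ⟨d, hd⟩ ⟨e, he⟩
    exact ⟨max d e, Submodule.add_mem _
      (Submodule.span_mono (lf3Mon_mono z F (le_max_left _ _)) hd)
      (Submodule.span_mono (lf3Mon_mono z F (le_max_right _ _)) he)⟩
  · rintro ⟨a, ha⟩ b _ ⟨d, hd⟩
    obtain ⟨e, he⟩ := lf3_mul_adjoin z F a ha d
    exact ⟨e, he b hd⟩

/-- LF3: Noether parameters `z` can be replaced by `z i ^ M + l i`, `M` large. -/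
theorem lf_finite {k : Type u} [Field k] {S : Type v} [CommRing S] [Algebra k S] {s : ℕ}
    (z : Fin s → S) (hz : ∃ F : Finset S,
      Submodule.span ↥(Algebra.adjoin k (Set.range z)) (F : Set S) = ⊤) (l : Fin s → S) :
    ∃ M : ℕ, 2 ≤ M ∧ ∃ F : Finset S,
      Submodule.span ↥(Algebra.adjoin k (Set.range fun i => z i ^ M + l i)) (F : Set S) = ⊤ := by
  classical
  obtain ⟨F, hF⟩ := hz
  choose dg hdg using fun (i : Fin s) (w : S) => lf3_exists_deg z F hF (l i * w)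
  set e : ℕ := ∑ i, ∑ w ∈ F, dg i w with he
  have hle : ∀ i, ∀ w ∈ F, dg i w ≤ e := by
    intro i w hw
    calc dg i w ≤ ∑ w ∈ F, dg i w := Finset.single_le_sum (fun _ _ => Nat.zero_le _) hw
      _ ≤ e := Finset.single_le_sum (f := fun i => ∑ w ∈ F, dg i w)
        (fun _ _ => Nat.zero_le _) (Finset.mem_univ i)
  set M : ℕ := e + 2 with hM
  set B := Algebra.adjoin k (Set.range fun i => z i ^ M + l i) with hB
  set G : Finset S := Finset.image (fun q : (Fin s → Fin M) × S => (∏ i, z i ^ (q.1 i : ℕ)) * q.2)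
    ((Finset.univ : Finset (Fin s → Fin M)) ×ˢ F) with hG
  refine ⟨M, by omega, G, ?_⟩
  set Nn : Submodule B S := Submodule.span B (G : Set S) with hNn
  have hmem : ∀ d : ℕ, ∀ γ : Fin s → ℕ, ∑ i, γ i = d → ∀ w ∈ F, (∏ i, z i ^ γ i) * w ∈ Nn := by
    intro d
    induction d using Nat.strong_induction_on with
    | _ d ih =>
      intro γ hγ w hw
      by_cases hall : ∀ i, γ i < M
      · refine Submodule.subset_span ?_
        rw [hG, Finset.mem_coe, Finset.mem_image]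
        exact ⟨(fun i => ⟨γ i, hall i⟩, w), Finset.mem_product.2 ⟨Finset.mem_univ _, hw⟩, rfl⟩
      · push Not at hall
        obtain ⟨i, hi⟩ := hall
        -- `γ = γ' + M e_i`
        set γ' : Fin s → ℕ := Function.update γ i (γ i - M) with hγ'
        have hsum : ∑ j, γ' j + M = d := by
          rw [← hγ, hγ', Finset.sum_update_of_mem (Finset.mem_univ i),
            ← Finset.add_sum_erase Finset.univ γ (Finset.mem_univ i), Finset.sdiff_singleton_eq_erase]
          omega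
        have hprod : (∏ j, z j ^ γ j) = (∏ j, z j ^ γ' j) * z i ^ M := by
          rw [← Finset.mul_prod_erase Finset.univ (fun j => z j ^ γ j) (Finset.mem_univ i),
            ← Finset.mul_prod_erase Finset.univ (fun j => z j ^ γ' j) (Finset.mem_univ i)]
          have h1 : ∏ j ∈ Finset.univ.erase i, z j ^ γ' j
              = ∏ j ∈ Finset.univ.erase i, z j ^ γ j := by
            refine Finset.prod_congr rfl fun j hj => ?_
            rw [hγ', Function.update_of_ne (Finset.ne_of_mem_erase hj)]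
          rw [h1]
          have h2 : z i ^ γ i = z i ^ γ' i * z i ^ M := by
            rw [hγ', Function.update_self, ← pow_add, Nat.sub_add_cancel hi]
          rw [h2]
          ring
        have hexp : (∏ j, z j ^ γ j) * w
            = (⟨z i ^ M + l i, Algebra.subset_adjoin ⟨i, rfl⟩⟩ : B) • ((∏ j, z j ^ γ' j) * w)
              - (∏ j, z j ^ γ' j) * (l i * w) := by
          rw [hprod]
          change _ = (z i ^ M + l i) * _ - _
          ring
        rw [hexp]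
        have hlt : ∑ j, γ' j < d := by omega
        refine Submodule.sub_mem _ (Submodule.smul_mem _ _ (ih _ hlt γ' rfl w hw)) ?_
        -- the second term
        have hspan : l i * w ∈ Submodule.span k (lf3Mon z F e) :=
          Submodule.span_mono (lf3Mon_mono z F (hle i w hw)) (hdg i w)
        refine Submodule.span_induction (p := fun x _ => (∏ j, z j ^ γ' j) * x ∈ Nn)
          ?_ ?_ ?_ ?_ hspan
        · rintro x ⟨δ, hδ, w', hw', rfl⟩
          have h3 : (∏ j, z j ^ γ' j) * ((∏ j, z j ^ δ j) * w')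
              = (∏ j, z j ^ (γ' j + δ j)) * w' := by
            simp only [pow_add, Finset.prod_mul_distrib]
            ring
          rw [h3]
          have h4 : ∑ j, (γ' j + δ j) < d := by
            rw [Finset.sum_add_distrib]
            omega
          exact ih _ h4 (fun j => γ' j + δ j) rfl w' hw'
        · rw [mul_zero]; exact Submodule.zero_mem _
        · intro a b _ _ ha hb
          rw [mul_add]; exact Submodule.add_mem _ ha hb
        · intro c a _ ha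
          rw [mul_smul_comm]
          exact Submodule.smul_of_tower_mem _ c ha
  rw [Submodule.eq_top_iff']
  intro x
  obtain ⟨d, hd⟩ := lf3_exists_deg z F hF x
  refine Submodule.span_induction (p := fun x _ => x ∈ Nn) ?_ ?_ ?_ ?_ hd
  · rintro x ⟨δ, hδ, w', hw', rfl⟩
    exact hmem _ δ rfl w' hw'
  · exact Submodule.zero_mem _
  · intro a b _ _ ha hb
    exact Submodule.add_mem _ ha hb
  · intro c a _ ha
    exact Submodule.smul_of_tower_mem _ c ha

end Vale.Agent.P292.Dv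
end

section

/-! # A prime divisor of the cone has codimension one. -/

namespace Vale.Agent.P292.Dv

open Polynomial Vale.Agent.P292

universe u v

section alg

variable {R : Type u} [CommRing R] [Algebra ℂ R]

/-- A nonzero element of a prime is algebraically independent from lifts of elements which are
independent modulo the prime. -/
theorem lfd_independent [IsDomain R] (𝔭 : Ideal R) [𝔭.IsPrime] {s : ℕ} (x : Fin s → R)
    (hind : AlgebraicIndependent ℂ fun i => Ideal.Quotient.mk 𝔭 (x i)) {π : R} (hπ : π ∈ 𝔭)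
    (hπ0 : π ≠ 0) : AlgebraicIndependent ℂ fun o : Option (Fin s) => o.elim π x := by
  have hx : AlgebraicIndependent ℂ x := by
    have h1 : AlgebraicIndependent ℂ ((Ideal.Quotient.mkₐ ℂ 𝔭) ∘ x) := hind
    exact AlgebraicIndependent.of_comp _ h1
  rw [AlgebraicIndependent.option_iff_transcendental hx]
  have hinjq : ∀ a ∈ Algebra.adjoin ℂ (Set.range x), a ∈ 𝔭 → a = 0 := by
    intro a ha hap
    rw [Algebra.adjoin_range_eq_range_aeval] at ha
    obtain ⟨F, rfl⟩ := ha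
    have h1 : MvPolynomial.aeval (fun i => Ideal.Quotient.mk 𝔭 (x i)) F = 0 := by
      have h2 : MvPolynomial.aeval (fun i => Ideal.Quotient.mkₐ ℂ 𝔭 (x i)) F =
        Ideal.Quotient.mkₐ ℂ 𝔭 (MvPolynomial.aeval x F) :=
        (MvPolynomial.comp_aeval_apply (f := x) (Ideal.Quotient.mkₐ ℂ 𝔭) F).symm
      have h3 : Ideal.Quotient.mkₐ ℂ 𝔭 (MvPolynomial.aeval x F) = 0 :=
        Ideal.Quotient.eq_zero_iff_mem.2 hap
      rw [← h2] at h3
      exact h3
    have h4 : F = 0 := (injective_iff_map_eq_zero _).1 hind F h1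
    rw [h4]
    exact map_zero _
  intro halg
  obtain ⟨p, hp, hp0⟩ := halg
  obtain ⟨q, hq, hqd⟩ := Polynomial.exists_eq_pow_rootMultiplicity_mul_and_not_dvd p hp 0
  rw [C_0, sub_zero] at hq hqd
  rw [hq, map_mul, map_pow, aeval_X, mul_eq_zero] at hp0
  have h1 : aeval π q = 0 := hp0.resolve_left (pow_ne_zero _ hπ0)
  apply hqd
  rw [X_dvd_iff]
  have h2 : ((q.coeff 0 : Algebra.adjoin ℂ (Set.range x)) : R) ∈ 𝔭 := by
    have h3 : aeval π q = aeval π (divX q) * π + ((q.coeff 0 : Algebra.adjoin ℂ (Set.range x)) : R) := by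
      conv_lhs => rw [← divX_mul_X_add q]
      rw [map_add, map_mul, aeval_X, aeval_C]
      rfl
    rw [h1] at h3
    have h4 : ((q.coeff 0 : Algebra.adjoin ℂ (Set.range x)) : R) = - (aeval π (divX q) * π) := by
      linear_combination -h3
    rw [h4]
    exact neg_mem (𝔭.mul_mem_left _ hπ)
  exact Subtype.ext (hinjq _ (q.coeff 0).2 h2)

/-- A derivation of a domain which is integral over a subalgebra is determined by its
restriction to the subalgebra. -/
theorem lfd_derivation_eq_zero {S : Type v} [CommRing S] [IsDomain S] [Algebra ℂ S] {E : Type v}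
    [Field E] [Algebra ℂ E] (ι : S →ₐ[ℂ] E) (hι : Function.Injective ι) (B : Subalgebra ℂ S)
    (hB : ∀ r : S, IsIntegral B r) (δ : S →ₗ[ℂ] E)
    (hδ : ∀ r s, δ (r * s) = ι r * δ s + ι s * δ r) (h0 : ∀ b ∈ B, δ b = 0) : δ = 0 := by
  classical
  ext r
  rw [LinearMap.zero_apply]
  have hex : ∃ n : ℕ, ∃ f : B[X], f ≠ 0 ∧ aeval r f = 0 ∧ f.natDegree = n := by
    obtain ⟨f, hf, hfr⟩ := hB r
    exact ⟨_, f, hf.ne_zero, hfr, rfl⟩
  obtain ⟨f, hf0, hfr, hfn⟩ := Nat.find_spec hex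
  have hmin : ∀ g : B[X], g ≠ 0 → aeval r g = 0 → f.natDegree ≤ g.natDegree := by
    intro g hg hgr
    rw [hfn]
    exact Nat.find_min' hex ⟨g, hg, hgr, rfl⟩
  have hchar : CharZero S := charZero_of_injective_algebraMap (algebraMap ℂ S).injective
  have hcharB : CharZero B := ⟨fun a b h => by
    have := congrArg (B.val) h
    simpa using this⟩
  -- the derivative does not vanish at `r`
  have hpos : 0 < f.natDegree := by
    by_contra h
    have h1 : f.natDegree = 0 := by omega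
    rw [Polynomial.eq_C_of_natDegree_eq_zero h1, aeval_C] at hfr
    have h2 : f.coeff 0 = 0 := Subtype.ext hfr
    apply hf0
    rw [Polynomial.eq_C_of_natDegree_eq_zero h1, h2, C_0]
  have hder : aeval r (derivative f) ≠ 0 := by
    intro h
    have h1 : derivative f ≠ 0 := by
      intro h2
      have := Polynomial.derivative_eq_zero.1 h2
      omega
    have h2 := hmin _ h1 h
    have h3 := Polynomial.natDegree_derivative_lt (p := f) (by omega)
    omega
  -- chain rule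
  have h1 : δ 1 = 0 := by
    have := hδ 1 1
    rw [mul_one, map_one ι, one_mul] at this
    linear_combination -this
  have hpow : ∀ n : ℕ, δ (r ^ n) = (n : E) * ι r ^ (n - 1) * δ r := by
    intro n
    induction n with
    | zero => rw [pow_zero, h1]; simp
    | succ n ih =>
      rw [pow_succ, hδ, ih, map_pow]
      rcases Nat.eq_zero_or_pos n with rfl | hn
      · simp
      · obtain ⟨m, rfl⟩ : ∃ m, n = m + 1 := ⟨n - 1, by omega⟩
        simp only [Nat.add_sub_cancel]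
        push_cast
        ring
  have hchain : ∀ g : B[X], δ (aeval r g) = ι (aeval r (derivative g)) * δ r := by
    intro g
    induction g using Polynomial.induction_on' with
    | add p q hp hq => rw [map_add, map_add, hp, hq, derivative_add, map_add, map_add]; ring
    | monomial n b =>
      rw [aeval_monomial, derivative_monomial, aeval_monomial, hδ, hpow, map_mul, map_pow, map_mul,
        map_mul]
      have h2 : δ (algebraMap B S b) = 0 := h0 _ b.2
      rw [h2, map_natCast, map_natCast, map_pow]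
      ring
  have h2 := hchain f
  rw [hfr, map_zero] at h2
  rcases mul_eq_zero.1 h2.symm with h3 | h3
  · exact absurd ((map_eq_zero_iff ι hι).1 h3) hder
  · exact h3

end alg

variable {R : Type u} [CommRing R] [Algebra ℂ R] {𝒜 : ℕ → Submodule ℂ R} [GradedAlgebra 𝒜]
  {P : R →ₗ[ℂ] R →ₗ[ℂ] R}

/-- A uniformiser. -/
theorem lfd_exists_uniformiser {R : Type u} [CommRing R] [IsDomain R] (𝔭 : Ideal R) [𝔭.IsPrime]
    (hdvr : IsDiscreteValuationRing (Localization.AtPrime 𝔭)) :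
    ∃ ϖ ∈ 𝔭, ϖ ≠ 0 ∧ ∀ p ∈ 𝔭, ∃ b, b ∉ 𝔭 ∧ ∃ r, b * p = ϖ * r := by
  obtain ⟨ω, hω⟩ := IsDiscreteValuationRing.exists_irreducible (Localization.AtPrime 𝔭)
  have hmax := hω.maximalIdeal_eq
  obtain ⟨⟨a, s⟩, hs⟩ := IsLocalization.surj 𝔭.primeCompl ω
  dsimp at hs
  have hinj : Function.Injective (algebraMap R (Localization.AtPrime 𝔭)) :=
    IsLocalization.injective _ 𝔭.primeCompl_le_nonZeroDivisors
  have hsu : IsUnit (algebraMap R (Localization.AtPrime 𝔭) s) :=
    IsLocalization.map_units _ s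
  refine ⟨a, ?_, ?_, ?_⟩
  · rw [← IsLocalization.AtPrime.to_map_mem_maximal_iff (Localization.AtPrime 𝔭) 𝔭, hmax, ← hs]
    exact Ideal.mul_mem_right _ _ (Ideal.mem_span_singleton_self _)
  · rintro rfl
    rw [map_zero] at hs
    rcases mul_eq_zero.1 hs with h | h
    · exact hω.ne_zero h
    · exact hsu.ne_zero h
  · intro p hp
    rw [← IsLocalization.AtPrime.to_map_mem_maximal_iff (Localization.AtPrime 𝔭) 𝔭, hmax,
      Ideal.mem_span_singleton'] at hp
    obtain ⟨c, hc⟩ := hp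
    obtain ⟨⟨r, t⟩, ht⟩ := IsLocalization.surj 𝔭.primeCompl c
    dsimp at ht
    refine ⟨s * t, fun h => (s * t).2 (by simpa using h), r, ?_⟩
    apply hinj
    rw [map_mul, map_mul, map_mul, ← hc, ← ht, ← hs]
    ring

/-- LF6: a prime divisor has codimension one. -/
theorem lf_dim (hX : IsContactFano 𝒜 P) [IsDomain R] (𝔭 : Ideal R) [𝔭.IsPrime]
    (hdvr : IsDiscreteValuationRing (Localization.AtPrime 𝔭))
    (hnv : ∃ k, 0 < k ∧ ∃ r ∈ 𝒜 k, r ∉ 𝔭) {s : ℕ} (z : Fin s → R ⧸ 𝔭)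
    (hind : AlgebraicIndependent ℂ z)
    (hz : ∀ r : R ⧸ 𝔭, IsIntegral ↥(Algebra.adjoin ℂ (Set.range z)) r) : s + 1 = cdim R := by
  classical
  have := hX.finiteType
  have hsurj := Ideal.Quotient.mk_surjective (I := 𝔭)
  choose x hx using fun i => hsurj (z i)
  obtain ⟨ϖ, hϖ, hϖ0, hunif⟩ := lfd_exists_uniformiser 𝔭 hdvr
  refine le_antisymm ?_ ?_
  · have h1 : AlgebraicIndependent ℂ fun i => Ideal.Quotient.mk 𝔭 (x i) := by
      simpa only [hx] using hind
    have h2 := lfd_independent 𝔭 x h1 hϖ hϖ0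
    let e : Fin (s + 1) ≃ Option (Fin s) := finSuccEquiv s
    exact le_cdim_of_algebraicIndependent (h2.comp e e.injective)
  · let E := FractionRing (R ⧸ 𝔭)
    let ι : R ⧸ 𝔭 →ₐ[ℂ] E := IsScalarTower.toAlgHom ℂ _ _
    have hι : Function.Injective ι := IsFractionRing.injective (R ⧸ 𝔭) E
    let ρ : R →ₐ[ℂ] E := ι.comp (Ideal.Quotient.mkₐ ℂ 𝔭)
    have hρ : ∀ r, ρ r = 0 ↔ r ∈ 𝔭 := by
      intro r
      change ι (Ideal.Quotient.mk 𝔭 r) = 0 ↔ _
      rw [map_eq_zero_iff ι hι, Ideal.Quotient.eq_zero_iff_mem]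
    have hNV : IsNV 𝒜 ρ := by
      obtain ⟨k, hk, r, hr, hrp⟩ := hnv
      exact ⟨k, hk, r, hr, fun h => hrp ((hρ r).1 h)⟩
    obtain ⟨y, -, hy⟩ := fr_exists_coord hX ρ hNV
    have := dim_finite_DerAt ρ
    let T : DerAt ρ →ₗ[E] (Option (Fin s) → E) :=
      { toFun := fun δ o => δ.1 (o.elim ϖ x)
        map_add' := fun _ _ => rfl
        map_smul' := fun _ _ => rfl }
    have hT : Function.Injective T := by
      rw [injective_iff_map_eq_zero]
      intro δ hδ
      have hd : IsDer ρ δ.1 := δ.2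
      have hδϖ : δ.1 ϖ = 0 := congrFun hδ none
      have hδx : ∀ i, δ.1 (x i) = 0 := fun i => congrFun hδ (some i)
      have hδp : ∀ p ∈ 𝔭, δ.1 p = 0 := by
        intro p hp
        obtain ⟨b, hb, r, hr⟩ := hunif p hp
        have h1 := congrArg δ.1 hr
        rw [hd, hd, hδϖ, (hρ p).2 hp, (hρ ϖ).2 hϖ, zero_mul, zero_mul, mul_zero, add_zero,
          add_zero] at h1
        exact (mul_eq_zero.1 h1).resolve_left fun h => hb ((hρ b).1 h)
      let δ' : R ⧸ 𝔭 →ₗ[ℂ] E :=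
        (𝔭.restrictScalars ℂ).liftQ δ.1 (fun p hp => hδp p hp)
      have hδ' : ∀ r, δ' (Ideal.Quotient.mk 𝔭 r) = δ.1 r := fun r => rfl
      have hleib : ∀ a b, δ' (a * b) = ι a * δ' b + ι b * δ' a := by
        intro a b
        obtain ⟨a, rfl⟩ := hsurj a
        obtain ⟨b, rfl⟩ := hsurj b
        rw [← map_mul, hδ', hδ', hδ', hd]
        rfl
      have h0 : ∀ b ∈ Algebra.adjoin ℂ (Set.range z), δ' b = 0 := by
        intro b hb
        induction hb using Algebra.adjoin_induction with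
        | mem a ha =>
          obtain ⟨i, rfl⟩ := ha
          rw [← hx, hδ', hδx]
        | algebraMap c =>
          have h1 : δ' 1 = 0 := by
            have := hleib 1 1
            rw [mul_one, map_one ι, one_mul] at this
            linear_combination -this
          rw [Algebra.algebraMap_eq_smul_one, map_smul, h1, smul_zero]
        | add a b _ _ ha hb => rw [map_add, ha, hb, add_zero]
        | mul a b _ _ ha hb => rw [hleib, ha, hb, mul_zero, mul_zero, add_zero]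
      have h1 := lfd_derivation_eq_zero ι hι (Algebra.adjoin ℂ (Set.range z)) hz δ' hleib h0
      apply Subtype.ext
      ext r
      rw [← hδ', h1]
      rfl
    have h1 := LinearMap.finrank_le_finrank_of_injective hT
    rw [Module.finrank_fintype_fun_eq_card, Fintype.card_option, Fintype.card_fin] at h1
    refine le_trans ?_ h1
    let T' : DerAt ρ →ₗ[E] (Fin (cdim R) → E) :=
      { toFun := fun δ i => δ.1 (y i)
        map_add' := fun _ _ => rfl
        map_smul' := fun _ _ => rfl }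
    have hT' : Function.Surjective T' := by
      intro b
      obtain ⟨δ, hδ, hb⟩ := hy b
      exact ⟨⟨δ, hδ⟩, funext hb⟩
    have h2 := LinearMap.finrank_le_finrank_of_surjective hT'
    rwa [Module.finrank_fin_fun] at h2

end Vale.Agent.P292.Dv
end

section

/-! # P292: coordinates at a non-vertex point. -/

namespace Vale.Agent.P292.Dv

open MvPolynomial Vale.Agent.P292

universe u v

variable {R : Type u} [CommRing R] [Algebra ℂ R] {𝒜 : ℕ → Submodule ℂ R} [GradedAlgebra 𝒜]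
  {P : R →ₗ[ℂ] R →ₗ[ℂ] R}

/-- LF7a: coordinates at a non-vertex point. -/
theorem lf_coord (hX : IsContactFano 𝒜 P) [IsDomain R] (y : R →ₐ[ℂ] ℂ) (hy : ¬ IsVertex 𝒜 y) :
    ∃ l : Fin (cdim R) → R, (∀ i, y (l i) = 0) ∧
      ∀ r, y r = 0 → ∃ a : Fin (cdim R) → ℂ, r - ∑ i, a i • l i ∈ RingHom.ker y ^ 2 := by
  classical
  have hnv : IsNV 𝒜 y := by
    unfold IsVertex at hy
    push Not at hy
    exact hy
  obtain ⟨x, hx, -⟩ := fr_exists_coord hX y hnv
  have hyc : ∀ c : ℂ, y (algebraMap ℂ R c) = c := fun c => by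
    rw [AlgHom.commutes, Algebra.algebraMap_self, RingHom.id_apply]
  refine ⟨fun i => x i - algebraMap ℂ R (y (x i)), fun i => by
    rw [map_sub, hyc, sub_self], ?_⟩
  set l : Fin (cdim R) → R := fun i => x i - algebraMap ℂ R (y (x i)) with hl
  let W : Submodule ℂ R := Submodule.span ℂ (Set.range l) ⊔
    (RingHom.ker y ^ 2).restrictScalars ℂ
  intro r hr
  by_cases hrW : r ∈ W
  · obtain ⟨a, ha, b, hb, hab⟩ := Submodule.mem_sup.1 hrW
    obtain ⟨c, hc⟩ := (Submodule.mem_span_range_iff_exists_fun ℂ).1 ha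
    refine ⟨c, ?_⟩
    rw [hc, ← hab, add_sub_cancel_left]
    exact hb
  · exfalso
    obtain ⟨f, hf, hfW⟩ := Submodule.exists_le_ker_of_notMem hrW
    let δ : R →ₗ[ℂ] ℂ :=
      { toFun := fun s => f (s - algebraMap ℂ R (y s))
        map_add' := fun a b => by
          rw [← map_add, map_add y, map_add]
          congr 1
          ring
        map_smul' := fun c a => by
          rw [RingHom.id_apply, ← map_smul, map_smul y, smul_sub, smul_eq_mul, map_mul,
            Algebra.smul_def c (algebraMap ℂ R (y a))] }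
    have hδa : ∀ s, δ s = f (s - algebraMap ℂ R (y s)) := fun s => rfl
    have hm : ∀ s, s - algebraMap ℂ R (y s) ∈ RingHom.ker y := fun s => by
      rw [RingHom.mem_ker, map_sub, hyc, sub_self]
    have hδ : IsDer y δ := by
      intro a b
      have e : a * b - algebraMap ℂ R (y (a * b)) =
          y a • (b - algebraMap ℂ R (y b)) + y b • (a - algebraMap ℂ R (y a)) +
            (a - algebraMap ℂ R (y a)) * (b - algebraMap ℂ R (y b)) := by
        rw [map_mul, map_mul, Algebra.smul_def, Algebra.smul_def]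
        ring
      have h2 : f ((a - algebraMap ℂ R (y a)) * (b - algebraMap ℂ R (y b))) = 0 := by
        refine hfW (Submodule.mem_sup_right ?_)
        change _ ∈ RingHom.ker y ^ 2
        rw [sq]
        exact Ideal.mul_mem_mul (hm a) (hm b)
      rw [hδa, e, map_add, map_add, map_smul, map_smul, h2, add_zero, hδa, hδa, smul_eq_mul,
        smul_eq_mul]
    have h0 : δ = 0 := hx δ hδ fun i =>
      hfW (Submodule.mem_sup_left (Submodule.subset_span ⟨i, rfl⟩))
    apply hf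
    have h1 : δ r = 0 := by rw [h0]; rfl
    rw [hδa, hr, map_zero, sub_zero] at h1
    exact h1

end Vale.Agent.P292.Dv
end

section

/-! # P292: prime divisors are locally principal away from the vertex. -/

namespace Vale.Agent.P292.Dv

open MvPolynomial Vale.Agent.P292

universe u v

variable {R : Type u} [CommRing R] [Algebra ℂ R] {𝒜 : ℕ → Submodule ℂ R} [GradedAlgebra 𝒜]
  {P : R →ₗ[ℂ] R →ₗ[ℂ] R}

/-- Lifting generators from `R / 𝔭` to `R`. -/
theorem lf_lift {k : Type v} [Field k] {R : Type u} [CommRing R] [Algebra k R] (𝔭 : Ideal R)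
    {s : ℕ} (x : Fin s → R) (F : Finset (R ⧸ 𝔭))
    (hF : Submodule.span ↥(Algebra.adjoin k (Set.range fun i => Ideal.Quotient.mk 𝔭 (x i)))
      (F : Set (R ⧸ 𝔭)) = ⊤) :
    ∃ F' : Finset R, Submodule.span ↥(Algebra.adjoin k (Set.range x)) (F' : Set R) ⊔
      𝔭.restrictScalars ↥(Algebra.adjoin k (Set.range x)) = ⊤ := by
  classical
  choose g hg using Ideal.Quotient.mk_surjective (I := 𝔭)
  set A := Algebra.adjoin k (Set.range x) with hA
  have hB : ∀ b ∈ Algebra.adjoin k (Set.range fun i => Ideal.Quotient.mk 𝔭 (x i)),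
      ∃ a ∈ A, Ideal.Quotient.mk 𝔭 a = b := by
    intro b hb
    have h1 : Algebra.adjoin k (Set.range fun i => Ideal.Quotient.mk 𝔭 (x i)) ≤
        A.map (Ideal.Quotient.mkₐ k 𝔭) := by
      rw [Algebra.adjoin_le_iff]
      rintro _ ⟨i, rfl⟩
      exact ⟨x i, Algebra.subset_adjoin ⟨i, rfl⟩, rfl⟩
    exact h1 hb
  refine ⟨F.image g, ?_⟩
  rw [eq_top_iff]
  intro r _
  have key : ∀ b ∈ Submodule.span
      ↥(Algebra.adjoin k (Set.range fun i => Ideal.Quotient.mk 𝔭 (x i))) (F : Set (R ⧸ 𝔭)),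
      ∃ a ∈ Submodule.span A (↑(F.image g) : Set R), Ideal.Quotient.mk 𝔭 a = b := by
    intro b hb
    refine Submodule.span_induction (p := fun b _ =>
      ∃ a ∈ Submodule.span A (↑(F.image g) : Set R), Ideal.Quotient.mk 𝔭 a = b) ?_ ?_ ?_ ?_ hb
    · intro b hb
      exact ⟨g b, Submodule.subset_span (by
        rw [Finset.coe_image]
        exact ⟨b, hb, rfl⟩), hg b⟩
    · exact ⟨0, zero_mem _, map_zero _⟩
    · rintro b b' - - ⟨a, ha, rfl⟩ ⟨a', ha', rfl⟩
      exact ⟨a + a', add_mem ha ha', map_add _ _ _⟩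
    · rintro ⟨c, hc⟩ b - ⟨a, ha, rfl⟩
      obtain ⟨c', hc', rfl⟩ := hB c hc
      refine ⟨c' * a, ?_, ?_⟩
      · have h2 := Submodule.smul_mem _ (⟨c', hc'⟩ : A) ha
        rwa [Subalgebra.smul_def, smul_eq_mul] at h2
      · rw [map_mul, Subalgebra.smul_def, smul_eq_mul]
  obtain ⟨a, ha, har⟩ := key (Ideal.Quotient.mk 𝔭 r) (by rw [hF]; trivial)
  have e : r = a + (r - a) := by ring
  rw [e]
  refine add_mem (Submodule.mem_sup_left ha) (Submodule.mem_sup_right ?_)
  have h3 : Ideal.Quotient.mk 𝔭 (r - a) = 0 := by rw [map_sub, har, sub_self]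
  exact Ideal.Quotient.eq_zero_iff_mem.1 h3

/-- Enlarging the base ring. -/
theorem lf_enlarge {k : Type v} [Field k] {R : Type u} [CommRing R] [Algebra k R] (𝔭 : Ideal R)
    {A B : Subalgebra k R} (hAB : A ≤ B) (F : Set R)
    (hF : Submodule.span ↥A F ⊔ 𝔭.restrictScalars ↥A = ⊤) :
    Submodule.span ↥B F ⊔ 𝔭.restrictScalars ↥B = ⊤ := by
  rw [eq_top_iff]
  intro r _
  have h1 : r ∈ Submodule.span ↥A F ⊔ 𝔭.restrictScalars ↥A := by rw [hF]; trivial
  obtain ⟨a, ha, p, hp, rfl⟩ := Submodule.mem_sup.1 h1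
  refine add_mem (Submodule.mem_sup_left ?_) (Submodule.mem_sup_right hp)
  refine Submodule.span_induction (p := fun a _ => a ∈ Submodule.span ↥B F) ?_ ?_ ?_ ?_ ha
  · exact fun a ha => Submodule.subset_span ha
  · exact zero_mem _
  · exact fun a b _ _ ha hb => add_mem ha hb
  · rintro ⟨c, hc⟩ a - ha
    exact Submodule.smul_mem _ (⟨c, hAB hc⟩ : B) ha

/-- the abstract form of LF7 -/
theorem lf_local_aux {k : Type v} [Field k] {R : Type u} [CommRing R] [Algebra k R]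
    [Algebra.FiniteType k R] (y : R →ₐ[k] k) (𝔭 : Ideal R) [𝔭.IsPrime]
    (hy : ∀ p ∈ 𝔭, y p = 0) {s : ℕ} (z : Fin s → R ⧸ 𝔭)
    (hind : AlgebraicIndependent k z)
    (hz : ∃ F : Finset (R ⧸ 𝔭), Submodule.span ↥(Algebra.adjoin k (Set.range z))
      (F : Set (R ⧸ 𝔭)) = ⊤)
    (l : Fin (s + 1) → R) (hl0 : ∀ i, y (l i) = 0)
    (hl : ∀ r, y r = 0 → ∃ a : Fin (s + 1) → k, r - ∑ i, a i • l i ∈ RingHom.ker y ^ 2) :
    ∃ a ∈ 𝔭, ∃ b, y b ≠ 0 ∧ ∀ p ∈ 𝔭, ∃ r, b * p = a * r := by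
  classical
  have hnoeth : IsNoetherianRing R := Algebra.FiniteType.isNoetherianRing k R
  -- lift the parameters, vanishing at `y`
  have hlift : ∀ i, ∃ w : R, y w = 0 ∧ ∃ c : k,
      z i = Ideal.Quotient.mk 𝔭 w + algebraMap k (R ⧸ 𝔭) c := by
    intro i
    obtain ⟨w, hw⟩ := Ideal.Quotient.mk_surjective (z i)
    refine ⟨w - algebraMap k R (y w), ?_, y w, ?_⟩
    · rw [map_sub, AlgHom.commutes, Algebra.algebraMap_self, RingHom.id_apply, sub_self]
    · rw [map_sub, hw]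
      change z i = z i - algebraMap k (R ⧸ 𝔭) (y w) + _
      rw [sub_add_cancel]
  choose w hw0 c hwc using hlift
  set w' : Fin s → R ⧸ 𝔭 := fun i => Ideal.Quotient.mk 𝔭 (w i) with hw'
  -- the adjoin of `w'` is the adjoin of `z`
  have hadj : Algebra.adjoin k (Set.range w') = Algebra.adjoin k (Set.range z) := by
    apply le_antisymm
    · rw [Algebra.adjoin_le_iff]
      rintro _ ⟨i, rfl⟩
      have e : w' i = z i - algebraMap k _ (c i) := by rw [hwc i, add_sub_cancel_right]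
      rw [e]
      exact sub_mem (Algebra.subset_adjoin ⟨i, rfl⟩) (Subalgebra.algebraMap_mem _ _)
    · rw [Algebra.adjoin_le_iff]
      rintro _ ⟨i, rfl⟩
      rw [hwc i]
      exact add_mem (Algebra.subset_adjoin ⟨i, rfl⟩) (Subalgebra.algebraMap_mem _ _)
  obtain ⟨M, hM, F, hF⟩ := lf_finite w' (by rw [hadj]; exact hz)
    (fun i => Ideal.Quotient.mk 𝔭 (l i.castSucc))
  -- the new parameters
  obtain ⟨x, hx⟩ : ∃ x : Fin s → R, ∀ i, x i = w i ^ M + l i.castSucc := ⟨_, fun i => rfl⟩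
  have hx0 : ∀ i, y (x i) = 0 := fun i => by
    rw [hx, map_add, map_pow, hw0, hl0, add_zero, zero_pow (by omega)]
  have hxb : (fun i => w' i ^ M + Ideal.Quotient.mk 𝔭 (l i.castSucc)) =
      fun i => Ideal.Quotient.mk 𝔭 (x i) := by
    funext i
    rw [hx, map_add, map_pow]
  rw [hxb] at hF
  have hfinite : Module.Finite ↥(Algebra.adjoin k (Set.range fun i => Ideal.Quotient.mk 𝔭 (x i)))
      (R ⧸ 𝔭) := ⟨⟨F, hF⟩⟩
  have hint : Algebra.IsIntegral
      ↥(Algebra.adjoin k (Set.range fun i => Ideal.Quotient.mk 𝔭 (x i))) (R ⧸ 𝔭) :=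
    Algebra.IsIntegral.of_finite _ _
  have hind' : AlgebraicIndependent k fun i => Ideal.Quotient.mk 𝔭 (x i) :=
    (Algebra.IsAlgebraic.isTranscendenceBasis_of_lift_le_trdeg_of_finite k
      (fun i => Ideal.Quotient.mk 𝔭 (x i)) hind.lift_cardinalMk_le_trdeg).1
  obtain ⟨F', hF'⟩ := lf_lift 𝔭 x F hF
  obtain ⟨t, ht0, htl, hV⟩ := lf_avoid y 𝔭 hy x hx0 ⟨F', hF'⟩ (l (Fin.last s)) (hl0 _)
  -- the coordinates generate the maximal ideal near `y`
  have hle : RingHom.ker y ≤ Ideal.span (insert t (Set.range x)) ⊔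
      RingHom.ker y • RingHom.ker y := by
    have hlmem : ∀ i, l i ∈ Ideal.span (insert t (Set.range x)) ⊔
        RingHom.ker y • RingHom.ker y := by
      intro i
      refine Fin.lastCases ?_ (fun i => ?_) i
      · have e : l (Fin.last s) = t - (t - l (Fin.last s)) := by ring
        rw [e]
        refine sub_mem (Submodule.mem_sup_left (Ideal.subset_span (Or.inl rfl)))
          (Submodule.mem_sup_right ?_)
        rw [smul_eq_mul, ← sq]
        exact htl
      · have e : l i.castSucc = x i - w i ^ M := by rw [hx]; ring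
        rw [e]
        refine sub_mem (Submodule.mem_sup_left (Ideal.subset_span (Or.inr ⟨i, rfl⟩)))
          (Submodule.mem_sup_right ?_)
        rw [smul_eq_mul, ← sq]
        exact Ideal.pow_le_pow_right hM (Ideal.pow_mem_pow (hw0 i) M)
    intro r hr
    obtain ⟨a, ha⟩ := hl r hr
    have e : r = (∑ i, a i • l i) + (r - ∑ i, a i • l i) := by ring
    rw [e]
    refine add_mem (sum_mem fun i _ => ?_) (Submodule.mem_sup_right ?_)
    · have e1 : a i • l i = algebraMap k R (a i) * l i := Algebra.smul_def _ _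
      rw [e1]
      exact Ideal.mul_mem_left _ _ (hlmem i)
    · rw [smul_eq_mul, ← sq]
      exact ha
  obtain ⟨c₁, hc1, hc2⟩ := Submodule.exists_sub_one_mem_and_smul_le_of_fg_of_le_sup
    (IsNoetherian.noetherian (RingHom.ker y)) le_rfl hle
  have h1 : ∃ c, y c ≠ 0 ∧ ∀ r, y r = 0 → c * r ∈ Ideal.span (insert t (Set.range x)) := by
    refine ⟨c₁, ?_, fun r hr => hc2 (Submodule.smul_mem_pointwise_smul _ _ _ hr)⟩
    have h4 : y (c₁ - 1) = 0 := hc1
    rw [map_sub, map_one, sub_eq_zero] at h4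
    rw [h4]
    exact one_ne_zero
  have hfin' : Submodule.span ↥(Algebra.adjoin k (insert t (Set.range x))) (F' : Set R) ⊔
      𝔭.restrictScalars ↥(Algebra.adjoin k (insert t (Set.range x))) = ⊤ :=
    lf_enlarge 𝔭 (Algebra.adjoin_mono (Set.subset_insert _ _)) _ hF'
  exact lf_core y 𝔭 hy x t hx0 ht0 h1
    (lf_fibre y 𝔭 hy x t hx0 ht0 h1 ⟨F', hfin'⟩ hV)
    (lf_ker 𝔭 x t hind' (hint.isIntegral _))

/-- LF7: prime divisors are locally principal away from the vertex. -/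
theorem lf_local (hX : IsContactFano 𝒜 P) [IsDomain R] (𝔭 : Ideal R) [𝔭.IsPrime]
    (hdvr : IsDiscreteValuationRing (Localization.AtPrime 𝔭)) (y : R →ₐ[ℂ] ℂ)
    (hy : ¬ IsVertex 𝒜 y) : ∃ a ∈ 𝔭, ∃ b, y b ≠ 0 ∧ ∀ p ∈ 𝔭, ∃ r, b * p = a * r := by
  classical
  have := hX.finiteType
  by_cases hyp : ∀ p ∈ 𝔭, y p = 0
  swap
  · push Not at hyp
    obtain ⟨a, ha, hya⟩ := hyp
    exact ⟨a, ha, a, hya, fun p _ => ⟨p, rfl⟩⟩
  obtain ⟨s, g, hginj, hgfin⟩ := exists_finite_inj_algHom_of_fg ℂ (R ⧸ 𝔭)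
  set z : Fin s → R ⧸ 𝔭 := fun i => g (X i) with hz
  have hgz : g = aeval z := by
    ext i
    rw [aeval_X]
  have hind : AlgebraicIndependent ℂ z := by
    rw [AlgebraicIndependent, ← hgz]
    exact hginj
  have hrange : Algebra.adjoin ℂ (Set.range z) = g.range := by
    rw [hgz, Algebra.adjoin_range_eq_range_aeval]
  have hfin : ∃ F : Finset (R ⧸ 𝔭), Submodule.span ↥(Algebra.adjoin ℂ (Set.range z))
      (F : Set (R ⧸ 𝔭)) = ⊤ := by
    let _ : Algebra (MvPolynomial (Fin s) ℂ) (R ⧸ 𝔭) := g.toRingHom.toAlgebra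
    have h1 : Module.Finite (MvPolynomial (Fin s) ℂ) (R ⧸ 𝔭) := hgfin
    obtain ⟨F, hF⟩ := h1.fg_top
    refine ⟨F, ?_⟩
    rw [eq_top_iff]
    intro b _
    have hb : b ∈ Submodule.span (MvPolynomial (Fin s) ℂ) (F : Set (R ⧸ 𝔭)) := by
      rw [hF]; trivial
    refine Submodule.span_induction (p := fun b _ => b ∈
      Submodule.span ↥(Algebra.adjoin ℂ (Set.range z)) (F : Set (R ⧸ 𝔭))) ?_ ?_ ?_ ?_ hb
    · exact fun a ha => Submodule.subset_span ha
    · exact zero_mem _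
    · exact fun a b _ _ ha hb => add_mem ha hb
    · intro c a _ ha
      have h2 : g c ∈ Algebra.adjoin ℂ (Set.range z) := by
        rw [hrange]
        exact ⟨c, rfl⟩
      exact Submodule.smul_mem _ (⟨g c, h2⟩ : ↥(Algebra.adjoin ℂ (Set.range z))) ha
  have hnv : ∃ k, 0 < k ∧ ∃ r ∈ 𝒜 k, r ∉ 𝔭 := by
    unfold IsVertex at hy
    push Not at hy
    obtain ⟨k, hk, r, hr, hyr⟩ := hy
    exact ⟨k, hk, r, hr, fun h => hyr (hyp r h)⟩
  have hdim : s + 1 = cdim R := lf_dim hX 𝔭 hdvr hnv z hind (by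
    obtain ⟨F, hF⟩ := hfin
    have hfinite : Module.Finite ↥(Algebra.adjoin ℂ (Set.range z)) (R ⧸ 𝔭) := ⟨⟨F, hF⟩⟩
    exact (Algebra.IsIntegral.of_finite _ _).isIntegral)
  obtain ⟨l, hl0, hl⟩ := lf_coord hX y hy
  refine lf_local_aux y 𝔭 hyp z hind hfin (fun i => l (Fin.cast hdim i)) (fun i => hl0 _) ?_
  intro r hr
  obtain ⟨a, ha⟩ := hl r hr
  refine ⟨fun i => a (Fin.cast hdim i), ?_⟩
  have e : ∑ i, a (Fin.cast hdim i) • l (Fin.cast hdim i) = ∑ i, a i • l i :=
    Fintype.sum_equiv (finCongr hdim) _ _ fun i => rfl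
  rw [e]
  exact ha

/-- Prime divisors are locally principal away from the vertex. -/
theorem isInv_of_dvr (hX : IsContactFano 𝒜 P) [IsDomain R] (𝔭 : Ideal R) [𝔭.IsPrime]
    (hdvr : IsDiscreteValuationRing (Localization.AtPrime 𝔭)) (hh : 𝔭.IsHomogeneous 𝒜)
    (y : R →ₐ[ℂ] ℂ) (hy : ¬ IsVertex 𝒜 y) :
    ∃ i, ∃ a ∈ 𝒜 i, a ∈ 𝔭 ∧ ∃ j, ∃ b ∈ 𝒜 j, y b ≠ 0 ∧ ∀ p ∈ 𝔭, ∃ r, b * p = a * r := by
  have := hX.finiteType
  have : IsNoetherianRing R := Algebra.FiniteType.isNoetherianRing ℂ R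
  exact lf_homog 𝔭 hh y (lf_local hX 𝔭 hdvr y hy)

end Vale.Agent.P292.Dv
end

section

/-! # T1: if all lines through the generic point are pairwise orthogonal, then the full anchored
lines avoid some prime divisor. -/

namespace Vale.Agent.P292.Dv

open MvPolynomial Vale.Agent.P292

universe u v w

variable {R : Type u} [CommRing R] [Algebra ℂ R] {𝒜 : ℕ → Submodule ℂ R} [GradedAlgebra 𝒜]
  {P : R →ₗ[ℂ] R →ₗ[ℂ] R}

/-- **T1.** Either there are two lines through the generic point whose directions are not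
orthogonal, or there is a homogeneous prime divisor which no full anchored line meets. -/
theorem exists_avoided (hX : IsContactFano 𝒜 P) [IsDomain R]
    {K : Type u} [Field K] [IsAlgClosed K] [Algebra ℂ K]
    {ψ : R →ₐ[ℂ] MvPolynomial (Fin 2) K} (h : IsAnch 𝒜 1 ψ) (hfull : IsFull 𝒜 1 ψ)
    (hcon : ¬ ∃ (Ω : Type u) (_ : Field Ω) (_ : IsAlgClosed Ω) (_ : Algebra ℂ Ω)
      (ψ₁ ψ₂ : R →ₐ[ℂ] MvPolynomial (Fin 2) Ω), IsAnch 𝒜 1 ψ₁ ∧ IsAnch 𝒜 1 ψ₂ ∧
      pt ψ₁ ![1, 0] = pt ψ₂ ![1, 0] ∧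
      om P (pt ψ₁ ![1, 0]) (evL ![1, 0] (pd ψ₁ 1)) (evL ![1, 0] (pd ψ₂ 1)) ≠ 0) :
    ∃ (𝔭 : Ideal R) (_ : 𝔭.IsPrime), IsDiscreteValuationRing (Localization.AtPrime 𝔭) ∧
      𝔭.IsHomogeneous 𝒜 ∧ 𝔭 ≠ ⊥ ∧
      ∀ (κ : Type u) [Field κ] [IsAlgClosed κ] [Algebra ℂ κ]
        (φ : R →ₐ[ℂ] MvPolynomial (Fin 2) κ), IsAnch 𝒜 1 φ → IsFull 𝒜 1 φ →
        ∀ a : Fin 2 → κ, a ≠ 0 → ∃ r ∈ 𝔭, pt φ a r ≠ 0 := by
  obtain ⟨E, f, hE, hEf, hf, hlin⟩ := ni_exists_f hX h hfull (ni_second_end hX h hfull)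
    (fun x hx ho => ni_lagrangian hX h vec01_ne x hx ho) (fun ψ₂ h2 hpt => by
      by_contra hne
      refine hcon ⟨K, inferInstance, inferInstance, inferInstance, ψ₂, ψ, h2, h, hpt, ?_⟩
      rw [hpt]
      exact hne)
  obtain ⟨f', 𝔭, h𝔭, hf', hdvr, hhom, ⟨g₁, h₁, hg₁, hh₁, hgh₁⟩, k, g, hg, h', hh', hg0, hh0,
    hfgh⟩ := ni_exists_prime hX E hE hEf hf
  have hf0 : f ≠ 0 := fun h0 => hf 0 (by rw [h0, map_zero])
  have hinjF : Function.Injective (algebraMap R (FractionRing R)) := IsFractionRing.injective R _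
  have hlin' : ∀ ψ₀ : R →ₐ[ℂ] MvPolynomial (Fin 2) (AlgebraicClosure (FractionRing R)),
      IsCurve 𝒜 1 ψ₀ → (∀ r, pt ψ₀ ![1, 0] r = algebraMap R _ r) →
        evL ![1, 0] (pd ψ₀ 1) g * algebraMap R _ h' =
          algebraMap R _ g * evL ![1, 0] (pd ψ₀ 1) h' := by
    intro ψ₀ h1 h2
    rcases hf' with rfl | rfl
    · exact hlin g h' hfgh ψ₀ h1 h2
    · have h3 : f * algebraMap R _ g = algebraMap R _ h' := by
        rw [← hfgh, ← mul_assoc, mul_inv_cancel₀ hf0, one_mul]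
      have h4 := hlin h' g h3 ψ₀ h1 h2
      linear_combination -h4
  have hcross : g * h₁ = g₁ * h' := by
    apply hinjF
    rw [map_mul, map_mul, ← hfgh, ← hgh₁]
    ring
  have h𝔭0 : 𝔭 ≠ ⊥ := by
    rintro rfl
    have h2 := IsLocalization.AtPrime.ringKrullDim_eq_height (⊥ : Ideal R)
      (Localization.AtPrime (⊥ : Ideal R))
    rw [IsDiscreteValuationRing.ringKrullDim_eq_one] at h2
    have h3 : (⊥ : Ideal R).height = 1 := by exact_mod_cast h2.symm
    simp at h3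
  refine ⟨𝔭, h𝔭, hdvr, hhom, h𝔭0, ?_⟩
  intro κ _ _ _ φ hφ hφf a ha
  by_contra hcontra
  push Not at hcontra
  have hcκ : CharZero κ := charZero_of_injective_algebraMap (algebraMap ℂ κ).injective
  have hW := ni_wronskian hX hφ hg hh' hlin'
  have hne : ∀ r : R, r ≠ 0 → φ r ≠ 0 := by
    intro r hr h0
    apply hr
    apply (injective_iff_map_eq_zero (pt φ ![1, 0])).1 hφ.inj
    rw [pt_apply, h0, map_zero]
  obtain ⟨c, hc, hgc⟩ := niw_forms (hφ.curve.degree k g hg) (hφ.curve.degree k h' hh')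
    (hne g hg0) (hne h' hh0) hW
  have hg₁c : φ g₁ = C c * φ h₁ := by
    have h3 := congrArg φ hcross
    rw [map_mul, map_mul, hgc] at h3
    refine mul_right_cancel₀ (hne h' hh0) ?_
    rw [← h3]
    ring
  obtain ⟨b, hb, hu', hD⟩ := ni_normalise ha
  have hmem := ni_dvr_or_field hX (pt φ fun i => b * a i) _
    (ni_proportional_on_ker hX hφ hφf hu' hD) 𝔭 h𝔭0 (ni_pt_smul hφ.curve hhom hcontra b)
  apply hh₁
  apply hmem
  have h5 := ni_pt_smul hφ.curve hhom hcontra b g₁ hg₁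
  rw [pt_apply, hg₁c, map_mul, eval_C] at h5
  rw [pt_apply]
  exact (mul_eq_zero.1 h5).resolve_left hc

end Vale.Agent.P292.Dv
end

section

/-! # Spreading out a frame at a point. -/

namespace Vale.Agent.P292.Dv

open MvPolynomial Vale.Agent.P292 Vale.Agent.P292.Mo

universe u v w

section zero

variable {R : Type u} [CommRing R] [Algebra ℂ R] {𝒜 : ℕ → Submodule ℂ R} [GradedAlgebra 𝒜]
  {P : R →ₗ[ℂ] R →ₗ[ℂ] R}

/-- A frame at a point outside the vertex. -/
theorem sf_frame (hX : IsContactFano 𝒜 P) [IsDomain R]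
    {M L : ℕ} {D : Dat ℂ M L} {ev : MvPolynomial (Fin M) ℂ →ₐ[ℂ] R} (hD : IsPres 𝒜 P D ev)
    {n : ℕ} (y : Fin n → R) (hdet : (brM P y).det ≠ 0) (y₀ : R →ₐ[ℂ] ℂ) (i₁ : Fin M)
    (hi₁ : y₀ (ev (X i₁)) ≠ 0) :
    ∃ (N : ℕ) (x : Fin N → MvPolynomial (Fin M) ℂ) (dx : Fin N → ℕ)
      (g : MvPolynomial (Fin M) ℂ) (lg : ℕ), n ≤ N ∧
      (∀ i, IsWeightedHomogeneous D.d (x i) (dx i)) ∧ IsWeightedHomogeneous D.d g lg ∧
      IsFr 𝒜 (fun i => ev (x i)) dx (ev g) ∧ y₀ (ev (g * (D.pbrM x).det)) ≠ 0 := by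
  classical
  obtain ⟨T, N, x, dx, g, hx, hfr, hcov⟩ := frame_cover hX hD
  obtain ⟨m, hm⟩ := hcov i₁
  obtain ⟨a, ha⟩ : ∃ a, y₀ (ev (g a * (D.pbrM (x a)).det)) ≠ 0 := by
    by_contra hcon
    push Not at hcon
    have h1 : Ideal.span (Set.range (Sum.elim D.F fun a => g a * (D.pbrM (x a)).det)) ≤
        RingHom.ker (y₀.comp ev) := by
      rw [Ideal.span_le]
      rintro _ ⟨s, rfl⟩
      rw [SetLike.mem_coe, RingHom.mem_ker]
      rcases s with l | a
      · have h2 : ev (D.F l) = 0 := (hD.ker _).mpr (Ideal.subset_span ⟨l, rfl⟩)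
        change y₀ (ev (D.F l)) = 0
        rw [h2, map_zero]
      · exact hcon a
    have h2 := h1 hm
    rw [RingHom.mem_ker, map_pow] at h2
    have hm0 : m ≠ 0 := by
      rintro rfl
      rw [pow_zero] at h2
      exact one_ne_zero h2
    exact hi₁ ((pow_eq_zero_iff hm0).mp h2)
  obtain ⟨lg, hlg⟩ := (hfr a).ghom
  obtain ⟨g2, hg2, hg2e⟩ := hD.lift lg _ hlg
  have hne : y₀ (ev (g2 * (D.pbrM (x a)).det)) ≠ 0 := by
    rw [map_mul, hg2e, ← map_mul]
    exact ha
  have hgne : ev (g a) ≠ 0 := by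
    intro h
    apply ha
    rw [map_mul, h, zero_mul, map_zero]
  refine ⟨N a, x a, dx a, g2, lg, ?_, hx a, hg2, by rw [hg2e]; exact hfr a, hne⟩
  have hinj : Function.Injective (IsScalarTower.toAlgHom ℂ R (FractionRing R)) :=
    IsFractionRing.injective R (FractionRing R)
  exact frame_card_le hX.alternating hX.leibniz (IsScalarTower.toAlgHom ℂ R (FractionRing R))
    (hfr a) ((map_ne_zero_iff _ hinj).mpr hgne) ((map_ne_zero_iff _ hinj).mpr hdet)

omit [GradedAlgebra 𝒜] in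
/-- Spreading out a frame. -/
theorem sf_frame_spread {M L : ℕ} {D : Dat ℂ M L}
    {ev : MvPolynomial (Fin M) ℂ →ₐ[ℂ] R} (hD : IsPres 𝒜 P D ev) {N : ℕ}
    {x : Fin N → MvPolynomial (Fin M) ℂ} {dx : Fin N → ℕ} {g : MvPolynomial (Fin M) ℂ} {lg : ℕ}
    (hx : ∀ i, IsWeightedHomogeneous D.d (x i) (dx i)) (hg : IsWeightedHomogeneous D.d g lg)
    (hfr : IsFr 𝒜 (fun i => ev (x i)) dx (ev g)) :
    ∃ A₀ : Subalgebra ℤ ℂ, A₀.FG ∧ ∀ A : Subalgebra ℤ ℂ, A₀ ≤ A →
      ∃ (x' : Fin N → MvPolynomial (Fin M) A) (g' : MvPolynomial (Fin M) A),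
        (∀ i, MvPolynomial.map (algebraMap A ℂ) (x' i) = x i) ∧
        MvPolynomial.map (algebraMap A ℂ) g' = g ∧
      ∀ (D' : Dat A M L), D'.map (algebraMap A ℂ) = D →
        ∀ (k : Type v) [Field k] (j : A →+* k),
          IsFr (D'.map j).gr (fun i => (D'.map j).q (MvPolynomial.map j (x' i))) dx
            ((D'.map j).q (MvPolynomial.map j g')) := by
  obtain ⟨A₀, hfg, hA₀⟩ := pmspread_and
    (frame_spread.{v} D.F g x (pmspread_frame_gen hD hfr))
    (pmspread_and (exists_lift_poly x) (exists_lift_poly fun _ : Unit => g))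
  refine ⟨A₀, hfg, fun A hA => ?_⟩
  obtain ⟨h1, h2, h3⟩ := hA₀ A hA
  choose x1 hx1 using h2
  obtain ⟨g1, hg1⟩ := h3 ()
  refine ⟨x1, g1, hx1, hg1, fun D' hD' k _ j => ⟨fun i => ?_, ⟨lg, ?_⟩, fun r => ?_⟩⟩
  · exact Submodule.mem_map_of_mem (pmspread_hom hD' j (by rw [hx1]; exact hx i))
  · exact Submodule.mem_map_of_mem (pmspread_hom hD' j (by rw [hg1]; exact hg))
  · exact h1 D'.F g1 x1 (fun l => by rw [← hD']; rfl) hg1 hx1 k j r

end zero

end Vale.Agent.P292.Dv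
end

section

/-! # Spreading out: reductions with a divisor. -/

namespace Vale.Agent.P292.Dv

open MvPolynomial Vale.Agent.P292 Vale.Agent.P292.Mo

universe u v w

/-- The theorem in characteristic `p`. -/
def MoriD : Prop :=
  ∀ (k : Type) [Field k] [IsAlgClosed k] (p : ℕ) [CharP k p], p ≠ 2 → p ≠ 0 →
    ∀ (S : Type) [CommRing S] [Algebra k S] (ℬ : ℕ → Submodule k S) [GradedAlgebra ℬ]
      (Q : S →ₗ[k] S →ₗ[k] S), IsPM ℬ Q → ∀ (e n : ℕ) (y : Fin n → S), IsNoe ℬ p e y → 3 ≤ n →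
      ∀ 𝔮 : Ideal S, 𝔮.IsHomogeneous ℬ → IsInv ℬ 𝔮 →
        (∃ f ∈ 𝔮, ∃ h, ∃ G : MvPolynomial (Fin n) k, G ≠ 0 ∧ f * h = aeval y G) →
        (∃ w : S →ₐ[k] k, Mo.NV ℬ w ∧ (∀ x ∈ 𝔮, w x = 0) ∧ ∃ N, n ≤ N ∧ HasRk ℬ Q w N) →
          Pos ℬ 𝔮 k

section zero

variable {R : Type u} [CommRing R] [Algebra ℂ R] {𝒜 : ℕ → Submodule ℂ R} [GradedAlgebra 𝒜]
  {P : R →ₗ[ℂ] R →ₗ[ℂ] R}

theorem sf_reduction (hX : IsContactFano 𝒜 P) (hdim : 3 ≤ Algebra.trdeg ℂ R) (mori : MoriD)
    {M L : ℕ} {D : Dat ℂ M L} {ev : MvPolynomial (Fin M) ℂ →ₐ[ℂ] R} (hD : IsPres 𝒜 P D ev)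
    {N : ℕ} (g : Fin N → MvPolynomial (Fin M) ℂ) (jd : Fin N → ℕ)
    (hg : ∀ l, IsWeightedHomogeneous D.d (g l) (jd l)) (𝔭 : Ideal R)
    (hgp : 𝔭 = Ideal.span (Set.range fun l => ev (g l))) (hinv : IsInv 𝒜 𝔭) (h0 : 𝔭 ≠ ⊥)
    (hnv : ∃ y : R →ₐ[ℂ] ℂ, ¬ IsVertex 𝒜 y ∧ ∀ x ∈ 𝔭, y x = 0)
    (Z : Finset (Fin N → MvPolynomial (Fin M) ℂ))
    (hZ : ∀ z ∈ Z, ∑ l, ev (z l) * ev (g l) = 0) (T : Finset ℂ) :
    ∃ (A : Subalgebra ℤ ℂ) (k : Type) (_ : Field k) (_ : IsAlgClosed k) (j : A →+* k) (d δ : ℕ)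
      (ψ : Fin M → MvPolynomial (Fin 2) k) (η : Fin N → MvPolynomial (Fin 2) k),
      (T : Set ℂ) ⊆ A ∧ (d = 1 ∨ d = 2) ∧ 0 < δ ∧
      (∀ i, (ψ i).IsHomogeneous (d * D.d i)) ∧
      (∀ a : Fin 2 → k, a ≠ 0 → ∃ i, eval a (ψ i) ≠ 0) ∧
      (∀ l, ∀ G : MvPolynomial (Fin M) A, MvPolynomial.map (algebraMap A ℂ) G = D.F l →
        aeval ψ (MvPolynomial.map j G) = 0) ∧
      (∀ l, ∀ m, m + δ = d * jd l → (η l).IsHomogeneous m) ∧
      (∀ l, d * jd l < δ → η l = 0) ∧
      (∀ a : Fin 2 → k, a ≠ 0 → ∃ l, eval a (η l) ≠ 0) ∧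
      ∀ z ∈ Z, ∀ c : Fin N → MvPolynomial (Fin M) A,
        (∀ l, MvPolynomial.map (algebraMap A ℂ) (c l) = z l) →
        ∑ l, aeval ψ (MvPolynomial.map j (c l)) * η l = 0 := by
  classical
  have := hX.domain
  obtain ⟨e, n, y, he, hy, hyi, hyS⟩ := exists_noether hX
  choose Y hYh hYe using fun i => hD.lift e (y i) (hy i)
  have hyY : (fun i => ev (Y i)) = y := funext hYe
  obtain ⟨hdet, hn⟩ := det_ne_zero_of_noether hX y hyi hyS
  -- a nonzero generator of the ideal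
  obtain ⟨l₀, hl₀⟩ : ∃ l₀, ev (g l₀) ≠ 0 := by
    by_contra hcon
    push Not at hcon
    apply h0
    rw [hgp, Ideal.span_eq_bot]
    rintro _ ⟨l, rfl⟩
    exact hcon l
  -- the two points
  obtain ⟨i₀, hi₀⟩ := asm_exists_gen hX hD
  have := hX.finiteType
  obtain ⟨w, hw⟩ := Vale.Agent.P292.exists_point_ne_zero ((brM P y).det * ev (X i₀))
    (mul_ne_zero hdet hi₀)
  rw [map_mul] at hw
  have hw1 : w (brM P y).det ≠ 0 := left_ne_zero_of_mul hw
  have hw2 : w (ev (X i₀)) ≠ 0 := right_ne_zero_of_mul hw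
  obtain ⟨y₀, hy₀, hy₀p⟩ := hnv
  obtain ⟨i₁, hi₁⟩ : ∃ i₁, y₀ (ev (X i₁)) ≠ 0 := by
    by_contra hcon
    push Not at hcon
    apply hy₀
    intro n hn r hr
    obtain ⟨f, hf, rfl⟩ := hD.lift n r hr
    have h1 : y₀ (ev f) = aeval (fun i => y₀ (ev (X i))) f := by
      have : y₀.comp ev = aeval fun i => y₀ (ev (X i)) := by
        refine MvPolynomial.algHom_ext fun i => ?_
        rw [aeval_X]
        rfl
      rw [← this]
      rfl
    rw [h1]
    exact asm_eval_zero (algebraMap ℂ ℂ) hn hf hcon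
  obtain ⟨b, A4, hb, hA4, h4⟩ := divides_spread.{u, 0} hX hD Y (by rwa [hyY]) (by rwa [hyY])
    (g l₀) hl₀
  obtain ⟨Nf, xf, dxf, gf, lgf, hnN, hxf, hgf, hfrf, hfy⟩ := sf_frame hX hD y hdet y₀ i₁ hi₁
  obtain ⟨A10, hA10, h10f⟩ := sf_frame_spread.{u, 0} hD hxf hgf hfrf
  let T' : Finset ℂ := T ∪ (Finset.univ.image fun i => w (ev (X i))) ∪
    (Finset.univ.image fun i => y₀ (ev (X i))) ∪
    {(w (brM P y).det)⁻¹, (w (ev (X i₀)))⁻¹, (y₀ (ev (X i₁)))⁻¹, b⁻¹,
      (y₀ (ev (gf * (D.pbrM xf).det)))⁻¹}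
  obtain ⟨A1, hA1, h1⟩ := Dat.isOK_spread.{0} D hD.ok
  obtain ⟨A2, hA2, h2⟩ := isPM_spread.{u, 0} hX hD
  obtain ⟨s, A3, hA3, h3⟩ := noether_spread.{u, 0} hD Y (by rwa [hyY])
  obtain ⟨A5, hA5, h5⟩ := exists_lift_poly Y
  obtain ⟨A6, hA6, h6⟩ := exists_lift_poly g
  obtain ⟨A7, hA7, h7⟩ := exists_fg_of_finite (T' : Set ℂ) T'.finite_toSet
  obtain ⟨A8, hA8, h8⟩ := si_inv_spread.{u, 0} hD g 𝔭 hgp hinv
  have hz : ∀ z : Z, ∑ l, z.1 l * g l ∈ Ideal.span (Set.range D.F) := by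
    intro z
    change _ ∈ D.I
    rw [← hD.ker, map_sum, ← hZ z.1 z.2]
    exact Finset.sum_congr rfl fun l _ => by rw [map_mul]
  obtain ⟨A9, hA9, h9⟩ := exists_fg_of_forall _ fun z : Z => mem_spread.{_, 0, _} _ _ (hz z)
  obtain ⟨A, hA, hA1', hA2', hA3', hA4', hA5', hA6', hA7', hA8', hA9', hA10'⟩ :
      ∃ A : Subalgebra ℤ ℂ,
      A.FG ∧ A1 ≤ A ∧ A2 ≤ A ∧ A3 ≤ A ∧ A4 ≤ A ∧ A5 ≤ A ∧ A6 ≤ A ∧ A7 ≤ A ∧ A8 ≤ A ∧ A9 ≤ A ∧
      A10 ≤ A := by
    let 𝓕 : Fin 10 → Subalgebra ℤ ℂ := ![A1, A2, A3, A4, A5, A6, A7, A8, A9, A10]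
    have h𝓕 : ∀ i, (𝓕 i).FG := by
      intro i
      fin_cases i <;> assumption
    refine ⟨Finset.univ.sup 𝓕, ?_, ?_, ?_, ?_, ?_, ?_, ?_, ?_, ?_, ?_, ?_⟩
    · refine Finset.sup_induction (p := fun A : Subalgebra ℤ ℂ => A.FG) Subalgebra.fg_bot
        (fun a ha b hb => ha.sup hb) fun i _ => h𝓕 i
    · exact Finset.le_sup (f := 𝓕) (Finset.mem_univ 0)
    · exact Finset.le_sup (f := 𝓕) (Finset.mem_univ 1)
    · exact Finset.le_sup (f := 𝓕) (Finset.mem_univ 2)
    · exact Finset.le_sup (f := 𝓕) (Finset.mem_univ 3)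
    · exact Finset.le_sup (f := 𝓕) (Finset.mem_univ 4)
    · exact Finset.le_sup (f := 𝓕) (Finset.mem_univ 5)
    · exact Finset.le_sup (f := 𝓕) (Finset.mem_univ 6)
    · exact Finset.le_sup (f := 𝓕) (Finset.mem_univ 7)
    · exact Finset.le_sup (f := 𝓕) (Finset.mem_univ 8)
    · exact Finset.le_sup (f := 𝓕) (Finset.mem_univ 9)
  obtain ⟨⟨D', hD'⟩, h1⟩ := h1 A hA1'
  have h1 := h1 D' hD'
  have h2 := h2 A hA2' D' hD'
  choose Y' hY' using h5 A hA5'
  choose g' hg' using h6 A hA6'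
  have h3 := h3 A hA3' D' Y' hD' hY'
  obtain ⟨hbA, h4⟩ := h4 A hA4'
  have h4 := h4 D' Y' (g' l₀) hD' hY' (hg' l₀)
  have h7 := h7 A hA7'
  have h8 := h8 A hA8' D' g' hD' hg'
  have h9 := h9 A hA9'
  obtain ⟨xf', gf', hxf', hgf', h10f⟩ := h10f A hA10'
  have h10f := h10f D' hD'
  have hinj := map_algebraMap_injective (σ := Fin M) A
  have hdD : D'.d = D.d := by rw [← hD']; rfl
  have hFD : ∀ l, MvPolynomial.map (algebraMap A ℂ) (D'.F l) = D.F l := by
    intro l
    rw [← hD']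
    rfl
  have hTA : ∀ x ∈ T', x ∈ A := fun x hx => h7 hx
  have hwA : ∀ i, w (ev (X i)) ∈ A := fun i => hTA _ (by
    simp only [T', Finset.mem_union, Finset.mem_image, Finset.mem_univ, true_and]
    exact Or.inl (Or.inl (Or.inr ⟨i, rfl⟩)))
  have hyA : ∀ i, y₀ (ev (X i)) ∈ A := fun i => hTA _ (by
    simp only [T', Finset.mem_union, Finset.mem_image, Finset.mem_univ, true_and]
    exact Or.inl (Or.inr ⟨i, rfl⟩))
  have hiA : ∀ x ∈ ({(w (brM P y).det)⁻¹, (w (ev (X i₀)))⁻¹, (y₀ (ev (X i₁)))⁻¹, b⁻¹,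
      (y₀ (ev (gf * (D.pbrM xf).det)))⁻¹} : Finset ℂ),
      x ∈ A := fun x hx => hTA _ (Finset.mem_union_right _ hx)
  have hft : Algebra.FiniteType ℤ A := (Subalgebra.fg_iff_finiteType A).mp hA
  obtain ⟨k, _, _, p, hp, hpp, _, ⟨j⟩⟩ :=
    exists_hom_large_char A ℂ (algebraMap A ℂ) (max s 2)
  -- units stay nonzero
  have hunit : ∀ a : A, (a : ℂ) ≠ 0 → (a : ℂ)⁻¹ ∈ A → j a ≠ 0 := by
    intro a ha ha'
    have h10 : a * ⟨_, ha'⟩ = 1 := Subtype.ext (mul_inv_cancel₀ ha)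
    have h11 := congrArg j h10
    rw [map_mul, map_one] at h11
    exact left_ne_zero_of_mul (h11 ▸ one_ne_zero)
  -- points over the subring
  have hpt : ∀ (x : R →ₐ[ℂ] ℂ) (hx : ∀ i, x (ev (X i)) ∈ A),
      ∃ x' : (D'.map j).Rg →ₐ[k] k, ∀ f : MvPolynomial (Fin M) A,
        ∃ c : A, (c : ℂ) = x (ev (MvPolynomial.map (algebraMap A ℂ) f)) ∧
          x' ((D'.map j).q (MvPolynomial.map j f)) = j c := by
    intro x hx
    let z : Fin M → A := fun i => ⟨x (ev (X i)), hx i⟩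
    have hzv : ∀ f : MvPolynomial (Fin M) A, ((eval z f : A) : ℂ) =
        x (ev (MvPolynomial.map (algebraMap A ℂ) f)) := by
      intro f
      have h10 : (algebraMap A ℂ).comp (eval z) = ((x : R →+* ℂ).comp (ev : _ →+* R)).comp
          (MvPolynomial.map (algebraMap A ℂ)) := by
        refine MvPolynomial.ringHom_ext (fun a => ?_) fun i => ?_
        · simp only [RingHom.comp_apply, eval_C, map_C]
          have h11 : ev (C ((algebraMap A ℂ) a)) = algebraMap ℂ R ((algebraMap A ℂ) a) :=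
            ev.commutes _
          have h12 : x (algebraMap ℂ R ((algebraMap A ℂ) a)) = (algebraMap A ℂ) a := x.commutes _
          change _ = x (ev _)
          rw [h11, h12]
        · simp only [RingHom.comp_apply, eval_X, map_X]
          rfl
      exact RingHom.congr_fun h10 f
    obtain ⟨x', hx'⟩ := asm_exists_point j D' (fun i => j (z i)) (by
      intro l
      have h10 : eval₂ j (fun i => j (z i)) (D'.F l) = j (eval z (D'.F l)) := by
        rw [eval, ← RingHom.comp_apply]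
        have := MvPolynomial.comp_eval₂Hom (RingHom.id A) z j
        rw [this]
        rfl
      rw [h10]
      have h11 : eval z (D'.F l) = 0 := by
        apply Subtype.val_injective
        have h12 := hzv (D'.F l)
        rw [hFD, (hD.ker _).mpr (Ideal.subset_span ⟨l, rfl⟩), map_zero] at h12
        exact h12
      rw [h11, map_zero])
    refine ⟨x', fun f => ⟨eval z f, hzv f, ?_⟩⟩
    rw [hx' f, eval, ← RingHom.comp_apply]
    have := MvPolynomial.comp_eval₂Hom (RingHom.id A) z j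
    rw [this]
    rfl
  obtain ⟨w', hw'⟩ := hpt w hwA
  obtain ⟨y', hy'⟩ := hpt y₀ hyA
  -- the graded algebra over the field
  have hOK := h1 k j
  obtain ⟨_⟩ := Dat.nonempty_gradedAlgebra (D'.map j) hOK
  obtain ⟨Q, hQ1, hQ2, hQ3, hQ4⟩ := Dat.exists_bracket (D'.map j) hOK
  have hPM := h2 k j Q hQ1 hQ2 hQ3 hQ4
  have hXgr : ∀ i, (D'.map j).q (X i) ∈ (D'.map j).gr (D'.d i) := fun i =>
    Submodule.mem_map_of_mem (isWeightedHomogeneous_X k (D'.map j).d i)
  have hNV : Mo.NV (D'.map j).gr w' := by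
    refine ⟨D'.d i₀, hOK.pos i₀, _, hXgr i₀, ?_⟩
    obtain ⟨c, hc1, hc2⟩ := hw' (X i₀)
    rw [map_X] at hc1 hc2
    rw [hc2]
    refine hunit c ?_ ?_
    · rw [hc1]; exact hw2
    · rw [hc1]; exact hiA _ (by simp)
  have hNV' : Mo.NV (D'.map j).gr y' := by
    refine ⟨D'.d i₁, hOK.pos i₁, _, hXgr i₁, ?_⟩
    obtain ⟨c, hc1, hc2⟩ := hy' (X i₁)
    rw [map_X] at hc1 hc2
    rw [hc2]
    refine hunit c ?_ ?_
    · rw [hc1]; exact hi₁
    · rw [hc1]; exact hiA _ (by simp)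
  have hRk : HasRk (D'.map j).gr Q y' Nf := by
    refine ⟨fun i => (D'.map j).q (MvPolynomial.map j (xf' i)), dxf,
      (D'.map j).q (MvPolynomial.map j gf'), h10f k j, ?_⟩
    rw [asm_det_q (D'.map j) Q hQ1, asm_det_map, ← map_mul, ← map_mul]
    obtain ⟨c, hc1, hc2⟩ := hy' (gf' * (D'.pbrM xf').det)
    rw [hc2]
    have h12 : MvPolynomial.map (algebraMap A ℂ) (gf' * (D'.pbrM xf').det) =
        gf * (D.pbrM xf).det := by
      rw [map_mul, hgf', ← asm_det_map, hD']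
      have h8 : (fun i => MvPolynomial.map (algebraMap A ℂ) (xf' i)) = xf := funext hxf'
      rw [h8]
    rw [h12] at hc1
    refine hunit c ?_ ?_
    · rw [hc1]; exact hfy
    · rw [hc1]; exact hiA _ (by simp)
  have hgr : ∀ {f : MvPolynomial (Fin M) A} {m : ℕ},
      IsWeightedHomogeneous D.d (MvPolynomial.map (algebraMap A ℂ) f) m →
      (D'.map j).q (MvPolynomial.map j f) ∈ (D'.map j).gr m := by
    intro f m hf
    refine Submodule.mem_map_of_mem ?_
    refine asm_wh_map j (asm_wh_of_map (j := algebraMap A ℂ) Subtype.val_injective ?_)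
    have h10 : (D'.map j).d = D.d := hdD
    rw [h10]
    exact hf
  have hYgr : ∀ i, (D'.map j).q (MvPolynomial.map j (Y' i)) ∈ (D'.map j).gr e := by
    intro i
    exact hgr (by rw [hY' i]; exact hYh i)
  have hn3 : 3 ≤ n := by
    have h10 := hdim
    rw [← hn] at h10
    exact_mod_cast h10
  have hNoe : IsNoe (D'.map j).gr p e fun i => (D'.map j).q (MvPolynomial.map j (Y' i)) := by
    refine ⟨he, by omega, hYgr, ?_, ?_⟩
    · refine indep_of_det hPM _ w' hNV ?_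
      rw [asm_det_q (D'.map j) Q hQ1, asm_det_map]
      obtain ⟨c, hc1, hc2⟩ := hw' (D'.pbrM Y').det
      rw [hc2]
      have h12 : ev (MvPolynomial.map (algebraMap A ℂ) (D'.pbrM Y').det) = (brM P y).det := by
        rw [← asm_det_map, hD']
        have h8 : (fun i => MvPolynomial.map (algebraMap A ℂ) (Y' i)) = Y := funext hY'
        rw [h8]
        have h10 : ev.toRingHom.mapMatrix (D.pbrM Y) = brM P y := by
          ext1 i i'
          change ev (D.pbr (Y i) (Y i')) = P (y i) (y i')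
          rw [asm_ev_pbr hX.alternating hX.leibniz hD, hYe, hYe]
        rw [← h10, ← RingHom.map_det]
        rfl
      rw [h12] at hc1
      refine hunit c ?_ ?_
      · rw [hc1]; exact hw1
      · rw [hc1]; exact hiA _ (by simp)
    · obtain ⟨S, hS1, hS2⟩ := h3 k j
      exact ⟨S, lt_of_le_of_lt (hS1.trans (le_max_left _ _)) hp, hS2⟩
  have hjb : j ⟨b, hbA⟩ ≠ 0 := hunit ⟨b, hbA⟩ hb (hiA _ (by simp))
  -- the ideal
  let 𝔮 : Ideal (D'.map j).Rg :=
    Ideal.span (Set.range fun l => (D'.map j).q (MvPolynomial.map j (g' l)))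
  have hgen : ∀ l, (D'.map j).q (MvPolynomial.map j (g' l)) ∈ 𝔮 := fun l =>
    Ideal.subset_span ⟨l, rfl⟩
  have hggr : ∀ l, (D'.map j).q (MvPolynomial.map j (g' l)) ∈ (D'.map j).gr (jd l) := fun l =>
    hgr (by rw [hg' l]; exact hg l)
  have h𝔮h : 𝔮.IsHomogeneous (D'.map j).gr := by
    refine Ideal.homogeneous_span _ _ ?_
    rintro _ ⟨l, rfl⟩
    exact ⟨jd l, hggr l⟩
  have h𝔮y : ∀ x ∈ 𝔮, y' x = 0 := by
    intro x hx
    have h10 : 𝔮 ≤ RingHom.ker y' := by
      rw [Ideal.span_le]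
      rintro _ ⟨l, rfl⟩
      obtain ⟨c, hc1, hc2⟩ := hy' (g' l)
      rw [SetLike.mem_coe, RingHom.mem_ker, hc2]
      rw [hg' l, hy₀p _ (by rw [hgp]; exact Ideal.subset_span ⟨l, rfl⟩)] at hc1
      have : c = 0 := Subtype.val_injective hc1
      rw [this, map_zero]
    exact h10 hx
  obtain ⟨d, δ, φ, η, hd, hδ, hpair⟩ := mori k p (by have := le_max_right s 2; omega)
    hpp.ne_zero (D'.map j).Rg (D'.map j).gr Q hPM e n _ hNoe hn3 𝔮 h𝔮h (h8 k j hOK)
    ⟨_, hgen l₀, h4 k j hjb⟩ ⟨y', hNV', h𝔮y, Nf, hnN, hRk⟩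
  have hφa : (aeval fun i => φ ((D'.map j).q (X i)) :
      MvPolynomial (Fin M) k →ₐ[k] MvPolynomial (Fin 2) k) = φ.comp (D'.map j).q := by
    refine MvPolynomial.algHom_ext fun i => ?_
    rw [aeval_X]
    rfl
  refine ⟨A, k, inferInstance, inferInstance, j, d, δ, fun i => φ ((D'.map j).q (X i)),
    fun l => η ⟨_, hgen l⟩, ?_, hd, hδ, ?_, ?_, ?_, ?_, ?_, ?_, ?_⟩
  · intro x hx
    apply h7
    have : x ∈ T := hx
    simp [T', this]
  · intro i
    rw [← hdD]
    exact hpair.deg _ _ (hXgr i)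
  · intro a ha
    by_contra hcon
    push Not at hcon
    obtain ⟨m, hm, r, hr, hne⟩ := hpair.bpf a ha
    obtain ⟨q, hq, rfl⟩ := hr
    apply hne
    have h8 : (MvPolynomial.eval a).comp ((φ : (D'.map j).Rg →+* MvPolynomial (Fin 2) k).comp
        ((D'.map j).q : MvPolynomial (Fin M) k →+* (D'.map j).Rg)) =
        eval₂Hom (RingHom.id k) fun i => eval a (φ ((D'.map j).q (X i))) := by
      refine MvPolynomial.ringHom_ext (fun c => ?_) fun i => ?_
      · rw [coe_eval₂Hom, eval₂_C]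
        have h9 : (D'.map j).q (C c) = algebraMap k _ c := (D'.map j).q.commutes c
        change eval a (φ ((D'.map j).q (C c))) = _
        rw [h9, AlgHom.commutes]
        exact eval_C c
      · rw [coe_eval₂Hom, eval₂_X]
        rfl
    have h9 := RingHom.congr_fun h8 q
    exact h9.trans (asm_eval_zero (RingHom.id k) hm hq hcon)
  · intro l G hG
    have h8 : G = D'.F l := hinj (by rw [hG, hFD])
    rw [h8, hφa, AlgHom.comp_apply]
    have h10 : (D'.map j).q (MvPolynomial.map j (D'.F l)) = 0 :=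
      Ideal.Quotient.eq_zero_iff_mem.mpr (Ideal.subset_span ⟨l, rfl⟩)
    rw [h10, map_zero]
  · intro l m hm
    exact hpair.degη (jd l) _ (hggr l) m hm
  · intro l hl
    exact hpair.zeroη (jd l) _ (hggr l) hl
  · intro a ha
    by_contra hcon
    push Not at hcon
    obtain ⟨x, hx⟩ := hpair.bpfη a ha
    apply hx
    have h10 : ∀ x (hx : x ∈ 𝔮), eval a (η ⟨x, hx⟩) = 0 := by
      intro x hx
      refine Submodule.span_induction (p := fun x hx => eval a (η ⟨x, hx⟩) = 0) ?_ ?_ ?_ ?_ hx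
      · rintro _ ⟨l, rfl⟩
        exact hcon l
      · have : (⟨0, Submodule.zero_mem _⟩ : 𝔮) = 0 := rfl
        rw [this, map_zero, map_zero]
      · intro x y hx hy h11 h12
        have : (⟨x + y, Submodule.add_mem _ hx hy⟩ : 𝔮) = ⟨x, hx⟩ + ⟨y, hy⟩ := rfl
        rw [this, map_add, map_add, h11, h12, add_zero]
      · intro r x hx h11
        have : (⟨r • x, Submodule.smul_mem _ r hx⟩ : 𝔮) = r • ⟨x, hx⟩ := rfl
        rw [this, hpair.lin, map_mul, h11, mul_zero]
    exact h10 x.1 x.2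
  · intro z hz c hc
    have h10 := (h9 ⟨z, hz⟩ D'.F (∑ l, c l * g' l) hFD (by
      rw [map_sum]
      exact Finset.sum_congr rfl fun l _ => by rw [map_mul, hc, hg'])).2 k j
    have h11 : (D'.map j).q (MvPolynomial.map j (∑ l, c l * g' l)) = 0 :=
      Ideal.Quotient.eq_zero_iff_mem.mpr h10
    have h12 : ∑ l, (D'.map j).q (MvPolynomial.map j (c l)) •
        (⟨_, hgen l⟩ : 𝔮) = 0 := by
      apply Subtype.val_injective
      rw [AddSubmonoidClass.coe_finsetSum]
      simp only [map_sum, map_mul] at h11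
      exact h11
    have h13 := congrArg η h12
    rw [map_sum, map_zero] at h13
    rw [← h13]
    refine Finset.sum_congr rfl fun l _ => ?_
    rw [hpair.lin, hφa]
    rfl

end zero

end Vale.Agent.P292.Dv
end

section

/-! # Spreading out, back direction: the packaging. -/

namespace Vale.Agent.P292.Dv

open MvPolynomial

universe u w

/-- Finitely many values occur for arbitrarily large finite sets. -/
theorem sp_pigeonhole (Q : ℕ → ℕ → Finset ℂ → Prop) (D : ℕ)
    (hmono : ∀ d δ T T', T ⊆ T' → Q d δ T' → Q d δ T)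
    (H : ∀ T, ∃ d δ, (d = 1 ∨ d = 2) ∧ 1 ≤ δ ∧ δ ≤ D ∧ Q d δ T) :
    ∃ d δ, (d = 1 ∨ d = 2) ∧ 1 ≤ δ ∧ ∀ T, Q d δ T := by
  classical
  by_contra hcon
  have hcon' : ∀ dδ : ℕ × ℕ, (dδ.1 = 1 ∨ dδ.1 = 2) ∧ 1 ≤ dδ.2 → ∃ T : Finset ℂ,
      ¬ Q dδ.1 dδ.2 T := by
    intro dδ h
    by_contra h3
    exact hcon ⟨dδ.1, dδ.2, h.1, h.2, fun T => by
      by_contra h4
      exact h3 ⟨T, h4⟩⟩
  let T₀ : ℕ × ℕ → Finset ℂ := fun dδ =>
    if h : (dδ.1 = 1 ∨ dδ.1 = 2) ∧ 1 ≤ dδ.2 then (hcon' dδ h).choose else ∅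
  obtain ⟨d, δ, h2, h3, hb, hQ⟩ :=
    H ((Finset.range 3 ×ˢ Finset.range (D + 1)).biUnion T₀)
  have hT : T₀ (d, δ) = (hcon' (d, δ) ⟨h2, h3⟩).choose := dif_pos ⟨h2, h3⟩
  refine (hcon' (d, δ) ⟨h2, h3⟩).choose_spec ?_
  rw [← hT]
  refine hmono d δ _ _ ?_ hQ
  refine Finset.subset_biUnion_of_mem T₀ ?_
  rw [Finset.mem_product, Finset.mem_range, Finset.mem_range]
  exact ⟨by rcases h2 with h | h <;> simp [h], Nat.lt_succ_of_le hb⟩

/-- The data in large characteristic. -/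
def RedData {M : ℕ} (e : Fin M → ℕ) (L : Finset (MvPolynomial (Fin M) ℂ)) {N : ℕ}
    (j : Fin N → ℕ) (Z : Finset (Fin N → MvPolynomial (Fin M) ℂ)) (d δ : ℕ)
    (T : Finset ℂ) : Prop :=
  ∃ (B : Subring ℂ) (k : Type) (_ : Field k) (_ : IsAlgClosed k) (π : B →+* k)
    (ψ : Fin M → MvPolynomial (Fin 2) k) (η : Fin N → MvPolynomial (Fin 2) k),
    (T : Set ℂ) ⊆ B ∧
    (∀ i, (ψ i).IsHomogeneous (d * e i)) ∧
    (∀ a : Fin 2 → k, a ≠ 0 → ∃ i, eval a (ψ i) ≠ 0) ∧
    (∀ G : MvPolynomial (Fin M) B, map B.subtype G ∈ L → aeval ψ (map π G) = 0) ∧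
    (∀ l, (η l = 0 ∨ δ ≤ d * j l) ∧ (η l).IsHomogeneous (d * j l - δ)) ∧
    (∀ a : Fin 2 → k, a ≠ 0 → ∃ l, eval a (η l) ≠ 0) ∧
    (∀ z ∈ Z, ∀ c : Fin N → MvPolynomial (Fin M) B, (∀ l, map B.subtype (c l) = z l) →
      ∑ l, aeval ψ (map π (c l)) * η l = 0)

theorem RedData.le {M : ℕ} {e : Fin M → ℕ} {L : Finset (MvPolynomial (Fin M) ℂ)} {N : ℕ}
    {j : Fin N → ℕ} {Z : Finset (Fin N → MvPolynomial (Fin M) ℂ)} {d δ : ℕ}
    {T : Finset ℂ} (h : RedData e L j Z d δ T) (hd : d = 1 ∨ d = 2) :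
    δ ≤ 2 * ∑ l, j l := by
  obtain ⟨B, k, _, _, π, ψ, η, h1, h4, h5, h6, h7, h8, h9⟩ := h
  obtain ⟨l, hl⟩ := h8 ![1, 0] (by
    intro h
    have := congrFun h 0
    simp at this)
  have h10 : η l ≠ 0 := by
    rintro h
    rw [h, map_zero] at hl
    exact hl rfl
  have h11 : δ ≤ d * j l := ((h7 l).1).resolve_left h10
  have h12 : d * j l ≤ 2 * j l := Nat.mul_le_mul_right _ (by
    rcases hd with h | h <;> omega)
  have h13 : j l ≤ ∑ l, j l := Finset.single_le_sum (fun i _ => Nat.zero_le _)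
    (Finset.mem_univ l)
  omega

theorem RedData.mono {M : ℕ} {e : Fin M → ℕ} {L : Finset (MvPolynomial (Fin M) ℂ)} {N : ℕ}
    {j : Fin N → ℕ} {Z : Finset (Fin N → MvPolynomial (Fin M) ℂ)} {d δ : ℕ}
    {T T' : Finset ℂ} (hT : T ⊆ T') (h : RedData e L j Z d δ T') : RedData e L j Z d δ T := by
  obtain ⟨B, k, ik, ia, π, ψ, η, h1, h2⟩ := h
  exact ⟨B, k, ik, ia, π, ψ, η, (Finset.coe_subset.mpr hT).trans h1, h2⟩

/-- The relations of the system over the complex numbers. -/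
noncomputable def sysL {M : ℕ} (L : Finset (MvPolynomial (Fin M) ℂ)) {N : ℕ}
    (j : Fin N → ℕ) (Z : Finset (Fin N → MvPolynomial (Fin M) ℂ)) (d δ : ℕ) :
    Finset (MvPolynomial (Fin M ⊕ Fin N) ℂ) := by
  classical
  exact L.image (rename Sum.inl) ∪
    (Z.image fun z => ∑ l, rename Sum.inl (z l) * X (Sum.inr l)) ∪
    (Finset.univ.filter fun l => d * j l < δ).image fun l => X (Sum.inr l)

theorem mem_sysL {M : ℕ} {L : Finset (MvPolynomial (Fin M) ℂ)} {N : ℕ}
    {j : Fin N → ℕ} {Z : Finset (Fin N → MvPolynomial (Fin M) ℂ)} {d δ : ℕ}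
    {G : MvPolynomial (Fin M ⊕ Fin N) ℂ} : G ∈ sysL L j Z d δ ↔
      (∃ F ∈ L, rename Sum.inl F = G) ∨
      (∃ z ∈ Z, ∑ l, rename Sum.inl (z l) * X (Sum.inr l) = G) ∨
      ∃ l, d * j l < δ ∧ X (Sum.inr l) = G := by
  classical
  rw [sysL, Finset.mem_union, Finset.mem_union, Finset.mem_image, Finset.mem_image,
    Finset.mem_image, or_assoc]
  simp only [Finset.mem_filter, Finset.mem_univ, true_and]

/-- Lifts to a subring which contains the coefficients. -/
theorem sp_lift {σ : Type} (B : Subring ℂ) (G : MvPolynomial σ ℂ)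
    (h : ∀ c ∈ G.coeffs, c ∈ B) : ∃ G' : MvPolynomial σ B, map B.subtype G' = G := by
  have : G ∈ Set.range (map B.subtype : MvPolynomial σ B →+* _) := by
    rw [MvPolynomial.mem_range_map_iff_coeffs_subset]
    intro c hc
    exact ⟨⟨c, h c hc⟩, rfl⟩
  exact this

theorem sp_aeval_inl {M N : ℕ} {B : Subring ℂ} {k : Type} [Field k] (π : B →+* k)
    (ψ : Fin M → MvPolynomial (Fin 2) k) (η : Fin N → MvPolynomial (Fin 2) k)
    (F : MvPolynomial (Fin M) B) :
    aeval (Sum.elim ψ η) (map π (rename Sum.inl F)) = aeval ψ (map π F) := by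
  rw [map_rename, aeval_rename]
  rfl

/-- The relations in large characteristic. -/
theorem RedData.sys {M : ℕ} {e : Fin M → ℕ} {L : Finset (MvPolynomial (Fin M) ℂ)} {N : ℕ}
    {j : Fin N → ℕ} {Z : Finset (Fin N → MvPolynomial (Fin M) ℂ)} {d δ : ℕ}
    (H : ∀ T, RedData e L j Z d δ T) (T : Finset ℂ) :
    ∃ (B : Subring ℂ) (k : Type) (_ : Field k) (_ : IsAlgClosed k)
        (π : B →+* k) (ψ : Fin M ⊕ Fin N → MvPolynomial (Fin 2) k), (T : Set ℂ) ⊆ B ∧
        (∀ i, (ψ i).IsHomogeneous (Sum.elim (fun i => d * e i) (fun l => d * j l - δ) i)) ∧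
        (∀ J ∈ ({Set.range Sum.inl, Set.range Sum.inr} : Set (Set (Fin M ⊕ Fin N))),
          ∀ a : Fin 2 → k, a ≠ 0 → ∃ i ∈ J, eval a (ψ i) ≠ 0) ∧
        (∀ G : MvPolynomial (Fin M ⊕ Fin N) B, map B.subtype G ∈ sysL L j Z d δ →
          aeval ψ (map π G) = 0) := by
  classical
  obtain ⟨B, k, ik, ia, π, ψ, η, h1, h4, h5, h6, h7, h8, h9⟩ :=
    H (T ∪ (L.biUnion fun G => G.coeffs) ∪ Z.biUnion fun z => Finset.univ.biUnion fun l =>
      (z l).coeffs)
  have hinj : Function.Injective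
      (map B.subtype : MvPolynomial (Fin M ⊕ Fin N) B →+* _) :=
    MvPolynomial.map_injective B.subtype Subtype.val_injective
  refine ⟨B, k, ik, ia, π, Sum.elim ψ η, ?_, ?_, ?_, ?_⟩
  · intro c hc
    apply h1
    rw [Finset.mem_coe, Finset.mem_union, Finset.mem_union]
    exact Or.inl (Or.inl hc)
  · rintro (i | l)
    · exact h4 i
    · exact (h7 l).2
  · rintro J (rfl | rfl) a ha
    · obtain ⟨i, hi⟩ := h5 a ha
      exact ⟨Sum.inl i, ⟨i, rfl⟩, hi⟩
    · obtain ⟨i, hi⟩ := h8 a ha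
      exact ⟨Sum.inr i, ⟨i, rfl⟩, hi⟩
  · intro G hG
    rw [mem_sysL] at hG
    rcases hG with ⟨F, hF, hG⟩ | ⟨z, hz, hG⟩ | ⟨l, hl, hG⟩
    · obtain ⟨F', hF'⟩ := sp_lift B F (by
        intro c hc
        apply h1
        rw [Finset.mem_coe, Finset.mem_union, Finset.mem_union]
        exact Or.inl (Or.inr (Finset.mem_biUnion.mpr ⟨F, hF, hc⟩)))
      have h10 : G = rename Sum.inl F' := hinj (by rw [← hG, map_rename, hF'])
      rw [h10, sp_aeval_inl]
      exact h6 F' (by rw [hF']; exact hF)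
    · choose z' hz' using fun l => sp_lift B (z l) (by
        intro c hc
        apply h1
        rw [Finset.mem_coe, Finset.mem_union]
        refine Or.inr (Finset.mem_biUnion.mpr ⟨z, hz, ?_⟩)
        exact Finset.mem_biUnion.mpr ⟨l, Finset.mem_univ l, hc⟩)
      have h10 : G = ∑ l, rename Sum.inl (z' l) * X (Sum.inr l) := hinj (by
        rw [← hG, map_sum]
        refine Finset.sum_congr rfl fun l _ => ?_
        rw [map_mul, map_rename, hz', map_X])
      rw [h10, map_sum, map_sum, ← h9 z hz z' hz']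
      refine Finset.sum_congr rfl fun l _ => ?_
      rw [map_mul, map_mul, sp_aeval_inl, map_X, aeval_X, Sum.elim_inr]
    · have h10 : G = X (Sum.inr l) := hinj (by rw [← hG, map_X])
      rw [h10, map_X, aeval_X, Sum.elim_inr]
      rcases (h7 l).1 with h | h
      · exact h
      · omega

/-- T5, back: reductions with a positive pair give a positive pair over the complex numbers. -/
theorem pos_of_reductions {R : Type u} [CommRing R] [Algebra ℂ R]
    {𝒜 : ℕ → Submodule ℂ R} [GradedAlgebra 𝒜] {M : ℕ} (x : Fin M → R) (e : Fin M → ℕ)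
    (he : ∀ i, 0 < e i) (hx : ∀ i, x i ∈ 𝒜 (e i))
    (hgen : Function.Surjective (aeval x : MvPolynomial (Fin M) ℂ →ₐ[ℂ] R))
    (L : Finset (MvPolynomial (Fin M) ℂ))
    (hL : Ideal.span (L : Set (MvPolynomial (Fin M) ℂ)) =
      RingHom.ker (aeval x : MvPolynomial (Fin M) ℂ →ₐ[ℂ] R))
    {N : ℕ} (q : Fin N → MvPolynomial (Fin M) ℂ) (j : Fin N → ℕ)
    (hq : ∀ l, aeval x (q l) ∈ 𝒜 (j l)) (p : Ideal R)
    (hp : p = Ideal.span (Set.range fun l => aeval x (q l)))
    (Z : Finset (Fin N → MvPolynomial (Fin M) ℂ))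
    (hZ : ∀ c : Fin N → MvPolynomial (Fin M) ℂ, aeval x (∑ l, c l * q l) = 0 →
      c ∈ Submodule.span (MvPolynomial (Fin M) ℂ) (Z : Set (Fin N → MvPolynomial (Fin M) ℂ)))
    (H : ∀ T : Finset ℂ, ∃ d δ, (d = 1 ∨ d = 2) ∧ 1 ≤ δ ∧ RedData e L j Z d δ T) :
    Pos 𝒜 p ℂ := by
  obtain ⟨d, δ, hd, hδ, Hd⟩ := sp_pigeonhole (RedData e L j Z) (2 * ∑ l, j l)
    (fun d δ T T' hT h => h.mono hT) (fun T => by
      obtain ⟨d, δ, hd, hδ, h⟩ := H T
      exact ⟨d, δ, hd, hδ, h.le hd, h⟩)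
  obtain ⟨Ψ, g1, g2, g3⟩ := sb_transfer (sysL L j Z d δ)
    (Sum.elim (fun i => d * e i) fun l => d * j l - δ)
    {Set.range Sum.inl, Set.range Sum.inr} (RedData.sys Hd)
  obtain ⟨φ, η, h⟩ := isPair_of_data x e he hx hgen hL q j hq p hp hZ (K := ℂ)
    (d := d) (δ := δ) (Ψ := fun i => Ψ (Sum.inl i)) (E := fun l => Ψ (Sum.inr l))
    (fun i => g1 (Sum.inl i)) (fun l => g1 (Sum.inr l)) (by
      intro l
      by_cases hl : d * j l < δ
      · left
        have := g3 (X (Sum.inr l)) (mem_sysL.mpr (Or.inr (Or.inr ⟨l, hl, rfl⟩)))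
        rwa [aeval_X] at this
      · exact Or.inr (not_lt.mp hl)) (by
      intro a ha
      obtain ⟨_, ⟨i, rfl⟩, hi⟩ := g2 _ (Or.inl rfl) a ha
      exact ⟨i, hi⟩) (by
      intro a ha
      obtain ⟨_, ⟨i, rfl⟩, hi⟩ := g2 _ (Or.inr rfl) a ha
      exact ⟨i, hi⟩) (by
      intro G hG
      have := g3 (rename Sum.inl G) (mem_sysL.mpr (Or.inl ⟨G, hG, rfl⟩))
      rwa [aeval_rename] at this) (by
      intro z hz
      have := g3 (∑ l, rename Sum.inl (z l) * X (Sum.inr l))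
        (mem_sysL.mpr (Or.inr (Or.inl ⟨z, hz, rfl⟩)))
      rw [map_sum] at this
      rw [← this]
      refine Finset.sum_congr rfl fun l _ => ?_
      rw [map_mul, aeval_rename, aeval_X]
      rfl)
  exact ⟨d, δ, φ, η, hd, hδ, h⟩

end Vale.Agent.P292.Dv
end

section

/-! # Spreading out, final form: block T5. -/

namespace Vale.Agent.P292.Dv

open MvPolynomial Vale.Agent.P292.Mo

universe u

/-- A homogeneous ideal is generated by finitely many homogeneous elements. -/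
theorem sp_exists_gens {R : Type u} [CommRing R] [IsNoetherianRing R] [Algebra ℂ R]
    {𝒜 : ℕ → Submodule ℂ R} [GradedAlgebra 𝒜] {𝔭 : Ideal R} (hh : 𝔭.IsHomogeneous 𝒜) :
    ∃ (N : ℕ) (r : Fin N → R) (j : Fin N → ℕ), (∀ l, r l ∈ 𝒜 (j l)) ∧
      𝔭 = Ideal.span (Set.range r) := by
  classical
  have h1 : 𝔭 = Ideal.span {x | x ∈ 𝔭 ∧ SetLike.IsHomogeneousElem 𝒜 x} := by
    refine le_antisymm ?_ (Ideal.span_le.mpr fun x hx => hx.1)
    intro x hx
    rw [← DirectSum.sum_support_decompose 𝒜 x]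
    refine Ideal.sum_mem _ fun i _ => Ideal.subset_span ⟨hh i hx, ?_⟩
    exact ⟨i, SetLike.coe_mem _⟩
  obtain ⟨s, hs1, hs2⟩ := (Submodule.fg_span_iff_fg_span_finset_subset
    {x | x ∈ 𝔭 ∧ SetLike.IsHomogeneousElem 𝒜 x}).mp
    (IsNoetherian.noetherian (Submodule.span R {x | x ∈ 𝔭 ∧ SetLike.IsHomogeneousElem 𝒜 x}))
  choose d hd using fun x : s => (hs1 x.2).2
  refine ⟨s.card, fun l => (s.equivFin.symm l : R), fun l => d (s.equivFin.symm l),
    fun l => hd _, ?_⟩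
  have h2 : (Set.range fun l => (s.equivFin.symm l : R)) = (s : Set R) := by
    ext x
    constructor
    · rintro ⟨l, rfl⟩
      exact (s.equivFin.symm l).2
    · intro hx
      exact ⟨s.equivFin ⟨x, hx⟩, by simp⟩
  rw [h2]
  exact h1.trans hs2

/-- **Block T5.** The characteristic `p` statement gives a curve of degree one or two which is
positive on the divisor, over the complex numbers. -/
theorem pos_of_moriD {R : Type u} [CommRing R] [Algebra ℂ R] {𝒜 : ℕ → Submodule ℂ R}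
    [GradedAlgebra 𝒜] {P : R →ₗ[ℂ] R →ₗ[ℂ] R} (hX : IsContactFano 𝒜 P)
    (hdim : 3 ≤ Algebra.trdeg ℂ R) (mori : MoriD) (𝔭 : Ideal R) (hh : 𝔭.IsHomogeneous 𝒜)
    (hinv : IsInv 𝒜 𝔭) (h0 : 𝔭 ≠ ⊥)
    (hnv : ∃ y : R →ₐ[ℂ] ℂ, ¬ IsVertex 𝒜 y ∧ ∀ x ∈ 𝔭, y x = 0) : Pos 𝒜 𝔭 ℂ := by
  classical
  have := hX.finiteType
  have : IsNoetherianRing R := Algebra.FiniteType.isNoetherianRing ℂ R
  obtain ⟨M, L, D, ev, hD⟩ := exists_isPres hX
  have hev : (aeval fun i => ev (X i) : MvPolynomial (Fin M) ℂ →ₐ[ℂ] R) = ev :=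
    (aeval_unique ev).symm
  obtain ⟨N, r, j, hr, hspan⟩ := sp_exists_gens hh
  choose g hg hgr using fun l => hD.lift (j l) (r l) (hr l)
  have hgr' : (fun l => ev (g l)) = r := funext hgr
  -- syzygies
  let K : Submodule (MvPolynomial (Fin M) ℂ) (Fin N → MvPolynomial (Fin M) ℂ) :=
    { carrier := {c | ev (∑ l, c l * g l) = 0}
      zero_mem' := by simp
      add_mem' := by
        intro a b ha hb
        have ha' : ev (∑ l, a l * g l) = 0 := ha
        have hb' : ev (∑ l, b l * g l) = 0 := hb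
        change ev (∑ l, (a + b) l * g l) = 0
        have h : ∑ l, (a + b) l * g l = ∑ l, a l * g l + ∑ l, b l * g l := by
          rw [← Finset.sum_add_distrib]
          exact Finset.sum_congr rfl fun l _ => add_mul _ _ _
        rw [h, map_add, ha', hb', add_zero]
      smul_mem' := by
        intro c a ha
        have ha' : ev (∑ l, a l * g l) = 0 := ha
        change ev (∑ l, (c • a) l * g l) = 0
        have h : ∑ l, (c • a) l * g l = c * ∑ l, a l * g l := by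
          rw [Finset.mul_sum]
          exact Finset.sum_congr rfl fun l _ => mul_assoc _ _ _
        rw [h, map_mul, ha', mul_zero] }
  obtain ⟨Z, hZ⟩ := (IsNoetherian.noetherian K : K.FG)
  have hZ1 : ∀ z ∈ Z, ∑ l, ev (z l) * ev (g l) = 0 := by
    intro z hz
    have h1 : z ∈ K := by
      rw [← hZ]
      exact Submodule.subset_span hz
    have h2 : ev (∑ l, z l * g l) = 0 := h1
    rw [← h2, map_sum]
    exact Finset.sum_congr rfl fun l _ => (map_mul ev _ _).symm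
  refine pos_of_reductions (fun i => ev (X i)) D.d hD.ok.pos hD.hom
    (by rw [hev]; exact hD.surj) (Finset.univ.image D.F) ?_ g j ?_ 𝔭 ?_ Z ?_ ?_
  · rw [hev, Finset.coe_image, Finset.coe_univ, Set.image_univ]
    ext p
    rw [RingHom.mem_ker]
    exact (hD.ker p).symm
  · intro l
    rw [hev, hgr]
    exact hr l
  · rw [hev, hgr']
    exact hspan
  · intro c hc
    rw [hev] at hc
    rw [hZ]
    exact hc
  · intro T
    obtain ⟨A, k, ik, ia, π, d, δ, ψ, η, h1, h2, h3, h4, h5, h6, h7, h8, h9, h10⟩ :=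
      sf_reduction hX hdim mori hD g j hg 𝔭 (by rw [hgr']; exact hspan) hinv h0 hnv Z hZ1 T
    refine ⟨d, δ, h2, h3, A.toSubring, k, ik, ia, π, ψ, η, h1, h4, h5, ?_, ?_, h9, h10⟩
    · intro G hG
      obtain ⟨l, -, hl⟩ := Finset.mem_image.mp hG
      exact h6 l G hl.symm
    · intro l
      by_cases hl : δ ≤ d * j l
      · exact ⟨Or.inr hl, h7 l _ (Nat.sub_add_cancel hl)⟩
      · have h11 : η l = 0 := h8 l (not_le.mp hl)
        rw [h11]
        exact ⟨Or.inl rfl, isHomogeneous_zero _ _ _⟩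

end Vale.Agent.P292.Dv
end

section

/-! # Contact Fano manifolds are adjoint varieties, without any condition on the Picard group:
assembly. -/

namespace Vale.Agent.P292.Dv

open MvPolynomial Vale.Agent.P292

universe u

variable {R : Type u} [CommRing R] [Algebra ℂ R] {𝒜 : ℕ → Submodule ℂ R} [GradedAlgebra 𝒜]
  {P : R →ₗ[ℂ] R →ₗ[ℂ] R}

/-- A prime of height one has a zero outside the vertex. -/
theorem main_zero (hX : IsContactFano 𝒜 P) [IsDomain R] (hdim : 3 ≤ cdim R)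
    (𝔭 : Ideal R) [𝔭.IsPrime] (hdvr : IsDiscreteValuationRing (Localization.AtPrime 𝔭)) :
    ∃ y : R →ₐ[ℂ] ℂ, ¬ IsVertex 𝒜 y ∧ ∀ x ∈ 𝔭, y x = 0 := by
  have := hX.finiteType
  obtain ⟨k, hk, r, hr, hrp⟩ := exists_notMem_of_dvr hX hdim 𝔭 hdvr
  by_contra hcon
  push Not at hcon
  apply hrp
  have h1 : r ∈ 𝔭.radical := by
    apply mem_radical_of_forall
    intro y hy
    by_contra hyr
    obtain ⟨x, hx, hx'⟩ := hcon y (fun hv => hyr (hv k hk r hr))
    exact hx' (hy x hx)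
  rwa [Ideal.IsPrime.radical ‹𝔭.IsPrime›] at h1

/-- The divisor avoided by the lines is met by a curve of degree one or two. -/
theorem main_pos (hX : IsContactFano 𝒜 P) [IsDomain R] (hdim : 3 ≤ Algebra.trdeg ℂ R)
    (mori : MoriD) (𝔭 : Ideal R) [𝔭.IsPrime]
    (hdvr : IsDiscreteValuationRing (Localization.AtPrime 𝔭)) (hh : 𝔭.IsHomogeneous 𝒜)
    (h0 : 𝔭 ≠ ⊥) : IsInv 𝒜 𝔭 ∧ Pos 𝒜 𝔭 ℂ := by
  have := hX.finiteType
  have hinv : IsInv 𝒜 𝔭 := isInv_of_forall 𝔭 fun y hy => isInv_of_dvr hX 𝔭 hdvr hh y hy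
  exact ⟨hinv, pos_of_moriD hX hdim mori 𝔭 hh hinv h0
    (main_zero hX (le_cdim_of_le_trdeg (n := 3) (by exact_mod_cast hdim)) 𝔭 hdvr)⟩

/-- Contact Fano manifolds are conic connected. -/
theorem isConicConnected_of_mori (hX : IsContactFano 𝒜 P) [IsDomain R]
    (hdim : 3 ≤ Algebra.trdeg ℂ R) (mori : MoriD)
    (t3 : ∀ (𝔭 : Ideal R) (_ : 𝔭.IsPrime), IsDiscreteValuationRing (Localization.AtPrime 𝔭) →
      𝔭.IsHomogeneous 𝒜 → 𝔭 ≠ ⊥ → IsInv 𝒜 𝔭 → Pos 𝒜 𝔭 ℂ →
      (∀ (κ : Type u) [Field κ] [IsAlgClosed κ] [Algebra ℂ κ]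
        (φ : R →ₐ[ℂ] MvPolynomial (Fin 2) κ), IsAnch 𝒜 1 φ → IsFull 𝒜 1 φ →
        ∀ a : Fin 2 → κ, a ≠ 0 → ∃ r ∈ 𝔭, pt φ a r ≠ 0) → IsConicConnected 𝒜) :
    IsConicConnected 𝒜 := by
  classical
  obtain ⟨K, _, _, _, d, φ, hd, hφ⟩ := Mo.exists_isAnch_of_mori hX
    (le_trans (by norm_num) hdim) (fun k _ _ p _ hp2 hp0 S _ _ ℬ _ Q hPM e n y hN f hf => by
      have : Fact p.Prime := ⟨(CharP.char_is_prime_or_zero k p).resolve_right hp0⟩
      exact Mo.charp_main p hp2 hPM hN f hf)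
  by_cases hl : ∃ (κ : Type u) (_ : Field κ) (_ : IsAlgClosed κ) (_ : Algebra ℂ κ)
      (ψ : R →ₐ[ℂ] MvPolynomial (Fin 2) κ), IsAnch 𝒜 1 ψ
  · obtain ⟨κ, _, _, _, ψ, hψ⟩ := hl
    obtain ⟨κ, _, _, _, ψ, hψ, hψf⟩ := exists_full_line hX hψ
    by_cases hcon : ∃ (Ω : Type u) (_ : Field Ω) (_ : IsAlgClosed Ω) (_ : Algebra ℂ Ω)
      (ψ₁ ψ₂ : R →ₐ[ℂ] MvPolynomial (Fin 2) Ω), IsAnch 𝒜 1 ψ₁ ∧ IsAnch 𝒜 1 ψ₂ ∧
      pt ψ₁ ![1, 0] = pt ψ₂ ![1, 0] ∧
      om P (pt ψ₁ ![1, 0]) (evL ![1, 0] (pd ψ₁ 1)) (evL ![1, 0] (pd ψ₂ 1)) ≠ 0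
    · obtain ⟨κ, _, _, _, ψ₁, ψ₂, h1, h2, h3, h4⟩ := hcon
      obtain ⟨κ, _, _, _, φ, b, h5, h6, h7⟩ := exists_conic_of_lines hX h1 h2 h3 h4
      obtain ⟨κ, _, _, _, φ, h8, h9, b', h10, h11⟩ := exists_full_conic hX h5 h6 h7
      refine isConicConnected_of_generic hX h8.curve (g_injective hX h8 h9 ?_)
      intro D h12 h13 r m
      exact fc1_apply_coeff hX h8.curve h10 h11 D h12 h13 r m
    · obtain ⟨𝔭, h𝔭, hdvr, hhom, h0, hav⟩ := exists_avoided hX hψ hψf hcon
      obtain ⟨hinv, hpos⟩ := main_pos hX hdim mori 𝔭 hdvr hhom h0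
      exact t3 𝔭 h𝔭 hdvr hhom h0 hinv hpos hav
  · obtain rfl : d = 2 := by
      by_contra h2
      obtain rfl : d = 1 := by omega
      exact hl ⟨K, inferInstance, inferInstance, inferInstance, φ, hφ⟩
    obtain ⟨ψ, h1, h2⟩ := exists_nonProp hX (by norm_num) hφ
    obtain ⟨κ, _, _, _, ψ, h3, h4, h5⟩ := exists_full_conic' hX h1 h2
    refine isConicConnected_of_generic hX h3.curve (g_injective hX h3 h4 ?_)
    intro D h6 h7 r m
    exact e2_apply_coeff hX (fun κ _ _ _ ψ hψ => hl ⟨κ, inferInstance, inferInstance,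
      inferInstance, ψ, hψ⟩) h3 h5 D h6 h7 r m

/-- Contact Fano manifolds are adjoint varieties. -/
theorem isAdjointVariety_of_mori (hX : IsContactFano 𝒜 P) [IsDomain R]
    (hdim : 3 ≤ Algebra.trdeg ℂ R)
    (mori : MoriD)
    (t3 : ∀ (𝔭 : Ideal R) (_ : 𝔭.IsPrime), IsDiscreteValuationRing (Localization.AtPrime 𝔭) →
      𝔭.IsHomogeneous 𝒜 → 𝔭 ≠ ⊥ → IsInv 𝒜 𝔭 → Pos 𝒜 𝔭 ℂ →
      (∀ (κ : Type u) [Field κ] [IsAlgClosed κ] [Algebra ℂ κ]
        (φ : R →ₐ[ℂ] MvPolynomial (Fin 2) κ), IsAnch 𝒜 1 φ → IsFull 𝒜 1 φ →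
        ∀ a : Fin 2 → κ, a ≠ 0 → ∃ r ∈ 𝔭, pt φ a r ≠ 0) → IsConicConnected 𝒜) :
    IsAdjointVariety 𝒜 P := by
  have := hX.finiteType
  exact asm_conicConnected hX (le_cdim_of_le_trdeg (n := 3) (by exact_mod_cast hdim))
    (isConicConnected_of_mori hX hdim mori t3)

end Vale.Agent.P292.Dv
end

section

/-! # Additivity of the Euler characteristic of a pair of subspaces. -/

namespace Vale.Agent.P292.Dv

open Module Submodule Vale.Agent.P292.Mo

section

variable {k : Type*} [Field k] {V W : Type*} [AddCommGroup V] [Module k V] [AddCommGroup W]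
  [Module k W]

theorem cx_map (f : V →ₗ[k] W) (Y X : Submodule k V) :
    cod (Y.map f) (X.map f) = cod (Y ⊔ LinearMap.ker f) X ∧
      (Fc (Y.map f) (X.map f) ↔ Fc (Y ⊔ LinearMap.ker f) X) := by
  have hle : Y ⊔ LinearMap.ker f ≤ (Y.map f).comap f := by
    refine sup_le (Submodule.le_comap_map f Y) fun x hx => ?_
    rw [Submodule.mem_comap, LinearMap.mem_ker.1 hx]
    exact Submodule.zero_mem _
  let g : (V ⧸ (Y ⊔ LinearMap.ker f)) →ₗ[k] (W ⧸ Y.map f) :=
    (Y ⊔ LinearMap.ker f).mapQ (Y.map f) f hle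
  have hg : Function.Injective g := by
    rw [← LinearMap.ker_eq_bot, Submodule.ker_mapQ, Submodule.comap_map_eq,
      Submodule.mkQ_map_self]
  have h : (X.map (Y ⊔ LinearMap.ker f).mkQ).map g = (X.map f).map (Y.map f).mkQ := by
    rw [← Submodule.map_comp, ← Submodule.map_comp]
    congr 1
  let e : ↥(X.map (Y ⊔ LinearMap.ker f).mkQ) ≃ₗ[k] ↥((X.map (Y ⊔ LinearMap.ker f).mkQ).map g) :=
    Submodule.equivMapOfInjective g hg _
  rw [h] at e
  exact ⟨(LinearEquiv.finrank_eq e).symm, ⟨fun h => by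
    have : Module.Finite k _ := h
    exact Module.Finite.equiv e.symm, fun h => by
    have : Module.Finite k _ := h
    exact Module.Finite.equiv e⟩⟩

theorem cx_map_bot (f : V →ₗ[k] W) (X : Submodule k V) :
    finrank k ↥(X.map f) = cod (LinearMap.ker f) X ∧
      (Module.Finite k ↥(X.map f) ↔ Fc (LinearMap.ker f) X) := by
  have h1 := cx_map f ⊥ X
  rw [Submodule.map_bot, bot_sup_eq] at h1
  have h2 := cod_bot (X.map f)
  exact ⟨h2.1.symm.trans h1.1, h2.2.symm.trans h1.2⟩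

/-- The two defects of distributivity agree. -/
theorem cx_defect (D L Z : Submodule k V) :
    cod ((D ⊓ L) ⊔ Z) ((D ⊔ Z) ⊓ (L ⊔ Z)) = cod ((D ⊓ Z) ⊔ (L ⊓ Z)) ((D ⊔ L) ⊓ Z) ∧
      (Fc ((D ⊓ L) ⊔ Z) ((D ⊔ Z) ⊓ (L ⊔ Z)) ↔ Fc ((D ⊓ Z) ⊔ (L ⊓ Z)) ((D ⊔ L) ⊓ Z)) := by
  set M := L ⊔ (D ⊓ Z) with hM
  -- the left side
  have a1 : (D ⊔ Z) ⊓ (L ⊔ Z) = (D ⊓ (L ⊔ Z)) ⊔ ((D ⊓ L) ⊔ Z) := by
    apply le_antisymm
    · rintro x ⟨h1, h2⟩
      obtain ⟨d, hd, z, hz, rfl⟩ := Submodule.mem_sup.1 h1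
      have hd' : d ∈ L ⊔ Z := by
        have : d = (d + z) - z := by abel
        rw [this]
        exact Submodule.sub_mem _ h2 (Submodule.mem_sup_right hz)
      exact Submodule.add_mem _ (Submodule.mem_sup_left ⟨hd, hd'⟩)
        (Submodule.mem_sup_right (Submodule.mem_sup_right hz))
    · refine sup_le (le_inf (inf_le_left.trans le_sup_left) inf_le_right) (sup_le ?_ ?_)
      · exact le_inf (inf_le_left.trans le_sup_left) (inf_le_right.trans le_sup_left)
      · exact le_inf le_sup_right le_sup_right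
  have e1 := cod_sup (D := (D ⊓ L) ⊔ Z) (L := D ⊓ (L ⊔ Z))
  rw [← a1] at e1
  -- from `(D ⊓ L) ⊔ Z` to `(D ⊓ L) ⊔ (D ⊓ Z)`
  have e2 := cod_eq_of_inf (D := (D ⊓ L) ⊔ (D ⊓ Z)) (D' := (D ⊓ L) ⊔ Z) (L := D ⊓ (L ⊔ Z))
    (sup_le_sup le_rfl inf_le_right) (by
      rintro x ⟨h1, h2⟩
      obtain ⟨d, hd, z, hz, rfl⟩ := Submodule.mem_sup.1 h1
      have hz' : z ∈ D := by
        have : z = (d + z) - d := by abel
        rw [this]
        exact Submodule.sub_mem _ h2.1 hd.1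
      exact Submodule.add_mem _ (Submodule.mem_sup_left hd) (Submodule.mem_sup_right ⟨hz', hz⟩))
  have e3 := cod_eq_of_inf (D := (D ⊓ L) ⊔ (D ⊓ Z)) (D' := M) (L := D ⊓ (L ⊔ Z))
    (sup_le_sup inf_le_right le_rfl) (by
      rintro x ⟨h1, h2⟩
      obtain ⟨l, hl, z, hz, rfl⟩ := Submodule.mem_sup.1 h1
      have hl' : l ∈ D := by
        have : l = (l + z) - z := by abel
        rw [this]
        exact Submodule.sub_mem _ h2.1 hz.1
      exact Submodule.add_mem _ (Submodule.mem_sup_left ⟨hl', hl⟩) (Submodule.mem_sup_right hz))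
  have e4 := cod_sup (D := M) (L := D ⊓ (L ⊔ Z))
  -- the right side
  have f1 := cod_eq_of_inf (D := (D ⊓ Z) ⊔ (L ⊓ Z)) (D' := M) (L := (D ⊔ L) ⊓ Z)
    (sup_le le_sup_right (inf_le_left.trans le_sup_left)) (by
      rintro x ⟨h1, h2⟩
      obtain ⟨l, hl, z, hz, rfl⟩ := Submodule.mem_sup.1 h1
      have hl' : l ∈ Z := by
        have : l = (l + z) - z := by abel
        rw [this]
        exact Submodule.sub_mem _ h2.2 hz.2
      exact Submodule.add_mem _ (Submodule.mem_sup_right ⟨hl, hl'⟩) (Submodule.mem_sup_left hz))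
  have f2 := cod_sup (D := M) (L := (D ⊔ L) ⊓ Z)
  have g1 : (D ⊓ (L ⊔ Z)) ⊔ M = ((D ⊔ L) ⊓ Z) ⊔ M := by
    apply le_antisymm
    · refine sup_le ?_ le_sup_right
      rintro x ⟨h1, h2⟩
      obtain ⟨l, hl, z, hz, rfl⟩ := Submodule.mem_sup.1 h2
      have hz' : z ∈ D ⊔ L := by
        have : z = (l + z) - l := by abel
        rw [this]
        exact Submodule.sub_mem _ (Submodule.mem_sup_left h1) (Submodule.mem_sup_right hl)
      exact Submodule.add_mem _ (Submodule.mem_sup_right (Submodule.mem_sup_left hl))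
        (Submodule.mem_sup_left ⟨hz', hz⟩)
    · refine sup_le ?_ le_sup_right
      rintro x ⟨h1, h2⟩
      obtain ⟨d, hd, l, hl, rfl⟩ := Submodule.mem_sup.1 h1
      have hd' : d ∈ L ⊔ Z := by
        have : d = (d + l) - l := by abel
        rw [this]
        exact Submodule.sub_mem _ (Submodule.mem_sup_right h2) (Submodule.mem_sup_left hl)
      exact Submodule.add_mem _ (Submodule.mem_sup_left ⟨hd, hd'⟩)
        (Submodule.mem_sup_right (Submodule.mem_sup_left hl))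
  rw [g1] at e4
  exact ⟨(e1.1.trans (e2.1.symm.trans (e3.1.trans (e4.1.symm.trans (f2.1.trans f1.1.symm))))),
    (e1.2.trans (e2.2.symm.trans (e3.2.trans (e4.2.symm.trans (f2.2.trans f1.2.symm)))))⟩

/-- **Additivity of the Euler characteristic.** -/
theorem cx_add (f : V →ₗ[k] W) {D L S : Submodule k V} (hD : D ≤ S) (hL : L ≤ S)
    (h1 : Module.Finite k ↥(D ⊓ L ⊓ LinearMap.ker f))
    (h2 : Fc ((D ⊓ LinearMap.ker f) ⊔ (L ⊓ LinearMap.ker f)) (S ⊓ LinearMap.ker f))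
    (h3 : Module.Finite k ↥(D.map f ⊓ L.map f)) (h4 : Fc (D.map f ⊔ L.map f) (S.map f)) :
    Module.Finite k ↥(D ⊓ L) ∧ Fc (D ⊔ L) S ∧
    (finrank k ↥(D ⊓ L) : ℤ) - cod (D ⊔ L) S =
      ((finrank k ↥(D ⊓ L ⊓ LinearMap.ker f) : ℤ) -
        cod ((D ⊓ LinearMap.ker f) ⊔ (L ⊓ LinearMap.ker f)) (S ⊓ LinearMap.ker f)) +
      ((finrank k ↥(D.map f ⊓ L.map f) : ℤ) - cod (D.map f ⊔ L.map f) (S.map f)) := by
  set Z := LinearMap.ker f with hZ
  have hDL : D ⊔ L ≤ S := sup_le hD hL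
  -- `D.map f ⊓ L.map f`
  have m1 : D.map f ⊓ L.map f = ((D ⊔ Z) ⊓ (L ⊔ Z)).map f := by
    apply le_antisymm
    · rintro _ ⟨⟨d, hd, rfl⟩, ⟨l, hl, hld⟩⟩
      refine ⟨d, ⟨Submodule.mem_sup_left hd, ?_⟩, rfl⟩
      have : d = l + (d - l) := by abel
      rw [this]
      exact Submodule.add_mem _ (Submodule.mem_sup_left hl) (Submodule.mem_sup_right (by
        rw [hZ, LinearMap.mem_ker, map_sub, hld, sub_self]))
    · rintro _ ⟨x, ⟨h1, h2⟩, rfl⟩
      obtain ⟨d, hd, z, hz, rfl⟩ := Submodule.mem_sup.1 h1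
      refine ⟨⟨d, hd, ?_⟩, ?_⟩
      · rw [map_add, LinearMap.mem_ker.1 hz, add_zero]
      · obtain ⟨l, hl, z', hz', hlz⟩ := Submodule.mem_sup.1 h2
        exact ⟨l, hl, by rw [← hlz, map_add, LinearMap.mem_ker.1 hz', add_zero]⟩
  have m2 : D.map f ⊔ L.map f = (D ⊔ L).map f := (Submodule.map_sup D L f).symm
  -- `a''`
  have A := cx_map_bot f ((D ⊔ Z) ⊓ (L ⊔ Z))
  rw [← m1] at A
  have FA : Fc Z ((D ⊔ Z) ⊓ (L ⊔ Z)) := A.2.1 h3
  have cA := Fc.of_add (D := Z) (E := (D ⊓ L) ⊔ Z) (L := (D ⊔ Z) ⊓ (L ⊔ Z)) le_sup_right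
    (sup_le (le_inf (inf_le_left.trans le_sup_left) (inf_le_right.trans le_sup_left))
      (le_inf le_sup_right le_sup_right)) FA
  have cA' := cod_add (D := Z) (E := (D ⊓ L) ⊔ Z) (L := (D ⊔ Z) ⊓ (L ⊔ Z)) le_sup_right
    (sup_le (le_inf (inf_le_left.trans le_sup_left) (inf_le_right.trans le_sup_left))
      (le_inf le_sup_right le_sup_right)) cA.1 cA.2
  have cA'' := cod_sup (D := Z) (L := D ⊓ L)
  -- `a`
  have B1 := cod_eq_of_inf (D := D ⊓ L ⊓ Z) (D' := Z) (L := D ⊓ L) inf_le_right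
    (le_inf inf_le_right inf_le_left)
  have B2 := cod_bot (D ⊓ L ⊓ Z)
  have B3 := cod_bot (D ⊓ L)
  have FB : Fc Z (D ⊓ L) := cA''.2.1 cA.1
  have cB := cod_add (D := ⊥) (E := D ⊓ L ⊓ Z) (L := D ⊓ L) bot_le inf_le_left (B2.2.2 h1)
    (B1.2.2 FB)
  -- `b''`
  have C1 := cx_map f (D ⊔ L) S
  rw [← m2] at C1
  have FC : Fc (D ⊔ L ⊔ Z) S := C1.2.1 h4
  -- `b'`
  have hsub : (D ⊓ Z) ⊔ (L ⊓ Z) ≤ (D ⊔ L) ⊓ Z :=
    sup_le (inf_le_inf le_sup_left le_rfl) (inf_le_inf le_sup_right le_rfl)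
  have hsub' : (D ⊔ L) ⊓ Z ≤ S ⊓ Z := inf_le_inf hDL le_rfl
  have D1 := Fc.of_add hsub hsub' h2
  have D2 := cod_add hsub hsub' D1.1 D1.2
  have D3 := cod_eq_of_inf (D := (D ⊔ L) ⊓ Z) (D' := D ⊔ L) (L := S ⊓ Z) inf_le_left
    (le_inf inf_le_left (inf_le_right.trans inf_le_right))
  -- `b`
  have E1 := cod_eq_of_inf (D := (S ⊓ Z) ⊔ (D ⊔ L)) (D' := D ⊔ L ⊔ Z) (L := S)
    (sup_le (inf_le_right.trans le_sup_right) le_sup_left) (by
      rintro x ⟨h5, h6⟩
      obtain ⟨y, hy, z, hz, rfl⟩ := Submodule.mem_sup.1 h5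
      have hz' : z ∈ S := by
        have : z = (y + z) - y := by abel
        rw [this]
        exact Submodule.sub_mem _ h6 (hDL hy)
      exact Submodule.add_mem _ (Submodule.mem_sup_right hy)
        (Submodule.mem_sup_left ⟨hz', hz⟩))
  have E2 := cod_sup (D := D ⊔ L) (L := S ⊓ Z)
  have E3 := cod_add (D := D ⊔ L) (E := (S ⊓ Z) ⊔ (D ⊔ L)) (L := S) le_sup_right
    (sup_le inf_le_left hDL) (E2.2.2 (D3.2.1 D1.2)) (E1.2.2 FC)
  have G := cx_defect D L Z
  refine ⟨B3.2.1 cB.1, E3.1, ?_⟩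
  rw [← B3.1, ← B2.1, A.1, C1.1, cB.2, E3.2, D2.2, cA'.2, cA''.1, B1.1, E2.1, E1.1, D3.1, ← G.1]
  push_cast
  ring

end

end Vale.Agent.P292.Dv
end

section

/-! # R6: derivations of the Rees algebra. -/

namespace Vale.Agent.P292.Dv

open Module Submodule Vale.Agent.P292.Mo

universe u v w

section abs

variable {k : Type u} [Field k] {K : Type w} [Field K] [Algebra k K]
variable {V W : Type*} [AddCommGroup V] [Module k V] [AddCommGroup W] [Module k W]

/-- The abstract form. -/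
theorem rc_abstract (f : V →ₗ[k] W) (E : K →ₗ[k] V) (hE : Function.Injective E)
    {D L S : Submodule k V} (hD : D ≤ S) (hL : L ≤ S) (I M : Submodule k K)
    (eS : S ⊓ LinearMap.ker f = (⊤ : Submodule k K).map E)
    (eD : D ⊓ LinearMap.ker f = I.map E) (eL : L ⊓ LinearMap.ker f = M.map E)
    (h1 : Module.Finite k ↥(I ⊓ M)) (h2 : Module.Finite k (K ⧸ (I ⊔ M)))
    (h3 : Module.Finite k ↥(D.map f ⊓ L.map f)) (h4 : Fc (D.map f ⊔ L.map f) (S.map f)) :
    Module.Finite k ↥(D ⊓ L) ∧ Fc (D ⊔ L) S ∧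
    (finrank k ↥(D ⊓ L) : ℤ) - cod (D ⊔ L) S =
      ((finrank k ↥(I ⊓ M) : ℤ) - finrank k (K ⧸ (I ⊔ M))) +
      ((finrank k ↥(D.map f ⊓ L.map f) : ℤ) - cod (D.map f ⊔ L.map f) (S.map f)) := by
  have e1 : D ⊓ L ⊓ LinearMap.ker f = (I ⊓ M).map E := by
    rw [Submodule.map_inf _ hE, ← eD, ← eL, inf_inf_distrib_right]
  have e2 : (D ⊓ LinearMap.ker f) ⊔ (L ⊓ LinearMap.ker f) = (I ⊔ M).map E := by
    rw [eD, eL, Submodule.map_sup]
  let e : ↥(I ⊓ M) ≃ₗ[k] ↥((I ⊓ M).map E) := Submodule.equivMapOfInjective E hE _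
  have f1 : Module.Finite k ↥(D ⊓ L ⊓ LinearMap.ker f) := by
    rw [e1]
    exact Module.Finite.equiv e
  have g1 : finrank k ↥(D ⊓ L ⊓ LinearMap.ker f) = finrank k ↥(I ⊓ M) := by
    rw [e1]
    exact (LinearEquiv.finrank_eq e).symm
  have ct := cod_top (I ⊔ M)
  have ci := cod_map_inj hE (I ⊔ M) ⊤
  have f2 : Fc ((D ⊓ LinearMap.ker f) ⊔ (L ⊓ LinearMap.ker f)) (S ⊓ LinearMap.ker f) := by
    rw [e2, eS, ci.2, ct.2]
    exact h2
  have g2 : cod ((D ⊓ LinearMap.ker f) ⊔ (L ⊓ LinearMap.ker f)) (S ⊓ LinearMap.ker f) =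
      finrank k (K ⧸ (I ⊔ M)) := by
    rw [e2, eS, ci.1, ct.1]
  have h5 := cx_add f hD hL f1 f2 h3 h4
  rw [g1, g2] at h5
  exact h5

end abs

section

variable {k : Type u} [Field k] {R : Type v} [CommRing R] [Algebra k R]

theorem rT_smul (J : Ideal R) (r : R) (x : J) :
    rT J (r • x) = algebraMap R (reesAlgebra J) r * rT J x := by
  apply Subtype.ext
  rw [Subalgebra.coe_mul]
  change Polynomial.monomial 1 (r * (x : R)) = Polynomial.C r * Polynomial.monomial 1 (x : R)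
  rw [Polynomial.C_mul_monomial]

theorem rT_add (J : Ideal R) (x y : J) : rT J (x + y) = rT J x + rT J y := by
  apply Subtype.ext
  rw [Subalgebra.coe_add]
  change Polynomial.monomial 1 ((x : R) + (y : R)) = _
  rw [map_add]
  rfl

/-- Induction on the Rees algebra. -/
theorem rees_induction {J : Ideal R} {p : reesAlgebra J → Prop}
    (h1 : ∀ r, p (algebraMap R (reesAlgebra J) r)) (h2 : ∀ x, p (rT J x))
    (hadd : ∀ s t, p s → p t → p (s + t)) (hmul : ∀ s t, p s → p t → p (s * t))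
    (s : reesAlgebra J) : p s := by
  have key : ∀ (q : Polynomial R)
      (hq : q ∈ Algebra.adjoin R (Submodule.map (Polynomial.monomial 1 : R →ₗ[R] Polynomial R) J :
        Set (Polynomial R))), ∀ hq' : q ∈ reesAlgebra J, p ⟨q, hq'⟩ := by
    intro q hq
    induction hq using Algebra.adjoin_induction with
    | mem q hq =>
      intro hq'
      obtain ⟨x, hx, rfl⟩ := hq
      exact h2 ⟨x, hx⟩
    | algebraMap r => exact fun _ => h1 r
    | add a b ha hb iha ihb =>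
      intro hq'
      rw [adjoin_monomial_eq_reesAlgebra] at ha hb
      exact hadd ⟨a, ha⟩ ⟨b, hb⟩ (iha ha) (ihb hb)
    | mul a b ha hb iha ihb =>
      intro hq'
      rw [adjoin_monomial_eq_reesAlgebra] at ha hb
      exact hmul ⟨a, ha⟩ ⟨b, hb⟩ (iha ha) (ihb hb)
  obtain ⟨q, hq⟩ := s
  refine key q ?_ hq
  rw [adjoin_monomial_eq_reesAlgebra]
  exact hq

/-- Homogeneous induction on the Rees algebra. -/
theorem rees_induction_homog {𝒜 : ℕ → Submodule k R} [GradedAlgebra 𝒜] {J : Ideal R}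
    (hJ : J.IsHomogeneous 𝒜) (C : ℕ × ℕ → Submodule k (reesAlgebra J))
    (h1 : ∀ j, ∀ r ∈ 𝒜 j, algebraMap R (reesAlgebra J) r ∈ C (j, 0))
    (h2 : ∀ j, ∀ x : J, (x : R) ∈ 𝒜 j → rT J x ∈ C (j, 1))
    (hmul : ∀ m n, ∀ s ∈ C m, ∀ t ∈ C n, s * t ∈ C (m + n)) (n : ℕ × ℕ) : rgr 𝒜 J n ≤ C n := by
  classical
  have key : ∀ m, ∀ c ∈ J ^ m, ∀ j, ∃ s ∈ C (j, m),
      (s : Polynomial R) = Polynomial.monomial m ((DirectSum.decompose 𝒜 c j : 𝒜 j) : R) := by
    intro m
    induction m with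
    | zero =>
      intro c _ j
      exact ⟨_, h1 j _ (SetLike.coe_mem _), rfl⟩
    | succ m ih =>
      intro c hc
      rw [pow_succ] at hc
      refine Submodule.mul_induction_on (C := fun c => ∀ j, ∃ s ∈ C (j, m + 1),
        (s : Polynomial R) = Polynomial.monomial (m + 1)
          ((DirectSum.decompose 𝒜 c j : 𝒜 j) : R)) hc ?_ ?_
      · intro x hx y hy j
        -- the product
        choose s hs hs' using fun i => ih x hx i
        have hy' : ∀ i, ((DirectSum.decompose 𝒜 y i : 𝒜 i) : R) ∈ J := fun i => hJ i hy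
        refine ⟨∑ i ∈ Finset.HasAntidiagonal.antidiagonal j, s i.1 * rT J ⟨_, hy' i.2⟩, ?_, ?_⟩
        · refine Submodule.sum_mem _ fun i hi => ?_
          have h3 := hmul _ _ _ (hs i.1) _ (h2 i.2 ⟨_, hy' i.2⟩ (SetLike.coe_mem _))
          have h4 : ((i.1, m) : ℕ × ℕ) + (i.2, 1) = (j, m + 1) := by
            rw [Prod.mk_add_mk, Finset.HasAntidiagonal.mem_antidiagonal.1 hi]
          rwa [h4] at h3
        · have h5 : ((DirectSum.decompose 𝒜 (x * y) j : 𝒜 j) : R) =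
              ∑ i ∈ Finset.HasAntidiagonal.antidiagonal j, ((DirectSum.decompose 𝒜 x i.1 : 𝒜 i.1) : R) *
                ((DirectSum.decompose 𝒜 y i.2 : 𝒜 i.2) : R) := by
            rw [DirectSum.decompose_mul, DirectSum.coe_mul_apply_eq_sum_antidiagonal]
          rw [h5, map_sum, AddSubmonoidClass.coe_finsetSum]
          refine Finset.sum_congr rfl fun i _ => ?_
          rw [Subalgebra.coe_mul, hs', ← Polynomial.monomial_mul_monomial]
          rfl
      · intro x y hx hy j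
        obtain ⟨s, hs, hs'⟩ := hx j
        obtain ⟨t, ht, ht'⟩ := hy j
        refine ⟨s + t, Submodule.add_mem _ hs ht, ?_⟩
        rw [Subalgebra.coe_add, hs', ht', DirectSum.decompose_add, DirectSum.add_apply,
          Submodule.coe_add, map_add]
  rintro f ⟨c, hc, hf⟩
  have hcJ : c ∈ J ^ n.2 := by
    have h3 := f.2
    rw [hf, reesAlgebra.monomial_mem] at h3
    exact h3
  obtain ⟨s, hs, hs'⟩ := key n.2 c hcJ n.1
  have h4 : s = f := Subtype.ext (by rw [hs', hf, DirectSum.decompose_of_mem_same 𝒜 hc])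
  rw [← h4]
  exact hs

/-- Derivations of the Rees algebra exist. -/
theorem rc_exists_der [IsDomain R] {J : Ideal R} {K : Type w} [Field K] [Algebra k K]
    (R5 : ∀ {a : J} {b : R} (_ : (a : R) ≠ 0)
      (_ : ∀ x ∈ J, ∃ r, b * x = r * a) {B : Type w} [CommRing B] [Algebra k B] (φ : R →ₐ[k] B)
      (η : J →ₗ[k] B) (_ : ∀ (r : R) (x : J), η (r • x) = φ r * η x) (_ : IsUnit (φ b)),
      ∃ Φ : reesAlgebra J →ₐ[k] B, (∀ r, Φ (algebraMap R (reesAlgebra J) r) = φ r) ∧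
        ∀ x, Φ (rT J x) = η x)
    {φ : R →ₐ[k] K} {η : J →ₗ[k] K} (hη : ∀ (r : R) (x : J), η (r • x) = φ r * η x)
    {Φ : reesAlgebra J →ₐ[k] K} (hΦ : ∀ r, Φ (algebraMap R (reesAlgebra J) r) = φ r)
    (hΦT : ∀ x, Φ (rT J x) = η x) {a : J} {b : R} (hab : ∀ x ∈ J, ∃ r, b * x = r * a)
    (hb : φ b ≠ 0) (ha : η a ≠ 0) {δ : R →ₗ[k] K} (hδ : δ ∈ DerS φ) (z : K) :
    ∃ δ' ∈ DerS Φ, (∀ r, δ' (algebraMap R (reesAlgebra J) r) = δ r) ∧ δ' (rT J a) = z := by
  classical
  have ha0 : (a : R) ≠ 0 := fun h => ha (by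
    have : a = 0 := Subtype.ext h
    rw [this, map_zero])
  -- the homomorphism to the dual numbers
  let B := TrivSqZeroExt K K
  let φB : R →ₐ[k] B := AlgHom.ofLinearMap
    { toFun := fun r => (φ r, δ r)
      map_add' := fun r s => by
        refine TrivSqZeroExt.ext ?_ ?_
        · exact map_add φ r s
        · exact map_add δ r s
      map_smul' := fun c r => by
        refine TrivSqZeroExt.ext ?_ ?_
        · exact map_smul φ c r
        · exact map_smul δ c r }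
    (by
      refine TrivSqZeroExt.ext ?_ ?_
      · exact map_one φ
      · change δ 1 = 0
        have h := hδ 1 1
        rw [mul_one, map_one φ, one_mul] at h
        exact (left_eq_add.1 h))
    (fun r s => by
      refine TrivSqZeroExt.ext ?_ ?_
      · exact map_mul φ r s
      · rw [TrivSqZeroExt.snd_mul]
        change δ (r * s) = φ r • δ s + MulOpposite.op (φ s) • δ r
        rw [hδ, smul_eq_mul, op_smul_eq_mul, mul_comm (δ r)])
  have hφB1 : ∀ r, (φB r).fst = φ r := fun r => rfl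
  have hφB2 : ∀ r, (φB r).snd = δ r := fun r => rfl
  have hbu : IsUnit (φB b) := by
    rw [TrivSqZeroExt.isUnit_iff_isUnit_fst]
    exact IsUnit.mk0 _ hb
  obtain ⟨c, hc⟩ := hbu
  choose r hr using fun x : J => hab x x.2
  have huniq : ∀ s t : R, s * (a : R) = t * a → s = t := fun s t h => mul_right_cancel₀ ha0 h
  let y : B := (η a, z)
  let ηB : J →ₗ[k] B :=
    { toFun := fun x => ↑c⁻¹ * (φB (r x) * y)
      map_add' := fun x x' => by
        have h1 : r (x + x') = r x + r x' := huniq _ _ (by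
          rw [← hr, add_mul, ← hr, ← hr, ← mul_add]
          rfl)
        rw [h1, map_add]
        ring
      map_smul' := fun m x => by
        have h1 : r (m • x) = m • r x := huniq _ _ (by
          rw [← hr, smul_mul_assoc, ← hr]
          change b * (m • (x : R)) = _
          rw [mul_smul_comm])
        rw [h1, map_smul, RingHom.id_apply, smul_mul_assoc, mul_smul_comm] }
  have hηB : ∀ x, ηB x = ↑c⁻¹ * (φB (r x) * y) := fun _ => rfl
  have hlin : ∀ (s : R) (x : J), ηB (s • x) = φB s * ηB x := by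
    intro s x
    have h1 : r (s • x) = s * r x := huniq _ _ (by
      rw [← hr, mul_assoc, ← hr]
      change b * (s * (x : R)) = _
      ring)
    rw [hηB, hηB, h1, map_mul]
    ring
  obtain ⟨Ψ, h1, h2⟩ := R5 ha0 hab φB ηB hlin ⟨c, hc⟩
  have hra : r a = b := huniq _ _ (by rw [← hr])
  have h2a : Ψ (rT J a) = y := by
    rw [h2, hηB, hra, ← hc, ← mul_assoc, Units.inv_mul, one_mul]
  have hfst : ∀ s, (Ψ s).fst = Φ s := by
    intro s
    refine rees_induction (p := fun s => (Ψ s).fst = Φ s) ?_ ?_ ?_ ?_ s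
    · intro t
      rw [h1, hΦ]
      exact hφB1 t
    · intro x
      rw [h2, hΦT, hηB, TrivSqZeroExt.fst_mul, TrivSqZeroExt.fst_mul, hφB1]
      have h3 : (↑c⁻¹ : B).fst * φ b = 1 := by
        have h4 := congrArg TrivSqZeroExt.fst (Units.inv_mul c)
        rw [TrivSqZeroExt.fst_mul, hc, hφB1] at h4
        exact h4
      have h5 : φ b * η x = φ (r x) * η a := by
        rw [← hη, ← hη]
        congr 1
        exact Subtype.ext (hr x)
      change (↑c⁻¹ : B).fst * (φ (r x) * η a) = η x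
      rw [← h5, ← mul_assoc, h3, one_mul]
    · intro s t hs ht
      rw [map_add, map_add, TrivSqZeroExt.fst_add, hs, ht]
    · intro s t hs ht
      rw [map_mul, map_mul, TrivSqZeroExt.fst_mul, hs, ht]
  let δ' : reesAlgebra J →ₗ[k] K :=
    { toFun := fun s => (Ψ s).snd
      map_add' := fun s t => by rw [map_add, TrivSqZeroExt.snd_add]
      map_smul' := fun m s => by rw [map_smul, TrivSqZeroExt.snd_smul, RingHom.id_apply] }
  refine ⟨δ', ?_, ?_, ?_⟩
  · intro s t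
    change (Ψ (s * t)).snd = Φ s * (Ψ t).snd + Φ t * (Ψ s).snd
    rw [map_mul, TrivSqZeroExt.snd_mul, hfst, hfst, smul_eq_mul, op_smul_eq_mul,
      mul_comm (Ψ s).snd]
  · intro s
    change (Ψ _).snd = δ s
    rw [h1, hφB2]
  · change (Ψ _).snd = z
    rw [h2a]
    rfl

/-- The relation between the values on the second generators. -/
theorem rc_rel {J : Ideal R} {K : Type w} [Field K] [Algebra k K] {Φ : reesAlgebra J →ₐ[k] K}
    {a x : J} {b r : R} (h : b * (x : R) = r * a) {δ : reesAlgebra J →ₗ[k] K} (hδ : δ ∈ DerS Φ) :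
    Φ (algebraMap R _ b) * δ (rT J x) + Φ (rT J x) * δ (algebraMap R _ b) =
      Φ (algebraMap R _ r) * δ (rT J a) + Φ (rT J a) * δ (algebraMap R _ r) := by
  have h1 : b • x = r • a := Subtype.ext h
  have h2 := congrArg δ ((rT_smul J b x).symm.trans ((congrArg (rT J) h1).trans (rT_smul J r a)))
  rwa [hδ, hδ] at h2

/-- R6, relative to R5. -/
theorem chi_rees_of [IsDomain R] {𝒜 : ℕ → Submodule k R} [GradedAlgebra 𝒜]
    {P : R →ₗ[k] R →ₗ[k] R} {J : Ideal R} (hJ : J.IsHomogeneous 𝒜)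
    {K : Type w} [Field K] [Algebra k K] {N : ℕ} {A₀ A₁ : Subalgebra k K} {u v : K}
    (R5 : ∀ {a : J} {b : R} (_ : (a : R) ≠ 0)
      (_ : ∀ x ∈ J, ∃ r, b * x = r * a) {B : Type w} [CommRing B] [Algebra k B] (φ : R →ₐ[k] B)
      (η : J →ₗ[k] B) (_ : ∀ (r : R) (x : J), η (r • x) = φ r * η x) (_ : IsUnit (φ b)),
      ∃ Φ : reesAlgebra J →ₐ[k] B, (∀ r, Φ (algebraMap R (reesAlgebra J) r) = φ r) ∧
        ∀ x, Φ (rT J x) = η x)
    {φ : R →ₐ[k] K} {η : J →ₗ[k] K} (h : IsGP 𝒜 P J N A₀ A₁ u v φ η)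
    {Φ : reesAlgebra J →ₐ[k] K} (hΦ : ∀ r, Φ (algebraMap R (reesAlgebra J) r) = φ r)
    (hΦT : ∀ x, Φ (rT J x) = η x) (I : Submodule k K) (hI : ∀ a ∈ I, a ∈ A₀)
    (hIm : ∀ a ∈ A₀, ∀ b ∈ I, a * b ∈ I)
    (f1 : FiniteDimensional k ↥(T0 𝒜 φ I A₁ u)) (f2 : FiniteDimensional k ↥(ObS 𝒜 φ I A₁ u))
    (f3 : FiniteDimensional k ↥(I ⊓ Subalgebra.toSubmodule A₁))
    (f4 : FiniteDimensional k (K ⧸ (I ⊔ Subalgebra.toSubmodule A₁))) :
    FiniteDimensional k ↥(T0G (rgr 𝒜 J) Φ I A₁ (UU u v)) ∧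
    FiniteDimensional k ↥(ObG (rgr 𝒜 J) Φ I A₁ (UU u v)) ∧
    (Module.finrank k ↥(T0G (rgr 𝒜 J) Φ I A₁ (UU u v)) : ℤ) -
      Module.finrank k ↥(ObG (rgr 𝒜 J) Φ I A₁ (UU u v)) =
    (Module.finrank k ↥(T0 𝒜 φ I A₁ u) : ℤ) - Module.finrank k ↥(ObS 𝒜 φ I A₁ u) +
      (Module.finrank k ↥(I ⊓ Subalgebra.toSubmodule A₁) -
        Module.finrank k (K ⧸ (I ⊔ Subalgebra.toSubmodule A₁))) := by
  classical
  have hlin := h.lin
  have hu := h.mp.u_ne
  obtain ⟨i0, j0, a0, b0, hj0, ha0, hb0, hab0, hφb0, hφb0i, hηa0, hηa0i⟩ := h.loc0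
  obtain ⟨i1, j1, a1, b1, hj1, ha1, hb1, hab1, hφb1, hφb1i, hηa1, hηa1i⟩ := h.loc1
  -- values in the charts
  have hφ0 : ∀ r, φ r ∈ A₀ := h.mp.mem0
  have hη0 : ∀ x : J, η x ∈ A₀ := by
    intro x
    have h1 : x = ∑ n ∈ (DirectSum.decompose 𝒜 (x : R)).support,
        (⟨((DirectSum.decompose 𝒜 (x : R) n : 𝒜 n) : R), hJ n x.2⟩ : J) := by
      apply Subtype.ext
      rw [AddSubmonoidClass.coe_finsetSum]
      exact (DirectSum.sum_support_decompose 𝒜 (x : R)).symm
    rw [h1, map_sum]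
    exact sum_mem fun n _ => (h.secη n _ (SetLike.coe_mem _)).1
  have hΦ0 : ∀ s, Φ s ∈ A₀ := by
    intro s
    refine rees_induction (p := fun s => Φ s ∈ A₀) (fun r => ?_) (fun x => ?_)
      (fun s t hs ht => ?_) (fun s t hs ht => ?_) s
    · rw [hΦ]; exact hφ0 r
    · rw [hΦT]; exact hη0 x
    · rw [map_add]; exact A₀.add_mem hs ht
    · rw [map_mul]; exact A₀.mul_mem hs ht
  -- separation and the two criteria
  have hsep : ∀ δ ∈ DerS Φ, (∀ r, δ (algebraMap R _ r) = 0) → (∀ x, δ (rT J x) = 0) → δ = 0 := by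
    intro δ hδ h1 h2
    ext s
    refine rees_induction (p := fun s => δ s = 0) h1 h2 (fun s t hs ht => ?_)
      (fun s t hs ht => ?_) s
    · rw [map_add, hs, ht, add_zero]
    · rw [hδ, hs, ht, mul_zero, mul_zero, add_zero]
  have hc0 : ∀ I : Submodule k K, (∀ a ∈ A₀, ∀ b ∈ I, a * b ∈ I) → ∀ δ ∈ DerS Φ,
      (∀ r, δ (algebraMap R _ r) ∈ I) → (∀ x, δ (rT J x) ∈ I) → ∀ s, δ s ∈ I := by
    intro I hIm δ hδ h1 h2 s
    refine rees_induction (p := fun s => δ s ∈ I) h1 h2 (fun s t hs ht => ?_)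
      (fun s t hs ht => ?_) s
    · rw [map_add]; exact I.add_mem hs ht
    · rw [hδ]; exact I.add_mem (hIm _ (hΦ0 s) _ ht) (hIm _ (hΦ0 t) _ hs)
  have hc1 : ∀ δ ∈ DerS Φ, (∀ j, ∀ r ∈ 𝒜 j, u ^ j * δ (algebraMap R _ r) ∈ A₁) →
      (∀ j, ∀ x : J, (x : R) ∈ 𝒜 j → u ^ j * v * δ (rT J x) ∈ A₁) →
      ∀ n, ∀ s ∈ rgr 𝒜 J n, UU u v n * δ s ∈ A₁ := by
    intro δ hδ h1 h2 n
    let C : ℕ × ℕ → Submodule k (reesAlgebra J) := fun n =>
      ((Subalgebra.toSubmodule A₁).comap (LinearMap.mulLeft k (UU u v n) ∘ₗ Φ.toLinearMap)) ⊓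
      ((Subalgebra.toSubmodule A₁).comap (LinearMap.mulLeft k (UU u v n) ∘ₗ δ))
    have hC : ∀ n s, s ∈ C n ↔ UU u v n * Φ s ∈ A₁ ∧ UU u v n * δ s ∈ A₁ := fun n s => Iff.rfl
    have hmem : rgr 𝒜 J n ≤ C n := by
      refine rees_induction_homog hJ C ?_ ?_ ?_ n
      · intro j r hr
        rw [hC, hΦ]
        have e : UU u v (j, 0) = u ^ j := by rw [UU, pow_zero, mul_one]
        rw [e]
        exact ⟨(h.mp.sec j r hr).2, h1 j r hr⟩
      · intro j x hx
        rw [hC, hΦT]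
        have e : UU u v (j, 1) = u ^ j * v := by rw [UU, pow_one]
        rw [e]
        exact ⟨(h.secη j x hx).2, h2 j x hx⟩
      · intro m n s hs t ht
        rw [hC] at hs ht ⊢
        have e : UU u v (m + n) = UU u v m * UU u v n := by
          simp only [UU, Prod.fst_add, Prod.snd_add, pow_add]
          ring
        rw [e, map_mul, hδ]
        constructor
        · have : UU u v m * UU u v n * (Φ s * Φ t) = (UU u v m * Φ s) * (UU u v n * Φ t) := by ring
          rw [this]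
          exact A₁.mul_mem hs.1 ht.1
        · have : UU u v m * UU u v n * (Φ s * δ t + Φ t * δ s) =
              (UU u v m * Φ s) * (UU u v n * δ t) + (UU u v n * Φ t) * (UU u v m * δ s) := by ring
          rw [this]
          exact A₁.add_mem (A₁.mul_mem hs.1 ht.2) (A₁.mul_mem ht.1 hs.2)
    exact fun s hs => (hmem hs).2
  -- the restriction
  let f : (reesAlgebra J →ₗ[k] K) →ₗ[k] (R →ₗ[k] K) :=
    { toFun := fun δ => δ ∘ₗ (IsScalarTower.toAlgHom k R (reesAlgebra J)).toLinearMap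
      map_add' := fun _ _ => rfl
      map_smul' := fun _ _ => rfl }
  have hf : ∀ δ r, f δ r = δ (algebraMap R _ r) := fun _ _ => rfl
  have hfS : ∀ δ ∈ DerS Φ, f δ ∈ DerS φ := by
    intro δ hδ r s
    rw [hf, hf, hf, map_mul, hδ, hΦ, hΦ]
  have hext0 : ∀ δ ∈ DerS φ, ∀ z, ∃ δ' ∈ DerS Φ, f δ' = δ ∧ δ' (rT J a0) = z := by
    intro δ hδ z
    obtain ⟨δ', h1, h2, h3⟩ := rc_exists_der R5 hlin hΦ hΦT hab0 hφb0 hηa0 hδ z
    exact ⟨δ', h1, LinearMap.ext h2, h3⟩
  -- the Euler derivation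
  obtain ⟨E1, hE1, hE1f, hE1a⟩ := hext0 0 (zero_mem _) (η a0)
  have hE1r : ∀ r, E1 (algebraMap R _ r) = 0 := fun r => by
    rw [← hf, hE1f, LinearMap.zero_apply]
  have hker : ∀ δ ∈ DerS Φ, (∀ r, δ (algebraMap R _ r) = 0) → ∀ x,
      δ (rT J x) = (δ (rT J a0) / η a0) * η x := by
    intro δ hδ h1 x
    obtain ⟨r, hr⟩ := hab0 x x.2
    have h2 := rc_rel (Φ := Φ) hr hδ
    rw [h1, h1, mul_zero, mul_zero, add_zero, add_zero, hΦ, hΦ] at h2
    have h3 : φ b0 * η x = φ r * η a0 := by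
      rw [← hlin, ← hlin]
      congr 1
      exact Subtype.ext hr
    field_simp
    refine mul_left_cancel₀ hφb0 ?_
    linear_combination η a0 * h2 - δ (rT J a0) * h3
  have hE1x : ∀ x, E1 (rT J x) = η x := by
    intro x
    rw [hker E1 hE1 hE1r x, hE1a, div_self hηa0, one_mul]
  let E : K →ₗ[k] (reesAlgebra J →ₗ[k] K) :=
    { toFun := fun z => LinearMap.mulLeft k z ∘ₗ E1
      map_add' := fun z z' => by
        ext s
        change (z + z') * E1 s = z * E1 s + z' * E1 s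
        ring
      map_smul' := fun c z => by
        ext s
        change (c • z) * E1 s = c • (z * E1 s)
        rw [smul_mul_assoc] }
  have hEa : ∀ z s, E z s = z * E1 s := fun _ _ => rfl
  have hEd : ∀ z, E z ∈ DerS Φ := by
    intro z s t
    rw [hEa, hEa, hEa, hE1]
    ring
  have hEinj : Function.Injective E := by
    rw [injective_iff_map_eq_zero]
    intro z hz
    have h1 := LinearMap.congr_fun hz (rT J a0)
    rw [hEa, hE1a, LinearMap.zero_apply] at h1
    exact (mul_eq_zero.1 h1).resolve_right hηa0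
  have hEf : ∀ z, f (E z) = 0 := by
    intro z
    ext r
    rw [hf, hEa, hE1r, mul_zero, LinearMap.zero_apply]
  have hEker : ∀ δ ∈ DerS Φ, f δ = 0 → δ = E (δ (rT J a0) / η a0) := by
    intro δ hδ h1
    have h1' : ∀ r, δ (algebraMap R _ r) = 0 := fun r => by rw [← hf, h1, LinearMap.zero_apply]
    have h2 := hsep (δ - E (δ (rT J a0) / η a0)) (sub_mem hδ (hEd _)) (fun r => by
      rw [LinearMap.sub_apply, h1', hEa, hE1r, mul_zero, sub_zero]) (fun x => by
      rw [LinearMap.sub_apply, hker δ hδ h1' x, hEa, hE1x, sub_self])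
    exact sub_eq_zero.1 h2
  -- the data
  have hD : Der0 Φ I ≤ DerS Φ := fun δ hδ => hδ.1
  have hL : Der1G (rgr 𝒜 J) Φ A₁ (UU u v) ≤ DerS Φ := fun δ hδ => hδ.1
  have eS : DerS Φ ⊓ LinearMap.ker f = (⊤ : Submodule k K).map E := by
    ext δ
    constructor
    · rintro ⟨h1, h2⟩
      exact ⟨_, trivial, (hEker δ h1 h2).symm⟩
    · rintro ⟨z, -, rfl⟩
      exact ⟨hEd z, hEf z⟩
  have eD : Der0 Φ I ⊓ LinearMap.ker f = I.map E := by
    ext δ
    constructor
    · rintro ⟨h1, h2⟩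
      refine ⟨_, ?_, (hEker δ h1.1 h2).symm⟩
      rw [div_eq_mul_inv, mul_comm]
      exact hIm _ hηa0i _ (h1.2 _)
    · rintro ⟨z, hz, rfl⟩
      refine ⟨⟨hEd z, fun s => ?_⟩, hEf z⟩
      rw [hEa, mul_comm]
      refine hIm _ ?_ _ hz
      exact hc0 (Subalgebra.toSubmodule A₀) (fun a ha b hb => A₀.mul_mem ha hb) E1 hE1
        (fun r => by rw [hE1r]; exact A₀.zero_mem) (fun x => by rw [hE1x]; exact hη0 x) s
  have eL : Der1G (rgr 𝒜 J) Φ A₁ (UU u v) ⊓ LinearMap.ker f =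
      (Subalgebra.toSubmodule A₁).map E := by
    ext δ
    constructor
    · rintro ⟨h1, h2⟩
      have h3 := hEker δ h1.1 h2
      refine ⟨_, ?_, h3.symm⟩
      set z := δ (rT J a0) / η a0
      have h4 := h1.2 (i1, 1) (rT J a1) ⟨a1, ha1, rfl⟩
      rw [h3, hEa, hE1x] at h4
      have e : UU u v (i1, 1) = u ^ i1 * v := by rw [UU, pow_one]
      rw [e] at h4
      have h5 := A₁.mul_mem hηa1i h4
      have h6 : (u ^ i1 * v * η a1)⁻¹ * (u ^ i1 * v * (z * η a1)) = z := by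
        have := pow_ne_zero i1 hu
        have := h.v_ne
        field_simp
      rw [h6] at h5
      exact h5
    · rintro ⟨z, hz, rfl⟩
      refine ⟨⟨hEd z, hc1 _ (hEd z) (fun j r _ => ?_) fun j x hx => ?_⟩, hEf z⟩
      · rw [hEa, hE1r, mul_zero, mul_zero]
        exact A₁.zero_mem
      · rw [hEa, hE1x]
        have : u ^ j * v * (z * η x) = z * (u ^ j * v * η x) := by ring
        rw [this]
        exact A₁.mul_mem hz (h.secη j x hx).2
  have mS : (DerS Φ).map f = DerS φ := by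
    ext δ
    constructor
    · rintro ⟨δ', h1, rfl⟩
      exact hfS _ h1
    · intro hδ
      obtain ⟨δ', h1, h2, -⟩ := hext0 δ hδ 0
      exact ⟨δ', h1, h2⟩
  have mD : (Der0 Φ I).map f = Der0 φ I := by
    ext δ
    constructor
    · rintro ⟨δ', h1, rfl⟩
      exact ⟨hfS _ h1.1, fun r => h1.2 _⟩
    · rintro ⟨hδ, hv⟩
      obtain ⟨δ', h1, h2, h3⟩ := hext0 δ hδ 0
      have h2' : ∀ r, δ' (algebraMap R _ r) = δ r := fun r => by rw [← hf, h2]
      refine ⟨δ', ⟨h1, hc0 I hIm δ' h1 (fun r => by rw [h2']; exact hv r) fun x => ?_⟩, h2⟩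
      obtain ⟨r, hr⟩ := hab0 x x.2
      have h4 := rc_rel (Φ := Φ) hr h1
      rw [h2', h2', h3, mul_zero, zero_add, hΦ, hΦT, hΦT] at h4
      have h5 : δ' (rT J x) = (φ b0)⁻¹ * (η a0 * δ r - η x * δ b0) := by
        rw [eq_inv_mul_iff_mul_eq₀ hφb0]
        linear_combination h4
      rw [h5]
      exact hIm _ hφb0i _ (I.sub_mem (hIm _ (hη0 _) _ (hv _)) (hIm _ (hη0 _) _ (hv _)))
  have mL : (Der1G (rgr 𝒜 J) Φ A₁ (UU u v)).map f = Der1 𝒜 φ A₁ u := by
    ext δ
    constructor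
    · rintro ⟨δ', h1, rfl⟩
      refine ⟨hfS _ h1.1, fun n r hr => ?_⟩
      have h2 := h1.2 (n, 0) (algebraMap R _ r) ⟨r, hr, rfl⟩
      have e : UU u v (n, 0) = u ^ n := by rw [UU, pow_zero, mul_one]
      rw [e] at h2
      exact h2
    · rintro ⟨hδ, hv⟩
      obtain ⟨δ', h1, h2, h3⟩ := rc_exists_der R5 hlin hΦ hΦT hab1 hφb1 hηa1 hδ 0
      refine ⟨δ', ⟨h1, hc1 δ' h1 (fun j r hr => by rw [h2]; exact hv j r hr) fun n x hx => ?_⟩,
        LinearMap.ext h2⟩
      -- a homogeneous quotient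
      obtain ⟨r, hr⟩ := hab1 x x.2
      have hbx : b1 * (x : R) ∈ 𝒜 (j1 + n) := SetLike.mul_mem_graded hb1 hx
      obtain ⟨r', m, hr', hm, hrr⟩ : ∃ r' : R, ∃ m : ℕ, r' ∈ 𝒜 m ∧
          (r' = 0 ∨ m + i1 = j1 + n) ∧ b1 * (x : R) = r' * a1 := by
        by_cases hi : i1 ≤ j1 + n
        · refine ⟨(DirectSum.decompose 𝒜 r (j1 + n - i1) : R), _, SetLike.coe_mem _,
            Or.inr (Nat.sub_add_cancel hi), ?_⟩
          rw [← DirectSum.decompose_of_mem_same 𝒜 hbx, hr,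
            ← DirectSum.coe_decompose_mul_of_right_mem_of_le 𝒜 ha1 hi]
        · refine ⟨0, 0, zero_mem _, Or.inl rfl, ?_⟩
          rw [← DirectSum.decompose_of_mem_same 𝒜 hbx, hr,
            DirectSum.coe_decompose_mul_of_right_mem_of_not_le 𝒜 ha1 hi, zero_mul]
      have h4 := rc_rel (Φ := Φ) hrr h1
      rw [h2, h2, h3, mul_zero, zero_add, hΦ, hΦT, hΦT] at h4
      have hu1 := pow_ne_zero j1 hu
      have h5 : u ^ n * v * δ' (rT J x) = (u ^ j1 * φ b1)⁻¹ *
          (u ^ (j1 + n) * v * (η a1 * δ r') - (u ^ n * v * η x) * (u ^ j1 * δ b1)) := by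
        rw [eq_inv_mul_iff_mul_eq₀ (mul_ne_zero hu1 hφb1), pow_add]
        linear_combination (u ^ j1 * u ^ n * v) * h4
      rw [h5]
      refine A₁.mul_mem hφb1i (A₁.sub_mem ?_ (A₁.mul_mem (h.secη n x hx).2 (hv _ _ hb1)))
      rcases hm with rfl | hm
      · rw [map_zero, mul_zero, mul_zero]
        exact A₁.zero_mem
      · rw [← hm, pow_add]
        have : u ^ m * u ^ i1 * v * (η a1 * δ r') = (u ^ i1 * v * η a1) * (u ^ m * δ r') := by ring
        rw [this]
        exact A₁.mul_mem (h.secη i1 a1 ha1).2 (hv m r' hr')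
  have key := rc_abstract f E hEinj hD hL I (Subalgebra.toSubmodule A₁) eS eD eL f3 f4
    (by rw [mD, mL]; exact f1) (by rw [mD, mL, mS]; exact f2)
  rw [mD, mL, mS] at key
  refine ⟨key.1, key.2.1, ?_⟩
  have h6 := key.2.2
  have e1 : (Module.finrank k ↥(T0G (rgr 𝒜 J) Φ I A₁ (UU u v)) : ℤ) =
      finrank k ↥(Der0 Φ I ⊓ Der1G (rgr 𝒜 J) Φ A₁ (UU u v)) := rfl
  have e2 : (Module.finrank k ↥(ObG (rgr 𝒜 J) Φ I A₁ (UU u v)) : ℤ) =
      cod (Der0 Φ I ⊔ Der1G (rgr 𝒜 J) Φ A₁ (UU u v)) (DerS Φ) := rfl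
  have e3 : (Module.finrank k ↥(T0 𝒜 φ I A₁ u) : ℤ) =
      finrank k ↥(Der0 φ I ⊓ Der1 𝒜 φ A₁ u) := rfl
  have e4 : (Module.finrank k ↥(ObS 𝒜 φ I A₁ u) : ℤ) =
      cod (Der0 φ I ⊔ Der1 𝒜 φ A₁ u) (DerS φ) := rfl
  rw [e1, e2, e3, e4, h6]
  ring

/-- R6 (D/ReesChi.lean). Derivations of the Rees algebra. -/
theorem chi_rees [IsDomain R] {𝒜 : ℕ → Submodule k R} [GradedAlgebra 𝒜]
    {P : R →ₗ[k] R →ₗ[k] R} {J : Ideal R} (hJ : J.IsHomogeneous 𝒜)
    {K : Type w} [Field K] [Algebra k K] {N : ℕ} {A₀ A₁ : Subalgebra k K} {u v : K}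
    {φ : R →ₐ[k] K} {η : J →ₗ[k] K} (h : IsGP 𝒜 P J N A₀ A₁ u v φ η)
    {Φ : reesAlgebra J →ₐ[k] K} (hΦ : ∀ r, Φ (algebraMap R (reesAlgebra J) r) = φ r)
    (hΦT : ∀ x, Φ (rT J x) = η x) (I : Submodule k K) (hI : ∀ a ∈ I, a ∈ A₀)
    (hIm : ∀ a ∈ A₀, ∀ b ∈ I, a * b ∈ I)
    (f1 : FiniteDimensional k ↥(T0 𝒜 φ I A₁ u)) (f2 : FiniteDimensional k ↥(ObS 𝒜 φ I A₁ u))
    (f3 : FiniteDimensional k ↥(I ⊓ Subalgebra.toSubmodule A₁))
    (f4 : FiniteDimensional k (K ⧸ (I ⊔ Subalgebra.toSubmodule A₁))) :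
    FiniteDimensional k ↥(T0G (rgr 𝒜 J) Φ I A₁ (UU u v)) ∧
    FiniteDimensional k ↥(ObG (rgr 𝒜 J) Φ I A₁ (UU u v)) ∧
    (Module.finrank k ↥(T0G (rgr 𝒜 J) Φ I A₁ (UU u v)) : ℤ) -
      Module.finrank k ↥(ObG (rgr 𝒜 J) Φ I A₁ (UU u v)) =
    (Module.finrank k ↥(T0 𝒜 φ I A₁ u) : ℤ) - Module.finrank k ↥(ObS 𝒜 φ I A₁ u) +
      (Module.finrank k ↥(I ⊓ Subalgebra.toSubmodule A₁) -
        Module.finrank k (K ⧸ (I ⊔ Subalgebra.toSubmodule A₁))) :=
  chi_rees_of hJ (fun ha hab _ _ _ φ η hη hb => exists_rees_hom J ha hab φ η hη hb) h hΦ hΦT I hI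
    hIm f1 f2 f3 f4

end

end Vale.Agent.P292.Dv
end

section

/-! # The starting curve: a function field point through a given closed point. -/

namespace Vale.Agent.P292.Dv

open MvPolynomial Vale.Agent.P292 Vale.Agent.P292.Mo

universe u v w

/-- A prime below the point modulo which the frame is independent. -/
theorem cp_prime {k : Type u} [Field k] [IsAlgClosed k] {R : Type v} [CommRing R]
    [Algebra k R] {𝒜 : ℕ → Submodule k R} [GradedAlgebra 𝒜] {P : R →ₗ[k] R →ₗ[k] R}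
    (hPM : IsPM 𝒜 P) {n : ℕ} (x : Fin n → R) (w : R →ₐ[k] k) (hw : Mo.NV 𝒜 w)
    (hdet : w (brM P x).det ≠ 0) : ∃ 𝔓 : Ideal R, 𝔓.IsPrime ∧ (∀ r ∈ 𝔓, w r = 0) ∧
      AlgebraicIndependent k fun i => Ideal.Quotient.mk 𝔓 (x i) := by
  have : Infinite k := IsAlgClosed.instInfinite
  obtain ⟨e, he, s, hs, hws⟩ := hw
  -- the multiplicative set
  have key : ∀ (b : R) (G : MvPolynomial (Fin n) k), w b ≠ 0 → G ≠ 0 → b * aeval x G ≠ 0 := by
    intro b G hb hne hbG
    obtain ⟨m, a, hma⟩ := indep_poly G hne (fun i => w (x i))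
    obtain ⟨δ, hδ1, hδ2⟩ := indep_vec hPM.leibniz x w hdet a
    obtain ⟨γ, hγ⟩ := indep_arc w δ hδ1 s hws (hPM.smooth e he s hs) (m + 1)
    choose q hq using hγ
    refine hma (fun i => Polynomial.C (a i) + Polynomial.X * q (x i)) (fun i => by simp) ?_
    rw [← Ideal.mem_span_singleton, ← Ideal.Quotient.eq_zero_iff_mem]
    have h2 : ∀ H : MvPolynomial (Fin n) k,
        Ideal.Quotient.mk (Ideal.span {(Polynomial.X : Polynomial k) ^ (m + 1)})
          (aeval (fun i => Polynomial.C (w (x i)) + Polynomial.X *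
            (Polynomial.C (a i) + Polynomial.X * q (x i))) H) = γ (aeval x H) := by
      intro H
      have h3 : (Ideal.Quotient.mkₐ k (Ideal.span {(Polynomial.X : Polynomial k) ^ (m + 1)})).comp
          (aeval (fun i => Polynomial.C (w (x i)) + Polynomial.X *
            (Polynomial.C (a i) + Polynomial.X * q (x i)))) = γ.comp (aeval x) := by
        refine MvPolynomial.algHom_ext fun i => ?_
        rw [AlgHom.comp_apply, AlgHom.comp_apply, aeval_X, aeval_X, hq (x i), hδ2 i,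
          Ideal.Quotient.mkₐ_eq_mk]
        congr 1
        ring
      exact DFunLike.congr_fun h3 H
    rw [h2]
    -- `γ b` is a unit
    have hu : IsUnit (γ b) := by
      have hnil : IsNilpotent (γ b - algebraMap k _ (w b)) := by
        refine ⟨m + 1, ?_⟩
        have h4 : γ b - algebraMap k _ (w b) = Ideal.Quotient.mk _
            (Polynomial.X * (Polynomial.C (δ b) + Polynomial.X * q b)) := by
          rw [hq b]
          have h5 : algebraMap k (Polynomial k ⧸ Ideal.span {(Polynomial.X : Polynomial k) ^ (m + 1)})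
              (w b) = Ideal.Quotient.mk _ (Polynomial.C (w b)) := rfl
          rw [h5, ← map_sub]
          congr 1
          ring
        rw [h4, ← map_pow, Ideal.Quotient.eq_zero_iff_mem, mul_pow]
        exact Ideal.mul_mem_right _ _ (Ideal.mem_span_singleton_self _)
      have h6 : IsUnit (algebraMap k (Polynomial k ⧸
          Ideal.span {(Polynomial.X : Polynomial k) ^ (m + 1)}) (w b)) :=
        (IsUnit.mk0 _ hb).map _
      have h7 := hnil.isUnit_add_left_of_commute h6 (Commute.all _ _)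
      rwa [add_sub_cancel] at h7
    have h8 : γ b * γ (aeval x G) = 0 := by rw [← map_mul, hbG, map_zero]
    exact (hu.mul_right_eq_zero).mp h8
  let M : Submonoid R :=
    { carrier := {z | ∃ (b : R) (G : MvPolynomial (Fin n) k), w b ≠ 0 ∧ G ≠ 0 ∧
        z = b * aeval x G}
      one_mem' := ⟨1, 1, by rw [map_one]; exact one_ne_zero, one_ne_zero, by
        rw [map_one, one_mul]⟩
      mul_mem' := by
        rintro _ _ ⟨b, G, hb, hG, rfl⟩ ⟨b', G', hb', hG', rfl⟩
        exact ⟨b * b', G * G', by rw [map_mul]; exact mul_ne_zero hb hb',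
          mul_ne_zero hG hG', by rw [map_mul]; ring⟩ }
  obtain ⟨𝔓, h𝔓, -, hdisj⟩ := Ideal.exists_le_prime_disjoint (⊥ : Ideal R) M (by
    rw [Set.disjoint_left]
    rintro z hz ⟨b, G, hb, hG, hz'⟩
    have hz0 : z = 0 := hz
    exact key b G hb hG (by rw [← hz', hz0]))
  rw [Set.disjoint_left] at hdisj
  refine ⟨𝔓, h𝔓, fun r hr => ?_, ?_⟩
  · by_contra hne
    exact hdisj hr ⟨r, 1, hne, one_ne_zero, by rw [map_one, mul_one]⟩
  · rw [algebraicIndependent_iff]
    intro G hG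
    by_contra hne
    have h1 : aeval x G ∈ 𝔓 := by
      rw [← Ideal.Quotient.eq_zero_iff_mem]
      have h2 : (Ideal.Quotient.mkₐ k 𝔓).comp (aeval x) =
          aeval fun i => Ideal.Quotient.mk 𝔓 (x i) := by
        refine MvPolynomial.algHom_ext fun i => ?_
        rw [AlgHom.comp_apply, aeval_X, aeval_X]
        rfl
      have h3 := DFunLike.congr_fun h2 G
      rw [← hG, ← h3]
      rfl
    exact hdisj h1 ⟨1, G, by rw [map_one]; exact one_ne_zero, hne, by rw [one_mul]⟩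

/-- Independence of generators of a ring with enough independent elements. -/
theorem cp_indep {k : Type u} [Field k] {R : Type v} [CommRing R] [IsDomain R] [Algebra k R]
    {N n : ℕ} (hNn : n ≤ N) (x : Fin N → R) (y : Fin n → R) (hx : AlgebraicIndependent k x)
    (hy : ∀ r : R, IsIntegral (Algebra.adjoin k (Set.range y)) r) : AlgebraicIndependent k y := by
  have h1 : Algebra.IsIntegral (Algebra.adjoin k (Set.range y)) R := ⟨hy⟩
  have h2 : Algebra.IsAlgebraic (Algebra.adjoin k (Set.range y)) R :=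
    Algebra.IsIntegral.isAlgebraic
  have h3 := hx.lift_cardinalMk_le_trdeg
  have h4 : (n : Cardinal.{v}) ≤ N := by exact_mod_cast hNn
  exact (Algebra.IsAlgebraic.isTranscendenceBasis_of_lift_le_trdeg_of_finite k y
    (by
      have h5 : (N : Cardinal.{v}) ≤ Algebra.trdeg k R := by simpa using h3
      simpa using h4.trans h5)).1

/-- Noether parameters do not vanish simultaneously at a non-vertex point. -/
theorem cp_nv {k : Type u} [Field k] {R : Type v} [CommRing R] [Algebra k R]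
    {𝒜 : ℕ → Submodule k R} [GradedAlgebra 𝒜] {e n : ℕ} {y : Fin n → R} (_ : 0 < e)
    (hy : ∀ i, y i ∈ 𝒜 e) (hint : ∀ r : R, IsIntegral (Algebra.adjoin k (Set.range y)) r)
    (w : R →ₐ[k] k) (hw : Mo.NV 𝒜 w) : ∃ i, w (y i) ≠ 0 := by
  classical
  by_contra hcon
  push Not at hcon
  obtain ⟨m, hm, r, hr, hwr⟩ := hw
  have claim : ∀ b ∈ Algebra.adjoin k (Set.range y), ∀ M, 0 < M →
      w (DirectSum.decompose 𝒜 b M : R) = 0 := by
    intro b hb M hM
    rw [Algebra.adjoin_range_eq_range_aeval] at hb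
    obtain ⟨P, rfl⟩ := hb
    change w (DirectSum.decompose 𝒜 (aeval y P) M : R) = 0
    induction P using MvPolynomial.induction_on' with
    | monomial s c =>
      have hmem : aeval y (monomial s c) ∈ 𝒜 (e * (∑ i ∈ s.support, s i)) := by
        rw [aeval_monomial, ← Algebra.smul_def]
        refine Submodule.smul_mem _ _ ?_
        have h1 : (s.prod fun i k => y i ^ k) ∈ 𝒜 (∑ i ∈ s.support, s i • e) :=
          SetLike.prod_mem_graded _ _ _ fun i _ => SetLike.pow_mem_graded _ (hy i)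
        have h2 : ∑ i ∈ s.support, s i • e = e * (∑ i ∈ s.support, s i) := by
          rw [Finset.mul_sum]
          exact Finset.sum_congr rfl fun i _ => by rw [smul_eq_mul, mul_comm]
        rwa [h2] at h1
      by_cases hN : e * (∑ i ∈ s.support, s i) = M
      · rw [hN] at hmem
        rw [DirectSum.decompose_of_mem_same 𝒜 hmem, aeval_monomial, map_mul, Finsupp.prod, map_prod]
        have hs : s ≠ 0 := by
          rintro rfl
          simp at hN
          omega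
        obtain ⟨i, hi⟩ := Finsupp.support_nonempty_iff.mpr hs
        rw [Finset.prod_eq_zero hi, mul_zero]
        rw [map_pow, hcon, zero_pow (Finsupp.mem_support_iff.mp hi)]
      · rw [DirectSum.decompose_of_mem_ne 𝒜 hmem hN, map_zero]
    | add P Q hP hQ =>
      rw [map_add, DirectSum.decompose_add, DirectSum.add_apply, Submodule.coe_add, map_add, hP,
        hQ, add_zero]
  obtain ⟨p, hp, hpr⟩ := hint r
  set N := p.natDegree with hN
  rw [Polynomial.eval₂_eq_sum_range] at hpr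
  have h1 : ∀ i ∈ Finset.range (N + 1),
      (DirectSum.decompose 𝒜 ((algebraMap (Algebra.adjoin k (Set.range y)) R) (p.coeff i) * r ^ i)
        (m * N) : R) = (DirectSum.decompose 𝒜 ((p.coeff i : R)) (m * N - m * i) : R) * r ^ i := by
    intro i hi
    have h2 : r ^ i ∈ 𝒜 (m * i) := by
      have := SetLike.pow_mem_graded i hr
      rwa [smul_eq_mul, mul_comm] at this
    exact DirectSum.coe_decompose_mul_of_right_mem_of_le 𝒜 h2
      (Nat.mul_le_mul_left m (Nat.lt_succ_iff.mp (Finset.mem_range.mp hi)))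
  have h2 := congrArg (fun z => w (DirectSum.decompose 𝒜 z (m * N) : R)) hpr
  simp only [DirectSum.decompose_zero, DirectSum.zero_apply, ZeroMemClass.coe_zero, map_zero] at h2
  rw [DirectSum.decompose_sum, DFinsupp.finsetSum_apply, AddSubmonoidClass.coe_finsetSum,
    Finset.sum_congr rfl h1, map_sum, Finset.sum_range_succ] at h2
  rw [Finset.sum_eq_zero, zero_add] at h2
  · have h3 : p.coeff N = 1 := hp
    rw [h3, Nat.sub_self] at h2
    have h4 : (DirectSum.decompose 𝒜 (((1 : Algebra.adjoin k (Set.range y)) : R)) 0 : R) = 1 :=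
      DirectSum.decompose_of_mem_same 𝒜 SetLike.GradedOne.one_mem
    rw [h4, one_mul, map_pow] at h2
    exact hwr (eq_zero_of_pow_eq_zero h2)
  · intro i hi
    rw [map_mul, claim _ (p.coeff i).2 _ ?_, zero_mul]
    rw [Finset.mem_range] at hi
    rw [← Nat.mul_sub]
    exact Nat.mul_pos hm (Nat.sub_pos_of_lt hi)

attribute [local instance] Polynomial.algebra in
/-- Extension of a homomorphism to the polynomial ring, through a point. -/
theorem cp_ext {k : Type u} [Field k] {R : Type v} [CommRing R] [IsDomain R] [Algebra k R]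
    (B : Subalgebra k R) [IsIntegrallyClosed B] [Algebra.IsIntegral B R] (σ : B →ₐ[k] Polynomial k)
    (w : R →ₐ[k] k) (hw : ∀ b : B, w b = (σ b).eval 0) :
    ∃ (D : Type v) (_ : CommRing D) (_ : IsDomain D) (_ : Algebra k D) (t : D)
      (φ : R →ₐ[k] D), Transcendental k t ∧ (∀ b : B, φ b = Polynomial.aeval t (σ b)) ∧
      (∀ d : D, ∃ g : Polynomial R, d = g.sum fun i r => φ r * t ^ i) ∧
      ∃ χ : D →ₐ[k] k, χ t = 0 ∧ ∀ r, χ (φ r) = w r := by
  let Ψ : Polynomial B →+* Polynomial k :=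
    Polynomial.eval₂RingHom (σ : B →+* Polynomial k) Polynomial.X
  have hprime : (RingHom.ker Ψ).IsPrime := RingHom.ker_isPrime Ψ
  have hinj : Function.Injective (algebraMap (Polynomial B) (Polynomial R)) :=
    Polynomial.map_injective _ Subtype.val_injective
  let W : Polynomial R →ₐ[k] k := (Polynomial.aeval (0 : k)).comp (Polynomial.mapAlgHom w)
  have hWX : W Polynomial.X = 0 := by
    change Polynomial.aeval (0 : k) (Polynomial.map _ Polynomial.X) = 0
    rw [Polynomial.map_X, Polynomial.aeval_X]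
  have hWC : ∀ r, W (Polynomial.C r) = w r := by
    intro r
    change Polynomial.aeval (0 : k) (Polynomial.map _ (Polynomial.C r)) = _
    rw [Polynomial.map_C, Polynomial.aeval_C]
    rfl
  have hWΨ : ∀ x : Polynomial B, W (x.map (algebraMap B R)) = (Ψ x).eval 0 := by
    intro x
    have h1 : (W : Polynomial R →+* k).comp (Polynomial.mapRingHom (algebraMap B R)) =
        (Polynomial.evalRingHom 0).comp Ψ := by
      refine Polynomial.ringHom_ext (fun b => ?_) ?_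
      · simp only [RingHom.comp_apply, Polynomial.coe_mapRingHom, Polynomial.map_C]
        have h2 : Ψ (Polynomial.C b) = σ b := Polynomial.eval₂_C _ _
        rw [h2]
        exact (hWC _).trans (hw b)
      · simp only [RingHom.comp_apply, Polynomial.coe_mapRingHom, Polynomial.map_X]
        have h2 : Ψ Polynomial.X = Polynomial.X := Polynomial.eval₂_X _ _
        rw [h2]
        exact hWX.trans (by simp)
    exact RingHom.congr_fun h1 x
  have hWp : (RingHom.ker W).IsPrime := RingHom.ker_isPrime W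
  have hfaith : FaithfulSMul (Polynomial B) (Polynomial R) :=
    (faithfulSMul_iff_algebraMap_injective _ _).mpr hinj
  have hle : RingHom.ker Ψ ≤ (RingHom.ker W).under (Polynomial B) := by
    intro x hx
    rw [Ideal.mem_comap, RingHom.mem_ker]
    have h1 := hWΨ x
    rw [RingHom.mem_ker] at hx
    rw [hx, Polynomial.eval_zero] at h1
    exact h1
  obtain ⟨P, hPW, hP, hPo⟩ := Ideal.exists_ideal_le_liesOver_of_le (p := RingHom.ker Ψ)
    (q := (RingHom.ker W).under (Polynomial B)) (RingHom.ker W) hle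
  have hPc : P.comap (algebraMap (Polynomial B) (Polynomial R)) = RingHom.ker Ψ :=
    hPo.over.symm
  have hmem : ∀ x : Polynomial B, Ψ x = 0 → x.map (algebraMap B R) ∈ P := by
    intro x hx
    have h1 : x ∈ P.comap (algebraMap (Polynomial B) (Polynomial R)) := by
      rw [hPc]; exact hx
    exact h1
  have hmem' : ∀ x : Polynomial B, x.map (algebraMap B R) ∈ P → Ψ x = 0 := by
    intro x hx
    have h1 : x ∈ P.comap (algebraMap (Polynomial B) (Polynomial R)) := hx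
    rw [hPc] at h1
    exact h1
  have hΨ : ∀ g : Polynomial k, Ψ (g.map (algebraMap k B)) = g := by
    intro g
    show Polynomial.eval₂ (σ : B →+* Polynomial k) Polynomial.X (g.map (algebraMap k B)) = g
    rw [Polynomial.eval₂_map]
    have h1 : (σ : B →+* Polynomial k).comp (algebraMap k B) = Polynomial.C := by
      ext c
      simp
    rw [h1, Polynomial.eval₂_C_X]
  have hmap : ∀ g : Polynomial k, (g.map (algebraMap k B)).map (algebraMap B R) =
      g.map (algebraMap k R) := by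
    intro g
    rw [Polynomial.map_map]
    rfl
  let mk : Polynomial R →ₐ[k] (Polynomial R ⧸ P) := Ideal.Quotient.mkₐ k P
  have haev : ∀ g : Polynomial k, Polynomial.aeval (mk Polynomial.X) g =
      mk (g.map (algebraMap k R)) := by
    intro g
    rw [Polynomial.aeval_algHom_apply, ← Polynomial.aeval_map_algebraMap R,
      Polynomial.aeval_X_left_apply]
  have hz : ∀ x : Polynomial R, mk x = 0 ↔ x ∈ P := fun x => Ideal.Quotient.eq_zero_iff_mem
  refine ⟨Polynomial R ⧸ P, inferInstance, Ideal.Quotient.isDomain P, inferInstance,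
    mk Polynomial.X, mk.comp Polynomial.CAlgHom, ?_, ?_, ?_,
    Ideal.Quotient.liftₐ P W (fun a ha => hPW ha), hWX, fun r => hWC r⟩
  · rw [transcendental_iff]
    intro g hg
    rw [haev, hz, ← hmap] at hg
    have h1 := hmem' _ hg
    rwa [hΨ] at h1
  · intro b
    rw [haev]
    have h1 : Ψ (Polynomial.C b - (σ b).map (algebraMap k B)) = 0 := by
      rw [map_sub, hΨ]
      show Polynomial.eval₂ (σ : B →+* Polynomial k) Polynomial.X (Polynomial.C b) - σ b = 0
      rw [Polynomial.eval₂_C]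
      exact sub_self _
    have h2 := hmem _ h1
    rw [Polynomial.map_sub, Polynomial.map_C, hmap] at h2
    have h3 := (hz _).2 h2
    rw [map_sub, sub_eq_zero] at h3
    exact h3
  · intro d
    obtain ⟨g, hg⟩ := Ideal.Quotient.mk_surjective d
    refine ⟨g, ?_⟩
    have h1 : mk g = d := hg
    rw [← h1]
    conv_lhs => rw [← Polynomial.sum_C_mul_X_pow_eq g]
    rw [Polynomial.sum_def, Polynomial.sum_def, map_sum]
    refine Finset.sum_congr rfl fun i _ => ?_
    rw [map_mul, map_pow]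
    rfl

/-- Choice of the direction of the line. -/
theorem cp_line {k : Type u} [Field k] [Infinite k] {n : ℕ} (hn : 2 ≤ n) (a : Fin n → k)
    (ha : ∃ i, a i ≠ 0) {G : MvPolynomial (Fin n) k} (hG : G ≠ 0) :
    ∃ b : Fin n → k, LinearIndependent k ![a, b] ∧ MvPolynomial.eval (fun i => a i + b i) G ≠ 0 := by
  obtain ⟨i, hi⟩ := ha
  obtain ⟨j, hj⟩ : ∃ j, j ≠ i := by
    have : Nontrivial (Fin n) := Fin.nontrivial_iff_two_le.mpr hn
    exact exists_ne i
  have hH : (C (a i) * X j - C (a j) * X i : MvPolynomial (Fin n) k) ≠ 0 := by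
    intro h
    have h1 := congrArg (MvPolynomial.coeff (Finsupp.single j 1)) h
    rw [coeff_sub, coeff_C_mul, coeff_C_mul, coeff_X, coeff_zero, coeff_X,
      if_neg (fun h2 => hj (Finsupp.single_left_injective one_ne_zero h2).symm)] at h1
    apply hi
    simpa using h1
  obtain ⟨c, hc⟩ : ∃ c, MvPolynomial.eval c (G * (C (a i) * X j - C (a j) * X i)) ≠ 0 := by
    by_contra h
    push Not at h
    exact mul_ne_zero hG hH (MvPolynomial.funext fun a => (h a).trans (map_zero _).symm)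
  rw [map_mul] at hc
  have hc1 := left_ne_zero_of_mul hc
  have hc2 := right_ne_zero_of_mul hc
  simp only [map_sub, map_mul, eval_C, eval_X] at hc2
  refine ⟨fun l => c l - a l, ?_, ?_⟩
  · rw [LinearIndependent.pair_iff]
    intro s t hst
    have h1 := congrFun hst i
    have h2 := congrFun hst j
    simp only [Pi.add_apply, Pi.smul_apply, smul_eq_mul, Pi.zero_apply] at h1 h2
    have ht : t * (a i * c j - a j * c i) = 0 := by linear_combination a i * h2 - a j * h1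
    have ht0 : t = 0 := (mul_eq_zero.1 ht).resolve_right hc2
    rw [ht0, zero_mul, add_zero] at h1
    exact ⟨(mul_eq_zero.1 h1).resolve_right hi, ht0⟩
  · have : (fun l => a l + (c l - a l)) = c := by
      funext l
      ring
    rw [this]
    exact hc1

theorem cp_top {F : Type u} [Field F] {K : Type v} [Field K] [Algebra F K] (W : Submodule F K)
    (hW : FiniteDimensional F W) (s : Set K)
    (hs : ∀ x ∈ Submonoid.closure s, x ∈ W) (X : Set K) (hX : ∀ x ∈ X, x ∈ Algebra.adjoin F s)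
    (hfrac : ∀ x : K, ∃ a ∈ X, ∃ b ∈ X, x = a / b) : W = ⊤ := by
  have hAW : Subalgebra.toSubmodule (Algebra.adjoin F s) ≤ W := by
    rw [Algebra.adjoin_eq_span, Submodule.span_le]
    exact fun x hx => hs x hx
  have hAfin : FiniteDimensional F (Subalgebra.toSubmodule (Algebra.adjoin F s)) :=
    Submodule.finiteDimensional_of_le hAW
  have hAfin' : FiniteDimensional F (Algebra.adjoin F s) := hAfin
  have hinv : ∀ x ∈ Algebra.adjoin F s, x⁻¹ ∈ Algebra.adjoin F s := by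
    intro x hx
    have h1 : IsAlgebraic F (⟨x, hx⟩ : Algebra.adjoin F s) := Algebra.IsAlgebraic.isAlgebraic _
    exact (Algebra.adjoin F s).inv_mem_of_algebraic (x := ⟨x, hx⟩)
      (h1.algHom (Algebra.adjoin F s).val)
  rw [eq_top_iff]
  intro x _
  refine hAW ?_
  obtain ⟨a, ha, b, hb, rfl⟩ := hfrac x
  change a / b ∈ Algebra.adjoin F s
  rw [div_eq_mul_inv]
  exact (Algebra.adjoin F s).mul_mem (hX a ha) (hinv _ (hX b hb))

theorem cp_rank {F : Type u} [Field F] {K : Type v} [Field K] [Algebra F K] [DecidableEq K]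
    (T : Finset K) (h : Submodule.span F (T : Set K) = ⊤) :
    FiniteDimensional F K ∧ Module.finrank F K ≤ T.card := by
  have h1 : FiniteDimensional F K := Module.finite_def.2 (by rw [← h]; exact ⟨T, rfl⟩)
  refine ⟨h1, ?_⟩
  calc Module.finrank F K = Module.finrank F (⊤ : Submodule F K) := (_root_.finrank_top F K).symm
    _ = Module.finrank F (Submodule.span F (T : Set K)) := by rw [h]
    _ ≤ T.card := finrank_span_finset_le_card _

/-- A function field point of the variety through a given closed point, outside `f = 0`. -/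
theorem exists_ff_pt {k : Type u} [Field k] [IsAlgClosed k] {R : Type v} [CommRing R]
    [Algebra k R] {𝒜 : ℕ → Submodule k R} [GradedAlgebra 𝒜] {P : R →ₗ[k] R →ₗ[k] R}
    (hPM : IsPM 𝒜 P) {p e n : ℕ} {y : Fin n → R} (hN : IsNoe 𝒜 p e y) (w : R →ₐ[k] k)
    (hw : Mo.NV 𝒜 w) (hrk : ∃ N, n ≤ N ∧ HasRk 𝒜 P w N) (f : R)
    (hf : ∃ h : R, ∃ G : MvPolynomial (Fin n) k, G ≠ 0 ∧ f * h = aeval y G) :
    ∃ (K : Type v) (_ : Field K) (_ : Algebra k K) (t : K) (φ : R →ₐ[k] K) (a b : Fin n → k),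
      IsFF e y t φ a b ∧ Module.finrank (IntermediateField.adjoin k {t}) K < p ∧ φ f ≠ 0 ∧
      ∃ V : ValuationSubring K, (∀ c : k, algebraMap k K c ∈ V) ∧ (∀ r, φ r ∈ V) ∧
        ∀ r, w r = 0 → V.valuation (φ r) < 1 := by
  classical
  obtain ⟨h, G, hG, hfh⟩ := hf
  have : Infinite k := IsAlgClosed.instInfinite
  obtain ⟨N₁, hnN, x, dx, gx, -, hgx⟩ := hrk
  rw [map_mul] at hgx
  obtain ⟨S, hSp, hS⟩ := hN.gens
  let B₀ : Subalgebra k R := Algebra.adjoin k (Set.range y)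
  have hB₀fin : Module.Finite B₀ R := ⟨⟨S, hS⟩⟩
  have hint₀ : ∀ r : R, IsIntegral B₀ r := fun r => IsIntegral.of_finite B₀ r
  obtain ⟨𝔓, h𝔓, h𝔓w, hxi⟩ := cp_prime hPM x w hw (right_ne_zero_of_mul hgx)
  let m : R →ₐ[k] R ⧸ 𝔓 := Ideal.Quotient.mkₐ k 𝔓
  have hm : Function.Surjective m := Ideal.Quotient.mk_surjective
  let y' : Fin n → R ⧸ 𝔓 := fun i => m (y i)
  let B : Subalgebra k (R ⧸ 𝔓) := Algebra.adjoin k (Set.range y')
  have hmB : ∀ b ∈ B₀, m b ∈ B := by
    intro b hb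
    have h1 : B₀ ≤ B.comap m := Algebra.adjoin_le (by
      rintro _ ⟨i, rfl⟩
      exact Algebra.subset_adjoin ⟨i, rfl⟩)
    exact h1 hb
  let mB : B₀ →ₐ[k] B := (m.comp B₀.val).codRestrict B fun b => hmB b b.2
  have hint : ∀ r : R ⧸ 𝔓, IsIntegral B r := by
    intro r
    obtain ⟨r, rfl⟩ := hm r
    exact (hint₀ r).map_of_comp_eq (mB : B₀ →+* B) (m : R →+* R ⧸ 𝔓) rfl
  have hyi : AlgebraicIndependent k y' := cp_indep hnN _ y' hxi hint
  let w' : R ⧸ 𝔓 →ₐ[k] k := Ideal.Quotient.liftₐ 𝔓 w h𝔓w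
  have hw' : ∀ r, w' (m r) = w r := fun r => rfl
  let a : Fin n → k := fun i => w (y i)
  obtain ⟨b, hab, hGb⟩ := cp_line hN.two_le a (cp_nv hN.e_pos hN.hom hint₀ w hw) hG
  -- the homomorphism to the polynomial ring
  let E : MvPolynomial (Fin n) k ≃ₐ[k] B := hyi.aevalEquiv
  have hE : ∀ G, (E G : R ⧸ 𝔓) = aeval y' G := fun G => hyi.algebraMap_aevalEquiv G
  let τ : MvPolynomial (Fin n) k →ₐ[k] Polynomial k :=
    aeval fun i => Polynomial.C (a i) + Polynomial.C (b i) * Polynomial.X ^ e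
  let σ : B →ₐ[k] Polynomial k := τ.comp E.symm.toAlgHom
  have hσ : ∀ G, σ (E G) = τ G := fun G => by
    show τ (E.symm (E G)) = τ G
    rw [AlgEquiv.symm_apply_apply]
  have : IsIntegrallyClosed B := IsIntegrallyClosed.of_equiv E.toRingEquiv
  have : Algebra.IsIntegral B (R ⧸ 𝔓) := ⟨hint⟩
  have hwσ : ∀ b : B, w' b = (σ b).eval 0 := by
    intro b
    obtain ⟨H, rfl⟩ := E.surjective b
    rw [hσ, hE]
    have h1 : w'.comp (aeval y') = (Polynomial.aeval (0 : k)).comp τ := by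
      refine MvPolynomial.algHom_ext fun i => ?_
      simp only [AlgHom.comp_apply, aeval_X, τ, map_add, map_mul, map_pow, Polynomial.aeval_C,
        Polynomial.aeval_X, zero_pow hN.e_pos.ne', mul_zero, add_zero]
      exact hw' (y i)
    have h2 := DFunLike.congr_fun h1 H
    rw [← Polynomial.coe_aeval_eq_eval]
    exact h2
  obtain ⟨D, _, _, _, t, φ, ht, hφB, hgen, χ, hχt, hχ⟩ := cp_ext B σ w' hwσ
  let K := FractionRing D
  let ι : D →ₐ[k] K := Algebra.algHom k D K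
  have hι : Function.Injective ι := IsFractionRing.injective D K
  let φ' : R →ₐ[k] K := (ι.comp φ).comp m
  have ht' : Transcendental k (ι t) := by
    rw [transcendental_iff] at ht ⊢
    intro g hg
    apply ht
    rw [Polynomial.aeval_algHom_apply] at hg
    exact hι (by rw [hg, map_zero])
  have hφB' : ∀ b : B, ι (φ b) = Polynomial.aeval (ι t) (σ b) := by
    intro b
    rw [hφB, Polynomial.aeval_algHom_apply]
  have hval : ∀ G, φ' (aeval y G) = Polynomial.aeval (ι t) (τ G) := by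
    intro G
    rw [← hσ, ← hφB', hE]
    have h1 : m.comp (aeval y) = aeval y' := by
      refine MvPolynomial.algHom_ext fun i => ?_
      rw [AlgHom.comp_apply, aeval_X, aeval_X]
    rw [← h1]
    rfl
  have hφB₀ : ∀ b : B₀, φ' b = Polynomial.aeval (ι t) (σ (mB b)) := fun b => hφB' (mB b)
  let F := IntermediateField.adjoin k {ι t}
  have htF : ι t ∈ F := IntermediateField.mem_adjoin_simple_self k _
  have hpF : ∀ g : Polynomial k, Polynomial.aeval (ι t) g ∈ F := by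
    intro g
    have h1 : Algebra.adjoin k {ι t} ≤ F.toSubalgebra :=
      Algebra.adjoin_le (Set.singleton_subset_iff.2 htF)
    exact h1 (Polynomial.aeval_mem_adjoin_singleton k (ι t))
  -- the span of the images of the generators
  let W : Submodule F K := Submodule.span F ((S.image φ' : Finset K) : Set K)
  have hW : ∀ r, φ' r ∈ W := by
    intro r
    have hr : r ∈ Submodule.span B₀ (S : Set R) := by
      rw [show Submodule.span B₀ (S : Set R) = ⊤ from hS]
      trivial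
    induction hr using Submodule.span_induction with
    | mem x hx => exact Submodule.subset_span (by
        rw [Finset.coe_image]; exact Set.mem_image_of_mem _ hx)
    | zero => rw [map_zero]; exact W.zero_mem
    | add x y _ _ hx hy => rw [map_add]; exact W.add_mem hx hy
    | smul c x _ hx =>
      have h1 : φ' (c • x) = (⟨Polynomial.aeval (ι t) (σ (mB c)), hpF _⟩ : F) • φ' x := by
        rw [Algebra.smul_def, map_mul]
        show φ' (c : R) * φ' x = _
        rw [hφB₀]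
        rfl
      rw [h1]
      exact W.smul_mem _ hx
  have htop : W = ⊤ := by
    refine cp_top W (FiniteDimensional.span_finset F _) (Set.range φ') ?_ (Set.range ι) ?_ ?_
    · intro x hx
      have h1 : Submonoid.closure (Set.range φ') ≤ MonoidHom.mrange (φ' : R →* K) := by
        rw [Submonoid.closure_le]
        rintro _ ⟨r, rfl⟩
        exact ⟨r, rfl⟩
      obtain ⟨r, rfl⟩ := h1 hx
      exact hW r
    · rintro _ ⟨d, rfl⟩
      obtain ⟨g, rfl⟩ := hgen d
      rw [Polynomial.sum_def, map_sum]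
      refine Subalgebra.sum_mem _ fun i _ => ?_
      rw [map_mul, map_pow]
      obtain ⟨r, hr⟩ := hm (g.coeff i)
      rw [← hr]
      refine Subalgebra.mul_mem _ (Algebra.subset_adjoin ⟨r, rfl⟩) (Subalgebra.pow_mem _ ?_ _)
      exact Subalgebra.algebraMap_mem _ (⟨ι t, htF⟩ : F)
    · intro x
      obtain ⟨d₁, d₂, -, rfl⟩ := IsFractionRing.div_surjective (A := D) x
      exact ⟨_, ⟨d₁, rfl⟩, _, ⟨d₂, rfl⟩, rfl⟩
  obtain ⟨hfin, hrank⟩ := cp_rank (S.image φ') htop
  -- the valuation ring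
  obtain ⟨V, hV1, hV2⟩ : ∃ V : ValuationSubring K, (∀ d, ι d ∈ V) ∧
      ∀ d, χ d = 0 → V.valuation (ι d) < 1 := by
    let A' : Subring K := (ι : D →+* K).range
    let I : Ideal A' := (RingHom.ker χ).map (ι : D →+* K).rangeRestrict
    have hI : I ≠ ⊤ := by
      intro hI
      have h1 : (1 : A') ∈ I := by rw [hI]; trivial
      rw [Ideal.mem_map_iff_of_surjective _ (ι : D →+* K).rangeRestrict_surjective] at h1
      obtain ⟨d, hd, hd1⟩ := h1
      have h2 : ι d = ι 1 := by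
        rw [map_one]
        exact congrArg Subtype.val hd1
      rw [hι h2, RingHom.mem_ker, map_one] at hd
      exact one_ne_zero hd
    obtain ⟨V, hAV, hIV⟩ := Ideal.image_subset_nonunits_valuationSubring I hI
    refine ⟨V, fun d => hAV ⟨d, rfl⟩, fun d hd => ?_⟩
    have h1 : ι d ∈ V.nonunits := hIV ⟨(ι : D →+* K).rangeRestrict d,
      Ideal.mem_map_of_mem _ hd, rfl⟩
    exact h1
  refine ⟨K, inferInstance, inferInstance, ι t, φ', a, b, ⟨ht', ?_, ?_, hab⟩, ?_, ?_, V, ?_, ?_, ?_⟩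
  · exact hfin
  · intro i
    have h1 := hval (X i)
    rw [aeval_X] at h1
    rw [h1]
    show Polynomial.aeval (ι t) (aeval _ (X i)) = _
    rw [aeval_X, map_add, map_mul, map_pow, Polynomial.aeval_C, Polynomial.aeval_C,
      Polynomial.aeval_X]
  · exact (hrank.trans Finset.card_image_le).trans_lt hSp
  · intro h0
    have h1 : φ' (f * h) = 0 := by rw [map_mul, h0, zero_mul]
    rw [hfh, hval] at h1
    rw [transcendental_iff] at ht'
    have h2 := ht' _ h1
    apply hGb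
    have h3 : Polynomial.aeval (1 : k) (τ G) = MvPolynomial.eval (fun i => a i + b i) G := by
      show Polynomial.aeval (1 : k) (aeval _ G) = _
      rw [← AlgHom.comp_apply, MvPolynomial.comp_aeval]
      have h4 : (fun i => Polynomial.aeval (1 : k)
          (Polynomial.C (a i) + Polynomial.C (b i) * Polynomial.X ^ e)) =
          fun i => a i + b i := by
        funext i
        rw [map_add, map_mul, map_pow, Polynomial.aeval_C, Polynomial.aeval_C,
          Polynomial.aeval_X, one_pow, mul_one]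
        rfl
      rw [h4, MvPolynomial.aeval_eq_eval]
    rw [← h3, h2, map_zero]
  · intro c
    have h1 := hV1 (algebraMap k D c)
    rwa [AlgHom.commutes] at h1
  · intro r
    exact hV1 (φ (m r))
  · intro r hr
    exact hV2 (φ (m r)) (by rw [hχ, hw', hr])

end Vale.Agent.P292.Dv
end
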