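import Mathlib
import Vale.Agent.P292.Dn.B1
import Vale.Agent.P292.Bn.N16
import Vale.Agent.P292.Bn.N9
import Vale.Agent.P292.Bn.N13
import Vale.Agent.P292.Bn.N5

set_option linter.all false

section

/-! # P292, Part III, T2, leaf R2: the bigrading of the Rees algebra. -/

namespace Vale.Agent.P292.Dv

universe u v w

variable {k : Type u} [Field k] {R : Type v} [CommRing R] [Algebra k R]

theorem r2_mem {𝒜 : ℕ → Submodule k R} {J : Ideal R} {i : ℕ × ℕ} {f : reesAlgebra J} :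
    f ∈ rgr 𝒜 J i ↔ ∃ c ∈ 𝒜 i.1, (f : Polynomial R) = Polynomial.monomial i.2 c := Iff.rfl

theorem r2_gradedMonoid (𝒜 : ℕ → Submodule k R) [GradedAlgebra 𝒜] (J : Ideal R) :
    SetLike.GradedMonoid (rgr 𝒜 J) where
  one_mem := ⟨1, SetLike.GradedOne.one_mem, by simp⟩
  mul_mem := by
    rintro i j a b ⟨c, hc, h⟩ ⟨c', hc', h'⟩
    exact ⟨c * c', SetLike.GradedMul.mul_mem hc hc', by
      rw [MulMemClass.coe_mul, h, h', Polynomial.monomial_mul_monomial, Prod.snd_add]⟩

/-- The component of an element of the Rees algebra. -/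
theorem r2_comp_mem (𝒜 : ℕ → Submodule k R) [GradedAlgebra 𝒜] {J : Ideal R}
    (hJ : J.IsHomogeneous 𝒜) (f : reesAlgebra J) (i : ℕ × ℕ) :
    Polynomial.monomial i.2 ((DirectSum.decompose 𝒜 ((f : Polynomial R).coeff i.2) i.1 : 𝒜 i.1) : R) ∈
      reesAlgebra J := by
  rw [reesAlgebra.monomial_mem]
  have h1 : (f : Polynomial R).coeff i.2 ∈ J ^ i.2 := (mem_reesAlgebra_iff J _).1 f.2 i.2
  have h2 : (J ^ i.2).IsHomogeneous 𝒜 := by
    generalize i.2 = n
    induction n with
    | zero =>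
      rw [pow_zero, Ideal.one_eq_top]
      exact Ideal.IsHomogeneous.top 𝒜
    | succ n ih =>
      rw [pow_succ]
      exact ih.mul hJ
  exact h2 i.1 h1

/-- The component of bidegree `i`. -/
noncomputable def r2Comp (𝒜 : ℕ → Submodule k R) [GradedAlgebra 𝒜] {J : Ideal R}
    (hJ : J.IsHomogeneous 𝒜) (i : ℕ × ℕ) : reesAlgebra J →+ reesAlgebra J where
  toFun f := ⟨Polynomial.monomial i.2
    ((DirectSum.decompose 𝒜 ((f : Polynomial R).coeff i.2) i.1 : 𝒜 i.1) : R),
    r2_comp_mem 𝒜 hJ f i⟩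
  map_zero' := by
    apply Subtype.ext
    simp
  map_add' f g := by
    apply Subtype.ext
    simp

theorem r2Comp_coe (𝒜 : ℕ → Submodule k R) [GradedAlgebra 𝒜] {J : Ideal R}
    (hJ : J.IsHomogeneous 𝒜) (i : ℕ × ℕ) (f : reesAlgebra J) :
    ((r2Comp 𝒜 hJ i f : reesAlgebra J) : Polynomial R) = Polynomial.monomial i.2
      ((DirectSum.decompose 𝒜 ((f : Polynomial R).coeff i.2) i.1 : 𝒜 i.1) : R) := rfl

theorem r2Comp_mem (𝒜 : ℕ → Submodule k R) [GradedAlgebra 𝒜] {J : Ideal R}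
    (hJ : J.IsHomogeneous 𝒜) (i : ℕ × ℕ) (f : reesAlgebra J) :
    r2Comp 𝒜 hJ i f ∈ rgr 𝒜 J i := ⟨_, SetLike.coe_mem _, rfl⟩

theorem r2Comp_same (𝒜 : ℕ → Submodule k R) [GradedAlgebra 𝒜] {J : Ideal R}
    (hJ : J.IsHomogeneous 𝒜) {i : ℕ × ℕ} {f : reesAlgebra J} (hf : f ∈ rgr 𝒜 J i) :
    r2Comp 𝒜 hJ i f = f := by
  obtain ⟨c, hc, h⟩ := hf
  apply Subtype.ext
  rw [r2Comp_coe, h, Polynomial.coeff_monomial_same, DirectSum.decompose_of_mem_same 𝒜 hc]

theorem r2Comp_ne (𝒜 : ℕ → Submodule k R) [GradedAlgebra 𝒜] {J : Ideal R}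
    (hJ : J.IsHomogeneous 𝒜) {i j : ℕ × ℕ} (hij : i ≠ j) {f : reesAlgebra J}
    (hf : f ∈ rgr 𝒜 J j) : r2Comp 𝒜 hJ i f = 0 := by
  obtain ⟨c, hc, h⟩ := hf
  apply Subtype.ext
  rw [r2Comp_coe, h, ZeroMemClass.coe_zero]
  by_cases h2 : i.2 = j.2
  · have h1 : j.1 ≠ i.1 := fun h1 => hij (Prod.ext h1.symm h2)
    rw [h2, Polynomial.coeff_monomial_same, DirectSum.decompose_of_mem_ne 𝒜 hc h1, map_zero]
  · rw [Polynomial.coeff_monomial, if_neg (fun h3 => h2 h3.symm), DirectSum.decompose_zero]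
    simp

theorem r2_isInternal (𝒜 : ℕ → Submodule k R) [GradedAlgebra 𝒜] {J : Ideal R}
    (hJ : J.IsHomogeneous 𝒜) : DirectSum.IsInternal (rgr 𝒜 J) := by
  classical
  have key : ∀ (x : DirectSum (ℕ × ℕ) fun i => rgr 𝒜 J i) (i : ℕ × ℕ),
      r2Comp 𝒜 hJ i (DirectSum.coeAddMonoidHom (rgr 𝒜 J) x) = ((x i : rgr 𝒜 J i) : reesAlgebra J) := by
    intro x i
    induction x using DirectSum.induction_on with
    | zero => simp
    | of j y =>
      rw [DirectSum.coeAddMonoidHom_of]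
      by_cases h : i = j
      · subst h
        rw [DirectSum.of_eq_same, r2Comp_same 𝒜 hJ y.2]
      · rw [DirectSum.of_eq_of_ne _ _ _ h, r2Comp_ne 𝒜 hJ h y.2]
        rfl
    | add x y hx hy =>
      rw [map_add, map_add, hx, hy]
      rfl
  refine ⟨fun x y hxy => ?_, fun f => ?_⟩
  · refine DFinsupp.ext fun i => ?_
    apply Subtype.ext
    exact (key x i).symm.trans ((congrArg (r2Comp 𝒜 hJ i) hxy).trans (key y i))
  · refine ⟨∑ m ∈ (f : Polynomial R).support,
      ∑ n ∈ (DirectSum.decompose 𝒜 ((f : Polynomial R).coeff m)).support,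
        DirectSum.of (fun i => rgr 𝒜 J i) (n, m) ⟨r2Comp 𝒜 hJ (n, m) f, r2Comp_mem 𝒜 hJ _ f⟩, ?_⟩
    apply Subtype.ext
    rw [map_sum, AddSubmonoidClass.coe_finsetSum]
    conv_rhs => rw [Polynomial.as_sum_support (f : Polynomial R)]
    refine Finset.sum_congr rfl fun m _ => ?_
    rw [map_sum, AddSubmonoidClass.coe_finsetSum]
    conv_rhs => rw [← DirectSum.sum_support_decompose 𝒜 ((f : Polynomial R).coeff m), map_sum]
    refine Finset.sum_congr rfl fun n _ => ?_
    rw [DirectSum.coeAddMonoidHom_of]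
    rfl

/-- R2. The bigrading of the Rees algebra. -/
theorem exists_gradedAlgebra_rgr (𝒜 : ℕ → Submodule k R) [GradedAlgebra 𝒜] (J : Ideal R)
    (hJ : J.IsHomogeneous 𝒜) : Nonempty (GradedAlgebra (rgr 𝒜 J)) := by
  exact ⟨{ r2_gradedMonoid 𝒜 J, (r2_isInternal 𝒜 hJ).chooseDecomposition with }⟩

end Vale.Agent.P292.Dv
end

section

/-! # P292, Part III, block T2, leaf R3: the Rees algebra is of finite type. -/

namespace Vale.Agent.P292.Dv

universe u v

/-- R3 (D/ReesFt.lean). -/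
theorem finiteType_rees {k : Type u} [Field k] {R : Type v} [CommRing R] [Algebra k R]
    [Algebra.FiniteType k R] (J : Ideal R) :
    Algebra.FiniteType k (reesAlgebra J) := by
  have : IsNoetherianRing R := Algebra.FiniteType.isNoetherianRing k R
  have h : Algebra.FiniteType R (reesAlgebra J) :=
    (reesAlgebra J).fg_iff_finiteType.1 (reesAlgebra.fg (IsNoetherian.noetherian J))
  exact Algebra.FiniteType.trans (inferInstance : Algebra.FiniteType k R) h

end Vale.Agent.P292.Dv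
end

section

/-! # P292, Part III, T2, leaf Q5: the rank of the frames is at least the dimension. -/

namespace Vale.Agent.P292.Dv

open TensorProduct
open Vale.Agent.P292.Mo

universe u v w

variable {k : Type u} [Field k] {R : Type v} [CommRing R] [Algebra k R]
  {𝒜 : ℕ → Submodule k R}

private theorem lerk_field {F : Type*} [Field F] (a b c : F) (hb : b ≠ 0) (hc : c ≠ 0) :
    a / b = (b * c)⁻¹ * (a * c) := by
  field_simp

/-- Q5. The rank of the frames is at least the dimension. -/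
theorem le_rk [IsDomain R] (p : ℕ) [Fact p.Prime] [CharP k p] {e n : ℕ} {y : Fin n → R}
    (hN : IsNoe 𝒜 p e y) {N : ℕ} {x : Fin N → R} {d : Fin N → ℕ} {g : R} (h : IsFr 𝒜 x d g)
    (hg : g ≠ 0) : n ≤ N := by
  classical
  obtain ⟨T, hT, hspan⟩ := hN.gens
  let K := FractionRing R
  let S := MvPolynomial (Fin n) k
  have hinj : Function.Injective (MvPolynomial.aeval (R := k) y) := hN.indep
  let _ : Algebra S R := (MvPolynomial.aeval (R := k) y).toRingHom.toAlgebra
  have halgR : ∀ s : S, algebraMap S R s = MvPolynomial.aeval y s := fun s => rfl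
  have : IsScalarTower k S R := IsScalarTower.of_algebraMap_eq fun x => by
    change _ = MvPolynomial.aeval y (algebraMap k S x)
    rw [MvPolynomial.algebraMap_eq, MvPolynomial.aeval_C]
  have halg : ∀ s : S, algebraMap S K s = algebraMap R K (MvPolynomial.aeval y s) := fun s =>
    IsScalarTower.algebraMap_apply S R K s
  have : IsScalarTower k S K := IsScalarTower.of_algebraMap_eq fun x => by
    rw [halg, MvPolynomial.algebraMap_eq, MvPolynomial.aeval_C]
    exact (IsScalarTower.algebraMap_apply k R K x)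
  have hinjK : Function.Injective (algebraMap S K) := by
    intro a b hab
    rw [halg, halg] at hab
    exact hinj (IsFractionRing.injective R K hab)
  have : FaithfulSMul S K := (faithfulSMul_iff_algebraMap_injective S K).mpr hinjK
  let L := FractionRing S
  let _ : Algebra L K := FractionRing.liftAlgebra S K
  have : IsScalarTower S L K := FractionRing.isScalarTower_liftAlgebra S K
  -- the image of `R` lies in the span of `T`
  let T' : Finset K := T.image (algebraMap R K)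
  have hRT : ∀ r : R, algebraMap R K r ∈ Submodule.span L (T' : Set K) := by
    intro r
    have hr : r ∈ Submodule.span (Algebra.adjoin k (Set.range y)) (T : Set R) := by
      rw [hspan]; trivial
    refine Submodule.span_induction ?_ ?_ ?_ ?_ hr
    · intro t ht
      refine Submodule.subset_span ?_
      rw [Finset.coe_image]
      exact ⟨t, ht, rfl⟩
    · rw [map_zero]; exact zero_mem _
    · intro a b _ _ ha hb
      rw [map_add]; exact add_mem ha hb
    · rintro ⟨c, hc⟩ a _ ha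
      rw [Algebra.adjoin_range_eq_range_aeval] at hc
      obtain ⟨s, hs⟩ := hc
      have h1 : algebraMap R K ((⟨c, by rw [Algebra.adjoin_range_eq_range_aeval]; exact ⟨s, hs⟩⟩ :
          Algebra.adjoin k (Set.range y)) • a) = (algebraMap S L s) • algebraMap R K a := by
        change algebraMap R K (c * a) = _
        rw [map_mul, Algebra.smul_def, ← IsScalarTower.algebraMap_apply S L K, halg]
        congr 2
        exact hs.symm
      rw [h1]
      exact Submodule.smul_mem _ _ ha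
  have hSR : Algebra.IsAlgebraic S R := by
    have : Module.Finite (Algebra.adjoin k (Set.range y)) R := ⟨⟨T, hspan⟩⟩
    have h1 : Algebra.IsIntegral (Algebra.adjoin k (Set.range y)) R := inferInstance
    have h2 : Algebra.IsAlgebraic (Algebra.adjoin k (Set.range y)) R := inferInstance
    refine Algebra.IsAlgebraic.of_ringHom_of_comp_eq (S := Algebra.adjoin k (Set.range y)) (B := R)
      (hN.indep.aevalEquiv : S ≃ₐ[k] Algebra.adjoin k (Set.range y)).toRingEquiv.toRingHom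
      (RingHom.id R) (hN.indep.aevalEquiv).surjective Function.injective_id ?_
    ext x
    · simp [RingHom.algebraMap_toAlgebra]
    · simp [RingHom.algebraMap_toAlgebra]
  have htop : Submodule.span L (T' : Set K) = ⊤ := by
    rw [eq_top_iff]
    intro z _
    obtain ⟨a, b, hb, rfl⟩ := IsFractionRing.div_surjective (A := R) z
    have hb0 : b ≠ 0 := nonZeroDivisors.ne_zero hb
    obtain ⟨s, hs0, b', hb'⟩ := (Algebra.IsAlgebraic.isAlgebraic (R := S) b).exists_nonzero_dvd hb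
    have hs1 : algebraMap S L s ≠ 0 := by
      intro h0
      exact hs0 ((map_eq_zero_iff _ (IsFractionRing.injective S L)).mp h0)
    have h1 : algebraMap R K a / algebraMap R K b =
        (algebraMap S L s)⁻¹ • algebraMap R K (a * b') := by
      have h2 : algebraMap L K (algebraMap S L s) = algebraMap R K b * algebraMap R K b' := by
        rw [← IsScalarTower.algebraMap_apply S L K, IsScalarTower.algebraMap_apply S R K, hb',
          map_mul]
      have h3 : algebraMap R K b ≠ 0 := fun h0 => hb0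
        ((map_eq_zero_iff _ (IsFractionRing.injective R K)).mp h0)
      have h4 : algebraMap R K b' ≠ 0 := by
        intro h0
        rw [h0, mul_zero] at h2
        exact hs1 ((map_eq_zero_iff _ (algebraMap L K).injective).mp h2)
      rw [Algebra.smul_def, map_inv₀, h2, map_mul]
      exact lerk_field _ _ _ h3 h4
    rw [h1]
    exact Submodule.smul_mem _ _ (hRT _)
  have hfinite : FiniteDimensional L K := ⟨⟨T', htop⟩⟩
  have hlt : Module.finrank L K < p := by
    have h1 := finrank_span_finset_le_card (R := L) T'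
    rw [Set.finrank, htop, finrank_top] at h1
    exact lt_of_le_of_lt h1 (lt_of_le_of_lt Finset.card_image_le hT)
  have : CharP L p := by
    have : CharP S p := inferInstance
    exact charP_of_injective_algebraMap (IsFractionRing.injective S L) p
  have hsep : Algebra.IsSeparable L K := Mo.ec_separable p hlt
  have : Algebra.FormallyEtale L K := Algebra.FormallyEtale.of_isSeparable L K
  have : Algebra.FormallyEtale S L := Algebra.FormallyEtale.of_isLocalization (nonZeroDivisors S)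
  have : Algebra.FormallyEtale S K := Algebra.FormallyEtale.comp S L K
  let e := KaehlerDifferential.tensorKaehlerEquivOfFormallyEtale k S K
  let b := (KaehlerDifferential.mvPolynomialBasis k (Fin n)).baseChange K
  have hfr : Module.finrank K (Ω[K⁄k]) = n := by
    rw [← e.finrank_eq, Module.finrank_eq_card_basis b, Fintype.card_fin]
  -- the differentials of the frame span
  have hsp := KaehlerDifferential.span_range_map_derivation_of_isLocalization k R K
    (nonZeroDivisors R)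
  let W : Finset (Ω[K⁄k]) := Finset.univ.image fun i : Fin N =>
    KaehlerDifferential.map k k R K (KaehlerDifferential.D k R (x i))
  have hW : Submodule.span K (W : Set (Ω[K⁄k])) = ⊤ := by
    rw [eq_top_iff, ← hsp, Submodule.span_le]
    rintro _ ⟨r, rfl⟩
    obtain ⟨c, hc⟩ := h.gen r
    have h1 := congrArg (KaehlerDifferential.map k k R K) hc
    rw [map_smul, map_sum] at h1
    have h2 : algebraMap R K g ≠ 0 := fun h0 => hg
      ((map_eq_zero_iff _ (IsFractionRing.injective R K)).mp h0)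
    have h3 : (KaehlerDifferential.map k k R K ∘ KaehlerDifferential.D k R) r =
        (algebraMap R K g)⁻¹ • ∑ i, algebraMap R K (c i) •
          KaehlerDifferential.map k k R K (KaehlerDifferential.D k R (x i)) := by
      rw [eq_inv_smul_iff₀ h2, algebraMap_smul]
      change g • KaehlerDifferential.map k k R K (KaehlerDifferential.D k R r) = _
      rw [h1]
      exact Finset.sum_congr rfl fun i _ => by rw [map_smul, algebraMap_smul]
    rw [h3]
    refine Submodule.smul_mem _ _ (sum_mem fun i _ => Submodule.smul_mem _ _ ?_)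
    refine Submodule.subset_span ?_
    rw [Finset.coe_image]
    exact ⟨i, by simp, rfl⟩
  have h1 := finrank_span_finset_le_card (R := K) W
  rw [Set.finrank, hW, finrank_top, hfr] at h1
  exact h1.trans (Finset.card_image_le.trans (by simp))

end Vale.Agent.P292.Dv
end

section

/-! # P292, Part III, C8: the Frobenius twist of a pair. -/

namespace Vale.Agent.P292.Dv

open Vale.Agent.P292.Mo

universe u v w

variable {k : Type u} [Field k] {R : Type v} [CommRing R] [Algebra k R]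
  {𝒜 : ℕ → Submodule k R} [GradedAlgebra 𝒜] {P : R →ₗ[k] R →ₗ[k] R} {J : Ideal R}
  {K : Type w} [Field K] [Algebra k K]

omit [GradedAlgebra 𝒜] in
theorem TwGP.main [IsAlgClosed k] (p : ℕ) [Fact p.Prime] [CharP k p] {t : K}
    {A₀ A₁ : Subalgebra k K} {u v : K} (cd : IsCD A₀ A₁)
    {φ : R →ₐ[k] K} {η : J →ₗ[k] K} {N : ℕ} (hch : IsCh t A₀ A₁)
    (h : IsGP 𝒜 P J N A₀ A₁ u v φ η) (j : ℕ) :
    ∃ (A₀' A₁' : Subalgebra k (Tw p j K)) (u' v' : Tw p j K) (φ' : R →ₐ[k] Tw p j K)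
      (η' : J →ₗ[k] Tw p j K), IsCh (K := Tw p j K) t A₀' A₁' ∧
      IsGP 𝒜 P J N A₀' A₁' u' v' φ' η' ∧ idx A₁' v' = p ^ j * idx A₁ v := by
  have hpp : p.Prime := Fact.out
  set q : ℕ := p ^ j with hq
  have hq0 : 0 < q := pow_pos hpp.pos j
  have hs : Function.Surjective (iterateFrobenius k p j) := by
    intro c
    obtain ⟨z, hz⟩ := IsAlgClosed.exists_pow_nat_eq c hq0
    exact ⟨z, by rw [iterateFrobenius_def, hz]⟩
  have : CharP K p := charP_of_injective_algebraMap (algebraMap k K).injective p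
  let σ : k ≃+* k := RingEquiv.ofBijective (iterateFrobenius k p j)
    ⟨(iterateFrobenius k p j).injective, hs⟩
  have hσ : ∀ c, σ c = c ^ q := fun c => iterateFrobenius_def p j c
  let τ : Tw p j K ≃+* K := RingEquiv.refl K
  have hτ : IsSl σ τ := ⟨fun c => rfl⟩
  have hadd : ∀ x y : K, (x + y) ^ q = x ^ q + y ^ q := by
    intro x y
    have := map_add (iterateFrobenius K p j) x y
    simpa only [iterateFrobenius_def] using this
  let φ' : R →ₐ[k] Tw p j K :=
    { toFun := fun r => τ.symm (φ r ^ q)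
      map_one' := by rw [map_one, one_pow, map_one]
      map_mul' := fun x y => by rw [map_mul, mul_pow, map_mul]
      map_zero' := by rw [map_zero, zero_pow hq0.ne', map_zero]
      map_add' := fun x y => by rw [map_add, hadd, map_add]
      commutes' := fun c => by
        rw [AlgHom.commutes, ← map_pow, ← hσ, hτ.sm] }
  have hφ' : ∀ r, τ (φ' r) = φ r ^ q := fun r => τ.apply_symm_apply _
  have hne : ∀ r, φ r ≠ 0 → φ' r ≠ 0 := by
    intro r hr h0
    have := hφ' r
    rw [h0, map_zero] at this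
    exact pow_ne_zero q hr this.symm
  let η' : J →ₗ[k] Tw p j K :=
    { toFun := fun x => τ.symm (η x ^ q)
      map_add' := fun x y => by rw [map_add, hadd, map_add]
      map_smul' := fun c x => by
        apply τ.injective
        rw [RingHom.id_apply, hτ.smul, τ.apply_symm_apply, τ.apply_symm_apply, map_smul,
          smul_pow, hσ] }
  have hη' : ∀ x, τ (η' x) = η x ^ q := fun x => τ.apply_symm_apply _
  have hneη : ∀ x, η x ≠ 0 → η' x ≠ 0 := by
    intro x hx h0
    have := hη' x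
    rw [h0, map_zero] at this
    exact pow_ne_zero q hx this.symm
  set u' : Tw p j K := τ.symm (u ^ q) with hu'
  have hτu : τ u' = u ^ q := τ.apply_symm_apply _
  set v' : Tw p j K := τ.symm (v ^ q) with hv'
  have hτv : τ v' = v ^ q := τ.apply_symm_apply _
  have hun : ∀ n : ℕ, (u ^ q) ^ n = (u ^ n) ^ q := fun n => by
    rw [← pow_mul, mul_comm q n, pow_mul]
  have hidx : idx (hτ.A A₁) v' = p ^ j * idx A₁ v := by
    rw [hτ.idx, hτv, cd.idx_pow h.v_ne, hq]
    push_cast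
    rfl
  refine ⟨hτ.A A₀, hτ.A A₁, u', v', φ', η', TwGP.isCh hτ hch, ?_, hidx⟩
  refine
    { mp := ?_
      v_ne := ?_
      lin := ?_
      secη := ?_
      loc0 := ?_
      loc1 := ?_
      Npos := h.Npos
      frames := ?_ }
  · refine ⟨?_, ?_, ?_, ?_⟩
    · rw [hu']
      exact (map_ne_zero τ.symm).2 (pow_ne_zero q h.mp.u_ne)
    · intro n r hr
      obtain ⟨h1, h2⟩ := mem_Sec.1 (h.mp.sec n r hr)
      refine mem_Sec.2 ⟨?_, ?_⟩
      · rw [hτ.mem_A, hφ']
        exact pow_mem h1 q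
      · rw [hτ.mem_A, map_mul, map_pow, hφ', hτu, hun, ← mul_pow]
        exact pow_mem h2 q
    · obtain ⟨n, hn, r, hr, h1, h2⟩ := h.mp.unit0
      refine ⟨n, hn, r, hr, hne r h1, ?_⟩
      rw [hτ.mem_A, map_inv₀, hφ', ← inv_pow]
      exact pow_mem h2 q
    · obtain ⟨n, hn, r, hr, h1, h2⟩ := h.mp.unit1
      refine ⟨n, hn, r, hr, hne r h1, ?_⟩
      rw [hτ.mem_A, map_inv₀, map_mul, map_pow, hφ', hτu, hun, ← mul_pow,
        ← inv_pow]
      exact pow_mem h2 q
  · rw [hv']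
    exact (map_ne_zero τ.symm).2 (pow_ne_zero q h.v_ne)
  · intro r x
    apply τ.injective
    rw [map_mul, hη', hη', hφ', h.lin, mul_pow]
  · intro n x hx
    obtain ⟨h1, h2⟩ := h.secη n x hx
    refine ⟨?_, ?_⟩
    · rw [hτ.mem_A, hη']
      exact pow_mem h1 q
    · rw [hτ.mem_A, map_mul, map_mul, map_pow, hη', hτu, hτv, hun, ← mul_pow, ← mul_pow]
      exact pow_mem h2 q
  · obtain ⟨i, l, a, b, hl, ha, hb, hab, h1, h2, h3, h4⟩ := h.loc0
    refine ⟨i, l, a, b, hl, ha, hb, hab, hne b h1, ?_, hneη a h3, ?_⟩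
    · rw [hτ.mem_A, map_inv₀, hφ', ← inv_pow]
      exact pow_mem h2 q
    · rw [hτ.mem_A, map_inv₀, hη', ← inv_pow]
      exact pow_mem h4 q
  · obtain ⟨i, l, a, b, hl, ha, hb, hab, h1, h2, h3, h4⟩ := h.loc1
    refine ⟨i, l, a, b, hl, ha, hb, hab, hne b h1, ?_, hneη a h3, ?_⟩
    · rw [hτ.mem_A, map_inv₀, map_mul, map_pow, hφ', hτu, hun, ← mul_pow, ← inv_pow]
      exact pow_mem h2 q
    · rw [hτ.mem_A, map_inv₀, map_mul, map_mul, map_pow, hη', hτu, hτv, hun, ← mul_pow,
        ← mul_pow, ← inv_pow]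
      exact pow_mem h4 q
  · obtain ⟨x, d, g, x', d', g', h1, h2⟩ := h.frames
    refine ⟨x, d, g, x', d', g', ⟨h1.fr, hne _ h1.g_ne, hne _ h1.det_ne, ?_⟩,
      ⟨h2.fr, hne _ h2.g_ne, hne _ h2.det_ne, ?_⟩⟩
    · rw [hτ.mem_A, map_inv₀, hφ', ← inv_pow]
      exact pow_mem h1.unit q
    · rw [hτ.mem_A, map_inv₀, map_mul, map_zpow₀, hφ', hτu]
      have : ∀ m : ℤ, (u ^ q) ^ m = (u ^ m) ^ q := by
        intro m
        rw [← zpow_natCast, ← zpow_natCast, ← zpow_mul, ← zpow_mul, mul_comm]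
      rw [this, ← mul_pow, ← inv_pow]
      exact pow_mem h2.unit q

/-- C8. Frobenius twist of a pair. -/
theorem twist_GP [IsAlgClosed k] (p : ℕ) [Fact p.Prime] [CharP k p] (hP : IsPM 𝒜 P) {t : K}
    (ht : Transcendental k t) [FiniteDimensional (IntermediateField.adjoin k {t}) K]
    [Algebra.IsSeparable (IntermediateField.adjoin k {t}) K] {A₀ A₁ : Subalgebra k K} {u v : K}
    {φ : R →ₐ[k] K} {η : J →ₗ[k] K} {N : ℕ} (hch : IsCh t A₀ A₁)
    (h : IsGP 𝒜 P J N A₀ A₁ u v φ η) (j : ℕ) :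
    ∃ (A₀' A₁' : Subalgebra k (Tw p j K)) (u' v' : Tw p j K) (φ' : R →ₐ[k] Tw p j K)
      (η' : J →ₗ[k] Tw p j K), IsCh (K := Tw p j K) t A₀' A₁' ∧
      IsGP 𝒜 P J N A₀' A₁' u' v' φ' η' ∧ idx A₁' v' = p ^ j * idx A₁ v := by
  have cd : IsCD A₀ A₁ := by
    obtain ⟨g, hg, rfl, rfl⟩ := hch
    exact isCD_IC ht hg
  exact TwGP.main p cd hch h j

end Vale.Agent.P292.Dv
end

section

/-! # Places of a function field and expansions at closed points. -/

namespace Vale.Agent.P292.Dv.VT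

open Vale.Agent.P292.Mo

universe u w

/-- A uniformizer. -/
theorem unif {A : Type*} [CommRing A] [IsDomain A] (𝔪 : Ideal A) [𝔪.IsPrime]
    (hdvr : IsDiscreteValuationRing (Localization.AtPrime 𝔪)) :
    ∃ π ∈ 𝔪, ∀ c ∈ 𝔪, ∃ v u, v ∉ 𝔪 ∧ v * c = π * u := by
  let L := Localization.AtPrime 𝔪
  obtain ⟨ϖ, hϖ⟩ := IsDiscreteValuationRing.exists_irreducible L
  have hmax := (IsDiscreteValuationRing.irreducible_iff_uniformizer ϖ).mp hϖ
  obtain ⟨⟨π, s⟩, hπ⟩ := IsLocalization.surj 𝔪.primeCompl ϖ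
  have hinj : Function.Injective (algebraMap A L) :=
    IsLocalization.injective L (Ideal.primeCompl_le_nonZeroDivisors 𝔪)
  have hπp : π ∈ 𝔪 := by
    have h1 : algebraMap A L π ∈ IsLocalRing.maximalIdeal L := by
      rw [← hπ]
      refine Ideal.mul_mem_right _ _ ?_
      rw [hmax]
      exact Ideal.mem_span_singleton_self _
    have h2 := IsLocalization.AtPrime.to_map_mem_maximal_iff L 𝔪 π
    exact h2.mp h1
  refine ⟨π, hπp, fun c hc => ?_⟩
  have h1 : algebraMap A L c ∈ IsLocalRing.maximalIdeal L :=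
    (IsLocalization.AtPrime.to_map_mem_maximal_iff L 𝔪 c).mpr hc
  rw [hmax, Ideal.mem_span_singleton'] at h1
  obtain ⟨z, hz⟩ := h1
  obtain ⟨⟨u, t⟩, hu⟩ := IsLocalization.surj 𝔪.primeCompl z
  refine ⟨s * t, u, ?_, ?_⟩
  · intro h2
    rcases (inferInstance : 𝔪.IsPrime).mem_or_mem h2 with h3 | h3
    · exact s.2 h3
    · exact t.2 h3
  · apply hinj
    rw [map_mul, map_mul, map_mul, ← hz, ← hu, ← hπ]
    ring

variable {k : Type u} [Field k] {K : Type w} [Field K] [Algebra k K]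

/-- The center of a place on an affine chart. -/
def cen (A : Subalgebra k K) (V : ValuationSubring K) (hA : ∀ a ∈ A, a ∈ V) : Ideal A where
  carrier := {a | V.valuation (a : K) < 1}
  add_mem' := by
    intro a b ha hb
    exact (V.valuation.map_add _ _).trans_lt (max_lt ha hb)
  zero_mem' := by
    change V.valuation ((0 : A) : K) < 1
    rw [ZeroMemClass.coe_zero, map_zero]
    exact zero_lt_one
  smul_mem' := by
    intro c a ha
    change V.valuation ((c * a : A) : K) < 1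
    rw [MulMemClass.coe_mul, map_mul]
    exact mul_lt_one_of_nonneg_of_lt_one_right ((V.valuation_le_one_iff _).2 (hA c c.2))
      zero_le ha

theorem mem_cen {A : Subalgebra k K} {V : ValuationSubring K} {hA : ∀ a ∈ A, a ∈ V} {a : A} :
    a ∈ cen A V hA ↔ V.valuation (a : K) < 1 := Iff.rfl

theorem val_le {A : Subalgebra k K} {V : ValuationSubring K} (hA : ∀ a ∈ A, a ∈ V) (a : A) :
    V.valuation (a : K) ≤ 1 := (V.valuation_le_one_iff _).2 (hA a a.2)

theorem cen_prime {A : Subalgebra k K} {V : ValuationSubring K} (hA : ∀ a ∈ A, a ∈ V) :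
    (cen A V hA).IsPrime := by
  refine ⟨?_, ?_⟩
  · intro h
    have h1 : (1 : A) ∈ cen A V hA := by rw [h]; trivial
    rw [mem_cen, OneMemClass.coe_one, map_one] at h1
    exact lt_irrefl _ h1
  · intro a b hab
    by_contra hcon
    push Not at hcon
    rw [mem_cen, mem_cen] at hcon
    have ha := le_antisymm (val_le hA a) (not_lt.1 hcon.1)
    have hb := le_antisymm (val_le hA b) (not_lt.1 hcon.2)
    rw [mem_cen, MulMemClass.coe_mul, map_mul, ha, hb, mul_one] at hab
    exact lt_irrefl _ hab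

theorem cen_ne {A : Subalgebra k K} {V : ValuationSubring K} (hA : ∀ a ∈ A, a ∈ V)
    (hfr : ∀ x : K, ∃ a ∈ A, ∃ b ∈ A, b ≠ 0 ∧ x = a / b) (hV : V ≠ ⊤) : cen A V hA ≠ ⊥ := by
  intro h
  apply hV
  rw [eq_top_iff]
  intro x _
  obtain ⟨a, ha, b, hb, hb0, rfl⟩ := hfr x
  have h1 : V.valuation b = 1 := by
    refine le_antisymm (val_le hA ⟨b, hb⟩) (not_lt.1 fun h2 => ?_)
    have h3 : (⟨b, hb⟩ : A) ∈ cen A V hA := h2
    rw [h] at h3
    exact hb0 (congrArg Subtype.val h3)
  rw [← V.valuation_le_one_iff, map_div₀, h1, div_one]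
  exact val_le hA ⟨a, ha⟩

/-- The expansion at the center of a place. -/
theorem exists_ex (A : Subalgebra k K) [IsDedekindDomain A]
    (hcl : ∀ 𝔭 : Ideal A, 𝔭.IsPrime → 𝔭 ≠ ⊥ → ∃ c : A →ₐ[k] k, ∀ a, a ∈ 𝔭 ↔ c a = 0)
    (hfr : ∀ x : K, ∃ a ∈ A, ∃ b ∈ A, b ≠ 0 ∧ x = a / b) (V : ValuationSubring K)
    (hA : ∀ a ∈ A, a ∈ V) (hV : V ≠ ⊤) :
    ∃ (c : A →ₐ[k] k) (ex : A →ₐ[k] PowerSeries k) (γ : V.ValueGroup),
      Function.Injective ex ∧ (∀ a, PowerSeries.constantCoeff (ex a) = c a) ∧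
      (∀ (n : ℕ) (s : PowerSeries k), ∃ a, PowerSeries.X ^ n ∣ ex a - s) ∧
      (∀ a : A, c a = 0 ↔ V.valuation (a : K) < 1) ∧
      (∀ (n : ℕ) (a : A), PowerSeries.X ^ n ∣ ex a ↔ a ∈ (RingHom.ker c) ^ n) ∧
      0 < γ ∧ γ < 1 ∧
      (∀ (n : ℕ) (a : A), PowerSeries.X ^ n ∣ ex a → V.valuation (a : K) ≤ γ ^ n) ∧
      (∀ (n : ℕ) (a : A), ¬ PowerSeries.X ^ (n + 1) ∣ ex a → γ ^ n ≤ V.valuation (a : K)) := by
  classical
  set 𝔪 := cen A V hA with h𝔪
  have hp : 𝔪.IsPrime := cen_prime hA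
  have hne : 𝔪 ≠ ⊥ := cen_ne hA hfr hV
  obtain ⟨c, hc⟩ := hcl 𝔪 hp hne
  have hker : RingHom.ker c = 𝔪 := by
    ext a
    rw [RingHom.mem_ker, ← hc]
  have hdvr : IsDiscreteValuationRing (Localization.AtPrime 𝔪) :=
    IsLocalization.AtPrime.isDiscreteValuationRing_of_dedekind_domain A hne _
  obtain ⟨ex, hinj, hcc, happ, hpow⟩ := exists_expansion_at c 𝔪 hc
  obtain ⟨π, hπ, hunif⟩ := unif 𝔪 hdvr
  have hnot : ∀ a : A, a ∉ 𝔪 → V.valuation (a : K) = 1 := fun a ha =>
    le_antisymm (val_le hA a) (not_lt.1 ha)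
  have hπ0 : (π : K) ≠ 0 := by
    intro h0
    have h1 : π = 0 := Subtype.ext h0
    obtain ⟨a, ha, ha0⟩ := Submodule.exists_mem_ne_zero_of_ne_bot hne
    obtain ⟨s, y, hs, hsy⟩ := hunif a ha
    rw [h1, zero_mul] at hsy
    rcases mul_eq_zero.1 hsy with h2 | h2
    · exact hs (h2 ▸ 𝔪.zero_mem)
    · exact ha0 h2
  -- elements of the center
  have hdiv : ∀ a ∈ 𝔪, ∃ y : A, V.valuation (a : K) = V.valuation (y : K) *
      V.valuation (π : K) ∧ ∀ n, a ∉ 𝔪 ^ (n + 1) → y ∉ 𝔪 ^ n := by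
    intro a ha
    obtain ⟨s, y, hs, hsy⟩ := hunif a ha
    refine ⟨y, ?_, ?_⟩
    · have h1 := congrArg (fun z : A => V.valuation (z : K)) hsy
      simp only [MulMemClass.coe_mul, map_mul] at h1
      rw [hnot s hs, one_mul] at h1
      rw [h1, mul_comm]
    · intro n ha1 hy
      apply ha1
      have h1 : s * a ∈ 𝔪 ^ (n + 1) := by
        rw [hsy, pow_succ, mul_comm π y]
        exact Ideal.mul_mem_mul hy hπ
      rw [← hpow, map_mul] at h1
      rw [← hpow]
      have h2 : IsUnit (ex s) := by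
        rw [PowerSeries.isUnit_iff_constantCoeff, hcc]
        exact isUnit_iff_ne_zero.2 fun h0 => hs ((hc s).2 h0)
      exact (IsUnit.dvd_mul_left h2).1 h1
  refine ⟨c, ex, V.valuation (π : K), hinj, hcc, ?_, fun a => (hc a).symm.trans mem_cen, ?_, ?_,
    hπ, ?_, ?_⟩
  · intro n s
    obtain ⟨a, ha⟩ := happ n s
    exact ⟨a, by rw [← neg_sub]; exact (dvd_neg).2 ha⟩
  · intro n a
    rw [hker]
    exact hpow n a
  · exact zero_lt_iff.2 ((map_ne_zero _).2 hπ0)
  · intro n a ha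
    rw [hpow] at ha
    -- induction on the power
    have key : ∀ (n : ℕ) (a : A), a ∈ 𝔪 ^ n → V.valuation (a : K) ≤ V.valuation (π : K) ^ n := by
      intro n
      induction n with
      | zero => intro a _; rw [pow_zero]; exact val_le hA a
      | succ n ih =>
        intro a ha
        rw [pow_succ] at ha
        refine Submodule.mul_induction_on ha ?_ ?_
        · intro x hx y hy
          obtain ⟨z, hz, -⟩ := hdiv y hy
          rw [MulMemClass.coe_mul, map_mul, hz, pow_succ]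
          calc V.valuation (x : K) * (V.valuation (z : K) * V.valuation (π : K))
              ≤ V.valuation (π : K) ^ n * (1 * V.valuation (π : K)) :=
                mul_le_mul' (ih x hx) (mul_le_mul' (val_le hA z) le_rfl)
            _ = V.valuation (π : K) ^ n * V.valuation (π : K) := by rw [one_mul]
        · intro x y hx hy
          exact (V.valuation.map_add _ _).trans (max_le hx hy)
    exact key n a ha
  · intro n a ha
    rw [hpow] at ha
    have key : ∀ (n : ℕ) (a : A), a ∉ 𝔪 ^ (n + 1) → V.valuation (π : K) ^ n ≤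
        V.valuation (a : K) := by
      intro n
      induction n with
      | zero =>
        intro a ha
        rw [zero_add, pow_one] at ha
        rw [hnot a ha, pow_zero]
      | succ n ih =>
        intro a ha
        by_cases h1 : a ∈ 𝔪
        · obtain ⟨y, hy, hy'⟩ := hdiv a h1
          rw [hy, pow_succ]
          exact mul_le_mul' (ih y (hy' _ ha)) le_rfl
        · rw [hnot a h1]
          exact pow_le_one' (val_le hA π) _
    exact key n a ha

end Vale.Agent.P292.Dv.VT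
end

section

/-! # P292, Part III, T2, C4: comparison of degrees. -/

namespace Vale.Agent.P292.Dv

open Vale.Agent.P292.Mo Module

universe u v w

namespace IdxLe

variable {k : Type u} [Field k] {K : Type w} [Field K] [Algebra k K] {A₀ A₁ : Subalgebra k K}

/-- Upper bound for the number of sections which vanish at marks (`l₀` is an extra mark). -/
theorem upper (hC : IsCD A₀ A₁) {u : K} (hu : u ≠ 0) (U : Submodule k K) {ι : Type} [Fintype ι]
    [DecidableEq ι] (l₀ : ι)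
    (c : ι → (A₀ →ₐ[k] k)) (hinj : Function.Injective c)
    (ex : ι → (A₀ →ₐ[k] PowerSeries k))
    (hc : ∀ l x, PowerSeries.constantCoeff (ex l x) = c l x)
    (hsurj : ∀ l (n : ℕ) (f : PowerSeries k), ∃ x, (PowerSeries.X : PowerSeries k) ^ n ∣ ex l x - f)
    (b : ι → ℕ) (hb0 : b l₀ = 0)
    (hU : ∀ a ∈ U, ∃ h : a ∈ A₀, u * a ∈ A₁ ∧
      ∀ l, (PowerSeries.X : PowerSeries k) ^ b l ∣ ex l ⟨a, h⟩)
    (N : ℕ) (hN : idx A₁ u < (∑ l, b l : ℕ) + N) :
    FiniteDimensional k U ∧ finrank k U ≤ N := by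
  classical
  have hA : ∀ a ∈ U, a ∈ A₀ := fun a ha => (hU a ha).1
  let T : ↥U →ₗ[k] (Fin N → k) :=
    LinearMap.pi fun j => (PowerSeries.coeff (j : ℕ)) ∘ₗ (ex l₀).toLinearMap ∘ₗ
      (Submodule.inclusion (show U ≤ Subalgebra.toSubmodule A₀ from hA))
  have hT : ∀ (x : U) (j : Fin N), T x j = PowerSeries.coeff (j : ℕ) (ex l₀ ⟨x, hA x x.2⟩) :=
    fun x j => rfl
  have hinjT : Function.Injective T := by
    rw [injective_iff_map_eq_zero]
    intro x hx
    by_contra hx0
    have hx0' : (x : K) ≠ 0 := fun h => hx0 (Subtype.ext h)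
    obtain ⟨h, h1, h2⟩ := hU x x.2
    have hsec : (x : K) ∈ Sec A₀ A₁ u 1 := ⟨h, by
      show u ^ 1 * (x : K) ∈ A₁
      rwa [pow_one]⟩
    have hb' : ∀ l, (PowerSeries.X : PowerSeries k) ^ (if l = l₀ then N else b l) ∣
        ex l ⟨x, h⟩ := by
      intro l
      split_ifs with hl
      · subst hl
        rw [PowerSeries.X_pow_dvd_iff]
        intro j hj
        have := congrFun hx ⟨j, hj⟩
        rw [hT] at this
        exact this
      · exact h2 l
    have h3 := Ct.sum_order_le hC hu hsec hx0' c hinj ex hc hsurj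
      (fun l => if l = l₀ then N else b l) hb'
    have h4 : (∑ l, if l = l₀ then N else b l) = (∑ l, b l) + N := by
      have h5 : ∀ l, (if l = l₀ then N else b l) = b l + if l = l₀ then N else 0 := by
        intro l
        split_ifs with hl
        · rw [hl, hb0, zero_add]
        · rw [add_zero]
      rw [Finset.sum_congr rfl fun l _ => h5 l, Finset.sum_add_distrib]
      simp
    rw [h4] at h3
    push_cast at h3 hN
    rw [one_mul] at h3
    omega
  have hfin : FiniteDimensional k U := FiniteDimensional.of_injective T hinjT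
  refine ⟨hfin, ?_⟩
  have h6 := LinearMap.finrank_le_finrank_of_injective hinjT
  rwa [Module.finrank_fin_fun] at h6

/-- Lower bound for the number of sections. -/
theorem lower (h : IsCD A₀ A₁) {u : K} (hu : u ≠ 0) :
    FiniteDimensional k ↥(Sec A₀ A₁ u 1) ∧ chi0 A₀ A₁ + idx A₁ u ≤ finrank k ↥(Sec A₀ A₁ u 1) := by
  obtain ⟨h1, -, h3⟩ := h.chi_Sec hu 1
  refine ⟨h1, ?_⟩
  rw [Nat.cast_one, one_mul] at h3
  omega

end IdxLe

/-- C4. Comparison of degrees. -/
theorem idx_le_of_sections {k : Type u} [Field k] {K : Type w} [Field K] [Algebra k K]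
    [IsAlgClosed k] {t : K} (ht : Transcendental k t)
    [FiniteDimensional (IntermediateField.adjoin k {t}) K]
    [Algebra.IsSeparable (IntermediateField.adjoin k {t}) K] {g g' : Polynomial k} (hg : g ≠ 0)
    (hg' : g' ≠ 0) {ℓ : k} (hℓ : g.eval ℓ ≠ 0) (hℓ' : g'.eval ℓ ≠ 0) {w w' : K} (hw : w ≠ 0)
    (hw' : w' ≠ 0) {m : ℕ} {c : Fin m → (IC (B0 t g) →ₐ[k] k)} (hc : Function.Injective c)
    (hsec : ∀ n M : ℕ, ∀ a ∈ IC (B0 t g'), w' ^ n * (t - algebraMap k K ℓ)⁻¹ ^ M * a ∈ IC (B1 t g') →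
      w ^ n * (t - algebraMap k K ℓ)⁻¹ ^ M * a ∈ IC (B1 t g) ∧ ∃ h : a ∈ IC (B0 t g),
        ∀ l, (⟨a, h⟩ : IC (B0 t g)) ∈ (RingHom.ker (c l)) ^ n) :
    idx (IC (B1 t g')) w' + m ≤ idx (IC (B1 t g)) w := by
  classical
  have hcd : IsCD (IC (B0 t g)) (IC (B1 t g)) := isCD_IC ht hg
  have hcd' : IsCD (IC (B0 t g')) (IC (B1 t g')) := isCD_IC ht hg'
  set s : K := (t - algebraMap k K ℓ)⁻¹ with hs
  have hs0 : s ≠ 0 := inv_ne_zero (by
    intro h0
    apply ht
    rw [sub_eq_zero] at h0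
    rw [h0]
    exact isAlgebraic_algebraMap ℓ)
  have hd : idx (IC (B1 t g)) s = Module.finrank (IntermediateField.adjoin k {t}) K :=
    idx_IC ht hg ℓ hℓ
  have hd' : idx (IC (B1 t g')) s = Module.finrank (IntermediateField.adjoin k {t}) K :=
    idx_IC ht hg' ℓ hℓ'
  have hdpos : 0 < Module.finrank (IntermediateField.adjoin k {t}) K := Module.finrank_pos
  set d := Module.finrank (IntermediateField.adjoin k {t}) K with hdd
  -- an extra mark
  obtain ⟨c₀, hc₀⟩ : ∃ c₀ : IC (B0 t g) →ₐ[k] k, ∀ l, c l ≠ c₀ := by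
    have h1 := infinite_IC ht hg (1 : IC (B0 t g)) one_ne_zero
    have h2 : (Set.range c).Finite := Set.finite_range c
    obtain ⟨c₀, -, h3⟩ := (h1.sdiff h2).nonempty
    exact ⟨c₀, fun l hl => h3 ⟨l, hl⟩⟩
  let c' : Option (Fin m) → (IC (B0 t g) →ₐ[k] k) := fun o => o.elim c₀ c
  have hc' : Function.Injective c' := by
    rintro (_ | i) (_ | j) hij
    · rfl
    · exact absurd hij.symm (hc₀ j)
    · exact absurd hij (hc₀ i)
    · rw [hc hij]
  choose ex hex1 hex2 hex3 using fun o => expansion_IC ht hg (c' o)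
  -- the estimate for each `n`
  have key : ∀ n : ℕ, chi0 (IC (B0 t g')) (IC (B1 t g')) + n * idx (IC (B1 t g')) w' + m * n ≤
      n * idx (IC (B1 t g)) w + 1 := by
    intro n
    -- choose `M` large
    obtain ⟨M, hM⟩ : ∃ M : ℕ, (m : ℤ) * n ≤ n * idx (IC (B1 t g)) w + M * d + 1 := by
      refine ⟨((m : ℤ) * n - n * idx (IC (B1 t g)) w).toNat, ?_⟩
      have h1 := Int.self_le_toNat ((m : ℤ) * n - n * idx (IC (B1 t g)) w)
      have h2 : (1 : ℤ) ≤ d := by exact_mod_cast hdpos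
      have h3 := mul_le_mul_of_nonneg_left h2
        (Int.natCast_nonneg ((m : ℤ) * n - n * idx (IC (B1 t g)) w).toNat)
      linarith
    have hu : w ^ n * s ^ M ≠ 0 := mul_ne_zero (pow_ne_zero _ hw) (pow_ne_zero _ hs0)
    have hu' : w' ^ n * s ^ M ≠ 0 := mul_ne_zero (pow_ne_zero _ hw') (pow_ne_zero _ hs0)
    have hidx : idx (IC (B1 t g)) (w ^ n * s ^ M) = n * idx (IC (B1 t g)) w + M * d := by
      rw [hcd.idx_mul (pow_ne_zero _ hw) (pow_ne_zero _ hs0), hcd.idx_pow hw, hcd.idx_pow hs0, hd]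
    have hidx' : idx (IC (B1 t g')) (w' ^ n * s ^ M) = n * idx (IC (B1 t g')) w' + M * d := by
      rw [hcd'.idx_mul (pow_ne_zero _ hw') (pow_ne_zero _ hs0), hcd'.idx_pow hw',
        hcd'.idx_pow hs0, hd']
    obtain ⟨-, hlow⟩ := IdxLe.lower hcd' hu'
    obtain ⟨N, hN⟩ : ∃ N : ℕ, (N : ℤ) = n * idx (IC (B1 t g)) w + M * d + 1 - m * n :=
      ⟨(n * idx (IC (B1 t g)) w + M * d + 1 - m * n).toNat, Int.toNat_of_nonneg (by linarith)⟩
    have hup := IdxLe.upper hcd hu (Sec (IC (B0 t g')) (IC (B1 t g')) (w' ^ n * s ^ M) 1)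
      (none : Option (Fin m)) c' hc' ex hex2 hex3 (fun o => o.elim 0 fun _ => n) rfl (by
        intro a ha
        obtain ⟨ha0, ha1⟩ := ha
        have ha1' : w' ^ n * s ^ M * a ∈ IC (B1 t g') := by
          have : (w' ^ n * s ^ M) ^ 1 * a ∈ IC (B1 t g') := ha1
          rwa [pow_one] at this
        obtain ⟨h1, h2, h3⟩ := hsec n M a ha0 ha1'
        refine ⟨h2, h1, ?_⟩
        rintro (_ | l)
        · exact one_dvd _
        · have h4 : RingHom.ker (c l) ≤ (Ideal.span {(PowerSeries.X : PowerSeries k)}).comap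
              (ex (some l)) := by
            intro x hx
            rw [Ideal.mem_comap, Ideal.mem_span_singleton, PowerSeries.X_dvd_iff, hex2]
            exact hx
          have h5 := (Ideal.pow_right_mono h4 n) (h3 l)
          have h6 := Ideal.le_comap_pow (ex (some l)) n h5
          rw [Ideal.mem_comap, Ideal.span_singleton_pow, Ideal.mem_span_singleton] at h6
          exact h6) N (by
        rw [hidx, hN, Fintype.sum_option]
        simp)
    have h7 : (finrank k ↥(Sec (IC (B0 t g')) (IC (B1 t g')) (w' ^ n * s ^ M) 1) : ℤ) ≤ N := by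
      exact_mod_cast hup.2
    rw [hidx'] at hlow
    linarith
  -- let `n` tend to infinity
  by_contra hcon
  push Not at hcon
  have h1 := key (2 - chi0 (IC (B0 t g')) (IC (B1 t g'))).toNat
  have h2 := Int.self_le_toNat (2 - chi0 (IC (B0 t g')) (IC (B1 t g')))
  set n : ℕ := (2 - chi0 (IC (B0 t g')) (IC (B1 t g'))).toNat
  have h3 : idx (IC (B1 t g)) w + 1 ≤ idx (IC (B1 t g')) w' + m := hcon
  have h4 : (n : ℤ) * (idx (IC (B1 t g)) w + 1) ≤ n * (idx (IC (B1 t g')) w' + m) :=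
    mul_le_mul_of_nonneg_left h3 (Int.natCast_nonneg n)
  nlinarith

end Vale.Agent.P292.Dv
end

section

/-! # C5: the degrees of the central fibre. -/

namespace Vale.Agent.P292.Dv.IdxLimP

open Vale.Agent.P292.Mo

universe u v w

variable {k : Type u} [Field k] {K : Type w} [Field K] [Algebra k K]

/-- Closed points of the first chart. -/
theorem hcl0 [IsAlgClosed k] {t : K} (ht : Transcendental k t)
    [FiniteDimensional (IntermediateField.adjoin k {t}) K] {g : Polynomial k} (hg : g ≠ 0)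
    (𝔭 : Ideal (IC (B0 t g))) (h𝔭 : 𝔭.IsPrime) (h0 : 𝔭 ≠ ⊥) :
    ∃ c : IC (B0 t g) →ₐ[k] k, ∀ a, a ∈ 𝔭 ↔ c a = 0 := by
  have hs := closed_IC0 ht hg 𝔭 h𝔭 h0
  have : Nontrivial (IC (B0 t g) ⧸ 𝔭) := Ideal.Quotient.nontrivial_iff.2 h𝔭.ne_top
  have hb : Function.Bijective (Algebra.ofId k (IC (B0 t g) ⧸ 𝔭)) :=
    ⟨(algebraMap k (IC (B0 t g) ⧸ 𝔭)).injective, hs⟩
  let e := AlgEquiv.ofBijective _ hb
  refine ⟨e.symm.toAlgHom.comp (Ideal.Quotient.mkₐ k 𝔭), fun a => ?_⟩
  rw [← Ideal.Quotient.eq_zero_iff_mem, AlgHom.comp_apply]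
  constructor
  · intro h
    have h1 : Ideal.Quotient.mkₐ k 𝔭 a = 0 := h
    rw [h1, map_zero]
  · intro h
    have h1 : e.symm (Ideal.Quotient.mkₐ k 𝔭 a) = 0 := h
    have h2 := congrArg e h1
    rw [AlgEquiv.apply_symm_apply, map_zero] at h2
    exact h2

/-- Closed points of the second chart. -/
theorem hcl1 [IsAlgClosed k] {t : K} (ht : Transcendental k t)
    [FiniteDimensional (IntermediateField.adjoin k {t}) K]
    [Algebra.IsSeparable (IntermediateField.adjoin k {t}) K] {g : Polynomial k} (hg : g ≠ 0)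
    (𝔭 : Ideal (IC (B1 t g))) (h𝔭 : 𝔭.IsPrime) (h0 : 𝔭 ≠ ⊥) :
    ∃ c : IC (B1 t g) →ₐ[k] k, ∀ a, a ∈ 𝔭 ↔ c a = 0 := by
  classical
  have : Infinite k := IsAlgClosed.instInfinite
  have hcl := closed_IC1 (K := K) ht hg
  have : Finite (IC (B1 t g) →ₐ[k] k) := hcl.1
  have : Fintype (IC (B1 t g) →ₐ[k] k) := Fintype.ofFinite _
  have hded : IsDedekindDomain (IC (B1 t g)) := (crv_basis1 (K := K) ht hg).1
  have hne : Nonempty (IC (B1 t g) →ₐ[k] k) := by
    by_contra h
    rw [not_nonempty_iff] at h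
    exact not_isUnit_zero (hcl.2 0 fun c => h.elim c)
  have h1 : (𝔭 : Set (IC (B1 t g))) ⊆
      ⋃ c ∈ (↑(Finset.univ : Finset (IC (B1 t g) →ₐ[k] k)) : Set (IC (B1 t g) →ₐ[k] k)),
      ((RingHom.ker c.toRingHom : Ideal (IC (B1 t g))) : Set (IC (B1 t g))) := by
    intro a ha
    by_contra hcon
    apply h𝔭.ne_top
    refine Ideal.eq_top_of_isUnit_mem 𝔭 ha (hcl.2 a fun c hc => hcon ?_)
    exact Set.mem_biUnion (Finset.mem_coe.2 (Finset.mem_univ c)) hc
  obtain ⟨c, -, hc⟩ := (Ideal.subset_union_prime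
    (s := (Finset.univ : Finset (IC (B1 t g) →ₐ[k] k)))
    (f := fun c => RingHom.ker c.toRingHom) (Classical.arbitrary _) (Classical.arbitrary _)
    (fun c _ _ _ => RingHom.ker_isPrime _)).1 h1
  have hm : 𝔭.IsMaximal := h𝔭.isMaximal h0
  have h2 := hm.eq_of_le (RingHom.ker_isPrime c.toRingHom).ne_top hc
  refine ⟨c, fun a => ?_⟩
  rw [h2]
  exact Iff.rfl

/-- The relation between the line bundles at a place. -/
theorem quot_mem (V : ValuationSubring K) {γ : V.ValueGroup} (hγ : 0 < γ)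
    {U U' W W' f e : K} (hU' : U' ≠ 0) (hW' : W' ≠ 0) {n i β : ℕ} (hn : 0 < n) (he : e ≠ 0)
    (h1 : U' ^ n * f ∈ V) (h2 : γ ^ (β * n) ≤ V.valuation (U ^ n * f))
    (h3 : (U' ^ i * W' * e)⁻¹ ∈ V) (h4 : V.valuation (U ^ i * W * e) ≤ γ ^ (β * i)) :
    W / W' ∈ V := by
  set ρ : K := U / U' with hρ
  have e1 : U ^ n * f = ρ ^ n * (U' ^ n * f) := by
    rw [hρ, div_pow]
    field_simp
  have h5 : γ ^ β ≤ V.valuation ρ := by
    rw [e1, map_mul, map_pow, pow_mul] at h2
    have h6 : (γ ^ β) ^ n ≤ V.valuation ρ ^ n :=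
      h2.trans (mul_le_of_le_one_right' ((V.valuation_le_one_iff _).2 h1))
    exact le_of_pow_le_pow_left₀ hn.ne' zero_le h6
  have e2 : ρ ^ i * (W / W') = (U ^ i * W * e) * (U' ^ i * W' * e)⁻¹ := by
    rw [hρ, div_pow]
    field_simp
  have h6 : V.valuation ρ ^ i * V.valuation (W / W') ≤ γ ^ (β * i) := by
    rw [← map_pow, ← map_mul, e2, map_mul]
    exact (mul_le_of_le_one_right' ((V.valuation_le_one_iff _).2 h3)).trans h4
  have h7 : γ ^ (β * i) * V.valuation (W / W') ≤ γ ^ (β * i) := by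
    refine le_trans (mul_le_mul' ?_ le_rfl) h6
    rw [pow_mul]
    exact pow_le_pow_left' h5 i
  rw [← V.valuation_le_one_iff]
  have h8 : 0 < γ ^ (β * i) := pow_pos hγ _
  exact (mul_le_iff_le_one_right h8).1 h7

/-- Elements of the maximal ideal of a place. -/
theorem lt_one_le {A : Subalgebra k K} (hfr : ∀ x : K, ∃ a ∈ A, ∃ b ∈ A, b ≠ 0 ∧ x = a / b)
    {V : ValuationSubring K} {ex : A →ₐ[k] PowerSeries k} {γ : V.ValueGroup}
    (hinj : Function.Injective ex) (h0 : 0 < γ)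
    (hle : ∀ (n : ℕ) (a : A), PowerSeries.X ^ n ∣ ex a → V.valuation (a : K) ≤ γ ^ n)
    (hge : ∀ (n : ℕ) (a : A), ¬ PowerSeries.X ^ (n + 1) ∣ ex a → γ ^ n ≤ V.valuation (a : K))
    {x : K} (hx : V.valuation x < 1) : V.valuation x ≤ γ := by
  classical
  obtain ⟨a, ha, b, hb, hb0, rfl⟩ := hfr x
  have hb' : ex ⟨b, hb⟩ ≠ 0 := by
    intro h
    exact hb0 (congrArg Subtype.val (hinj (h.trans (map_zero ex).symm)))
  set m := (ex ⟨b, hb⟩).order.toNat with hm
  have h1 : PowerSeries.X ^ m ∣ ex ⟨b, hb⟩ := PowerSeries.X_pow_order_dvd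
  have h2 : ¬ PowerSeries.X ^ (m + 1) ∣ ex ⟨b, hb⟩ := by
    intro h
    rw [PowerSeries.X_pow_dvd_iff] at h
    exact PowerSeries.coeff_order hb' (h m (Nat.lt_succ_self m))
  have e1 : V.valuation b = γ ^ m := le_antisymm (hle m ⟨b, hb⟩ h1) (hge m ⟨b, hb⟩ h2)
  have hγm : 0 < γ ^ m := pow_pos h0 _
  by_cases h3 : PowerSeries.X ^ (m + 1) ∣ ex ⟨a, ha⟩
  · have h4 := hle _ ⟨a, ha⟩ h3
    rw [map_div₀, e1]
    rw [div_le_iff₀ hγm, mul_comm, ← pow_succ]
    exact h4
  · exfalso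
    have h4 := hge _ ⟨a, ha⟩ h3
    rw [map_div₀, e1, div_lt_one₀ hγm] at hx
    exact absurd h4 (not_le.2 hx)

/-- The charts are intersections of valuation rings. -/
theorem isNor_IC (B : Subalgebra k K) : IsNor (IC B) := by
  refine isNor_of_isIntegrallyClosedIn fun x hx => ?_
  exact isIntegral_trans (R := B) (A := integralClosure B K) x hx

section main

variable {R : Type v} [CommRing R] [Algebra k R]
  {𝒜 : ℕ → Submodule k R} [GradedAlgebra 𝒜] {P : R →ₗ[k] R →ₗ[k] R} {J : Ideal R}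

/-- The inclusion of sections. -/
theorem incl [IsAlgClosed k] {t : K} (ht : Transcendental k t)
    {g g' : Polynomial k} (hg' : g' ≠ 0) {ℓ : k} (hℓ : g.eval ℓ ≠ 0) {w w' : K} (hw' : w' ≠ 0)
    (c10 : ∀ V : ValuationSubring K, (∀ x ∈ IC (B1 t g'), x ∈ V) → (∀ x ∈ IC (B0 t g), x ∈ V) →
      1 / w' ∈ V)
    (c01 : ∀ V : ValuationSubring K, (∀ x ∈ IC (B0 t g'), x ∈ V) → (∀ x ∈ IC (B1 t g), x ∈ V) →
      w / 1 ∈ V)
    (c11 : ∀ V : ValuationSubring K, (∀ x ∈ IC (B1 t g'), x ∈ V) → (∀ x ∈ IC (B1 t g), x ∈ V) →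
      w / w' ∈ V) (n M : ℕ) (a : K) (ha : a ∈ IC (B0 t g'))
    (ha' : w' ^ n * (t - algebraMap k K ℓ)⁻¹ ^ M * a ∈ IC (B1 t g')) :
    w ^ n * (t - algebraMap k K ℓ)⁻¹ ^ M * a ∈ IC (B1 t g) ∧ a ∈ IC (B0 t g) := by
  have hs0 : t - algebraMap k K ℓ ≠ 0 := crv_ne_C ht ℓ
  refine ⟨isNor_IC _ _ fun V hV => ?_, isNor_IC _ _ fun V hV => ?_⟩
  · have hk : ∀ c : k, algebraMap k K c ∈ V := fun c => hV _ (Subalgebra.algebraMap_mem _ c)
    have hs : (t - algebraMap k K ℓ)⁻¹ ∈ V := hV _ (le_IC _ (crv_s_mem_B1 ht hℓ))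
    rcases place_IC ht hg' V hk with h | h
    · have h1 := c01 V h hV
      rw [div_one] at h1
      exact mul_mem (mul_mem (pow_mem h1 n) (pow_mem hs M)) (h a ha)
    · have h1 : w ^ n * (t - algebraMap k K ℓ)⁻¹ ^ M * a =
          (w / w') ^ n * (w' ^ n * (t - algebraMap k K ℓ)⁻¹ ^ M * a) := by
        rw [div_pow]
        field_simp
      rw [h1]
      exact mul_mem (pow_mem (c11 V h hV) n) (h _ ha')
  · have hk : ∀ c : k, algebraMap k K c ∈ V := fun c => hV _ (Subalgebra.algebraMap_mem _ c)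
    rcases place_IC ht hg' V hk with h | h
    · exact h a ha
    · have h0 : ∀ z : K, z ≠ 0 → a = (1 / w') ^ n * z ^ M * (w' ^ n * z⁻¹ ^ M * a) := by
        intro z hz
        have h2 : w' ^ n ≠ 0 := pow_ne_zero _ hw'
        have h3 : z ^ M ≠ 0 := pow_ne_zero _ hz
        rw [one_div, inv_pow, inv_pow]
        calc a = ((w' ^ n)⁻¹ * w' ^ n) * (z ^ M * (z ^ M)⁻¹) * a := by
              rw [inv_mul_cancel₀ h2, mul_inv_cancel₀ h3, one_mul, one_mul]
          _ = _ := by ring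
      have h1 := h0 _ hs0
      have ht' : t - algebraMap k K ℓ ∈ V :=
        sub_mem (hV _ (le_IC _ (crv_t_mem_B0 t g))) (hk ℓ)
      rw [h1]
      exact mul_mem (mul_mem (pow_mem (c10 V h hV) n) (pow_mem ht' M)) (h _ ha')

variable {g g' : Polynomial k} {t : K} {u v u' v' : K} {φ' : R →ₐ[k] K} {η' : J →ₗ[k] K}

/-- Claim 1. -/
theorem claim1 [IsAlgClosed k] (ht : Transcendental k t)
    [FiniteDimensional (IntermediateField.adjoin k {t}) K]
    [Algebra.IsSeparable (IntermediateField.adjoin k {t}) K] (hg : g ≠ 0) (hg' : g' ≠ 0)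
    (hu : u ≠ 0) (f0 : ∀ r, φ' r ∈ IC (B0 t g)) (f1 : ∀ n, ∀ r ∈ 𝒜 n, u ^ n * φ' r ∈ IC (B1 t g))
    {m : ℕ} {c : Fin m → (IC (B0 t g) →ₐ[k] k)} (hc : Function.Injective c)
    (hm : ∀ l, ∀ j, 0 < j → ∀ r ∈ 𝒜 j, c l ⟨φ' r, f0 r⟩ = 0)
    (hmp : IsMp 𝒜 (IC (B0 t g')) (IC (B1 t g')) u' φ') :
    idx (IC (B1 t g')) u' + m ≤ idx (IC (B1 t g)) u := by
  classical
  have : Infinite k := IsAlgClosed.instInfinite
  obtain ⟨ℓ, hℓ⟩ := crv_exists_l (mul_ne_zero hg hg')
  rw [Polynomial.eval_mul] at hℓ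
  have hℓ1 : g.eval ℓ ≠ 0 := left_ne_zero_of_mul hℓ
  have hℓ2 : g'.eval ℓ ≠ 0 := right_ne_zero_of_mul hℓ
  have hu' := hmp.u_ne
  obtain ⟨n0, hn0, r0, hr0, hr00, hr0i⟩ := hmp.unit0
  obtain ⟨n1, hn1, r1, hr1, hr10, hr1i⟩ := hmp.unit1
  have c10 : ∀ V : ValuationSubring K, (∀ x ∈ IC (B1 t g'), x ∈ V) →
      (∀ x ∈ IC (B0 t g), x ∈ V) → 1 / u' ∈ V := by
    intro V h1 h2
    refine mem_of_pow_mem hn1 ?_
    have h3 : (1 / u') ^ n1 = φ' r1 * (u' ^ n1 * φ' r1)⁻¹ := by
      rw [one_div, inv_pow]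
      field_simp
    rw [h3]
    exact mul_mem (h2 _ (f0 r1)) (h1 _ hr1i)
  have c01 : ∀ V : ValuationSubring K, (∀ x ∈ IC (B0 t g'), x ∈ V) →
      (∀ x ∈ IC (B1 t g), x ∈ V) → u / 1 ∈ V := by
    intro V h1 h2
    refine mem_of_pow_mem hn0 ?_
    have h3 : (u / 1) ^ n0 = (u ^ n0 * φ' r0) * (φ' r0)⁻¹ := by
      rw [div_one]
      field_simp
    rw [h3]
    exact mul_mem (h2 _ (f1 _ r0 hr0)) (h1 _ hr0i)
  have c11 : ∀ V : ValuationSubring K, (∀ x ∈ IC (B1 t g'), x ∈ V) →
      (∀ x ∈ IC (B1 t g), x ∈ V) → u / u' ∈ V := by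
    intro V h1 h2
    refine mem_of_pow_mem hn1 ?_
    have h3 : (u / u') ^ n1 = (u ^ n1 * φ' r1) * (u' ^ n1 * φ' r1)⁻¹ := by
      rw [div_pow]
      field_simp
    rw [h3]
    exact mul_mem (h2 _ (f1 _ r1 hr1)) (h1 _ hr1i)
  refine idx_le_of_sections ht hg hg' hℓ1 hℓ2 hu hu' hc fun n M a ha ha' => ?_
  obtain ⟨h1, h2⟩ := incl ht hg' hℓ1 hu' c10 c01 c11 n M a ha ha'
  refine ⟨h1, h2, fun l => ?_⟩
  -- the order at a mark
  rcases Nat.eq_zero_or_pos n with rfl | hn
  · rw [pow_zero, Ideal.one_eq_top]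
    trivial
  have hded : IsDedekindDomain (IC (B0 t g)) := (crv_basis0 (K := K) ht hg).1
  have hkne : RingHom.ker (c l) ≠ ⊤ := (RingHom.ker_isPrime (c l)).ne_top
  obtain ⟨V, hV1, hV2⟩ := Ideal.image_subset_nonunits_valuationSubring (K := K)
    (A := (IC (B0 t g)).toSubring) (RingHom.ker (c l) : Ideal (IC (B0 t g))) hkne
  have hVA : ∀ a ∈ IC (B0 t g), a ∈ V := fun a ha => hV1 ha
  have hkV : ∀ a : IC (B0 t g), c l a = 0 → V.valuation (a : K) < 1 := by
    intro a ha
    have h3 : (a : K) ∈ V.nonunits := hV2 ⟨a, ha, rfl⟩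
    exact V.mem_nonunits_iff.1 h3
  have hk : ∀ c : k, algebraMap k K c ∈ V := fun c => hVA _ (Subalgebra.algebraMap_mem _ c)
  have htm : t ∈ IC (B0 t g) := le_IC _ (crv_t_mem_B0 t g)
  have hVt : V ≠ ⊤ := by
    intro h
    have h3 := hkV (⟨t, htm⟩ - algebraMap k (IC (B0 t g)) (c l ⟨t, htm⟩)) (by
      rw [map_sub, AlgHom.commutes]
      simp)
    have h4 : ((⟨t, htm⟩ - algebraMap k (IC (B0 t g)) (c l ⟨t, htm⟩) : IC (B0 t g)) : K) =
        t - algebraMap k K (c l ⟨t, htm⟩) := rfl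
    rw [h4] at h3
    have h5 : V.valuation (t - algebraMap k K (c l ⟨t, htm⟩))⁻¹ ≤ 1 :=
      (V.valuation_le_one_iff _).2 (by rw [h]; trivial)
    rw [map_inv₀] at h5
    have h6 : V.valuation (t - algebraMap k K (c l ⟨t, htm⟩)) ≠ 0 :=
      (map_ne_zero _).2 (crv_ne_C ht _)
    exact absurd h5 (not_le.2 ((one_lt_inv₀ (zero_lt_iff.2 h6)).2 h3))
  obtain ⟨c', ex, γ, hinj, hcc, happ, hcv, hpow, hγ0, hγ1, hle, hge⟩ :=
    VT.exists_ex (IC (B0 t g)) (hcl0 ht hg) (frac0_IC g) V hVA hVt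
  have hcc' : RingHom.ker (c l) = RingHom.ker c' := by
    have hmax : (RingHom.ker (c l)).IsMaximal := by
      refine RingHom.ker_isMaximal_of_surjective (c l) fun z => ⟨algebraMap k (IC (B0 t g)) z, ?_⟩
      rw [AlgHom.commutes]
      rfl
    refine hmax.eq_of_le (RingHom.ker_isPrime c').ne_top fun a ha => ?_
    rw [RingHom.mem_ker, hcv]
    exact hkV a ha
  rw [hcc', ← hpow]
  by_contra hcon
  obtain ⟨n', rfl⟩ : ∃ n', n = n' + 1 := ⟨n - 1, by omega⟩
  have h3 := hge n' ⟨a, h2⟩ hcon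
  -- the place is on the second chart of the limit
  have hφr : ∀ j, 0 < j → ∀ r ∈ 𝒜 j, V.valuation (φ' r) < 1 := fun j hj r hr =>
    hkV ⟨φ' r, f0 r⟩ (hm l j hj r hr)
  have hV1' : ∀ a ∈ IC (B1 t g'), a ∈ V := by
    rcases place_IC ht hg' V hk with h | h
    · exfalso
      have h4 := hφr n0 hn0 r0 hr0
      have h5 : V.valuation (φ' r0)⁻¹ ≤ 1 := (V.valuation_le_one_iff _).2 (h _ hr0i)
      rw [map_inv₀] at h5
      exact absurd h5 (not_le.2 ((one_lt_inv₀ (zero_lt_iff.2 ((map_ne_zero _).2 hr00))).2 h4))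
    · exact h
  have h4 : V.valuation (1 / u') ≤ γ := by
    refine lt_one_le (frac0_IC g) hinj hγ0 hle hge ?_
    have h5 : (1 / u') ^ n1 = φ' r1 * (u' ^ n1 * φ' r1)⁻¹ := by
      rw [one_div, inv_pow]
      field_simp
    have h6 : V.valuation (1 / u') ^ n1 < 1 := by
      rw [← map_pow, h5, map_mul]
      exact mul_lt_one_of_lt_of_le (hφr n1 hn1 r1 hr1) ((V.valuation_le_one_iff _).2 (hV1' _ hr1i))
    by_contra h7
    exact absurd h6 (not_lt.2 (one_le_pow₀ (not_lt.1 h7)))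
  have h5 : V.valuation a ≤ γ ^ (n' + 1) := by
    have h6 : a = (1 / u') ^ (n' + 1) * (t - algebraMap k K ℓ) ^ M *
        (u' ^ (n' + 1) * (t - algebraMap k K ℓ)⁻¹ ^ M * a) := by
      have h7 : u' ^ (n' + 1) ≠ 0 := pow_ne_zero _ hu'
      have h8 : (t - algebraMap k K ℓ) ^ M ≠ 0 := pow_ne_zero _ (crv_ne_C ht ℓ)
      rw [one_div, inv_pow, inv_pow]
      calc a = ((u' ^ (n' + 1))⁻¹ * u' ^ (n' + 1)) *
            ((t - algebraMap k K ℓ) ^ M * ((t - algebraMap k K ℓ) ^ M)⁻¹) * a := by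
            rw [inv_mul_cancel₀ h7, mul_inv_cancel₀ h8, one_mul, one_mul]
        _ = _ := by ring
    rw [h6, map_mul, map_mul, map_pow]
    have h9 : V.valuation ((t - algebraMap k K ℓ) ^ M) ≤ 1 :=
      (V.valuation_le_one_iff _).2 (pow_mem (sub_mem (hVA _ htm) (hk ℓ)) M)
    have h10 : V.valuation (u' ^ (n' + 1) * (t - algebraMap k K ℓ)⁻¹ ^ M * a) ≤ 1 :=
      (V.valuation_le_one_iff _).2 (hV1' _ ha')
    calc V.valuation (1 / u') ^ (n' + 1) * V.valuation ((t - algebraMap k K ℓ) ^ M) *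
          V.valuation (u' ^ (n' + 1) * (t - algebraMap k K ℓ)⁻¹ ^ M * a)
        ≤ γ ^ (n' + 1) * 1 * 1 := mul_le_mul' (mul_le_mul' (pow_le_pow_left' h4 _) h9) h10
      _ = γ ^ (n' + 1) := by rw [mul_one, mul_one]
  have h6 : γ ^ n' ≤ γ ^ (n' + 1) := h3.trans h5
  rw [pow_succ] at h6
  have h7 : 0 < γ ^ n' := pow_pos hγ0 _
  have h8 : 1 ≤ γ := (le_mul_iff_one_le_right h7).1 h6
  exact absurd hγ1 (not_lt.2 h8)

end main

end Vale.Agent.P292.Dv.IdxLimP
end

section

/-! # P292, T2, Q2, part b: sections on the line. -/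

namespace Vale.Agent.P292.Dv.LineQ2

open Polynomial Vale.Agent.P292.Mo

universe u

variable {k : Type u} [Field k]


theorem q2_inj {p q : k[X]} (h : (algebraMap (Polynomial k) (RatFunc k)) p = (algebraMap (Polynomial k) (RatFunc k)) q) : p = q := RatFunc.algebraMap_injective k h

/-- Sections are polynomials of bounded degree. -/
theorem q2_sec {g α β : k[X]} (hg : g ≠ 0) (hα : α ≠ 0) (hβ : β ≠ 0) (hαg : IsCoprime α g)
    {a : RatFunc k} (ha : a ∈ IC (B0 (RatFunc.X : RatFunc k) g))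
    (ha1 : (algebraMap (Polynomial k) (RatFunc k)) α / (algebraMap (Polynomial k) (RatFunc k)) β * a ∈ IC (B1 (RatFunc.X : RatFunc k) g)) :
    ∃ P : k[X], a = (algebraMap (Polynomial k) (RatFunc k)) P ∧ (P ≠ 0 → P.natDegree + α.natDegree ≤ β.natDegree) := by
  obtain ⟨p, N, hp⟩ := q2_IC0 hg ha
  obtain ⟨c, d, hd, hdg, hdeg, hc⟩ := q2_IC1 ha1
  have hd0 := q2_ne (k := k) hd
  have hβ0 := q2_ne (k := k) hβ
  have hα0 := q2_ne (k := k) hα
  have hgN : g ^ N ≠ 0 := pow_ne_zero N hg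
  have hgN0 := q2_ne (k := k) hgN
  have h1 : (algebraMap (Polynomial k) (RatFunc k)) α * (algebraMap (Polynomial k) (RatFunc k)) d * (algebraMap (Polynomial k) (RatFunc k)) p = (algebraMap (Polynomial k) (RatFunc k)) β * (algebraMap (Polynomial k) (RatFunc k)) c * (algebraMap (Polynomial k) (RatFunc k)) (g ^ N) := by
    rw [div_mul_eq_mul_div, div_eq_div_iff hβ0 hd0] at hc
    rw [← hp]
    calc (algebraMap (Polynomial k) (RatFunc k)) α * (algebraMap (Polynomial k) (RatFunc k)) d * ((algebraMap (Polynomial k) (RatFunc k)) (g ^ N) * a) = (algebraMap (Polynomial k) (RatFunc k)) α * a * (algebraMap (Polynomial k) (RatFunc k)) d * (algebraMap (Polynomial k) (RatFunc k)) (g ^ N) := by ring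
      _ = _ := by rw [hc]; ring
  rw [← map_mul, ← map_mul, ← map_mul, ← map_mul] at h1
  have h2 := q2_inj h1
  have hcop : IsCoprime (g ^ N) (α * d) := (IsCoprime.pow_right (hαg.mul_left hdg)).symm
  have h3 : g ^ N ∣ p := hcop.dvd_of_dvd_mul_left ⟨β * c, by rw [h2]; ring⟩
  obtain ⟨P, rfl⟩ := h3
  have haP : a = (algebraMap (Polynomial k) (RatFunc k)) P := by
    rw [map_mul] at hp
    exact mul_left_cancel₀ hgN0 hp
  refine ⟨P, haP, fun hP => ?_⟩
  have h4 : α * d * P = β * c := by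
    have h5 : g ^ N * (α * d * P) = g ^ N * (β * c) := by
      calc g ^ N * (α * d * P) = α * d * (g ^ N * P) := by ring
        _ = _ := by rw [h2]; ring
    exact mul_left_cancel₀ hgN h5
  have hc0 : c ≠ 0 := by
    rintro rfl
    rw [mul_zero] at h4
    exact mul_ne_zero (mul_ne_zero hα hd) hP h4
  have h6 := congrArg natDegree h4
  rw [natDegree_mul (mul_ne_zero hα hd) hP, natDegree_mul hα hd, natDegree_mul hβ hc0] at h6
  omega

theorem q2_unit0 {g P : k[X]} (hg : g ≠ 0) (hP : P ≠ 0)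
    (h : ((algebraMap (Polynomial k) (RatFunc k)) P)⁻¹ ∈ IC (B0 (RatFunc.X : RatFunc k) g)) (z : k) (hz : g.eval z ≠ 0) :
    P.eval z ≠ 0 := by
  obtain ⟨p, N, hp⟩ := q2_IC0 hg h
  have hP0 := q2_ne (k := k) hP
  have h1 : (algebraMap (Polynomial k) (RatFunc k)) (g ^ N) = (algebraMap (Polynomial k) (RatFunc k)) (p * P) := by
    rw [map_mul, ← hp, mul_assoc, inv_mul_cancel₀ hP0, mul_one]
  have h2 := q2_inj h1
  intro h0
  have h3 := congrArg (eval z) h2
  rw [eval_mul, h0, mul_zero, eval_pow] at h3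
  exact pow_ne_zero N hz h3

theorem q2_unit1 {g P α β : k[X]} (hP : P ≠ 0) (hα : α ≠ 0) (hβ : β ≠ 0)
    (hβg : IsCoprime β g)
    (h : ((algebraMap (Polynomial k) (RatFunc k)) α / (algebraMap (Polynomial k) (RatFunc k)) β * (algebraMap (Polynomial k) (RatFunc k)) P)⁻¹ ∈ IC (B1 (RatFunc.X : RatFunc k) g)) :
    (∀ z, g.eval z = 0 → P.eval z ≠ 0) ∧ β.natDegree ≤ P.natDegree + α.natDegree := by
  obtain ⟨c, d, hd, hdg, hdeg, hc⟩ := q2_IC1 h
  have hP0 := q2_ne (k := k) hP
  have hα0 := q2_ne (k := k) hα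
  have hβ0 := q2_ne (k := k) hβ
  have hd0 := q2_ne (k := k) hd
  have hc0 : c ≠ 0 := by
    rintro rfl
    rw [map_zero, zero_div, inv_eq_zero] at hc
    exact mul_ne_zero (div_ne_zero hα0 hβ0) hP0 hc
  have h1 : (algebraMap (Polynomial k) (RatFunc k)) (d * β) = (algebraMap (Polynomial k) (RatFunc k)) (c * α * P) := by
    rw [map_mul, map_mul, map_mul]
    rw [inv_eq_iff_eq_inv, inv_div] at hc
    have hc1 := q2_ne (k := k) hc0
    field_simp at hc
    linear_combination -hc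
  have h2 := q2_inj h1
  constructor
  · intro z hz h0
    obtain ⟨r, s, hrs⟩ := hdg.mul_left hβg
    rw [h2] at hrs
    have h3 := congrArg (eval z) hrs
    simp [hz, h0] at h3
  · have h6 := congrArg natDegree h2
    rw [natDegree_mul hd hβ, natDegree_mul (mul_ne_zero hc0 hα) hP, natDegree_mul hc0 hα] at h6
    omega

/-- Splitting off the part which is a unit on the first chart. -/
theorem q2_split [IsAlgClosed k] {g : k[X]} (hg : g ≠ 0) {u : RatFunc k} (hu : u ≠ 0) :
    ∃ (w : RatFunc k) (α β : k[X]), w ≠ 0 ∧ w ∈ IC (B0 (RatFunc.X : RatFunc k) g) ∧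
      w⁻¹ ∈ IC (B0 (RatFunc.X : RatFunc k) g) ∧ α ≠ 0 ∧ β ≠ 0 ∧ IsCoprime α g ∧ IsCoprime β g ∧
      u = w * ((algebraMap (Polynomial k) (RatFunc k)) α / (algebraMap (Polynomial k) (RatFunc k)) β) ∧
      idx (IC (B1 (RatFunc.X : RatFunc k) g)) u = (β.natDegree : ℤ) - α.natDegree := by
  have hn : u.num ≠ 0 := RatFunc.num_ne_zero hu
  have hd : u.denom ≠ 0 := RatFunc.denom_ne_zero u
  obtain ⟨a1, a2, N, ha, ha1, ha2⟩ := pf_split g u.num hn
  obtain ⟨b1, b2, M, hb, hb1, hb2⟩ := pf_split g u.denom hd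
  have ha10 : a1 ≠ 0 := fun h => hn (by rw [ha, h, zero_mul])
  have ha20 : a2 ≠ 0 := fun h => hn (by rw [ha, h, mul_zero])
  have hb10 : b1 ≠ 0 := fun h => hd (by rw [hb, h, zero_mul])
  have hb20 : b2 ≠ 0 := fun h => hd (by rw [hb, h, mul_zero])
  have ea1 := q2_ne (k := k) ha10
  have ea2 := q2_ne (k := k) ha20
  have eb1 := q2_ne (k := k) hb10
  have eb2 := q2_ne (k := k) hb20
  have hmem : ∀ p : k[X], (algebraMap (Polynomial k) (RatFunc k)) p ∈ IC (B0 (RatFunc.X : RatFunc k) g) := fun p => by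
    rw [← q2_aeval]
    exact q2_B0_le (pf_B0_aeval g p)
  have hinv : ∀ {p : k[X]} {n : ℕ}, p ∣ g ^ n → ((algebraMap (Polynomial k) (RatFunc k)) p)⁻¹ ∈ IC (B0 (RatFunc.X : RatFunc k) g) :=
    fun h => by
      rw [← q2_aeval]
      exact q2_B0_le (pf_B0_inv q2_transc hg h)
  have hcd := q2_cd hg
  have hw0 : (algebraMap (Polynomial k) (RatFunc k)) a1 / (algebraMap (Polynomial k) (RatFunc k)) b1 ≠ 0 := div_ne_zero ea1 eb1
  have hw1 : (algebraMap (Polynomial k) (RatFunc k)) a1 / (algebraMap (Polynomial k) (RatFunc k)) b1 ∈ IC (B0 (RatFunc.X : RatFunc k) g) := by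
    rw [div_eq_mul_inv]; exact mul_mem (hmem _) (hinv hb1)
  have hw2 : ((algebraMap (Polynomial k) (RatFunc k)) a1 / (algebraMap (Polynomial k) (RatFunc k)) b1)⁻¹ ∈ IC (B0 (RatFunc.X : RatFunc k) g) := by
    rw [inv_div, div_eq_mul_inv]; exact mul_mem (hmem _) (hinv ha1)
  have hu' : u = (algebraMap (Polynomial k) (RatFunc k)) a1 / (algebraMap (Polynomial k) (RatFunc k)) b1 * ((algebraMap (Polynomial k) (RatFunc k)) a2 / (algebraMap (Polynomial k) (RatFunc k)) b2) := by
    conv_lhs => rw [← RatFunc.num_div_denom u, ha, hb, map_mul, map_mul]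
    field_simp
  refine ⟨(algebraMap (Polynomial k) (RatFunc k)) a1 / (algebraMap (Polynomial k) (RatFunc k)) b1, a2, b2, hw0, hw1, hw2, ha20, hb20, ha2, hb2, hu', ?_⟩
  rw [hu', hcd.idx_mul hw0 (div_ne_zero ea2 eb2), hcd.idx_unit0 hw1 hw2 hw0, div_eq_mul_inv,
    hcd.idx_mul ea2 (inv_ne_zero eb2), hcd.idx_inv eb2, q2_idx hg ha20 ha2, q2_idx hg hb20 hb2]
  ring

theorem q2_eval (P : k[X]) (m : ℕ) (a : Fin 2 → k) :
    MvPolynomial.eval a (P.homogenize m) =
      ∑ i ∈ Finset.range (m + 1), P.coeff i * a 0 ^ i * a 1 ^ (m - i) := by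
  rw [homogenize, map_sum, Finset.Nat.sum_antidiagonal_eq_sum_range_succ_mk]
  refine Finset.sum_congr rfl fun i _ => ?_
  rw [MvPolynomial.eval_monomial, Finsupp.prod_fintype _ _ (fun _ => pow_zero _)]
  simp [Fin.prod_univ_two, mul_assoc]

theorem q2_eval_ne {P : k[X]} {m : ℕ} (hm : P.natDegree ≤ m) {a : Fin 2 → k} (ha : a 1 ≠ 0) :
    MvPolynomial.eval a (P.homogenize m) = a 1 ^ m * P.eval (a 0 / a 1) := by
  rw [q2_eval, eval_eq_sum_range' (Nat.lt_succ_of_le hm), Finset.mul_sum]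
  refine Finset.sum_congr rfl fun i hi => ?_
  have hi' : i ≤ m := Nat.lt_succ_iff.1 (Finset.mem_range.1 hi)
  have h1 : a 1 ^ m = a 1 ^ (m - i) * a 1 ^ i := by rw [← pow_add, Nat.sub_add_cancel hi']
  rw [h1, div_pow]
  field_simp

theorem q2_eval_zero {P : k[X]} {m : ℕ} {a : Fin 2 → k} (ha : a 1 = 0) :
    MvPolynomial.eval a (P.homogenize m) = P.coeff m * a 0 ^ m := by
  rw [q2_eval, Finset.sum_range_succ, Nat.sub_self, pow_zero, mul_one]
  rw [Finset.sum_eq_zero, zero_add]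
  intro i hi
  have hi' := Finset.mem_range.1 hi
  rw [ha, zero_pow (by omega), mul_zero]

end Vale.Agent.P292.Dv.LineQ2
end

section

/-! # P292, T2, Q2: a pair on the function field of the line gives a closed pair. -/

namespace Vale.Agent.P292.Dv

open Polynomial Vale.Agent.P292.Mo

universe u v

section

variable {k : Type u} [Field k] {R : Type v} [CommRing R] [Algebra k R]
  {𝒜 : ℕ → Submodule k R} [GradedAlgebra 𝒜] {P : R →ₗ[k] R →ₗ[k] R} {J : Ideal R}

namespace LineQ2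


theorem q2_num {a : RatFunc k} {Q : k[X]} (h : a = (algebraMap (Polynomial k) (RatFunc k)) Q) : a.num = Q := by
  rw [h, RatFunc.num_algebraMap]

/-- Graded homomorphism from its components. -/
theorem q2_hom (F : ∀ n, 𝒜 n →ₗ[k] MvPolynomial (Fin 2) k)
    (hone : ∀ h : (1 : R) ∈ 𝒜 0, F 0 ⟨1, h⟩ = 1)
    (hmul : ∀ (i j : ℕ) (a b : R) (ha : a ∈ 𝒜 i) (hb : b ∈ 𝒜 j) (hab : a * b ∈ 𝒜 (i + j)),
      F (i + j) ⟨a * b, hab⟩ = F i ⟨a, ha⟩ * F j ⟨b, hb⟩) :
    ∃ φ : R →ₐ[k] MvPolynomial (Fin 2) k, ∀ n (r : R) (hr : r ∈ 𝒜 n), φ r = F n ⟨r, hr⟩ := by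
  classical
  have hone' : F 0 (GradedMonoid.GOne.one (A := fun i => 𝒜 i)) = 1 := hone _
  have hmul' : ∀ {i j : ℕ} (ai : 𝒜 i) (aj : 𝒜 j),
      F (i + j) (GradedMonoid.GMul.mul (A := fun i => 𝒜 i) ai aj) = F i ai * F j aj :=
    fun {i j} ai aj => hmul i j ai aj ai.2 aj.2 _
  refine ⟨(DirectSum.toAlgebra k (fun i => 𝒜 i) F hone' hmul').comp
      (DirectSum.decomposeAlgEquiv 𝒜).toAlgHom, fun n r hr => ?_⟩
  change DirectSum.toAlgebra k (fun i => 𝒜 i) F hone' hmul' (DirectSum.decompose 𝒜 r) = _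
  rw [DirectSum.decompose_of_mem 𝒜 hr]
  change DirectSum.toModule k ℕ _ F (DirectSum.lof k ℕ (fun i => 𝒜 i) n ⟨r, hr⟩) = _
  rw [DirectSum.toModule_lof]

/-- Linear maps on a homogeneous ideal from their components. -/
theorem q2_lin (G : ∀ n, (Submodule.comap (𝒜 n).subtype (J.restrictScalars k)) →ₗ[k]
      MvPolynomial (Fin 2) k) :
    ∃ η : J →ₗ[k] MvPolynomial (Fin 2) k, ∀ n (x : J) (hx : (x : R) ∈ 𝒜 n),
      η x = G n ⟨⟨x, hx⟩, x.2⟩ := by
  classical
  choose g hg using fun n => LinearMap.exists_extend (G n)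
  refine ⟨(DirectSum.toModule k ℕ _ g) ∘ₗ (DirectSum.decomposeLinearEquiv 𝒜).toLinearMap ∘ₗ
    (J.subtype.restrictScalars k), fun n x hx => ?_⟩
  change DirectSum.toModule k ℕ _ g (DirectSum.decompose 𝒜 (x : R)) = _
  rw [DirectSum.decompose_of_mem 𝒜 hx]
  change DirectSum.toModule k ℕ _ g (DirectSum.lof k ℕ (fun i => 𝒜 i) n ⟨x, hx⟩) = _
  rw [DirectSum.toModule_lof, ← hg n]
  rfl

/-- Compatibility is checked on homogeneous elements. -/
theorem q2_compat (hJ : J.IsHomogeneous 𝒜) (φ : R →ₐ[k] MvPolynomial (Fin 2) k)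
    (η : J →ₗ[k] MvPolynomial (Fin 2) k)
    (h : ∀ i j (r : R) (x : J), r ∈ 𝒜 i → (x : R) ∈ 𝒜 j → η (r • x) = φ r * η x) (r : R) (x : J) :
    η (r • x) = φ r * η x := by
  classical
  -- reduce to homogeneous `x`
  have h1 : ∀ i (r : R), r ∈ 𝒜 i → ∀ x : J, η (r • x) = φ r * η x := by
    intro i r hr x
    have hx : x = ∑ j ∈ (DirectSum.decompose 𝒜 (x : R)).support,
        (⟨(DirectSum.decompose 𝒜 (x : R) j : R), hJ j x.2⟩ : J) := by
      apply Subtype.ext
      rw [AddSubmonoidClass.coe_finsetSum]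
      exact (DirectSum.sum_support_decompose 𝒜 (x : R)).symm
    rw [hx, Finset.smul_sum, map_sum, map_sum, Finset.mul_sum]
    exact Finset.sum_congr rfl fun j _ => h i j r _ hr (DirectSum.decompose 𝒜 (x : R) j).2
  rw [← DirectSum.sum_support_decompose 𝒜 r, Finset.sum_smul, map_sum, map_sum, Finset.sum_mul]
  exact Finset.sum_congr rfl fun j _ => h1 j _ (DirectSum.decompose 𝒜 r j).2 x

end LineQ2

open LineQ2

/-- Q2. A pair on the function field of the line gives a closed pair. -/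
theorem closed_of_pair [IsAlgClosed k] [IsDomain R] (hP : IsPM 𝒜 P) (hJ : J.IsHomogeneous 𝒜)
    (hinv : IsInv 𝒜 J) {N : ℕ} {A₀ A₁ : Subalgebra k (RatFunc k)} {u v : RatFunc k}
    (hch : IsCh (RatFunc.X : RatFunc k) A₀ A₁) {φ : R →ₐ[k] RatFunc k} {η : J →ₗ[k] RatFunc k}
    (h : IsGP 𝒜 P J N A₀ A₁ u v φ η) (hv : idx A₁ v < 0) :
    ∃ (e δ : ℕ) (φ' : R →ₐ[k] MvPolynomial (Fin 2) k) (η' : J →ₗ[k] MvPolynomial (Fin 2) k),
      (e : ℤ) ≤ idx A₁ u ∧ - idx A₁ v ≤ δ ∧ IsPair 𝒜 J e δ φ' η' := by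
  classical
  obtain ⟨g, hg, rfl, rfl⟩ := hch
  obtain ⟨w, α, β, hw, hw1, hw2, hα, hβ, hαg, hβg, hu, hiu⟩ := q2_split hg h.mp.u_ne
  obtain ⟨w', α', β', hw', hw1', hw2', hα', hβ', hαg', hβg', hv', hiv⟩ := q2_split hg h.v_ne
  set ι := algebraMap (Polynomial k) (RatFunc k) with hι
  have eα := q2_ne (k := k) hα
  have eβ := q2_ne (k := k) hβ
  have eα' := q2_ne (k := k) hα'
  have eβ' := q2_ne (k := k) hβ'
  -- sections
  have hid : ∀ (n : ℕ) (r : R), ι (α ^ n) / ι (β ^ n) * (w ^ n * φ r) = u ^ n * φ r := by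
    intro n r
    rw [hu, mul_pow, div_pow, map_pow, map_pow]
    ring
  have hidη : ∀ (n : ℕ) (x : J), ι (α ^ n * α') / ι (β ^ n * β') * (w ^ n * w' * η x) =
      u ^ n * v * η x := by
    intro n x
    rw [hu, hv', mul_pow, div_pow, map_mul, map_mul, map_pow, map_pow]
    field_simp
  have hs0 : ∀ n, ∀ r ∈ 𝒜 n, ∃ Q : k[X], w ^ n * φ r = ι Q ∧
      (Q ≠ 0 → Q.natDegree + n * α.natDegree ≤ n * β.natDegree) := by
    intro n r hr
    have h1 := h.mp.sec n r hr
    obtain ⟨Q, hQ, hd⟩ := q2_sec hg (pow_ne_zero n hα) (pow_ne_zero n hβ) (hαg.pow_left (m := n))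
      (a := w ^ n * φ r) (mul_mem (pow_mem hw1 n) h1.1) (by rw [← hι, hid]; exact h1.2)
    refine ⟨Q, hQ, fun h0 => ?_⟩
    have h2 := hd h0
    rwa [natDegree_pow, natDegree_pow] at h2
  have hs1 : ∀ n, ∀ x : J, (x : R) ∈ 𝒜 n → ∃ Q : k[X], w ^ n * w' * η x = ι Q ∧
      (Q ≠ 0 → Q.natDegree + (n * α.natDegree + α'.natDegree) ≤
        n * β.natDegree + β'.natDegree) := by
    intro n x hx
    have h1 := h.secη n x hx
    obtain ⟨Q, hQ, hd⟩ := q2_sec hg (mul_ne_zero (pow_ne_zero n hα) hα')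
      (mul_ne_zero (pow_ne_zero n hβ) hβ') ((hαg.pow_left (m := n)).mul_left hαg')
      (a := w ^ n * w' * η x) (mul_mem (mul_mem (pow_mem hw1 n) hw1') h1.1)
      (by rw [← hι, hidη]; exact h1.2)
    refine ⟨Q, hQ, fun h0 => ?_⟩
    have h2 := hd h0
    rwa [natDegree_mul (pow_ne_zero n hα) hα', natDegree_mul (pow_ne_zero n hβ) hβ',
      natDegree_pow, natDegree_pow] at h2
  -- the degrees
  obtain ⟨n0, hn0, r0, hr0, hφ0, hinv0⟩ := h.mp.unit0
  obtain ⟨n1, hn1, r1, hr1, hφ1, hinv1⟩ := h.mp.unit1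
  have he : α.natDegree ≤ β.natDegree := by
    obtain ⟨Q, hQ, hd⟩ := hs0 n0 r0 hr0
    have hQ0 : Q ≠ 0 := by
      rintro rfl
      rw [map_zero] at hQ
      exact mul_ne_zero (pow_ne_zero _ hw) hφ0 hQ
    have h1 := hd hQ0
    exact Nat.le_of_mul_le_mul_left ((Nat.le_add_left _ _).trans h1) hn0
  obtain ⟨e, he'⟩ := Nat.exists_eq_add_of_le he
  have hδ : β'.natDegree ≤ α'.natDegree := by
    rw [hiv] at hv
    omega
  obtain ⟨δ, hδ'⟩ := Nat.exists_eq_add_of_le hδ
  have hs0' : ∀ n, ∀ r ∈ 𝒜 n, ∃ Q : k[X], w ^ n * φ r = ι Q ∧ Q.natDegree ≤ e * n := by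
    intro n r hr
    obtain ⟨Q, hQ, hd⟩ := hs0 n r hr
    refine ⟨Q, hQ, ?_⟩
    by_cases h0 : Q = 0
    · rw [h0]; simp
    · have h1 := hd h0
      rw [he', mul_add] at h1
      have h2 : n * e = e * n := mul_comm _ _
      omega
  have hs1' : ∀ n, ∀ x : J, (x : R) ∈ 𝒜 n → ∃ Q : k[X], w ^ n * w' * η x = ι Q ∧
      (Q ≠ 0 → Q.natDegree + δ ≤ e * n) := by
    intro n x hx
    obtain ⟨Q, hQ, hd⟩ := hs1 n x hx
    refine ⟨Q, hQ, fun h0 => ?_⟩
    have h1 := hd h0
    rw [he', mul_add] at h1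
    have h2 : n * e = e * n := mul_comm _ _
    omega
  -- the homomorphism
  let F : ∀ n, 𝒜 n →ₗ[k] MvPolynomial (Fin 2) k := fun n =>
    { toFun := fun r => (w ^ n * φ r).num.homogenize (e * n)
      map_add' := fun r s => by
        obtain ⟨Q, hQ, -⟩ := hs0' n r r.2
        obtain ⟨Q', hQ', -⟩ := hs0' n s s.2
        rw [q2_num hQ, q2_num hQ', q2_num (Q := Q + Q')
          (by rw [Submodule.coe_add, map_add, mul_add, hQ, hQ', map_add]), homogenize_add]
      map_smul' := fun c r => by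
        obtain ⟨Q, hQ, -⟩ := hs0' n r r.2
        rw [q2_num hQ, q2_num (Q := c • Q)
          (by rw [Submodule.coe_smul, map_smul, mul_smul_comm, hQ]
              exact (map_smul (IsScalarTower.toAlgHom k k[X] (RatFunc k)) c Q).symm),
          homogenize_smul, RingHom.id_apply] }
  obtain ⟨φ', hφ'⟩ := q2_hom F
    (fun h1 => by
      change (w ^ 0 * φ 1).num.homogenize (e * 0) = 1
      rw [q2_num (Q := 1) (by rw [pow_zero, map_one, one_mul, map_one])]
      simp)
    (fun i j a b ha hb hab => by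
      change (w ^ (i + j) * φ (a * b)).num.homogenize (e * (i + j)) =
        (w ^ i * φ a).num.homogenize (e * i) * (w ^ j * φ b).num.homogenize (e * j)
      obtain ⟨Q, hQ, hd⟩ := hs0' i a ha
      obtain ⟨Q', hQ', hd'⟩ := hs0' j b hb
      rw [q2_num hQ, q2_num hQ', q2_num (Q := Q * Q')
        (by rw [map_mul, map_mul, ← hι, ← hQ, ← hQ', pow_add]; ring), mul_add,
        homogenize_mul _ _ hd hd'])
  have hφ1' : ∀ n (r : R), r ∈ 𝒜 n → φ' r = (w ^ n * φ r).num.homogenize (e * n) :=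
    fun n r hr => hφ' n r hr
  -- the module map
  let G : ∀ n, (Submodule.comap (𝒜 n).subtype (J.restrictScalars k)) →ₗ[k]
      MvPolynomial (Fin 2) k := fun n =>
    { toFun := fun x => (w ^ n * w' * η ⟨x.1.1, x.2⟩).num.homogenize (e * n - δ)
      map_add' := fun x y => by
        obtain ⟨Q, hQ, -⟩ := hs1' n ⟨x.1.1, x.2⟩ x.1.2
        obtain ⟨Q', hQ', -⟩ := hs1' n ⟨y.1.1, y.2⟩ y.1.2
        have e1 : (⟨((x + y : _) : 𝒜 n).1, (x + y).2⟩ : J) =
          (⟨x.1.1, x.2⟩ : J) + ⟨y.1.1, y.2⟩ := rfl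
        rw [q2_num hQ, q2_num hQ', e1, q2_num (Q := Q + Q')
          (by rw [map_add, mul_add, hQ, hQ', map_add]), homogenize_add]
      map_smul' := fun c x => by
        obtain ⟨Q, hQ, -⟩ := hs1' n ⟨x.1.1, x.2⟩ x.1.2
        have e1 : (⟨((c • x : _) : 𝒜 n).1, (c • x).2⟩ : J) = c • (⟨x.1.1, x.2⟩ : J) := rfl
        rw [q2_num hQ, e1, q2_num (Q := c • Q)
          (by rw [map_smul, mul_smul_comm, hQ]
              exact (map_smul (IsScalarTower.toAlgHom k k[X] (RatFunc k)) c Q).symm),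
          homogenize_smul, RingHom.id_apply] }
  obtain ⟨η', hη'⟩ := q2_lin (J := J) G
  have hη1' : ∀ n (x : J), (x : R) ∈ 𝒜 n →
      η' x = (w ^ n * w' * η x).num.homogenize (e * n - δ) := fun n x hx => hη' n x hx
  refine ⟨e, δ, φ', η', ?_, ?_, ?_⟩
  · rw [hiu, he']; push_cast; linarith
  · rw [hiv, hδ']; push_cast; linarith
  refine ⟨fun j r hr => ?_, ?_, ?_, ?_, ?_, ?_⟩
  · rw [hφ1' j r hr]
    exact isHomogeneous_homogenize _
  · -- base point free
    intro a ha
    by_cases ha1 : a 1 = 0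
    · refine ⟨n1, hn1, r1, hr1, ?_⟩
      obtain ⟨Q, hQ, hd⟩ := hs0' n1 r1 hr1
      have hQ0 : Q ≠ 0 := by
        rintro rfl
        rw [map_zero] at hQ
        exact mul_ne_zero (pow_ne_zero _ hw) hφ1 hQ
      rw [hφ1' n1 r1 hr1, q2_num hQ, q2_eval_zero ha1]
      have h1 := (q2_unit1 (g := g) hQ0 (pow_ne_zero n1 hα) (pow_ne_zero n1 hβ)
        (hβg.pow_left (m := n1)) (by rw [← hι, ← hQ, hid]; exact hinv1)).2
      rw [natDegree_pow, natDegree_pow, he', mul_add] at h1
      have h2 : n1 * e = e * n1 := mul_comm _ _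
      have h3 : Q.natDegree = e * n1 := by omega
      rw [← h3, coeff_natDegree]
      refine mul_ne_zero (leadingCoeff_ne_zero.2 hQ0) (pow_ne_zero _ ?_)
      intro ha0
      apply ha
      funext i
      fin_cases i
      · exact ha0
      · exact ha1
    · by_cases hgz : g.eval (a 0 / a 1) = 0
      · refine ⟨n1, hn1, r1, hr1, ?_⟩
        obtain ⟨Q, hQ, hd⟩ := hs0' n1 r1 hr1
        have hQ0 : Q ≠ 0 := by
          rintro rfl
          rw [map_zero] at hQ
          exact mul_ne_zero (pow_ne_zero _ hw) hφ1 hQ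
        rw [hφ1' n1 r1 hr1, q2_num hQ, q2_eval_ne hd ha1]
        refine mul_ne_zero (pow_ne_zero _ ha1) ?_
        exact (q2_unit1 (g := g) hQ0 (pow_ne_zero n1 hα) (pow_ne_zero n1 hβ)
          (hβg.pow_left (m := n1)) (by rw [← hι, ← hQ, hid]; exact hinv1)).1 _ hgz
      · refine ⟨n0, hn0, r0, hr0, ?_⟩
        obtain ⟨Q, hQ, hd⟩ := hs0' n0 r0 hr0
        have hQ0 : Q ≠ 0 := by
          rintro rfl
          rw [map_zero] at hQ
          exact mul_ne_zero (pow_ne_zero _ hw) hφ0 hQ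
        rw [hφ1' n0 r0 hr0, q2_num hQ, q2_eval_ne hd ha1]
        refine mul_ne_zero (pow_ne_zero _ ha1) ?_
        refine q2_unit0 hg hQ0 ?_ _ hgz
        rw [← hι, ← hQ, mul_inv, ← inv_pow]
        exact mul_mem (pow_mem hw2 n0) hinv0
  · -- compatibility
    refine q2_compat hJ φ' η' fun i j r x hr hx => ?_
    have hrx : ((r • x : J) : R) ∈ 𝒜 (i + j) := SetLike.mul_mem_graded hr hx
    rw [hη1' (i + j) (r • x) hrx, hφ1' i r hr, hη1' j x hx]
    obtain ⟨Q, hQ, hd⟩ := hs0' i r hr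
    obtain ⟨Q', hQ', hd'⟩ := hs1' j x hx
    rw [q2_num hQ, q2_num hQ', q2_num (Q := Q * Q')
      (by rw [h.lin, map_mul, ← hι, ← hQ, ← hQ', pow_add]; ring)]
    by_cases h0 : Q' = 0
    · rw [h0, mul_zero, homogenize_zero, homogenize_zero, mul_zero]
    · have h1 := hd' h0
      have h2 : e * (i + j) - δ = e * i + (e * j - δ) := by
        rw [mul_add]; omega
      rw [h2, homogenize_mul _ _ hd (by omega)]
  · intro j x hx m hm
    rw [hη1' j x hx]
    have h2 : e * j - δ = m := by omega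
    rw [h2]
    exact isHomogeneous_homogenize _
  · intro j x hx hlt
    obtain ⟨Q', hQ', hd'⟩ := hs1' j x hx
    rw [hη1' j x hx, q2_num hQ']
    have h0 : Q' = 0 := by
      by_contra h0
      have := hd' h0
      omega
    rw [h0, homogenize_zero]
  · -- base point free, for the ideal
    intro a ha
    obtain ⟨i0, j0, a0, b0, -, hai0, -, -, -, -, hηa0, hηi0⟩ := h.loc0
    obtain ⟨i1, j1, a1, b1, -, hai1, -, -, -, -, hηa1, hηi1⟩ := h.loc1
    by_cases ha1 : a 1 = 0
    · refine ⟨a1, ?_⟩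
      obtain ⟨Q, hQ, hd⟩ := hs1' i1 a1 hai1
      have hQ0 : Q ≠ 0 := by
        rintro rfl
        rw [map_zero] at hQ
        exact mul_ne_zero (mul_ne_zero (pow_ne_zero _ hw) hw') hηa1 hQ
      rw [hη1' i1 a1 hai1, q2_num hQ, q2_eval_zero ha1]
      have h1 := (q2_unit1 (g := g) hQ0 (mul_ne_zero (pow_ne_zero i1 hα) hα')
        (mul_ne_zero (pow_ne_zero i1 hβ) hβ') ((hβg.pow_left (m := i1)).mul_left hβg')
        (by rw [← hι, ← hQ, hidη]; exact hηi1)).2
      rw [natDegree_mul (pow_ne_zero i1 hα) hα', natDegree_mul (pow_ne_zero i1 hβ) hβ',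
        natDegree_pow, natDegree_pow, he', hδ', mul_add] at h1
      have h2 : i1 * e = e * i1 := mul_comm _ _
      have h4 := hd hQ0
      have h3 : Q.natDegree = e * i1 - δ := by omega
      rw [← h3, coeff_natDegree]
      refine mul_ne_zero (leadingCoeff_ne_zero.2 hQ0) (pow_ne_zero _ ?_)
      intro ha0
      apply ha
      funext i
      fin_cases i
      · exact ha0
      · exact ha1
    · by_cases hgz : g.eval (a 0 / a 1) = 0
      · refine ⟨a1, ?_⟩
        obtain ⟨Q, hQ, hd⟩ := hs1' i1 a1 hai1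
        have hQ0 : Q ≠ 0 := by
          rintro rfl
          rw [map_zero] at hQ
          exact mul_ne_zero (mul_ne_zero (pow_ne_zero _ hw) hw') hηa1 hQ
        have h4 := hd hQ0
        rw [hη1' i1 a1 hai1, q2_num hQ, q2_eval_ne (by omega) ha1]
        refine mul_ne_zero (pow_ne_zero _ ha1) ?_
        exact (q2_unit1 (g := g) hQ0 (mul_ne_zero (pow_ne_zero i1 hα) hα')
          (mul_ne_zero (pow_ne_zero i1 hβ) hβ') ((hβg.pow_left (m := i1)).mul_left hβg')
          (by rw [← hι, ← hQ, hidη]; exact hηi1)).1 _ hgz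
      · refine ⟨a0, ?_⟩
        obtain ⟨Q, hQ, hd⟩ := hs1' i0 a0 hai0
        have hQ0 : Q ≠ 0 := by
          rintro rfl
          rw [map_zero] at hQ
          exact mul_ne_zero (mul_ne_zero (pow_ne_zero _ hw) hw') hηa0 hQ
        have h4 := hd hQ0
        rw [hη1' i0 a0 hai0, q2_num hQ, q2_eval_ne (by omega) ha1]
        refine mul_ne_zero (pow_ne_zero _ ha1) ?_
        refine q2_unit0 hg hQ0 ?_ _ hgz
        rw [← hι, ← hQ, mul_inv, mul_inv, ← inv_pow]
        exact mul_mem (mul_mem (pow_mem hw2 i0) hw2') hηi0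

end

end Vale.Agent.P292.Dv
end

section

/-! # Smooth closed points are locally integral. -/

namespace Vale.Agent.P292.Dv

open Vale.Agent.P292 Vale.Agent.P292.Mo

universe u v w

/-- Tangent coordinates at a closed point. -/
theorem rd_coord {k : Type u} [Field k] {R : Type v} [CommRing R] [Algebra k R]
    [IsNoetherianRing R] (w : R →ₐ[k] k) :
    ∃ (N : ℕ) (x : Fin N → R), (∀ l, w (x l) = 0) ∧
      (∀ r, w r = 0 → ∃ c : Fin N → k, r - ∑ l, c l • x l ∈ RingHom.ker w ^ 2) ∧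
      ∀ v : Fin N → k, ∃ δ : R →ₗ[k] k, (∀ r s, δ (r * s) = w r * δ s + w s * δ r) ∧
        ∀ l, δ (x l) = v l := by
  classical
  set 𝔪 : Ideal R := RingHom.ker w with h𝔪
  let M2 : Submodule k R := (𝔪 ^ 2).restrictScalars k
  let T : Submodule k (R ⧸ M2) := (𝔪.restrictScalars k).map M2.mkQ
  have hmem : ∀ r, r - algebraMap k R (w r) ∈ 𝔪 := by
    intro r
    rw [h𝔪, RingHom.mem_ker, map_sub, AlgHom.commutes, Algebra.algebraMap_self, RingHom.id_apply,
      sub_self]
  -- finite dimension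
  obtain ⟨S, hS⟩ := (IsNoetherian.noetherian 𝔪 : 𝔪.FG)
  have hTfin : FiniteDimensional k T := by
    have h1 : T ≤ Submodule.span k ((S.image M2.mkQ : Finset (R ⧸ M2)) : Set (R ⧸ M2)) := by
      rintro _ ⟨r, hr, rfl⟩
      have hr' : r ∈ Submodule.span R (S : Set R) := by
        rw [hS]
        exact hr
      refine Submodule.span_induction (p := fun r _ => M2.mkQ r ∈
        Submodule.span k ((S.image M2.mkQ : Finset (R ⧸ M2)) : Set (R ⧸ M2))) ?_ ?_ ?_ ?_ hr'
      · intro x hx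
        refine Submodule.subset_span ?_
        rw [Finset.coe_image]
        exact ⟨x, hx, rfl⟩
      · rw [map_zero]
        exact Submodule.zero_mem _
      · intro x y _ _ hx hy
        rw [map_add]
        exact Submodule.add_mem _ hx hy
      · intro a x hx hx'
        have hx𝔪 : x ∈ 𝔪 := by
          rw [← hS]
          exact hx
        have h2 : M2.mkQ (a • x) = w a • M2.mkQ x := by
          rw [← map_smul, ← sub_eq_zero, ← map_sub, Submodule.mkQ_apply,
            Submodule.Quotient.mk_eq_zero]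
          have h3 : a • x - w a • x = (a - algebraMap k R (w a)) * x := by
            rw [smul_eq_mul, Algebra.smul_def]
            ring
          rw [h3]
          change _ ∈ 𝔪 ^ 2
          rw [pow_two]
          exact Ideal.mul_mem_mul (hmem a) hx𝔪
        rw [h2]
        exact Submodule.smul_mem _ _ hx'
    have h2 : FiniteDimensional k
        (Submodule.span k ((S.image M2.mkQ : Finset (R ⧸ M2)) : Set (R ⧸ M2))) :=
      FiniteDimensional.span_finset k _
    exact Submodule.finiteDimensional_of_le h1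
  let β := Module.finBasis k T
  have hβ : ∀ l, ∃ x, x ∈ 𝔪 ∧ M2.mkQ x = (β l : R ⧸ M2) := by
    intro l
    obtain ⟨x, hx, hx'⟩ := (β l).2
    exact ⟨x, hx, hx'⟩
  choose x hx hxβ using hβ
  refine ⟨Module.finrank k T, x, hx, ?_, ?_⟩
  · intro r hr
    have hrT : M2.mkQ r ∈ T := ⟨r, hr, rfl⟩
    refine ⟨fun l => β.repr ⟨_, hrT⟩ l, ?_⟩
    have h1 := congrArg Subtype.val (β.sum_repr ⟨_, hrT⟩)
    rw [AddSubmonoidClass.coe_finsetSum] at h1
    have h2 : M2.mkQ (r - ∑ l, (β.repr ⟨_, hrT⟩ l) • x l) = 0 := by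
      rw [map_sub, map_sum, sub_eq_zero]
      refine Eq.trans h1.symm (Finset.sum_congr rfl fun l _ => ?_)
      rw [map_smul, hxβ]
      rfl
    rw [Submodule.mkQ_apply, Submodule.Quotient.mk_eq_zero] at h2
    exact h2
  · intro v
    let ℓ : T →ₗ[k] k := β.constr k v
    let π : R →ₗ[k] R := LinearMap.id - (Algebra.linearMap k R).comp w.toLinearMap
    have hπ : ∀ r, π r = r - algebraMap k R (w r) := fun r => rfl
    let θ : R →ₗ[k] T := (M2.mkQ.comp π).codRestrict T fun r => ⟨π r, hmem r, rfl⟩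
    refine ⟨ℓ.comp θ, ?_, ?_⟩
    · intro r s
      have h1 : θ (r * s) = w r • θ s + w s • θ r := by
        apply Subtype.val_injective
        change M2.mkQ (π (r * s)) = w r • M2.mkQ (π s) + w s • M2.mkQ (π r)
        rw [← map_smul M2.mkQ (w r), ← map_smul M2.mkQ (w s), ← map_add M2.mkQ, ← sub_eq_zero,
          ← map_sub M2.mkQ, Submodule.mkQ_apply, Submodule.Quotient.mk_eq_zero]
        have h3 : π (r * s) - (w r • π s + w s • π r) =
            (r - algebraMap k R (w r)) * (s - algebraMap k R (w s)) := by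
          rw [hπ, hπ, hπ, map_mul, map_mul, Algebra.smul_def, Algebra.smul_def]
          ring
        rw [h3]
        change _ ∈ 𝔪 ^ 2
        rw [pow_two]
        exact Ideal.mul_mem_mul (hmem r) (hmem s)
      change ℓ (θ (r * s)) = w r * ℓ (θ s) + w s * ℓ (θ r)
      rw [h1, map_add, map_smul, map_smul, smul_eq_mul, smul_eq_mul]
    · intro l
      have h1 : θ (x l) = β l := by
        apply Subtype.val_injective
        change M2.mkQ (π (x l)) = _
        have hwx : w (x l) = 0 := hx l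
        rw [hπ, hwx, map_zero, sub_zero, hxβ]
      change ℓ (θ (x l)) = v l
      rw [h1]
      exact β.constr_basis k v l

/-- Leading forms. -/
theorem rd_lead {k : Type u} [Field k] {R : Type v} [CommRing R] [Algebra k R]
    (w : R →ₐ[k] k) {N : ℕ} (x : Fin N → R) (hx : ∀ l, w (x l) = 0)
    (hspan : ∀ r, w r = 0 → ∃ c : Fin N → k, r - ∑ l, c l • x l ∈ RingHom.ker w ^ 2) (i : ℕ) :
    ∀ r ∈ RingHom.ker w ^ i, ∃ p : MvPolynomial (Fin N) k, p.IsHomogeneous i ∧
      r - MvPolynomial.aeval x p ∈ RingHom.ker w ^ (i + 1) := by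
  classical
  have hxp : ∀ i (p : MvPolynomial (Fin N) k), p.IsHomogeneous i →
      MvPolynomial.aeval x p ∈ RingHom.ker w ^ i := by
    intro i p hp
    rw [MvPolynomial.aeval_def, MvPolynomial.eval₂_eq]
    refine sum_mem fun m hm => Ideal.mul_mem_left _ _ ?_
    have h1 : ∑ l ∈ m.support, m l = i := by
      have h3 := hp (MvPolynomial.mem_support_iff.mp hm)
      rw [← h3, Finsupp.weight_apply, Finsupp.sum]
      simp
    rw [← h1, ← Finset.prod_pow_eq_pow_sum]
    exact Ideal.prod_mem_prod fun l _ => Ideal.pow_mem_pow (hx l) _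
  induction i with
  | zero =>
    intro r _
    refine ⟨MvPolynomial.C (w r), MvPolynomial.isHomogeneous_C _ _, ?_⟩
    rw [MvPolynomial.aeval_C, zero_add, pow_one, RingHom.mem_ker, map_sub, AlgHom.commutes,
      Algebra.algebraMap_self, RingHom.id_apply, sub_self]
  | succ i ih =>
    intro r hr
    rw [pow_succ] at hr
    refine Submodule.mul_induction_on hr ?_ ?_
    · intro a ha b hb
      obtain ⟨p, hp, hap⟩ := ih a ha
      obtain ⟨c, hc⟩ := hspan b hb
      refine ⟨p * ∑ l, MvPolynomial.C (c l) * MvPolynomial.X l, ?_, ?_⟩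
      · refine hp.mul (MvPolynomial.IsHomogeneous.sum _ _ _ fun l _ => ?_)
        exact (MvPolynomial.isHomogeneous_X _ _).C_mul _
      · have h1 : MvPolynomial.aeval x (∑ l, MvPolynomial.C (c l) * MvPolynomial.X l) =
            ∑ l, c l • x l := by
          rw [map_sum]
          refine Finset.sum_congr rfl fun l _ => ?_
          rw [map_mul, MvPolynomial.aeval_C, MvPolynomial.aeval_X, Algebra.smul_def]
        rw [map_mul, h1]
        have h2 : a * b - MvPolynomial.aeval x p * ∑ l, c l • x l =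
            (a - MvPolynomial.aeval x p) * b + MvPolynomial.aeval x p * (b - ∑ l, c l • x l) := by
          ring
        rw [h2]
        refine Ideal.add_mem _ ?_ ?_
        · rw [pow_succ]
          exact Ideal.mul_mem_mul hap hb
        · have h3 := Ideal.mul_mem_mul (hxp i p hp) hc
          rw [← pow_add] at h3
          exact h3
    · rintro a b ⟨p, hp, hap⟩ ⟨q, hq, hbq⟩
      refine ⟨p + q, hp.add hq, ?_⟩
      rw [map_add]
      have h2 : a + b - (MvPolynomial.aeval x p + MvPolynomial.aeval x q) =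
          (a - MvPolynomial.aeval x p) + (b - MvPolynomial.aeval x q) := by ring
      rw [h2]
      exact Ideal.add_mem _ hap hbq

/-- Values of forms on arcs. -/
theorem rd_form {k : Type u} [Field k] {N : ℕ} (i : ℕ) (p : MvPolynomial (Fin N) k)
    (hp : p.IsHomogeneous i) (v : Fin N → k) (f : Fin N → Polynomial k)
    (hf : ∀ l, (f l).coeff 0 = v l) : ∃ q : Polynomial k,
      MvPolynomial.aeval (fun l => Polynomial.X * f l) p =
        Polynomial.X ^ i * (Polynomial.C (MvPolynomial.eval v p) + Polynomial.X * q) := by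
  have h1 : MvPolynomial.aeval (fun l => Polynomial.X * f l) p =
      Polynomial.X ^ i * MvPolynomial.aeval f p := by
    rw [MvPolynomial.aeval_def, MvPolynomial.aeval_def, MvPolynomial.eval₂_eq,
      MvPolynomial.eval₂_eq, Finset.mul_sum]
    refine Finset.sum_congr rfl fun e he => ?_
    have hde : ∑ l ∈ e.support, e l = i := by
      have h3 := hp (MvPolynomial.mem_support_iff.mp he)
      rw [← h3, Finsupp.weight_apply, Finsupp.sum]
      simp
    have h4 : ∏ l ∈ e.support, ((Polynomial.X : Polynomial k) * f l) ^ e l =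
        Polynomial.X ^ i * ∏ l ∈ e.support, f l ^ e l := by
      simp only [mul_pow]
      rw [Finset.prod_mul_distrib, Finset.prod_pow_eq_pow_sum, hde]
    rw [h4]
    ring
  have h2 : (MvPolynomial.aeval f p : Polynomial k).coeff 0 = MvPolynomial.eval v p := by
    rw [← Polynomial.constantCoeff_apply, ← MvPolynomial.coe_aeval_eq_eval, RingHom.coe_coe]
    have h7 : ((Polynomial.constantCoeff : Polynomial k →+* k)).comp
        ((MvPolynomial.aeval f : MvPolynomial (Fin N) k →ₐ[k] Polynomial k) :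
          MvPolynomial (Fin N) k →+* _) =
        ((MvPolynomial.aeval v : MvPolynomial (Fin N) k →ₐ[k] k) :
          MvPolynomial (Fin N) k →+* k) := by
      refine MvPolynomial.ringHom_ext (fun r => ?_) (fun l => ?_)
      · simp
      · simp [hf]
    exact DFunLike.congr_fun h7 _
  refine ⟨(MvPolynomial.aeval f p : Polynomial k).divX, ?_⟩
  rw [h1, ← h2, add_comm, Polynomial.X_mul, Polynomial.divX_mul_X_add]

/-- Smooth closed points are locally integral. -/
theorem reg_dom {k : Type u} [Field k] [Infinite k] {R : Type v} [CommRing R] [Algebra k R]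
    [IsNoetherianRing R] (w : R →ₐ[k] k) (s : R) (hs : w s ≠ 0)
    (hsm : Algebra.FormallySmooth k (Localization.Away s)) {a b : R} (hab : a * b = 0) :
    ∃ c, w c ≠ 0 ∧ (c * a = 0 ∨ c * b = 0) := by
  classical
  by_contra hcon
  push Not at hcon
  obtain ⟨N, x, hx, hspan, hδ⟩ := rd_coord w
  -- orders
  have hord : ∀ r : R, (∀ c, w c ≠ 0 → c * r ≠ 0) →
      ∃ (i : ℕ) (p : MvPolynomial (Fin N) k), p.IsHomogeneous i ∧ p ≠ 0 ∧
        r - MvPolynomial.aeval x p ∈ RingHom.ker w ^ (i + 1) := by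
    intro r hr
    have hex : ∃ i, r ∉ RingHom.ker w ^ i := by
      by_contra h
      push Not at h
      have h1 : r ∈ (⨅ i : ℕ, RingHom.ker w ^ i • ⊤ : Submodule R R) := by
        rw [Submodule.mem_iInf]
        intro i
        rw [smul_eq_mul, Ideal.mul_top]
        exact h i
      obtain ⟨c, hc⟩ := (Ideal.mem_iInf_smul_pow_eq_bot_iff (RingHom.ker w) r).mp h1
      refine hr (1 - (c : R)) ?_ ?_
      · have h2 : w (c : R) = 0 := c.2
        rw [map_sub, map_one, h2, sub_zero]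
        exact one_ne_zero
      · have h2 : (c : R) * r = r := hc
        rw [sub_mul, one_mul, h2, sub_self]
    obtain ⟨i, hi⟩ : ∃ i, Nat.find hex = i + 1 := by
      refine Nat.exists_eq_succ_of_ne_zero fun h => ?_
      have h1 := Nat.find_spec hex
      rw [h, pow_zero, Ideal.one_eq_top] at h1
      exact h1 trivial
    have h1 : r ∉ RingHom.ker w ^ (i + 1) := by
      rw [← hi]
      exact Nat.find_spec hex
    have h2 : r ∈ RingHom.ker w ^ i := by
      by_contra h
      exact Nat.find_min hex (by omega) h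
    obtain ⟨p, hp, hrp⟩ := rd_lead w x hx hspan i r h2
    refine ⟨i, p, hp, ?_, hrp⟩
    rintro rfl
    rw [map_zero, sub_zero] at hrp
    exact h1 hrp
  obtain ⟨i, p, hp, hp0, hap⟩ := hord a fun c hc => (hcon c hc).1
  obtain ⟨j, q, hq, hq0, hbq⟩ := hord b fun c hc => (hcon c hc).2
  obtain ⟨v, hv⟩ : ∃ v, MvPolynomial.eval v (p * q) ≠ 0 := by
    by_contra h
    push Not at h
    exact mul_ne_zero hp0 hq0 (MvPolynomial.funext fun x => by rw [h x, map_zero])
  obtain ⟨δ, hδ1, hδ2⟩ := hδ v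
  obtain ⟨γ, hγ⟩ := indep_arc w δ hδ1 s hs hsm (i + j + 1)
  choose g hg using hγ
  set mk := Ideal.Quotient.mk (Ideal.span {(Polynomial.X : Polynomial k) ^ (i + j + 1)}) with hmk
  -- powers of the maximal ideal
  have hpow : ∀ m, ∀ r ∈ RingHom.ker w ^ m, ∃ h, γ r = mk (Polynomial.X ^ m * h) := by
    intro m r hr
    have h1 : RingHom.ker w ≤ (Ideal.span {mk Polynomial.X}).comap γ := by
      intro z hz
      rw [Ideal.mem_comap, hg z]
      have hz' : w z = 0 := hz
      rw [hz', map_zero, zero_add]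
      have h2 : Polynomial.C (δ z) * Polynomial.X + Polynomial.X ^ 2 * g z =
          Polynomial.X * (Polynomial.C (δ z) + Polynomial.X * g z) := by ring
      rw [h2, map_mul]
      exact Ideal.mul_mem_right _ _ (Ideal.mem_span_singleton_self _)
    have h2 : RingHom.ker w ^ m ≤ (Ideal.span {mk Polynomial.X} ^ m).comap γ :=
      (Ideal.pow_right_mono h1 m).trans (Ideal.le_comap_pow _ m)
    have h3 := h2 hr
    rw [Ideal.mem_comap, Ideal.span_singleton_pow, Ideal.mem_span_singleton] at h3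
    obtain ⟨h, hh⟩ := h3
    obtain ⟨h, rfl⟩ := Ideal.Quotient.mk_surjective h
    exact ⟨h, by rw [hh, map_mul, map_pow]⟩
  have hval : ∀ (i : ℕ) (p : MvPolynomial (Fin N) k) (r : R), p.IsHomogeneous i →
      r - MvPolynomial.aeval x p ∈ RingHom.ker w ^ (i + 1) →
      ∃ h, γ r = mk (Polynomial.X ^ i * (Polynomial.C (MvPolynomial.eval v p) +
        Polynomial.X * h)) := by
    intro i p r hp hr
    obtain ⟨h, hh⟩ := hpow _ _ hr
    obtain ⟨h', hh'⟩ := rd_form i p hp v (fun l => Polynomial.C (v l) + Polynomial.X * g (x l))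
      (fun l => by simp)
    have h1 : γ (MvPolynomial.aeval x p) = mk (MvPolynomial.aeval (fun l => Polynomial.X *
        (Polynomial.C (v l) + Polynomial.X * g (x l))) p) := by
      have h3 : γ.comp (MvPolynomial.aeval x) = (Ideal.Quotient.mkₐ k (Ideal.span
          {(Polynomial.X : Polynomial k) ^ (_ + 1)})).comp
          (MvPolynomial.aeval (fun l => Polynomial.X *
            (Polynomial.C (v l) + Polynomial.X * g (x l)))) := by
        refine MvPolynomial.algHom_ext fun l => ?_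
        rw [AlgHom.comp_apply, AlgHom.comp_apply, MvPolynomial.aeval_X, MvPolynomial.aeval_X,
          hg (x l), hδ2 l, hx l, Ideal.Quotient.mkₐ_eq_mk]
        congr 1
        rw [map_zero]
        ring
      exact DFunLike.congr_fun h3 p
    refine ⟨h' + h, ?_⟩
    have h2 : r = (r - MvPolynomial.aeval x p) + MvPolynomial.aeval x p := by ring
    rw [h2, map_add, hh, h1, hh', ← map_add]
    congr 1
    ring
  obtain ⟨h, hh⟩ := hval i p a hp hap
  obtain ⟨h', hh'⟩ := hval j q b hq hbq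
  have h1 : γ (a * b) = 0 := by rw [hab, map_zero]
  rw [map_mul, hh, hh', ← map_mul, hmk, Ideal.Quotient.eq_zero_iff_mem,
    Ideal.mem_span_singleton, Polynomial.X_pow_dvd_iff] at h1
  have h2 := h1 (i + j) (Nat.lt_succ_self _)
  have h3 : Polynomial.X ^ i * (Polynomial.C (MvPolynomial.eval v p) + Polynomial.X * h) *
      (Polynomial.X ^ j * (Polynomial.C (MvPolynomial.eval v q) + Polynomial.X * h')) =
      ((Polynomial.C (MvPolynomial.eval v p) + Polynomial.X * h) *
        (Polynomial.C (MvPolynomial.eval v q) + Polynomial.X * h')) * Polynomial.X ^ (i + j) := by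
    ring
  rw [h3, Polynomial.coeff_mul_X_pow', if_pos le_rfl, Nat.sub_self, Polynomial.mul_coeff_zero] at h2
  simp only [Polynomial.coeff_add, Polynomial.coeff_C_zero, Polynomial.mul_coeff_zero,
    Polynomial.coeff_X_zero, zero_mul, add_zero] at h2
  rw [map_mul] at hv
  exact hv h2

end Vale.Agent.P292.Dv
end

section

/-! # D-pairs on closed rational curves: existence, uniqueness of the degree, specialisation. -/

namespace Vale.Agent.P292.Dv

open MvPolynomial Vale.Agent.P292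

universe u v w

section pairs

variable {k : Type*} [CommRing k] {R : Type u} [CommRing R] [Algebra k R] (𝒜 : ℕ → Submodule k R)
  (p : Ideal R)

/-- `η` is the pull back of the ideal `p` along the curve `φ` of degree `e`, of degree `- δ`. -/
structure IsPr {K : Type w} [CommRing K] (e : ℕ) (δ : ℤ) (φ : R → MvPolynomial (Fin 2) K)
    (η : p →+ MvPolynomial (Fin 2) K) : Prop where
  lin : ∀ (r : R) (x : p), η (r • x) = φ r * η x
  deg : ∀ j, ∀ x : p, (x : R) ∈ 𝒜 j → ∀ m : ℕ, (m : ℤ) + δ = e * j → (η x).IsHomogeneous m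
  zero : ∀ j : ℕ, ∀ x : p, (x : R) ∈ 𝒜 j → (e * j : ℤ) < δ → η x = 0
  bpf : ∀ a : Fin 2 → K, a ≠ 0 → ∃ x : p, eval a (η x) ≠ 0

end pairs

section main

variable {k : Type*} [Field k] {R : Type u} [CommRing R] [Algebra k R] {𝒜 : ℕ → Submodule k R}
  [GradedAlgebra 𝒜] {p : Ideal R}

/-- Local generators of the ideal along the curve `φ`. -/
def LGen {K : Type w} [CommRing K] (p : Ideal R) (𝒜 : ℕ → Submodule k R)
    (φ : R → MvPolynomial (Fin 2) K) : Prop :=
  ∀ c : Fin 2 → K, c ≠ 0 → ∃ (i j : ℕ) (a b : R), a ∈ 𝒜 i ∧ b ∈ 𝒜 j ∧ a ∈ p ∧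
    (∀ x ∈ p, ∃ r, b * x = r * a) ∧ eval c (φ b) ≠ 0

omit [GradedAlgebra 𝒜] in
/-- Locally principal ideals have local generators along base point free curves. -/
theorem lgen_of_isInv (hinv : IsInv 𝒜 p) {K : Type w} [Field K]
    (φ : R →+* MvPolynomial (Fin 2) K)
    (hb : ∀ a : Fin 2 → K, a ≠ 0 → ∃ j > 0, ∃ r ∈ 𝒜 j, eval a (φ r) ≠ 0) : LGen p 𝒜 φ := by
  obtain ⟨T, a, b, da, db, ha, hbb, hap, hgen, hpow⟩ := hinv
  intro c hc
  by_contra hcon
  push Not at hcon
  obtain ⟨j, hj, r, hr, hne⟩ := hb c hc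
  obtain ⟨N, hN⟩ := hpow j hj r hr
  have h1 : Ideal.span (Set.range b) ≤ RingHom.ker ((eval c).comp φ) := by
    rw [Ideal.span_le]
    rintro _ ⟨t, rfl⟩
    exact hcon (da t) (db t) (a t) (b t) (ha t) (hbb t) (hap t) (hgen t)
  have h2 := h1 hN
  rw [RingHom.mem_ker, map_pow] at h2
  exact hne (eq_zero_of_pow_eq_zero h2)

/-- The rank one relation. -/
theorem IsPr.rank_one {K : Type w} [Field K] {φ : R →+* MvPolynomial (Fin 2) K}
    {η η' : p →+ MvPolynomial (Fin 2) K} (h : ∀ (r : R) (x : p), η (r • x) = φ r * η x)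
    (h' : ∀ (r : R) (x : p), η' (r • x) = φ r * η' x) {a b : R} (ha : a ∈ p)
    (hgen : ∀ x ∈ p, ∃ r, b * x = r * a) (hb : φ b ≠ 0) (x : p) :
    η x * η' ⟨a, ha⟩ = η' x * η ⟨a, ha⟩ := by
  obtain ⟨r, hr⟩ := hgen x x.2
  have h1 : b • x = r • (⟨a, ha⟩ : p) := Subtype.ext hr
  have h2 := congrArg η h1
  have h3 := congrArg η' h1
  rw [h, h] at h2
  rw [h', h'] at h3
  apply mul_left_cancel₀ hb
  rw [← mul_assoc, ← mul_assoc, h2, h3]
  ring

theorem lgen_ne {K : Type w} [Field K] {φ : R →+* MvPolynomial (Fin 2) K}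
    {η : p →+ MvPolynomial (Fin 2) K} (h : ∀ (r : R) (x : p), η (r • x) = φ r * η x)
    {a b : R} (ha : a ∈ p)
    (hgen : ∀ x ∈ p, ∃ r, b * x = r * a) (hb : φ b ≠ 0) (h0 : ∃ x, η x ≠ 0) : η ⟨a, ha⟩ ≠ 0 := by
  obtain ⟨x, hx⟩ := h0
  obtain ⟨r, hr⟩ := hgen x x.2
  have h1 : b • x = r • (⟨a, ha⟩ : p) := Subtype.ext hr
  have h2 := congrArg η h1
  rw [h, h] at h2
  intro h3
  rw [h3, mul_zero] at h2
  exact hx ((mul_eq_zero.1 h2).resolve_left hb)

omit [GradedAlgebra 𝒜] in
theorem IsPr.homog {K : Type w} [Field K] {e : ℕ} {δ : ℤ} {φ : R → MvPolynomial (Fin 2) K}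
    {η : p →+ MvPolynomial (Fin 2) K} (h : IsPr 𝒜 p e δ φ η) {j : ℕ} {x : p}
    (hx : (x : R) ∈ 𝒜 j) (hne : η x ≠ 0) : ∃ m : ℕ, (m : ℤ) + δ = e * j ∧ (η x).IsHomogeneous m := by
  have h1 : δ ≤ e * j := by
    by_contra hcon
    exact hne (h.zero j x hx (by omega))
  obtain ⟨m, hm⟩ := Int.eq_ofNat_of_zero_le (sub_nonneg.2 h1)
  exact ⟨m, by omega, h.deg j x hx m (by omega)⟩

theorem vec10_ne' {K : Type w} [Field K] : (![1, 0] : Fin 2 → K) ≠ 0 :=
  fun h => one_ne_zero (congrFun h 0)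

omit [GradedAlgebra 𝒜] in
/-- **Uniqueness of the degree.** -/
theorem IsPr.le {K : Type w} [Field K] [IsAlgClosed K] {e : ℕ} {δ δ' : ℤ}
    {φ : R →+* MvPolynomial (Fin 2) K} (hφ : LGen p 𝒜 φ)
    {η η' : p →+ MvPolynomial (Fin 2) K} (h : IsPr 𝒜 p e δ φ η) (h' : IsPr 𝒜 p e δ' φ η') :
    δ ≤ δ' := by
  obtain ⟨i, j, a, b, hai, hbj, ha, hgen, hb⟩ := hφ ![1, 0] vec10_ne'
  have hb0 : φ b ≠ 0 := fun h => hb (by rw [h, map_zero])
  have hex : ∃ x, η x ≠ 0 := by
    obtain ⟨x, hx⟩ := h.bpf ![1, 0] vec10_ne'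
    exact ⟨x, fun h => hx (by rw [h, map_zero])⟩
  have hex' : ∃ x, η' x ≠ 0 := by
    obtain ⟨x, hx⟩ := h'.bpf ![1, 0] vec10_ne'
    exact ⟨x, fun h => hx (by rw [h, map_zero])⟩
  have hA := lgen_ne h.lin ha hgen hb0 hex
  have hA' := lgen_ne h'.lin ha hgen hb0 hex'
  obtain ⟨m, hm, hmh⟩ := h.homog (x := ⟨a, ha⟩) hai hA
  obtain ⟨m', hm', hmh'⟩ := h'.homog (x := ⟨a, ha⟩) hai hA'
  by_contra hlt
  obtain ⟨c, hc, hc0⟩ := pz_compare (fun x => η x) (fun x => η' x) m m' _ _ hmh hmh' hA hA'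
    (IsPr.rank_one h.lin h'.lin ha hgen hb0) (by omega)
  obtain ⟨x, hx⟩ := h'.bpf c hc
  exact hx (hc0 x)

omit [GradedAlgebra 𝒜] in
theorem IsPr.eq {K : Type w} [Field K] [IsAlgClosed K] {e : ℕ} {δ δ' : ℤ}
    {φ : R →+* MvPolynomial (Fin 2) K} (hφ : LGen p 𝒜 φ)
    {η η' : p →+ MvPolynomial (Fin 2) K} (h : IsPr 𝒜 p e δ φ η) (h' : IsPr 𝒜 p e δ' φ η') :
    δ = δ' := le_antisymm (h.le hφ h') (h'.le hφ h)

omit [GradedAlgebra 𝒜] in
/-- A curve which does not meet `V(p)` has degree zero. -/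
theorem isPr_self {K : Type w} [Field K] {e : ℕ} (φ : R →+* MvPolynomial (Fin 2) K)
    (hdeg : ∀ j, ∀ r ∈ 𝒜 j, (φ r).IsHomogeneous (e * j))
    (hm : ∀ a : Fin 2 → K, a ≠ 0 → ∃ r ∈ p, eval a (φ r) ≠ 0) :
    IsPr 𝒜 p e 0 φ ((φ : R →+ MvPolynomial (Fin 2) K).comp
      (p.subtype : p →+ R)) where
  lin r x := map_mul φ r x
  deg j x hx m hm := by
    obtain rfl : m = e * j := by
      rw [add_zero] at hm
      exact_mod_cast hm
    exact hdeg j x hx
  zero j x _ hlt := by
    exfalso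
    have : (0 : ℤ) ≤ e * j := by positivity
    omega
  bpf a ha := by
    obtain ⟨r, hr, hne⟩ := hm a ha
    exact ⟨⟨r, hr⟩, hne⟩

omit [GradedAlgebra 𝒜] in
/-- A curve of nonzero degree meets `V(p)`. -/
theorem IsPr.meets {K : Type w} [Field K] [IsAlgClosed K] {e : ℕ} {δ : ℤ}
    {φ : R →+* MvPolynomial (Fin 2) K} (hφ : LGen p 𝒜 φ)
    (hdeg : ∀ j, ∀ r ∈ 𝒜 j, (φ r).IsHomogeneous (e * j))
    {η : p →+ MvPolynomial (Fin 2) K} (h : IsPr 𝒜 p e δ φ η) (hδ : δ ≠ 0) :
    ∃ a : Fin 2 → K, a ≠ 0 ∧ ∀ r ∈ p, eval a (φ r) = 0 := by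
  by_contra hcon
  push Not at hcon
  exact hδ (h.eq hφ (isPr_self φ hdeg hcon))

/-- **Existence of pairs.** -/
theorem exists_isPr [IsDomain R] (hh : p.IsHomogeneous 𝒜) (h0 : p ≠ ⊥) {K : Type w} [Field K]
    [IsAlgClosed K] {e : ℕ} (φ : R →+* MvPolynomial (Fin 2) K)
    (hdeg : ∀ j, ∀ r ∈ 𝒜 j, (φ r).IsHomogeneous (e * j)) (hφ : LGen p 𝒜 φ) :
    ∃ (δ : ℤ) (η : p →+ MvPolynomial (Fin 2) K), IsPr 𝒜 p e δ φ η := by
  classical
  obtain ⟨i, j, a, b, hai, hbj, ha, hgen, hb⟩ := hφ ![1, 0] vec10_ne'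
  have hb0 : φ b ≠ 0 := fun h => hb (by rw [h, map_zero])
  have hbR : b ≠ 0 := fun h => hb0 (by rw [h, map_zero])
  have ha0 : a ≠ 0 := by
    rintro rfl
    obtain ⟨x, hx, hx0⟩ := Submodule.exists_mem_ne_zero_of_ne_bot h0
    obtain ⟨r, hr⟩ := hgen x hx
    rw [mul_zero] at hr
    exact (mul_ne_zero hbR hx0) hr
  choose ρ hρ using fun x : p => hgen x x.2
  have hρu : ∀ (x : p) (r : R), b * x = r * a → ρ x = r := by
    intro x r hr
    apply mul_right_cancel₀ ha0
    rw [← hρ, hr]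
  have hρadd : ∀ x y, ρ (x + y) = ρ x + ρ y := fun x y => hρu _ _ (by
    rw [Submodule.coe_add, mul_add, hρ, hρ, add_mul])
  have hρmul : ∀ (r : R) (x : p), ρ (r • x) = r * ρ x := fun r x => hρu _ _ (by
    rw [SetLike.val_smul, smul_eq_mul, mul_left_comm, hρ, mul_assoc])
  have hρa : ρ ⟨a, ha⟩ = b := hρu _ _ rfl
  -- degrees
  have hρd : ∀ n (x : p), (x : R) ∈ 𝒜 n → ∀ m : ℕ, m + i = j + n → ρ x ∈ 𝒜 m := by
    intro n x hx m hm
    have h1 : ρ x * a ∈ 𝒜 (m + i) := by
      rw [← hρ, hm]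
      exact SetLike.mul_mem_graded hbj hx
    have h2 : ∀ l, l ≠ m → (DirectSum.decompose 𝒜 (ρ x) l : R) = 0 := by
      intro l hl
      have h3 : (DirectSum.decompose 𝒜 (ρ x * a) (l + i) : R) =
          (DirectSum.decompose 𝒜 (ρ x) l : R) * a :=
        DirectSum.coe_decompose_mul_add_of_right_mem 𝒜 hai
      rw [DirectSum.decompose_of_mem_ne 𝒜 h1 (by omega)] at h3
      exact (mul_eq_zero.1 h3.symm).resolve_right ha0
    rw [← DirectSum.sum_support_decompose 𝒜 (ρ x)]
    refine sum_mem fun l _ => ?_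
    by_cases hl : l = m
    · subst hl
      exact SetLike.coe_mem _
    · rw [h2 l hl]
      exact zero_mem _
  have hρz : ∀ n (x : p), (x : R) ∈ 𝒜 n → j + n < i → ρ x = 0 := by
    intro n x hx hlt
    have h1 : ρ x * a ∈ 𝒜 (j + n) := by
      rw [← hρ]
      exact SetLike.mul_mem_graded hbj hx
    rw [← DirectSum.sum_support_decompose 𝒜 (ρ x)]
    refine Finset.sum_eq_zero fun l _ => ?_
    have h3 : (DirectSum.decompose 𝒜 (ρ x * a) (l + i) : R) =
        (DirectSum.decompose 𝒜 (ρ x) l : R) * a :=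
      DirectSum.coe_decompose_mul_add_of_right_mem 𝒜 hai
    rw [DirectSum.decompose_of_mem_ne 𝒜 h1 (by omega)] at h3
    exact (mul_eq_zero.1 h3.symm).resolve_right ha0
  -- the gcd, on homogeneous elements
  let I := {z : ℕ × p // (z.2 : R) ∈ 𝒜 z.1}
  obtain ⟨g, G, hG, hG0, hGd, hmax⟩ := pz_exists_gcd (fun z : I => φ (ρ z.1.2))
    (fun z => e * (j + z.1.1 - i)) (fun z => by
      by_cases hlt : j + z.1.1 < i
      · rw [hρz _ _ z.2 hlt, map_zero]
        exact isHomogeneous_zero _ _ _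
      · exact hdeg _ _ (hρd _ _ z.2 _ (by omega)))
    ⟨⟨(i, ⟨a, ha⟩), hai⟩, by
      change φ (ρ ⟨a, ha⟩) ≠ 0
      rw [hρa]
      exact hb0⟩
  have hcomp : ∀ (x : p) (n : ℕ), (DirectSum.decompose 𝒜 (x : R) n : R) ∈ p := fun x n => hh n x.2
  have hGall : ∀ x : p, G ∣ φ (ρ x) := by
    intro x
    have h1 : x = ∑ n ∈ (DirectSum.decompose 𝒜 (x : R)).support,
        (⟨(DirectSum.decompose 𝒜 (x : R) n : R), hcomp x n⟩ : p) := by
      apply Subtype.ext
      rw [AddSubmonoidClass.coe_finsetSum]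
      exact (DirectSum.sum_support_decompose 𝒜 (x : R)).symm
    let ρ' : p →+ R := AddMonoidHom.mk' ρ hρadd
    have h2 : φ (ρ x) = ∑ n ∈ (DirectSum.decompose 𝒜 (x : R)).support,
        φ (ρ ⟨(DirectSum.decompose 𝒜 (x : R) n : R), hcomp x n⟩) := by
      conv_lhs => rw [h1]
      change φ (ρ' _) = _
      rw [map_sum, map_sum]
      rfl
    rw [h2]
    exact Finset.dvd_sum fun n _ => hGd ⟨(n, ⟨_, hcomp x n⟩), SetLike.coe_mem _⟩
  choose η₀ hη₀ using hGall
  have hηu : ∀ x q, φ (ρ x) = G * q → η₀ x = q := fun x q hq =>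
    mul_left_cancel₀ hG0 ((hη₀ x).symm.trans hq)
  let η : p →+ MvPolynomial (Fin 2) K := AddMonoidHom.mk' η₀ fun x y => hηu _ _ (by
    rw [hρadd, map_add, hη₀ x, hη₀ y, mul_add])
  refine ⟨(g : ℤ) + e * i - e * j, η, ?_, ?_, ?_, ?_⟩
  · intro r x
    apply hηu
    rw [hρmul, map_mul, hη₀ x]
    change _ = G * (φ r * η₀ x)
    ring
  · intro n x hx m hm
    change (η₀ x).IsHomogeneous m
    by_cases hlt : j + n < i
    · rw [hηu x 0 (by rw [hρz n x hx hlt, map_zero, mul_zero])]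
      exact isHomogeneous_zero _ _ _
    · apply pz_homog_quot hG hG0
      rw [← hη₀]
      have h1 := hdeg _ _ (hρd n x hx (j + n - i) (by omega))
      have h2 : e * (j + n - i) = g + m := by
        have h3 : ((j + n - i : ℕ) : ℤ) = j + n - i := by omega
        have h4 : ((e * (j + n - i) : ℕ) : ℤ) = ((g + m : ℕ) : ℤ) := by
          rw [Nat.cast_mul, h3]
          push_cast
          linear_combination -hm
        exact_mod_cast h4
      rw [← h2]
      exact h1
  · intro n x hx hlt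
    change η₀ x = 0
    apply hηu
    rw [mul_zero]
    by_cases hlt' : j + n < i
    · rw [hρz n x hx hlt', map_zero]
    · by_contra hne
      have h1 := hdeg _ _ (hρd n x hx (j + n - i) (by omega))
      obtain ⟨q, hq⟩ : G ∣ φ (ρ x) := ⟨_, hη₀ x⟩
      have hq0 : q ≠ 0 := by
        rintro rfl
        exact hne (by rw [hq, mul_zero])
      have h2 := totalDegree_mul_of_isDomain hG0 hq0
      rw [← hq, hG.totalDegree hG0, h1.totalDegree hne] at h2
      have h3 : ((j + n - i : ℕ) : ℤ) = j + n - i := by omega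
      have h4 : ((e * (j + n - i) : ℕ) : ℤ) = ((g + q.totalDegree : ℕ) : ℤ) := by
        exact_mod_cast h2
      rw [Nat.cast_mul, h3] at h4
      push_cast at h4
      have h5 : (0 : ℤ) ≤ (q.totalDegree : ℤ) := Int.natCast_nonneg _
      have h6 : (e : ℤ) * (j + n - i) = e * j + e * n - e * i := by ring
      rw [h6] at h4
      omega
  · intro c hc
    obtain ⟨z, hz⟩ := hmax (fun z => η₀ z.1.2) (fun z => hη₀ _) c hc
    exact ⟨z.1.2, hz⟩

end main

end Vale.Agent.P292.Dv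
end

section

/-! # D-pairs on closed rational curves: specialisation. -/

namespace Vale.Agent.P292.Dv

open MvPolynomial Vale.Agent.P292

universe u v w

section closed

variable {K : Type v} [Field K] [IsAlgClosed K] (O : ValuationSubring K) {κ : Type w} [Field κ]
  (π : O →+* κ) (hπ : Function.Surjective π)

include hπ in
/-- The residue field of a valuation ring of an algebraically closed field is algebraically
closed. -/
theorem pz_isAlgClosed : IsAlgClosed κ := by
  refine IsAlgClosed.of_exists_root _ fun p hp hirr => ?_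
  obtain ⟨q, hq, hqd, hqm⟩ := Polynomial.lifts_and_natDegree_eq_and_monic
    (f := π) (p := p) ((Polynomial.mem_lifts _).2
      (Polynomial.map_surjective π hπ p)) hp
  have hdeg : (q.map O.subtype).degree ≠ 0 := by
    rw [Polynomial.degree_map_eq_of_injective Subtype.val_injective]
    intro h2
    have h3 : q.natDegree = 0 := Polynomial.natDegree_eq_of_degree_eq_some h2
    rw [hqd] at h3
    have h4 := hirr.natDegree_pos
    rw [h3] at h4
    exact lt_irrefl _ h4
  obtain ⟨x, hx⟩ := IsAlgClosed.exists_root _ hdeg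
  have hx1 : IsIntegral O x := ⟨q, hqm, by
    rw [Polynomial.IsRoot, Polynomial.eval_map] at hx
    exact hx⟩
  obtain ⟨y, rfl⟩ := IsIntegrallyClosed.isIntegral_iff.1 hx1
  refine ⟨π y, ?_⟩
  rw [← hq, Polynomial.eval_map, Polynomial.eval₂_at_apply]
  have h4 : q.eval y = 0 := by
    apply Subtype.val_injective
    rw [Polynomial.IsRoot, Polynomial.eval_map] at hx
    have h5 : Polynomial.eval₂ O.subtype (O.subtype y) q = 0 := hx
    rw [Polynomial.eval₂_at_apply] at h5
    exact h5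
  rw [h4, map_zero]

end closed

/-- A specialisation of a domain, dominated by a valuation ring whose residue field contains
the target. -/
theorem pz_dominate {A : Type v} [CommRing A] [IsDomain A] {κ : Type w} [Field κ] (π : A →+* κ)
    {Ω : Type u} [Field Ω] (ι : A →+* Ω) (hι : Function.Injective ι) :
    ∃ (Ω' : Type (max u w)) (_ : Field Ω') (_ : IsAlgClosed Ω') (j : Ω →+* Ω')
      (O : ValuationSubring Ω') (κ' : Type (max u w)) (_ : Field κ') (_ : IsAlgClosed κ')
      (π' : O →+* κ') (l : κ →+* κ') (i : A →+* O), Function.Surjective π' ∧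
      (∀ a, (i a : Ω') = j (ι a)) ∧ ∀ a, π' (i a) = l (π a) := by
  classical
  let B := MvPolynomial κ A
  let ρ : B →+* κ := MvPolynomial.eval₂Hom π id
  have hρ : Function.Surjective ρ := fun c => ⟨X c, MvPolynomial.eval₂Hom_X' _ _ _⟩
  let F := FractionRing (MvPolynomial κ Ω)
  let Ω' := AlgebraicClosure F
  let j₀ : MvPolynomial κ Ω →+* Ω' := (algebraMap F Ω').comp (algebraMap (MvPolynomial κ Ω) F)
  have hj₀ : Function.Injective j₀ :=
    (algebraMap F Ω').injective.comp (IsFractionRing.injective (MvPolynomial κ Ω) F)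
  let j₁ : B →+* Ω' := j₀.comp (MvPolynomial.map ι)
  have hj₁ : Function.Injective j₁ := hj₀.comp (MvPolynomial.map_injective ι hι)
  have : (RingHom.ker ρ).IsPrime := RingHom.ker_isPrime ρ
  obtain ⟨O, hO⟩ := exists_valuationSubring_prime j₁ hj₁ (RingHom.ker ρ)
  let i₁ : B →+* O := j₁.codRestrict O.toSubring fun b => (hO b).1
  have hi₁ : ∀ b, (i₁ b : Ω') = j₁ b := fun b => rfl
  let κ' := IsLocalRing.ResidueField O
  let π' : O →+* κ' := IsLocalRing.residue O
  have hπ' : Function.Surjective π' := IsLocalRing.residue_surjective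
  have hker : RingHom.ker ρ ≤ RingHom.ker (π'.comp i₁) := by
    intro b hb
    rw [RingHom.mem_ker, RingHom.comp_apply]
    rw [IsLocalRing.residue_eq_zero_iff, ValuationSubring.valuation_lt_one_iff]
    exact (hO b).2.1 hb
  let l : κ →+* κ' := (RingHom.liftOfSurjective ρ hρ ⟨π'.comp i₁, hker⟩)
  have hl : ∀ b, l (ρ b) = π' (i₁ b) := fun b => by
    exact RingHom.liftOfSurjective_comp_apply ρ hρ ⟨π'.comp i₁, hker⟩ b
  refine ⟨Ω', inferInstance, inferInstance, j₀.comp MvPolynomial.C, O, κ', inferInstance,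
    pz_isAlgClosed O π' hπ', π', l, i₁.comp MvPolynomial.C, hπ', fun a => ?_, fun a => ?_⟩
  · rw [RingHom.comp_apply, hi₁]
    change j₀ (MvPolynomial.map ι (C a)) = j₀ (C (ι a))
    rw [map_C]
  · rw [RingHom.comp_apply, ← hl]
    change l (MvPolynomial.eval₂Hom π id (C a)) = _
    rw [MvPolynomial.eval₂Hom_C]

/-- Scaling a point into the valuation ring. -/
theorem pz_scale {Ω : Type u} [Field Ω] (O : ValuationSubring Ω) {κ : Type w} [Field κ]
    (π : O →+* κ) {a : Fin 2 → Ω} (ha : a ≠ 0) :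
    ∃ (c : Ω) (b : Fin 2 → O), (∀ l, (b l : Ω) = c * a l) ∧ (fun l => π (b l)) ≠ 0 := by
  have h0 : a 0 ≠ 0 ∨ a 1 ≠ 0 := by
    by_contra hcon
    push Not at hcon
    apply ha
    ext l
    fin_cases l
    · exact hcon.1
    · exact hcon.2
  by_cases h1 : a 0 ≠ 0 ∧ a 1 / a 0 ∈ O
  · refine ⟨(a 0)⁻¹, ![1, ⟨a 1 / a 0, h1.2⟩], fun l => ?_, fun h => ?_⟩
    · fin_cases l
      · simp [h1.1]
      · simp only [Fin.mk_one, Matrix.cons_val_one, Matrix.cons_val_fin_one]
        rw [div_eq_inv_mul]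
    · have := congrFun h 0
      simp at this
  · have h2 : a 1 ≠ 0 := by
      by_contra h2
      apply h1
      rcases h0 with h0 | h0
      · refine ⟨h0, ?_⟩
        rw [h2, zero_div]
        exact O.zero_mem
      · exact absurd h2 h0
    have h3 : a 0 / a 1 ∈ O := by
      by_cases h4 : a 0 = 0
      · rw [h4, zero_div]
        exact O.zero_mem
      · rcases O.mem_or_inv_mem (a 1 / a 0) with h5 | h5
        · exact absurd ⟨h4, h5⟩ h1
        · rwa [inv_div] at h5
    refine ⟨(a 1)⁻¹, ![⟨a 0 / a 1, h3⟩, 1], fun l => ?_, fun h => ?_⟩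
    · fin_cases l
      · simp only [Fin.zero_eta, Matrix.cons_val_zero]
        rw [div_eq_inv_mul]
      · simp [h2]
    · have := congrFun h 1
      simp at this

/-- If the specialisation of a family of forms has no common zero, neither has the generic
member. -/
theorem pz_generic {A : Type v} [CommRing A] [IsDomain A] {κ : Type w} [Field κ] [IsAlgClosed κ]
    (π : A →+* κ) {Ω : Type u} [Field Ω] (ι : A →+* Ω) (hι : Function.Injective ι)
    {I : Type*} (Φ : I → MvPolynomial (Fin 2) A) (d : I → ℕ) (hd : ∀ i, (Φ i).IsHomogeneous (d i))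
    (h : ∀ a : Fin 2 → κ, a ≠ 0 → ∃ i, eval a (MvPolynomial.map π (Φ i)) ≠ 0)
    (a : Fin 2 → Ω) (ha : a ≠ 0) : ∃ i, eval a (MvPolynomial.map ι (Φ i)) ≠ 0 := by
  obtain ⟨Ω', _, _, j, O, κ', _, _, π', l, i, hπ', hi, hl⟩ := pz_dominate π ι hι
  have hja : (fun m => j (a m)) ≠ 0 := fun h0 => ha (funext fun m => by
    have := congrFun h0 m
    simpa using this)
  obtain ⟨c, b, hb, hb0⟩ := pz_scale O π' hja
  obtain ⟨t, ht⟩ := pz_base_change (fun i => MvPolynomial.map π (Φ i)) h l _ hb0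
  refine ⟨t, fun h0 => ht ?_⟩
  have h1 : eval b (MvPolynomial.map i (Φ t)) = 0 := by
    apply Subtype.val_injective
    change O.subtype _ = O.subtype 0
    rw [MvPolynomial.map_eval, MvPolynomial.map_map, map_zero]
    have h2 : (O.subtype.comp i) = j.comp ι := RingHom.ext hi
    have h3 : (⇑O.subtype ∘ b) = fun m => c * j (a m) := funext hb
    rw [h2, h3, ni7_eval_smul ((hd t).map _)]
    have h4 : eval (fun m => j (a m)) (MvPolynomial.map (j.comp ι) (Φ t)) =
        j (eval a (MvPolynomial.map ι (Φ t))) := by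
      rw [MvPolynomial.map_eval, MvPolynomial.map_map]
      rfl
    rw [h4, h0, map_zero, mul_zero]
  have h5 : (MvPolynomial.map l (MvPolynomial.map π (Φ t))) =
      MvPolynomial.map π' (MvPolynomial.map i (Φ t)) := by
    have h7 : l.comp π = π'.comp i := RingHom.ext fun x => (hl x).symm
    rw [MvPolynomial.map_map, MvPolynomial.map_map, h7]
  rw [h5]
  have h6 := congrArg π' h1
  rw [MvPolynomial.map_eval, map_zero] at h6
  exact h6

section main

variable {k : Type*} [Field k] {R : Type u} [CommRing R] [Algebra k R] {𝒜 : ℕ → Submodule k R}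
  [GradedAlgebra 𝒜] {p : Ideal R}

omit [GradedAlgebra 𝒜] in
/-- Base change of pairs. -/
theorem IsPr.base_change {K : Type v} [Field K] [IsAlgClosed K] {κ : Type w} [Field κ]
    (j : K →+* κ) {e : ℕ} {δ : ℤ} {φ : R →+* MvPolynomial (Fin 2) K}
    {η : p →+ MvPolynomial (Fin 2) K} (h : IsPr 𝒜 p e δ φ η) :
    IsPr 𝒜 p e δ ((MvPolynomial.map j).comp φ)
      ((MvPolynomial.map j : MvPolynomial (Fin 2) K →+* MvPolynomial (Fin 2) κ).toAddMonoidHom.comp
        η) where
  lin r x := by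
    change MvPolynomial.map j (η (r • x)) = MvPolynomial.map j (φ r) * MvPolynomial.map j (η x)
    rw [h.lin, map_mul]
  deg n x hx m hm := (h.deg n x hx m hm).map j
  zero n x hx hlt := by
    change MvPolynomial.map j (η x) = 0
    rw [h.zero n x hx hlt, map_zero]
  bpf := pz_base_change (fun x => η x) h.bpf j

omit [GradedAlgebra 𝒜] in
theorem LGen.base_change {K : Type v} [Field K] [IsAlgClosed K] {κ : Type w} [Field κ]
    (j : K →+* κ) {φ : R →+* MvPolynomial (Fin 2) K} (h : LGen p 𝒜 φ) :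
    LGen p 𝒜 ((MvPolynomial.map j).comp φ) := by
  let I := {z : R // ∃ (i j : ℕ) (a : R), a ∈ 𝒜 i ∧ z ∈ 𝒜 j ∧ a ∈ p ∧
    ∀ x ∈ p, ∃ r, z * x = r * a}
  intro c hc
  obtain ⟨z, hz⟩ := pz_base_change (fun z : I => φ z.1) (fun c hc => by
    obtain ⟨i, j, a, b, h1, h2, h3, h4, h5⟩ := h c hc
    exact ⟨⟨b, i, j, a, h1, h2, h3, h4⟩, h5⟩) j c hc
  obtain ⟨i, j, a, h1, h2, h3, h4⟩ := z.2
  exact ⟨i, j, a, z.1, h1, h2, h3, h4, hz⟩

omit [GradedAlgebra 𝒜] in
theorem LGen.generic {A : Type v} [CommRing A] [IsDomain A] {κ : Type w} [Field κ] [IsAlgClosed κ]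
    (π : A →+* κ) {Ω : Type*} [Field Ω] (ι : A →+* Ω) (hι : Function.Injective ι)
    (Φ : R →+* MvPolynomial (Fin 2) A) {e : ℕ}
    (hdeg : ∀ j, ∀ r ∈ 𝒜 j, (Φ r).IsHomogeneous (e * j))
    (h : LGen p 𝒜 ((MvPolynomial.map π).comp Φ)) : LGen p 𝒜 ((MvPolynomial.map ι).comp Φ) := by
  let I := {z : ℕ × R // ∃ (i : ℕ) (a : R), a ∈ 𝒜 i ∧ z.2 ∈ 𝒜 z.1 ∧ a ∈ p ∧
    ∀ x ∈ p, ∃ r, z.2 * x = r * a}
  intro c hc
  obtain ⟨z, hz⟩ := pz_generic π ι hι (fun z : I => Φ z.1.2) (fun z => e * z.1.1)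
    (fun z => by
      obtain ⟨i, a, -, h2, -⟩ := z.2
      exact hdeg _ _ h2) (fun c hc => by
    obtain ⟨i, j, a, b, h1, h2, h3, h4, h5⟩ := h c hc
    exact ⟨⟨(j, b), i, a, h1, h2, h3, h4⟩, h5⟩) c hc
  obtain ⟨i, a, h1, h2, h3, h4⟩ := z.2
  exact ⟨i, z.1.1, a, z.1.2, h1, h2, h3, h4, hz⟩

omit [GradedAlgebra 𝒜] in
/-- **Specialisation of pairs.** -/
theorem IsPr.special [IsNoetherianRing R] {K : Type v} [Field K] [IsAlgClosed K]
    (O : ValuationSubring K) {κ : Type w} [Field κ] (π : O →+* κ) (hπ : Function.Surjective π)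
    {e : ℕ} {δ : ℤ} (Φ : R →+* MvPolynomial (Fin 2) O)
    {η : p →+ MvPolynomial (Fin 2) K}
    (h : IsPr 𝒜 p e δ ((MvPolynomial.map O.subtype).comp Φ) η)
    (hL : LGen p 𝒜 ((MvPolynomial.map π).comp Φ)) :
    ∃ η' : p →+ MvPolynomial (Fin 2) κ, IsPr 𝒜 p e δ ((MvPolynomial.map π).comp Φ) η' := by
  classical
  have hinj : Function.Injective (MvPolynomial.map (σ := Fin 2) O.subtype) :=
    MvPolynomial.map_injective _ Subtype.val_injective
  obtain ⟨S, hS⟩ : (⊤ : Submodule R p).FG := IsNoetherian.noetherian _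
  -- the content
  obtain ⟨x₁, hx₁⟩ := h.bpf ![1, 0] vec10_ne'
  have hx₁0 : η x₁ ≠ 0 := fun h0 => hx₁ (by rw [h0, map_zero])
  have hS0 : ∃ s ∈ S, η s ≠ 0 := by
    by_contra hcon
    push Not at hcon
    have hz : ∀ x : p, η x = 0 := by
     intro x
     have : x ∈ Submodule.span R (S : Set p) := by rw [hS]; trivial
     induction this using Submodule.span_induction with
     | mem s hs => exact hcon s hs
     | zero => exact map_zero _
     | add a b _ _ ha hb => rw [map_add, ha, hb, add_zero]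
     | smul r a _ ha => rw [h.lin, ha, mul_zero]
    exact hx₁0 (hz x₁)
  let T : Finset K := S.biUnion fun s => (η s).support.image fun m => coeff m (η s)
  have hT : ∀ c ∈ T, c ≠ 0 := by
    intro c hc
    simp only [T, Finset.mem_biUnion, Finset.mem_image] at hc
    obtain ⟨s, -, m, hm, rfl⟩ := hc
    exact mem_support_iff.1 hm
  have hTne : T.Nonempty := by
    obtain ⟨s, hs, hs0⟩ := hS0
    obtain ⟨m, hm⟩ := ne_zero_iff.1 hs0
    exact ⟨coeff m (η s), Finset.mem_biUnion.2 ⟨s, hs, Finset.mem_image_of_mem _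
      (mem_support_iff.2 hm)⟩⟩
  obtain ⟨c, hcT, hcmax⟩ := Finset.exists_max_image T (fun c => O.valuation c) hTne
  have hc0 : c ≠ 0 := hT c hcT
  have hint : ∀ y : K, O.valuation y ≤ O.valuation c → c⁻¹ * y ∈ O := by
    intro y hy
    rw [← ValuationSubring.valuation_le_one_iff, map_mul, map_inv₀]
    exact (inv_mul_le_iff₀ (zero_lt_iff.2 ((Valuation.ne_zero_iff _).2 hc0))).2 (by rwa [mul_one])
  have hmemS : ∀ s ∈ S, ∃ q : MvPolynomial (Fin 2) O,
      MvPolynomial.map O.subtype q = C c⁻¹ * η s := by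
    intro s hs
    have h1 : C c⁻¹ * η s ∈ (MvPolynomial.map (σ := Fin 2) O.subtype).range := by
      rw [RingHom.mem_range, ← Set.mem_range, mem_range_map_iff_coeffs_subset]
      intro y hy
      obtain ⟨m, -, rfl⟩ := mem_coeffs_iff.1 (Finset.mem_coe.1 hy)
      rw [coeff_C_mul]
      refine ⟨⟨c⁻¹ * coeff m (η s), hint _ ?_⟩, rfl⟩
      by_cases hm : coeff m (η s) = 0
      · rw [hm, map_zero]
        exact zero_le
      · exact hcmax _ (Finset.mem_biUnion.2 ⟨s, hs, Finset.mem_image_of_mem _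
          (mem_support_iff.2 hm)⟩)
    exact h1
  have hmem : ∀ x : p, ∃ q : MvPolynomial (Fin 2) O,
      MvPolynomial.map O.subtype q = C c⁻¹ * η x := by
    intro x
    have : x ∈ Submodule.span R (S : Set p) := by rw [hS]; trivial
    induction this using Submodule.span_induction with
    | mem s hs => exact hmemS s hs
    | zero => exact ⟨0, by rw [map_zero, map_zero, mul_zero]⟩
    | add a b _ _ ha hb =>
      obtain ⟨q, hq⟩ := ha
      obtain ⟨q', hq'⟩ := hb
      exact ⟨q + q', by rw [map_add, map_add, hq, hq', mul_add]⟩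
    | smul r a _ ha =>
      obtain ⟨q, hq⟩ := ha
      refine ⟨Φ r * q, ?_⟩
      rw [map_mul, hq, h.lin]
      change MvPolynomial.map O.subtype (Φ r) * (C c⁻¹ * η a) =
        C c⁻¹ * (MvPolynomial.map O.subtype (Φ r) * η a)
      ring
  choose H₀ hH₀ using hmem
  have hHu : ∀ x q, MvPolynomial.map O.subtype q = C c⁻¹ * η x → H₀ x = q := fun x q hq =>
    hinj ((hH₀ x).trans hq.symm)
  let H : p →+ MvPolynomial (Fin 2) O := AddMonoidHom.mk' H₀ fun x y => hHu _ _ (by
    rw [map_add, hH₀, hH₀, map_add, mul_add])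
  have hHlin : ∀ (r : R) (x : p), H₀ (r • x) = Φ r * H₀ x := fun r x => hHu _ _ (by
    rw [map_mul, hH₀, h.lin]
    change MvPolynomial.map O.subtype (Φ r) * (C c⁻¹ * η x) =
        C c⁻¹ * (MvPolynomial.map O.subtype (Φ r) * η x)
    ring)
  have hHdeg : ∀ n (x : p), (x : R) ∈ 𝒜 n → ∀ m : ℕ, (m : ℤ) + δ = e * n →
      (H₀ x).IsHomogeneous m := by
    intro n x hx m hm
    apply IsHomogeneous.of_map (f := O.subtype) Subtype.val_injective
    rw [hH₀]
    have := (isHomogeneous_C (Fin 2) c⁻¹).mul (h.deg n x hx m hm)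
    rwa [zero_add] at this
  have hHz : ∀ n : ℕ, ∀ x : p, (x : R) ∈ 𝒜 n → (e * n : ℤ) < δ → H₀ x = 0 := by
    intro n x hx hlt
    apply hHu
    rw [h.zero n x hx hlt, map_zero, mul_zero]
  let η' : p →+ MvPolynomial (Fin 2) κ :=
    (MvPolynomial.map π : MvPolynomial (Fin 2) O →+* MvPolynomial (Fin 2) κ).toAddMonoidHom.comp H
  have hη' : ∀ x, η' x = MvPolynomial.map π (H₀ x) := fun x => rfl
  have hlin' : ∀ (r : R) (x : p), η' (r • x) = ((MvPolynomial.map π).comp Φ) r * η' x := by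
    intro r x
    rw [hη', hη', hHlin, map_mul]
    rfl
  have hne : ∃ x, η' x ≠ 0 := by
    simp only [T, Finset.mem_biUnion, Finset.mem_image] at hcT
    obtain ⟨s, hs, m, hm, hcm⟩ := hcT
    refine ⟨s, fun h0 => ?_⟩
    have h1 := congrArg (coeff m) h0
    rw [hη', coeff_map, coeff_zero] at h1
    have h2 : coeff m (H₀ s) = 1 := by
      apply Subtype.val_injective
      have h3 := congrArg (coeff m) (hH₀ s)
      rw [coeff_map, coeff_C_mul, hcm, inv_mul_cancel₀ hc0] at h3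
      exact h3
    rw [h2, map_one] at h1
    exact one_ne_zero h1
  refine ⟨η', hlin', ?_, ?_, ?_⟩
  · intro n x hx m hm
    exact (hHdeg n x hx m hm).map π
  · intro n x hx hlt
    rw [hη', hHz n x hx hlt, map_zero]
  · intro d hd
    by_contra hcon
    push Not at hcon
    obtain ⟨i, j, a, b, hai, hbj, ha, hgen, hb⟩ := hL d hd
    have hb0 : ((MvPolynomial.map π).comp Φ) b ≠ 0 := fun h => hb (by rw [h, map_zero])
    have hA := lgen_ne hlin' ha hgen hb0 hne
    have hAH : (H₀ ⟨a, ha⟩).IsHomogeneous (H₀ ⟨a, ha⟩).totalDegree := by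
      by_cases hlt : (e * i : ℤ) < δ
      · exfalso
        apply hA
        rw [hη', hHz i ⟨a, ha⟩ hai hlt, map_zero]
      · obtain ⟨m, hm⟩ := Int.eq_ofNat_of_zero_le (sub_nonneg.2 (not_lt.1 hlt))
        have h1 := hHdeg i ⟨a, ha⟩ hai m (by omega)
        rwa [h1.totalDegree (fun h0 => hA (by rw [hη', h0, map_zero]))]
    obtain ⟨d', hd', hd0⟩ := pz_lift O π hπ hAH (by rw [← hη']; exact hA) hd
      (by rw [← hη']; exact hcon _)
    have hbd : eval d' (Φ b) ≠ 0 := by
      intro h0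
      apply hb
      have h1 := congrArg π h0
      rw [MvPolynomial.map_eval, map_zero] at h1
      have h2 : (⇑π ∘ d') = d := funext hd'
      rw [h2] at h1
      exact h1
    have hall : ∀ x : p, eval d' (H₀ x) = 0 := by
      intro x
      obtain ⟨r, hr⟩ := hgen x x.2
      have h1 : b • x = r • (⟨a, ha⟩ : p) := Subtype.ext hr
      have h2 := congrArg H₀ h1
      rw [hHlin, hHlin] at h2
      have h3 := congrArg (eval d') h2
      rw [map_mul, map_mul, hd0, mul_zero] at h3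
      exact (mul_eq_zero.1 h3).resolve_left hbd
    have hd'0 : (fun l => (d' l : K)) ≠ 0 := by
      intro h0
      apply hd
      ext l
      have h1 : d' l = 0 := Subtype.ext (congrFun h0 l)
      rw [← hd', h1, map_zero]
      rfl
    obtain ⟨x, hx⟩ := h.bpf _ hd'0
    apply hx
    have h1 := congrArg O.subtype (hall x)
    rw [MvPolynomial.map_eval, map_zero, hH₀, map_mul, eval_C] at h1
    exact (mul_eq_zero.1 h1).resolve_left (inv_ne_zero hc0)

omit [GradedAlgebra 𝒜] in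
/-- **The degree is invariant under specialisation.** -/
theorem IsPr.degree_eq [IsNoetherianRing R] {A : Type v} [CommRing A] [IsDomain A] {κ : Type w}
    [Field κ] [IsAlgClosed κ] (π : A →+* κ) {Ω : Type*} [Field Ω] [IsAlgClosed Ω] (ι : A →+* Ω)
    (hι : Function.Injective ι) (Φ : R →+* MvPolynomial (Fin 2) A) {e : ℕ} {δ₁ δ₂ : ℤ}
    {η₁ : p →+ MvPolynomial (Fin 2) Ω} {η₂ : p →+ MvPolynomial (Fin 2) κ}
    (h₁ : IsPr 𝒜 p e δ₁ ((MvPolynomial.map ι).comp Φ) η₁)
    (h₂ : IsPr 𝒜 p e δ₂ ((MvPolynomial.map π).comp Φ) η₂)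
    (hL : LGen p 𝒜 ((MvPolynomial.map π).comp Φ)) : δ₁ = δ₂ := by
  obtain ⟨Ω', _, _, j, O, κ', _, _, π', l, i, hπ', hi, hl⟩ := pz_dominate π ι hι
  have e1 : (MvPolynomial.map j).comp ((MvPolynomial.map ι).comp Φ) =
      (MvPolynomial.map O.subtype).comp ((MvPolynomial.map (σ := Fin 2) i).comp Φ) := by
    ext1 r
    have h7 : j.comp ι = O.subtype.comp i := RingHom.ext fun x => (hi x).symm
    simp only [RingHom.comp_apply]
    rw [MvPolynomial.map_map, MvPolynomial.map_map, h7]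
  have e2 : (MvPolynomial.map l).comp ((MvPolynomial.map π).comp Φ) =
      (MvPolynomial.map π').comp ((MvPolynomial.map (σ := Fin 2) i).comp Φ) := by
    ext1 r
    have h7 : l.comp π = π'.comp i := RingHom.ext fun x => (hl x).symm
    simp only [RingHom.comp_apply]
    rw [MvPolynomial.map_map, MvPolynomial.map_map, h7]
  have h3 := h₁.base_change j
  rw [e1] at h3
  have h4 := h₂.base_change l
  rw [e2] at h4
  have h5 := hL.base_change l
  rw [e2] at h5
  obtain ⟨η', h6⟩ := h3.special O π' hπ' _ h5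
  exact h6.eq h5 h4

end main

section final

variable {R : Type u} [CommRing R] [Algebra ℂ R] {𝒜 : ℕ → Submodule ℂ R} [GradedAlgebra 𝒜]

omit [GradedAlgebra 𝒜] in
/-- From `IsPair` to `IsPr`. -/
theorem IsPair.toPr {p : Ideal R} {K : Type v} [Field K] [Algebra ℂ K] {e δ : ℕ}
    {φ : R →ₐ[ℂ] MvPolynomial (Fin 2) K} {η : p →ₗ[ℂ] MvPolynomial (Fin 2) K}
    (h : IsPair 𝒜 p e δ φ η) : IsPr 𝒜 p e δ (φ : R →+* MvPolynomial (Fin 2) K) η.toAddMonoidHom where
  lin := h.lin
  deg j x hx m hm := h.degη j x hx m (by exact_mod_cast hm)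
  zero j x hx hlt := h.zeroη j x hx (by exact_mod_cast hlt)
  bpf := h.bpfη

omit [GradedAlgebra 𝒜] in
/-- From `IsPr` to `HasPair`. -/
theorem IsPr.hasPair {p : Ideal R} {K : Type v} [Field K] [Algebra ℂ K] {e δ : ℕ}
    {φ : R →ₐ[ℂ] MvPolynomial (Fin 2) K} {η : p →+ MvPolynomial (Fin 2) K}
    (h : IsPr 𝒜 p e δ (φ : R →+* MvPolynomial (Fin 2) K) η)
    (hdeg : ∀ j, ∀ r ∈ 𝒜 j, (φ r).IsHomogeneous (e * j))
    (hb : ∀ a : Fin 2 → K, a ≠ 0 → ∃ j > 0, ∃ r ∈ 𝒜 j, eval a (φ r) ≠ 0) :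
    HasPair 𝒜 p e δ φ := by
  refine ⟨{ toFun := η, map_add' := η.map_add, map_smul' := fun c x => ?_ }, hdeg, hb, h.lin,
    fun j x hx m hm => h.deg j x hx m (by exact_mod_cast hm),
    fun j x hx hlt => h.zero j x hx (by exact_mod_cast hlt), h.bpf⟩
  have h1 : c • x = (algebraMap ℂ R c) • x := (algebraMap_smul R c x).symm
  rw [h1, h.lin, RingHom.id_apply]
  change φ (algebraMap ℂ R c) * η x = c • η x
  rw [AlgHom.commutes, Algebra.smul_def]

/-- S1: the generic member of a family through a curve with a pair has a pair. -/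
theorem hasPair_of_spec [IsDomain R] [IsNoetherianRing R] {p : Ideal R}
    (hh : p.IsHomogeneous 𝒜) (hp : IsInv 𝒜 p) {A : Type v} [CommRing A] [IsDomain A]
    [Algebra ℂ A] {κ : Type w} [Field κ] [IsAlgClosed κ] [Algebra ℂ κ] (π : A →ₐ[ℂ] κ)
    {Ω : Type u} [Field Ω] [IsAlgClosed Ω] [Algebra ℂ Ω] (ι : A →ₐ[ℂ] Ω)
    (hι : Function.Injective ι) {e δ : ℕ} (Φ : R →ₐ[ℂ] MvPolynomial (Fin 2) A)
    (hdeg : ∀ j, ∀ r ∈ 𝒜 j, (Φ r).IsHomogeneous (e * j))
    (h : HasPair 𝒜 p e δ ((mapAlgHom π).comp Φ)) :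
    HasPair 𝒜 p e δ ((mapAlgHom ι).comp Φ) := by
  obtain ⟨η, hη⟩ := h
  have hL : LGen p 𝒜 ((MvPolynomial.map (π : A →+* κ)).comp (Φ : R →+* MvPolynomial (Fin 2) A)) :=
    lgen_of_isInv hp _ hη.bpf
  have hLΩ := hL.generic (π : A →+* κ) (ι : A →+* Ω) hι (Φ : R →+* MvPolynomial (Fin 2) A) hdeg
  have hdegΩ : ∀ j, ∀ r ∈ 𝒜 j, (((mapAlgHom ι).comp Φ) r).IsHomogeneous (e * j) :=
    fun j r hr => (hdeg j r hr).map _
  have h0 : p ≠ ⊥ := by
    rintro rfl
    obtain ⟨x, hx⟩ := hη.bpfη ![1, 0] vec10_ne'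
    apply hx
    rw [Subsingleton.elim x 0, map_zero, map_zero]
  obtain ⟨δ', η', h'⟩ := exists_isPr hh h0 _ hdegΩ hLΩ
  obtain rfl : δ' = δ := h'.degree_eq (π : A →+* κ) (ι : A →+* Ω) hι
    (Φ : R →+* MvPolynomial (Fin 2) A) hη.toPr hL
  refine IsPr.hasPair h' hdegΩ ?_
  intro a ha
  let I := {z : ℕ × R // 0 < z.1 ∧ z.2 ∈ 𝒜 z.1}
  obtain ⟨z, hz⟩ := pz_generic (π : A →+* κ) (ι : A →+* Ω) hι (fun z : I => Φ z.1.2)
    (fun z => e * z.1.1) (fun z => hdeg _ _ z.2.2) (fun a ha => by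
      obtain ⟨j, hj, r, hr, hne⟩ := hη.bpf a ha
      exact ⟨⟨(j, r), hj, hr⟩, hne⟩) a ha
  exact ⟨z.1.1, z.2.1, z.1.2, z.2.2, hz⟩

/-- S2: pairs specialise to base point free specialisations. -/
theorem hasPair_spec [IsDomain R] [IsNoetherianRing R] {p : Ideal R}
    (hh : p.IsHomogeneous 𝒜) (hp : IsInv 𝒜 p) {A : Type v} [CommRing A] [IsDomain A]
    [Algebra ℂ A] {κ : Type w} [Field κ] [IsAlgClosed κ] [Algebra ℂ κ] (π : A →ₐ[ℂ] κ)
    {Ω : Type u} [Field Ω] [IsAlgClosed Ω] [Algebra ℂ Ω] (ι : A →ₐ[ℂ] Ω)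
    (hι : Function.Injective ι) {e δ : ℕ} (Φ : R →ₐ[ℂ] MvPolynomial (Fin 2) A)
    (hdeg : ∀ j, ∀ r ∈ 𝒜 j, (Φ r).IsHomogeneous (e * j))
    (hcurve : IsCurve 𝒜 e ((mapAlgHom π).comp Φ))
    (h : HasPair 𝒜 p e δ ((mapAlgHom ι).comp Φ)) :
    HasPair 𝒜 p e δ ((mapAlgHom π).comp Φ) := by
  obtain ⟨η, hη⟩ := h
  have hb : ∀ a : Fin 2 → κ, a ≠ 0 → ∃ j > 0, ∃ r ∈ 𝒜 j,
      eval a (((mapAlgHom π).comp Φ) r) ≠ 0 := by
    intro a ha
    obtain ⟨j, hj, r, hr, hne⟩ := c1_isNV_pt hcurve a ha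
    exact ⟨j, hj, r, hr, hne⟩
  have hL : LGen p 𝒜 ((MvPolynomial.map (π : A →+* κ)).comp (Φ : R →+* MvPolynomial (Fin 2) A)) :=
    lgen_of_isInv hp _ hb
  have hdegκ : ∀ j, ∀ r ∈ 𝒜 j, (((mapAlgHom π).comp Φ) r).IsHomogeneous (e * j) :=
    fun j r hr => (hdeg j r hr).map _
  have h0 : p ≠ ⊥ := by
    rintro rfl
    obtain ⟨x, hx⟩ := hη.bpfη ![1, 0] vec10_ne'
    apply hx
    rw [Subsingleton.elim x 0, map_zero, map_zero]
  obtain ⟨δ', η', h'⟩ := exists_isPr hh h0 _ hdegκ hL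
  obtain rfl : (δ : ℤ) = δ' := hη.toPr.degree_eq (π : A →+* κ) (ι : A →+* Ω) hι
    (Φ : R →+* MvPolynomial (Fin 2) A) h' hL
  exact IsPr.hasPair h' hdegκ hb

omit [GradedAlgebra 𝒜] in
/-- S3: a curve of positive degree meets the divisor. -/
theorem HasPair.meets {p : Ideal R} (hp : IsInv 𝒜 p) {K : Type v} [Field K]
    [IsAlgClosed K] [Algebra ℂ K] {e δ : ℕ} (hδ : 0 < δ) {φ : R →ₐ[ℂ] MvPolynomial (Fin 2) K}
    (h : HasPair 𝒜 p e δ φ) : Meets φ p := by
  obtain ⟨η, hη⟩ := h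
  obtain ⟨a, ha, h0⟩ := hη.toPr.meets (lgen_of_isInv hp _ hη.bpf) hη.deg (by omega)
  exact ⟨a, ha, fun r hr => h0 r hr⟩

end final

end Vale.Agent.P292.Dv
end

section

/-! # E1: a family with fixed ends has a pole. -/

namespace Vale.Agent.P292.Dv

open Polynomial

universe v

theorem t4p_min {B : Type v} [CommRing B] (m : Ideal B) [hm : m.IsMaximal]
    (hart : IsArtinianRing (Localization.AtPrime m)) : m ∈ minimalPrimes B := by
  rw [minimalPrimes_eq_minimals]
  refine ⟨hm.isPrime, fun q hq hqm => ?_⟩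
  have hdis : Disjoint (m.primeCompl : Set B) (q : Set B) := by
    rw [Set.disjoint_left]
    intro x hx hxq
    exact hx (hqm hxq)
  have h1 : (Ideal.map (algebraMap B (Localization.AtPrime m)) q).IsPrime :=
    IsLocalization.isPrime_of_isPrime_disjoint m.primeCompl _ q hq hdis
  have h2 : (Ideal.map (algebraMap B (Localization.AtPrime m)) q).IsMaximal :=
    IsArtinianRing.isMaximal_of_isPrime _
  have h3 := IsLocalRing.eq_maximalIdeal h2
  have h4 := IsLocalization.under_map_of_isPrime_disjoint m.primeCompl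
    (Localization.AtPrime m) hq hdis
  have h5 := Localization.AtPrime.under_maximalIdeal (I := m)
  rw [← h3, h4] at h5
  exact h5.ge

theorem t4_pole {D : Type v} [CommRing D] [IsDomain D] [Algebra ℂ D] [Algebra.FiniteType ℂ D]
    (E : Subalgebra ℂ D) (hE : E.FG) (a : D) (ha : Transcendental E a) (h : D) (hh : h ≠ 0) :
    ∃ f : D →ₐ[ℂ] LaurentSeries ℂ, (∀ x ∈ E, ∃ c : ℂ, f x = algebraMap ℂ (LaurentSeries ℂ) c) ∧
      f h ≠ 0 ∧ ∃ b : D, f b ∉ Set.range (HahnSeries.ofPowerSeries ℤ ℂ) := by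
  classical
  have hE1 : Algebra.FiniteType ℂ E := E.fg_iff_finiteType.1 hE
  have hE2 : Algebra.FiniteType ℂ E[X] := Algebra.FiniteType.trans hE1 inferInstance
  have hC : Algebra.FiniteType ℂ (Localization.Away h) :=
    Algebra.FiniteType.trans (inferInstanceAs (Algebra.FiniteType ℂ D))
      (IsLocalization.finiteType_of_monoid_fg (Submonoid.powers h) (Localization.Away h))
  let j : D →ₐ[ℂ] Localization.Away h := IsScalarTower.toAlgHom ℂ D _
  let f₀ : E[X] →ₐ[ℂ] Localization.Away h := j.comp ((aeval a : E[X] →ₐ[E] D).restrictScalars ℂ)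
  have hf₀ : Function.Injective f₀ := by
    have h1 : Function.Injective (algebraMap D (Localization.Away h)) :=
      IsLocalization.injective _ (powers_le_nonZeroDivisors_of_noZeroDivisors hh)
    have h2 : Function.Injective (aeval a : E[X] →ₐ[E] D) := transcendental_iff_injective.1 ha
    exact h1.comp h2
  obtain ⟨G, hG, hlift⟩ := VF.exists_generic_lift f₀ hf₀
  obtain ⟨e, he⟩ := VF.exists_point_ne_zero (leadingCoeff_ne_zero.2 hG)
  have hGe : G.map (e : E →+* ℂ) ≠ 0 := by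
    intro h0
    apply he
    have := congrArg (fun q => q.coeff G.natDegree) h0
    simpa using this
  -- the points
  have hpt : ∀ c : ℂ, (G.map (e : E →+* ℂ)).eval c ≠ 0 → ∃ F : D →ₐ[ℂ] ℂ,
      F a = c ∧ F h ≠ 0 ∧ ∀ x : E, F x = e x := by
    intro c hc
    obtain ⟨q, hq⟩ := hlift ((aeval c : ℂ[X] →ₐ[ℂ] ℂ).comp (mapAlgHom e)) (by
      simpa [aeval_def, eval₂_eq_eval_map] using hc)
    refine ⟨q.comp j, ?_, ?_, ?_⟩
    · have := DFunLike.congr_fun hq X
      simpa [f₀] using this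
    · have h1 : IsUnit (j h) := IsLocalization.Away.algebraMap_isUnit h
      exact (h1.map q).ne_zero
    · intro x
      have := DFunLike.congr_fun hq (C x)
      simpa [f₀] using this
  set I : Ideal D := Ideal.map (algebraMap E D) (RingHom.ker e) with hI
  have hfac : ∀ F : D →ₐ[ℂ] ℂ, (∀ x : E, F x = e x) → ∀ y ∈ I, F y = 0 := by
    intro F hF y hy
    have h1 : I ≤ RingHom.ker F := by
      rw [hI, Ideal.map_le_iff_le_comap]
      intro x hx
      rw [Ideal.mem_comap, RingHom.mem_ker]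
      have : F (algebraMap E D x) = e x := hF x
      rw [this]
      exact hx
    exact h1 hy
  have hnoeth : IsNoetherianRing D := Algebra.FiniteType.isNoetherianRing ℂ D
  have hex : ∃ m : Ideal (D ⧸ I), ∃ _ : m.IsMaximal, ¬ IsArtinianRing (Localization.AtPrime m) ∧
      Ideal.Quotient.mk I h ∉ m := by
    by_contra hcon
    push Not at hcon
    have hinf : (Set.univ \ {c : ℂ | (G.map (e : E →+* ℂ)).IsRoot c}).Infinite := by
      refine Set.Infinite.sdiff Set.infinite_univ ?_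
      refine (G.map (e : E →+* ℂ)).roots.toFinset.finite_toSet.subset ?_
      intro c hc
      simpa [hGe] using hc
    have hfin : (minimalPrimes (D ⧸ I)).Finite := minimalPrimes.finite_of_isNoetherianRing _
    have hch : ∀ c ∈ (Set.univ \ {c : ℂ | (G.map (e : E →+* ℂ)).IsRoot c}),
        ∃ m ∈ minimalPrimes (D ⧸ I), ∃ F : (D ⧸ I) →ₐ[ℂ] ℂ, m = RingHom.ker F ∧
          F (Ideal.Quotient.mk I a) = c := by
      intro c hc
      obtain ⟨F, hFa, hFh, hFe⟩ := hpt c hc.2
      let F' : (D ⧸ I) →ₐ[ℂ] ℂ := Ideal.Quotient.liftₐ I F (hfac F hFe)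
      have hsurj : Function.Surjective F' := fun z => ⟨algebraMap ℂ _ z, F'.commutes z⟩
      have hmax : (RingHom.ker F').IsMaximal := RingHom.ker_isMaximal_of_surjective F' hsurj
      refine ⟨RingHom.ker F', t4p_min _ ?_, F', rfl, ?_⟩
      · by_contra hart
        exact hFh (RingHom.mem_ker.1 (hcon (RingHom.ker F') hmax hart))
      · exact hFa
    choose! m hm F hF hFc using hch
    refine hinf ?_
    refine Set.Finite.of_finite_image (f := m) (hfin.subset ?_) ?_
    · rintro _ ⟨c, hc, rfl⟩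
      exact hm c hc
    · intro c hc c' hc' hcc
      have h1 : Ideal.Quotient.mk I a - algebraMap ℂ _ c ∈ m c := by
        rw [hF c hc, RingHom.mem_ker, map_sub, hFc c hc, AlgHom.commutes]
        simp
      rw [hcc, hF c' hc', RingHom.mem_ker, map_sub, hFc c' hc', AlgHom.commutes] at h1
      have h2 : c' - c = 0 := by simpa using h1
      exact (sub_eq_zero.1 h2).symm
  obtain ⟨m, hmax, hart, hhm⟩ := hex
  have hftB : Algebra.FiniteType ℂ (D ⧸ I) :=
    Algebra.FiniteType.of_surjective (Ideal.Quotient.mkₐ ℂ I) (Ideal.Quotient.mkₐ_surjective ℂ I)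
  obtain ⟨f, hfh, b, hfb⟩ := Mo.exists_pole (k := ℂ) m hart _ hhm
  obtain ⟨b, rfl⟩ := Ideal.Quotient.mk_surjective b
  refine ⟨f.comp (Ideal.Quotient.mkₐ ℂ I), ?_, hfh, b, hfb⟩
  intro x hx
  refine ⟨e ⟨x, hx⟩, ?_⟩
  have h1 : x - algebraMap ℂ D (e ⟨x, hx⟩) ∈ I := by
    have h2 : (⟨x, hx⟩ : E) - algebraMap ℂ E (e ⟨x, hx⟩) ∈ RingHom.ker e := by
      rw [RingHom.mem_ker, map_sub, AlgHom.commutes]
      simp
    exact Ideal.mem_map_of_mem (algebraMap E D) h2
  have h3 : Ideal.Quotient.mkₐ ℂ I (x - algebraMap ℂ D (e ⟨x, hx⟩)) = 0 :=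
    Ideal.Quotient.eq_zero_iff_mem.2 h1
  have h4 := congrArg f h3
  rw [map_sub, map_sub, map_zero, AlgHom.commutes, AlgHom.commutes, sub_eq_zero] at h4
  exact h4

end Vale.Agent.P292.Dv
end

section

/-! # Degenerations of rational curves with two fixed ends; lines do not degenerate. -/

namespace Vale.Agent.P292.Dv

open MvPolynomial Vale.Agent.P292 Vale.Agent.P292.Mo Vale.Agent.P292.Mo.Sc Vale.Agent.P292.Mo.Fm

universe u v

section swap

variable (k : Type v) [Field k]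

/-- Polynomials over the Laurent series as Laurent series over the polynomials. -/
noncomputable def swapL : MvPolynomial (Fin 2) (LaurentSeries k) →ₐ[k]
    LaurentSeries (MvPolynomial (Fin 2) k) :=
  { MvPolynomial.eval₂Hom (mapL k (MvPolynomial (Fin 2) k)).toRingHom
      (fun i => HahnSeries.C (X i)) with
    commutes' := fun c => by
      change MvPolynomial.eval₂Hom (mapL k (MvPolynomial (Fin 2) k)).toRingHom
        (fun i => HahnSeries.C (X i)) _ = _
      rw [MvPolynomial.algebraMap_apply, MvPolynomial.eval₂Hom_C]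
      exact (mapL k (MvPolynomial (Fin 2) k)).commutes c }

variable {k}

theorem swapL_monomial (m : Fin 2 →₀ ℕ) (a : LaurentSeries k) :
    swapL k (monomial m a) = mapL k (MvPolynomial (Fin 2) k) a * HahnSeries.C (monomial m 1) := by
  change MvPolynomial.eval₂Hom (mapL k (MvPolynomial (Fin 2) k)).toRingHom
        (fun i => HahnSeries.C (X i)) _ = _
  rw [MvPolynomial.coe_eval₂Hom, MvPolynomial.eval₂_monomial]
  congr 1
  rw [MvPolynomial.monomial_eq, C_1, one_mul, Finsupp.prod, Finsupp.prod, map_prod]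
  exact Finset.prod_congr rfl fun i _ => (map_pow _ _ _).symm

theorem coeff_swapL (p : MvPolynomial (Fin 2) (LaurentSeries k)) (i : ℤ) (m : Fin 2 →₀ ℕ) :
    coeff m ((swapL k p).coeff i) = (coeff m p).coeff i := by
  classical
  induction p using MvPolynomial.induction_on' with
  | monomial n a =>
    rw [swapL_monomial, mul_comm, C_mul_coeff, mapL_coeff, MvPolynomial.algebraMap_eq, mul_comm,
      MvPolynomial.C_mul_monomial, mul_one, coeff_monomial, coeff_monomial]
    split_ifs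
    · rfl
    · rfl
  | add p q hp hq =>
    rw [map_add, HahnSeries.coeff_add, coeff_add, coeff_add, HahnSeries.coeff_add, hp, hq]

theorem isHomogeneous_swapL {p : MvPolynomial (Fin 2) (LaurentSeries k)} {n : ℕ}
    (hp : p.IsHomogeneous n) (i : ℤ) : ((swapL k p).coeff i).IsHomogeneous n := by
  intro m hm
  rw [coeff_swapL] at hm
  exact hp fun h => hm (by rw [h]; rfl)

end swap

section red

variable {k : Type v} [Field k] {R : Type u} [CommRing R] [Algebra k R] {𝒜 : ℕ → Submodule k R}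
  [GradedAlgebra 𝒜]

/-- The expansion of a homogeneous polynomial at an end. -/
noncomputable def endE (k : Type v) [Field k] (t : Fin 2) : MvPolynomial (Fin 2) k →ₐ[k]
    PowerSeries k := aeval fun i => if i = t then PowerSeries.X else 1

theorem coeff_endE {p : MvPolynomial (Fin 2) k} {n : ℕ} (hp : p.IsHomogeneous n) (t : Fin 2)
    {m : Fin 2 →₀ ℕ} (hm : m 0 + m 1 = n) :
    PowerSeries.coeff (m t) (endE k t p) = coeff m p := by
  classical
  have hdeg : ∀ q : Fin 2 →₀ ℕ, coeff q p ≠ 0 → q 0 + q 1 = n := by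
    intro q hq
    have h1 := hp hq
    rw [Finsupp.weight_apply, Finsupp.sum_fintype _ _ (fun i => by simp)] at h1
    simpa [Fin.sum_univ_two] using h1
  rw [endE, aeval_def, eval₂_eq', map_sum, Finset.sum_eq_single m]
  · have h1 : ∏ i, (if i = t then (PowerSeries.X : PowerSeries k) else 1) ^ m i =
        PowerSeries.X ^ m t := by
      rw [Finset.prod_eq_single t]
      · rw [if_pos rfl]
      · intro i _ hi
        rw [if_neg hi, one_pow]
      · intro h
        exact absurd (Finset.mem_univ t) h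
    rw [h1, PowerSeries.algebraMap_apply, Algebra.algebraMap_self, RingHom.id_apply,
      PowerSeries.coeff_C_mul, PowerSeries.coeff_X_pow_self, mul_one]
  · intro q hq hqm
    have h1 : ∏ i, (if i = t then (PowerSeries.X : PowerSeries k) else 1) ^ q i =
        PowerSeries.X ^ q t := by
      rw [Finset.prod_eq_single t]
      · rw [if_pos rfl]
      · intro i _ hi
        rw [if_neg hi, one_pow]
      · intro h
        exact absurd (Finset.mem_univ t) h
    rw [h1, PowerSeries.algebraMap_apply, Algebra.algebraMap_self, RingHom.id_apply,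
      PowerSeries.coeff_C_mul, PowerSeries.coeff_X_pow, if_neg, mul_zero]
    intro h2
    apply hqm
    have h3 := hdeg q (mem_support_iff.1 hq)
    have h4 : t = 0 ∨ t = 1 := by
      fin_cases t
      · exact Or.inl rfl
      · exact Or.inr rfl
    have h5 : q 0 = m 0 ∧ q 1 = m 1 := by
      rcases h4 with rfl | rfl
      · exact ⟨h2.symm, by omega⟩
      · exact ⟨by omega, h2.symm⟩
    ext i
    fin_cases i
    · exact h5.1
    · exact h5.2
  · intro h
    rw [notMem_support_iff.1 h, map_zero, zero_mul, map_zero]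

/-- **Reduction of a family of rational curves with two fixed ends and a pole.** -/
theorem pole_red {N : ℕ} {x : Fin N → R} {d : Fin N → ℕ} (hx : ∀ i, x i ∈ 𝒜 (d i))
    (hgen : Algebra.adjoin k (Set.range x) = ⊤) (hd : ∀ i, 0 < d i) (hLB : IsLB 𝒜) {e : ℕ}
    {F : R →ₐ[k] MvPolynomial (Fin 2) (LaurentSeries k)}
    (hdeg : ∀ j, ∀ r ∈ 𝒜 j, (F r).IsHomogeneous (e * j)) {w₀ w₁ : R →ₐ[k] k}
    (h0 : ∀ r, eval ![1, 0] (F r) = algebraMap k (LaurentSeries k) (w₀ r))
    (h1 : ∀ r, eval ![0, 1] (F r) = algebraMap k (LaurentSeries k) (w₁ r))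
    (hpole : ∃ r m, coeff m (F r) ∉ Set.range (HahnSeries.ofPowerSeries ℤ k)) :
    ∃ (c : ℕ) (hc : 0 < c) (μ : ℕ) (φ : R →ₐ[k] PowerSeries (MvPolynomial (Fin 2) k)), 0 < μ ∧
      (∀ n, ∀ r ∈ 𝒜 n, ofPS k _ (φ r) =
        HahnSeries.single (μ * n : ℤ) 1 * expand k c hc (swapL k (F r))) ∧
      (∃ n, 0 < n ∧ ∃ r ∈ 𝒜 n, PowerSeries.constantCoeff (φ r) ≠ 0) ∧
      (∀ j, ∀ r ∈ 𝒜 j, ∀ i, (PowerSeries.coeff i (φ r)).IsHomogeneous (e * j)) ∧
      ∀ j, ∀ r ∈ 𝒜 j, ∀ m, coeff m (PowerSeries.constantCoeff (φ r)) ≠ 0 → j ≤ m 0 ∧ j ≤ m 1 := by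
  classical
  obtain ⟨c, hc, μ, φ, hμ, hφ, y, hy, n, hn, hyn, hne⟩ := exists_scaled_of_pole 𝒜
    ((swapL k).comp F) (Finset.univ.image x) (by rw [Finset.coe_image, Finset.coe_univ,
      Set.image_univ, hgen]) (by
      intro y hy
      obtain ⟨i, -, rfl⟩ := Finset.mem_image.1 hy
      exact ⟨d i, hd i, hx i⟩) (by
      obtain ⟨r, m, hr⟩ := hpole
      refine ⟨r, fun h => hr ?_⟩
      rw [mem_range_ofPowerSeries] at h ⊢
      intro i hi
      have h2 := h i hi
      rw [AlgHom.comp_apply] at h2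
      rw [← coeff_swapL, h2, coeff_zero])
  have hco : ∀ j, ∀ r ∈ 𝒜 j, ∀ i : ℕ, PowerSeries.coeff i (φ r) =
      (expand k c hc (swapL k (F r))).coeff (i - μ * j) := fun j r hr i => by
    have := coeff_scaled 𝒜 hφ hr i
    exact_mod_cast this
  have hhom : ∀ j, ∀ r ∈ 𝒜 j, ∀ i, (PowerSeries.coeff i (φ r)).IsHomogeneous (e * j) := by
    intro j r hr i
    rw [hco j r hr]
    by_cases hdv : (c : ℤ) ∣ (i - μ * j : ℤ)
    · obtain ⟨b, hb⟩ := hdv
      rw [hb, expand_coeff_mul]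
      exact isHomogeneous_swapL (hdeg j r hr) b
    · rw [expand_coeff_of_not_dvd _ _ _ _ hdv]
      exact isHomogeneous_zero _ _ _
  have hcc : ∀ r, PowerSeries.constantCoeff (φ r) = PowerSeries.coeff 0 (φ r) := fun r =>
    (PowerSeries.coeff_zero_eq_constantCoeff_apply _).symm
  -- the coefficients at the ends vanish
  have hend : ∀ j, 0 < j → ∀ r ∈ 𝒜 j, ∀ t : Fin 2,
      coeff (Finsupp.single t (e * j)) (PowerSeries.constantCoeff (φ r)) = 0 := by
    intro j hj r hr t
    rw [hcc, hco j r hr]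
    by_cases hdv : (c : ℤ) ∣ (((0 : ℕ) : ℤ) - μ * j : ℤ)
    · obtain ⟨b, hb⟩ := hdv
      have hb0 : b ≠ 0 := by
        rintro rfl
        have h3 : (μ : ℤ) * j = 0 := by
          have := hb
          push_cast at this
          linarith
        have h4 : μ * j = 0 := by exact_mod_cast h3
        rcases Nat.mul_eq_zero.1 h4 with h5 | h5 <;> omega
      rw [hb, expand_coeff_mul, coeff_swapL]
      have h2 : coeff (Finsupp.single t (e * j)) (F r) = algebraMap k (LaurentSeries k)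
          ((if t = 0 then w₀ else w₁) r) := by
        have h3 : ∀ s : Fin 2, eval (fun i => if i = s then (1 : LaurentSeries k) else 0) (F r) =
            coeff (Finsupp.single s (e * j)) (F r) := by
          intro s
          rw [eval_eq', Finset.sum_eq_single (Finsupp.single s (e * j))]
          · rw [Finset.prod_eq_single s]
            · rw [if_pos rfl, one_pow, mul_one]
            · intro i _ hi
              rw [Finsupp.single_eq_of_ne hi, pow_zero]
            · intro h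
              exact absurd (Finset.mem_univ s) h
          · intro q hq hqs
            have h4 := hdeg j r hr (mem_support_iff.1 hq)
            rw [Finsupp.weight_apply, Finsupp.sum_fintype _ _ (fun i => by simp)] at h4
            have h5 : q 0 + q 1 = e * j := by simpa [Fin.sum_univ_two] using h4
            have h6 : ∃ i, i ≠ s ∧ q i ≠ 0 := by
              by_contra hcon
              push Not at hcon
              apply hqs
              have h7 : s = 0 ∨ s = 1 := by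
                fin_cases s
                · exact Or.inl rfl
                · exact Or.inr rfl
              have h8 : q s = e * j := by
                rcases h7 with rfl | rfl
                · have := hcon 1 (by decide)
                  omega
                · have := hcon 0 (by decide)
                  omega
              ext i
              by_cases hi : i = s
              · rw [hi, Finsupp.single_eq_same, h8]
              · rw [hcon i hi, Finsupp.single_eq_of_ne hi]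
            obtain ⟨i, hi, hi'⟩ := h6
            rw [Finset.prod_eq_zero (Finset.mem_univ i), mul_zero]
            rw [if_neg hi, zero_pow hi']
          · intro h
            rw [notMem_support_iff.1 h, zero_mul]
        rw [← h3 t]
        have h7 : t = 0 ∨ t = 1 := by fin_cases t <;> simp
        rcases h7 with rfl | rfl
        · rw [if_pos rfl, ← h0 r]
          congr 2
          ext i
          fin_cases i <;> rfl
        · rw [if_neg (by simp), ← h1 r]
          congr 2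
          ext i
          fin_cases i <;> rfl
      rw [h2, algebraMap_laurent, HahnSeries.C_apply, HahnSeries.coeff_single_of_ne hb0]
    · rw [expand_coeff_of_not_dvd _ _ _ _ hdv, coeff_zero]
  refine ⟨c, hc, μ, φ, hμ, hφ, ⟨n, hn, y, hyn, hne⟩, hhom, ?_⟩
  -- the multiplicities are integers
  have hmul : ∀ t : Fin 2, ∀ j, ∀ r ∈ 𝒜 j, PowerSeries.X ^ j ∣
      endE k t (PowerSeries.constantCoeff (φ r)) := by
    intro t
    have hhom0 : ∀ j, ∀ r ∈ 𝒜 j, (PowerSeries.constantCoeff (φ r)).IsHomogeneous (e * j) :=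
      fun j r hr => by rw [hcc]; exact hhom j r hr 0
    obtain ⟨ν, G, hG, i₀, hi₀, r₀, hr₀, hne₀⟩ := lead hLB hx hgen
      ((endE k t).comp ((ccA k (MvPolynomial (Fin 2) k)).comp φ)) (by
        refine ⟨n, hn, y, hyn, fun h => hne ?_⟩
        ext m
        rw [coeff_zero]
        by_contra hm
        have h2 := (hhom0 n y hyn) hm
        rw [Finsupp.weight_apply, Finsupp.sum_fintype _ _ (fun i => by simp)] at h2
        have h3 : m 0 + m 1 = e * n := by simpa [Fin.sum_univ_two] using h2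
        apply hm
        rw [← coeff_endE (hhom0 n y hyn) t h3]
        rw [AlgHom.comp_apply, AlgHom.comp_apply, ccA_apply] at h
        rw [h, map_zero])
    have hν : 1 ≤ ν := by
      by_contra hcon
      have hν0 : ν = 0 := by omega
      apply hne₀
      have h2 := hG i₀ r₀ hr₀
      rw [hν0, zero_mul, pow_zero, one_mul] at h2
      rw [← h2, AlgHom.comp_apply, AlgHom.comp_apply, ccA_apply,
        ← PowerSeries.coeff_zero_eq_constantCoeff_apply]
      -- the other end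
      obtain ⟨s, hs⟩ : ∃ s : Fin 2, s ≠ t := by
        fin_cases t
        · exact ⟨1, by simp⟩
        · exact ⟨0, by simp⟩
      have h3 := coeff_endE (hhom0 i₀ r₀ hr₀) t (m := Finsupp.single s (e * i₀)) (by
        have : s = 0 ∨ s = 1 := by fin_cases s <;> simp
        rcases this with rfl | rfl <;> simp)
      rw [Finsupp.single_eq_of_ne (Ne.symm hs)] at h3
      rw [h3]
      exact hend i₀ hi₀ r₀ hr₀ s
    intro j r hr
    have h2 := hG j r hr
    rw [AlgHom.comp_apply, AlgHom.comp_apply, ccA_apply] at h2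
    rw [h2]
    exact Dvd.dvd.mul_right (pow_dvd_pow _ (Nat.le_mul_of_pos_left _ hν)) _
  intro j r hr m hm
  have hhom0 : (PowerSeries.constantCoeff (φ r)).IsHomogeneous (e * j) := by
    rw [hcc]; exact hhom j r hr 0
  have h2 := hhom0 hm
  rw [Finsupp.weight_apply, Finsupp.sum_fintype _ _ (fun i => by simp)] at h2
  have h3 : m 0 + m 1 = e * j := by simpa [Fin.sum_univ_two] using h2
  have h4 : ∀ t : Fin 2, j ≤ m t := by
    intro t
    by_contra hcon
    push Not at hcon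
    have h5 := PowerSeries.X_pow_dvd_iff.1 (hmul t j r hr) (m t) hcon
    rw [coeff_endE hhom0 t h3] at h5
    exact hm h5
  exact ⟨h4 0, h4 1⟩

end red

/-- Lines with two fixed ends do not degenerate. -/
theorem t4_line_pole {R : Type u} [CommRing R] [Algebra ℂ R] {𝒜 : ℕ → Submodule ℂ R}
    [GradedAlgebra 𝒜] {P : R →ₗ[ℂ] R →ₗ[ℂ] R} (hX : IsContactFano 𝒜 P)
    {F : R →ₐ[ℂ] MvPolynomial (Fin 2) (LaurentSeries ℂ)}
    (hdeg : ∀ j, ∀ r ∈ 𝒜 j, (F r).IsHomogeneous (1 * j)) {w₀ w₁ : R →ₐ[ℂ] ℂ}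
    (h0 : ∀ r, eval ![1, 0] (F r) = algebraMap ℂ (LaurentSeries ℂ) (w₀ r))
    (h1 : ∀ r, eval ![0, 1] (F r) = algebraMap ℂ (LaurentSeries ℂ) (w₁ r))
    (hpole : ∃ r m, coeff m (F r) ∉ Set.range (HahnSeries.ofPowerSeries ℤ ℂ)) : False := by
  have := hX.finiteType
  obtain ⟨M, x, d, hgen, hd, hx⟩ := pres_gens 𝒜 hX.connected
  have hLB : IsLB 𝒜 := by
    intro q hq e he
    refine hX.lineBundle q ?_ e he
    obtain ⟨j, hj, r, hr, hne⟩ := hq
    exact fun hv => hne (hv j hj r hr)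
  obtain ⟨c, hc, μ, φ, hμ, hφ, ⟨n, hn, y, hy, hne⟩, hhom, hle⟩ :=
    pole_red hx hgen hd hLB hdeg h0 h1 hpole
  apply hne
  ext m
  rw [coeff_zero]
  by_contra hm
  have h2 := hle n y hy m hm
  have h3 : (PowerSeries.constantCoeff (φ y)).IsHomogeneous (1 * n) := by
    rw [← PowerSeries.coeff_zero_eq_constantCoeff_apply]
    exact hhom n y hy 0
  have h4 := h3 hm
  rw [Finsupp.weight_apply, Finsupp.sum_fintype _ _ (fun i => by simp)] at h4
  have h5 : m 0 + m 1 = 1 * n := by simpa [Fin.sum_univ_two] using h4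
  omega

end Vale.Agent.P292.Dv
end

section

/-! # E4: a line is algebraic over its two ends. -/

namespace Vale.Agent.P292.Dv

open MvPolynomial TensorProduct

universe u v w

variable {R : Type u} [CommRing R] [Algebra ℂ R] {𝒜 : ℕ → Submodule ℂ R}

variable [GradedAlgebra 𝒜] {P : R →ₗ[ℂ] R →ₗ[ℂ] R}

/-- E4 -/
theorem t4_algebraic_line (hX : IsContactFano 𝒜 P) {K : Type u} [Field K] [IsAlgClosed K]
    [Algebra ℂ K] {φ : R →ₐ[ℂ] MvPolynomial (Fin 2) K} (h : IsCurve 𝒜 1 φ) :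
    ∀ r m, IsAlgebraic (ends φ) (coeff m (φ r)) := by
  intro r₀ m₀
  by_contra hcon
  have := hX.finiteType
  obtain ⟨φ₀, hφ₀⟩ := e4_model φ
  obtain ⟨f, w₀, w₁, -, h0, h1, hpole⟩ := e4_family φ r₀ m₀ hcon φ₀ hφ₀ 1
    (fun _ E hE a ha => t4_pole E hE a ha 1 one_ne_zero)
  refine t4_line_pole hX (F := (mapAlgHom f).comp φ₀) ?_ h0 h1 hpole
  intro j r hr m hm
  have h2 : coeff m (φ₀ r) ≠ 0 := by
    intro h3
    apply hm
    change coeff m (map (f : cfs φ →+* LaurentSeries ℂ) (φ₀ r)) = 0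
    rw [coeff_map, h3, map_zero]
  refine h.degree j r hr ?_
  have h4 : map (algebraMap (cfs φ) K) (φ₀ r) = φ r := DFunLike.congr_fun hφ₀ r
  rw [← h4, coeff_map]
  intro h3
  exact h2 (Subtype.ext h3)

end Vale.Agent.P292.Dv
end

section

/-! # Frames with exactly `cdim R` elements at every point outside the vertex. -/

namespace Vale.Agent.P292.Dv

open MvPolynomial TensorProduct

universe u

variable {R : Type u} [CommRing R] [Algebra ℂ R] {𝒜 : ℕ → Submodule ℂ R} [GradedAlgebra 𝒜]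
  {P : R →ₗ[ℂ] R →ₗ[ℂ] R}

/-- Every point outside the vertex has a homogeneous frame with `cdim R` elements. -/
theorem t4_rk (hX : IsContactFano 𝒜 P) [IsDomain R] (y : R →ₐ[ℂ] ℂ) (hy : Mo.NV 𝒜 y) :
    Mo.HasRk 𝒜 P y (cdim R) := by
  obtain ⟨N, x, k, g, l, hx, hgl, hg, hdet, hc⟩ := exists_chart_kd hX y hy
  have hg0 : g ≠ 0 := fun h => hg (by rw [h, map_zero])
  have hdet0 : Matrix.det (Matrix.of fun i j => P (x i) (x j)) ≠ 0 :=
    fun h => hdet (by rw [h, map_zero])
  set ι : R →ₐ[ℂ] FractionRing R := IsScalarTower.toAlgHom ℂ R (FractionRing R) with hι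
  have hιinj : Function.Injective ι := IsFractionRing.injective R (FractionRing R)
  obtain ⟨e⟩ := fr_chart_equiv hX ι (fun h => hg0 (hιinj (by rw [h, map_zero])))
    (fun h => hdet0 (hιinj (by rw [h, map_zero]))) hc
  have hN : cdim R = N := by
    rw [cdim, e.finrank_eq, Module.finrank_fin_fun]
  rw [hN]
  refine ⟨x, k, g, ⟨hx, ⟨l, hgl⟩, hc⟩, ?_⟩
  rw [map_mul]
  exact mul_ne_zero hg hdet

end Vale.Agent.P292.Dv
end

section

/-! # T3/T4, leaf G2: one homogeneous frame for finitely many points, in every characteristic -/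

set_option linter.all false

namespace Vale.Agent.P292.Mo

universe u v w

variable {k : Type u} [Field k]

/-! ### Linear algebra over an infinite field -/

private theorem t4e_avoid [Infinite k] {V : Type v} [AddCommGroup V] [Module k V] {ι : Type w}
    [Finite ι] (p : ι → Submodule k V) (h : ∀ i, p i ≠ ⊤) : ∃ v : V, ∀ i, v ∉ p i := by
  by_contra hcon
  push Not at hcon
  obtain ⟨i, hi⟩ := Subspace.exists_eq_top_of_iUnion_eq_univ (p := p) (by
    refine Set.eq_univ_of_forall fun v => ?_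
    obtain ⟨i, hi⟩ := hcon v
    exact Set.mem_iUnion.mpr ⟨i, hi⟩)
  exact h i hi

private theorem t4e_exists_li [Infinite k] {V : Type v} [AddCommGroup V] [Module k V] {ι : Type w}
    [Finite ι] {N : ℕ} (L : ι → V →ₗ[k] (Fin N → k)) (h : ∀ i, Function.Surjective (L i)) :
    ∀ m ≤ N, ∃ z : Fin m → V, ∀ i, LinearIndependent k (fun j => L i (z j)) := by
  intro m
  induction m with
  | zero => intro _; exact ⟨Fin.elim0, fun i => linearIndependent_empty_type⟩
  | succ m ih =>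
    intro hm
    obtain ⟨z, hz⟩ := ih (by omega)
    obtain ⟨v, hv⟩ := t4e_avoid (fun i => (Submodule.span k (Set.range fun j => L i (z j))).comap
      (L i)) (by
        intro i htop
        have h1 : Submodule.span k (Set.range fun j => L i (z j)) = ⊤ := by
          rw [eq_top_iff]
          intro x _
          obtain ⟨a, rfl⟩ := h i x
          have : a ∈ (Submodule.span k (Set.range fun j => L i (z j))).comap (L i) := by
            rw [htop]; trivial
          exact this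
        have h2 : Module.finrank k (Submodule.span k (Set.range fun j => L i (z j))) = m := by
          have := finrank_span_eq_card (hz i)
          simpa using this
        rw [h1, finrank_top, Module.finrank_fin_fun] at h2
        omega)
    refine ⟨Fin.cons v z, fun i => ?_⟩
    have h3 : (fun j => L i ((Fin.cons v z : Fin (m + 1) → V) j)) =
        (Fin.cons (L i v) (fun j => L i (z j)) : Fin (m + 1) → (Fin N → k)) := by
      funext j
      refine Fin.cases ?_ (fun j => ?_) j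
      · simp
      · simp
    rw [h3, linearIndependent_finCons]
    exact ⟨hz i, hv i⟩

/-! ### Elements of large degree -/

section graded

variable {R : Type v} [CommRing R] [Algebra k R] {𝒜 : ℕ → Submodule k R} [GradedAlgebra 𝒜]

private theorem t4e_S (y : R →ₐ[k] k)
    (hlb : ∀ d : ℕ, (∀ n, ∀ r ∈ 𝒜 n, y r ≠ 0 → d ∣ n) → d = 1) :
    ∃ n : ℕ, 0 < n ∧ ∃ a ∈ 𝒜 n, ∃ b ∈ 𝒜 (n + 1), y a = 1 ∧ y b = 1 := by
  let S : AddSubmonoid ℕ :=
    { carrier := {n | ∃ r ∈ 𝒜 n, y r ≠ 0}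
      zero_mem' := ⟨1, SetLike.GradedOne.one_mem, by rw [map_one]; exact one_ne_zero⟩
      add_mem' := by
        rintro a b ⟨r, hr, hr'⟩ ⟨s, hs, hs'⟩
        exact ⟨r * s, SetLike.mul_mem_graded hr hs, by rw [map_mul]; exact mul_ne_zero hr' hs'⟩ }
  have hS : Nat.setGcd (S : Set ℕ) = 1 := by
    refine hlb _ fun n r hr hr' => ?_
    exact Nat.setGcd_dvd_of_mem (show n ∈ (S : Set ℕ) from ⟨r, hr, hr'⟩)
  obtain ⟨n, hn⟩ := Nat.exists_mem_closure_of_ge (S : Set ℕ)
  have hn' : ∀ m ≥ n, m ∈ S := by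
    intro m hm
    have := hn m hm (by rw [hS]; exact one_dvd _)
    rwa [AddSubmonoid.closure_eq] at this
  have key : ∀ m ≥ n, ∃ r ∈ 𝒜 m, y r = 1 := by
    intro m hm
    obtain ⟨r, hr, hr'⟩ := hn' m hm
    refine ⟨(y r)⁻¹ • r, (𝒜 m).smul_mem _ hr, ?_⟩
    rw [map_smul, smul_eq_mul, inv_mul_cancel₀ hr']
  obtain ⟨a, ha, ha'⟩ := key (n + 1) (by omega)
  obtain ⟨b, hb, hb'⟩ := key (n + 1 + 1) (by omega)
  exact ⟨n + 1, by omega, a, ha, b, hb, ha', hb'⟩

private theorem t4e_mon {n : ℕ} {a b : R} (ha : a ∈ 𝒜 n) (hb : b ∈ 𝒜 (n + 1)) (α β : ℕ) :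
    a ^ α * b ^ β ∈ 𝒜 (α * n + β * (n + 1)) := by
  have h1 := SetLike.pow_mem_graded α ha
  have h2 := SetLike.pow_mem_graded β hb
  have h3 := SetLike.mul_mem_graded h1 h2
  simpa [smul_eq_mul] using h3

private theorem t4e_rep {n m : ℕ} (hn : 0 < n) (hm : n * n ≤ m) :
    ∃ α β, m = α * n + β * (n + 1) := by
  refine ⟨m / n - m % n, m % n, ?_⟩
  have h1 : m % n < n := Nat.mod_lt _ hn
  have h2 : n ≤ m / n := (Nat.le_div_iff_mul_le hn).mpr hm
  have h3 : n * (m / n) + m % n = m := Nat.div_add_mod m n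
  have h4 : (m / n - m % n) * n + (m % n) * n = (m / n) * n := by
    rw [← add_mul, Nat.sub_add_cancel (by omega)]
  have h5 : (m % n) * (n + 1) = (m % n) * n + m % n := by ring
  rw [h5, ← add_assoc, h4, mul_comm]
  exact h3.symm

private theorem t4e_rep' {n m : ℕ} (hn : 0 < n) (hm : n * n + (n + 1) * n ≤ m) :
    ∃ α β, m = (α + (n + 1)) * n + β * (n + 1) := by
  obtain ⟨α, β, h⟩ := t4e_rep (n := n) (m := m - (n + 1) * n) hn (by omega)
  refine ⟨α, β, ?_⟩
  have h1 : (n + 1) * n ≤ m := by omega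
  have h2 : (α + (n + 1)) * n = α * n + (n + 1) * n := by ring
  omega

/-! ### Point derivations -/

private theorem t4e_pd_one {y : R →ₐ[k] k} {δ : R →ₗ[k] k}
    (hδ : ∀ a b, δ (a * b) = y a * δ b + y b * δ a) : δ 1 = 0 := by
  have := hδ 1 1
  rw [mul_one, map_one y, one_mul] at this
  simpa using this

private theorem t4e_pd_pow {y : R →ₐ[k] k} {δ : R →ₗ[k] k}
    (hδ : ∀ a b, δ (a * b) = y a * δ b + y b * δ a) {a : R} (ha : y a = 1) (m : ℕ) :
    δ (a ^ m) = m * δ a := by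
  induction m with
  | zero => rw [pow_zero, t4e_pd_one hδ]; simp
  | succ m ih =>
    rw [pow_succ, hδ, ih, map_pow, ha, one_pow]
    push_cast
    ring

private theorem t4e_pd_mon {y : R →ₐ[k] k} {δ : R →ₗ[k] k}
    (hδ : ∀ a b, δ (a * b) = y a * δ b + y b * δ a) {a b : R} (ha : y a = 1) (hb : y b = 1)
    (α β : ℕ) : δ (a ^ α * b ^ β) = α * δ a + β * δ b := by
  rw [hδ, t4e_pd_pow hδ ha, t4e_pd_pow hδ hb, map_pow, map_pow, ha, hb, one_pow, one_pow]
  ring

/-- A point derivation which vanishes in small degrees is zero. -/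
private theorem t4e_J (hft : Algebra.FiniteType k R) : ∃ J : ℕ, ∀ (y : R →ₐ[k] k) (δ : R →ₗ[k] k),
    (∀ a b, δ (a * b) = y a * δ b + y b * δ a) → (∀ j ≤ J, ∀ r ∈ 𝒜 j, δ r = 0) → δ = 0 := by
  classical
  obtain ⟨s, hs⟩ := hft.out
  refine ⟨s.sup fun r => (DFinsupp.support (DirectSum.decompose 𝒜 r)).sup id, ?_⟩
  intro y δ hδ h0
  have h1 : ∀ r ∈ s, δ r = 0 := by
    intro r hr
    rw [← DirectSum.sum_support_decompose 𝒜 r, map_sum]
    refine Finset.sum_eq_zero fun j hj => ?_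
    refine h0 j ?_ _ (SetLike.coe_mem _)
    have h2 : j ≤ (DFinsupp.support (DirectSum.decompose 𝒜 r)).sup id :=
      Finset.le_sup (f := id) hj
    exact h2.trans (Finset.le_sup (f := fun r => (DFinsupp.support (DirectSum.decompose 𝒜 r)).sup id) hr)
  ext r
  have hr : r ∈ Algebra.adjoin k (s : Set R) := by rw [hs]; trivial
  rw [LinearMap.zero_apply]
  induction hr using Algebra.adjoin_induction with
  | mem x hx => exact h1 x hx
  | algebraMap c =>
    rw [Algebra.algebraMap_eq_smul_one, map_smul, t4e_pd_one hδ, smul_zero]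
  | add a b _ _ ha hb => rw [map_add, ha, hb, add_zero]
  | mul a b _ _ ha hb => rw [hδ, ha, hb, mul_zero, mul_zero, add_zero]

private theorem t4e_D (hft : Algebra.FiniteType k R) (y : R →ₐ[k] k)
    (hlb : ∀ d : ℕ, (∀ n, ∀ r ∈ 𝒜 n, y r ≠ 0 → d ∣ n) → d = 1) :
    ∃ D₀ : ℕ, (∀ D ≥ D₀, ∃ r ∈ 𝒜 D, y r = 1) ∧ ∀ D ≥ D₀, (D : k) ≠ 0 → ∀ δ : R →ₗ[k] k,
      (∀ a b, δ (a * b) = y a * δ b + y b * δ a) → (∀ r ∈ 𝒜 D, δ r = 0) → δ = 0 := by
  obtain ⟨J, hJ⟩ := t4e_J (𝒜 := 𝒜) hft
  obtain ⟨n, hn, a, ha, b, hb, ha', hb'⟩ := t4e_S y hlb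
  have hmon1 : ∀ α β : ℕ, y (a ^ α * b ^ β) = 1 := by
    intro α β
    rw [map_mul, map_pow, map_pow, ha', hb', one_pow, one_pow, one_mul]
  refine ⟨n * n + (n + 1) * n + J, ?_, ?_⟩
  · intro D hD
    obtain ⟨α, β, h⟩ := t4e_rep (n := n) (m := D) hn (by
      have : 0 ≤ (n + 1) * n := Nat.zero_le _
      omega)
    exact ⟨a ^ α * b ^ β, h ▸ t4e_mon ha hb α β, hmon1 α β⟩
  · intro D hD hDk δ hδ h0
    obtain ⟨α, β, h⟩ := t4e_rep' (n := n) (m := D) hn (by omega)
    have e1 : δ (a ^ (α + (n + 1)) * b ^ β) = 0 := h0 _ (h ▸ t4e_mon ha hb (α + (n + 1)) β)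
    have e2 : δ (a ^ α * b ^ (β + n)) = 0 := by
      refine h0 _ ?_
      have h' : D = α * n + (β + n) * (n + 1) := by rw [h]; ring
      exact h' ▸ t4e_mon ha hb α (β + n)
    rw [t4e_pd_mon hδ ha' hb'] at e1 e2
    push_cast at e1 e2
    have hDk' : (D : k) = (α + (n + 1)) * n + β * (n + 1) := by
      rw [h]; push_cast; ring
    have e3 : ((n : k) + 1) * δ a = n * δ b := by linear_combination e1 - e2
    have e4 : (D : k) * δ a = 0 := by
      rw [hDk']
      linear_combination (n : k) * e1 + (β : k) * e3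
    have e5 : (D : k) * δ b = 0 := by
      rw [hDk']
      linear_combination ((n : k) + 1) * e1 - ((α : k) + (n + 1)) * e3
    have e6 : δ a = 0 := (mul_eq_zero.mp e4).resolve_left hDk
    have e7 : δ b = 0 := (mul_eq_zero.mp e5).resolve_left hDk
    refine hJ y δ hδ fun j hj r hr => ?_
    obtain ⟨α', β', h'⟩ := t4e_rep (n := n) (m := D - j) hn (by omega)
    have e8 : r * (a ^ α' * b ^ β') ∈ 𝒜 D := by
      have h8 := SetLike.mul_mem_graded hr (t4e_mon ha hb α' β')
      have h9 : j + (α' * n + β' * (n + 1)) = D := by rw [← h']; omega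
      rwa [h9] at h8
    have e9 := h0 _ e8
    rw [hδ, hmon1, t4e_pd_mon hδ ha' hb', e6, e7] at e9
    simpa using e9

end graded

/-! ### Brackets and differentials -/

section bracket

variable {R : Type v} [CommRing R] [Algebra k R]

private theorem t4e_bracket {P : R →ₗ[k] R →ₗ[k] R}
    (hl : ∀ a b c, P a (b * c) = P a b * c + b * P a c)
    {N : ℕ} {x : Fin N → R} {g r : R} {c : Fin N → R}
    (h : g • KaehlerDifferential.D k R r = ∑ i, c i • KaehlerDifferential.D k R (x i)) (a : R) :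
    g * P a r = ∑ i, c i * P a (x i) := by
  let D : Derivation k R R := Derivation.mk' (P a) (fun b c => by
    rw [hl, smul_eq_mul, smul_eq_mul]; ring)
  have := congrArg D.liftKaehlerDifferential h
  rw [map_smul, map_sum, Derivation.liftKaehlerDifferential_comp_D] at this
  rw [← smul_eq_mul, show P a r = D r from rfl, this]
  refine Finset.sum_congr rfl fun i _ => ?_
  rw [map_smul, Derivation.liftKaehlerDifferential_comp_D, smul_eq_mul]
  rfl

private theorem t4e_det_mem {𝒜 : ℕ → Submodule k R} [GradedAlgebra 𝒜] {N : ℕ}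
    (M : Matrix (Fin N) (Fin N) R) (a b : Fin N → ℕ) (h : ∀ i j, M i j ∈ 𝒜 (a i + b j)) :
    M.det ∈ 𝒜 (∑ i, a i + ∑ i, b i) := by
  rw [Matrix.det_apply]
  refine Submodule.sum_mem _ fun σ _ => ?_
  have h1 := SetLike.prod_mem_graded 𝒜 (fun i => a (σ i) + b i) (fun i => M (σ i) i)
    (F := Finset.univ) fun i _ => h (σ i) i
  rw [Finset.sum_add_distrib, Equiv.sum_comp σ a] at h1
  rcases Int.units_eq_one_or (Equiv.Perm.sign σ) with hs | hs
  · rw [hs, one_smul]; exact h1
  · rw [hs, Units.neg_smul, one_smul]; exact Submodule.neg_mem _ h1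

private theorem t4e_skew {P : R →ₗ[k] R →ₗ[k] R} (ha : ∀ a, P a a = 0) (a b : R) :
    P a b = - P b a := by
  have h := ha (a + b)
  rw [map_add, map_add, LinearMap.add_apply, LinearMap.add_apply, ha, ha, zero_add,
    add_zero] at h
  exact eq_neg_of_add_eq_zero_right h

private theorem t4e_point {𝒜 : ℕ → Submodule k R} [GradedAlgebra 𝒜] {P : R →ₗ[k] R →ₗ[k] R}
    (hP : IsPM 𝒜 P) {N : ℕ} {x : Fin N → R} {d : Fin N → ℕ} {g : R} (hfr : IsFr 𝒜 x d g)
    (y : R →ₐ[k] k) (hg : y g ≠ 0) {D : ℕ} (hD : 0 < D) {z : Fin N → R} (hz : ∀ i, z i ∈ 𝒜 D)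
    (hdet : y (Matrix.of fun j i => P (x j) (z i)).det ≠ 0) :
    y (brM P z).det ≠ 0 ∧ ∃ l, ∃ h ∈ 𝒜 l, y h ≠ 0 ∧ ∀ r, h • KaehlerDifferential.D k R r ∈
      Submodule.span R (Set.range fun i => KaehlerDifferential.D k R (z i)) := by
  set B : Matrix (Fin N) (Fin N) R := Matrix.of fun j i => P (x j) (z i) with hB
  choose C hC using fun i => hfr.gen (z i)
  let Cm : Matrix (Fin N) (Fin N) R := Matrix.of C
  have h1 : g • B = brM P x * Cm.transpose := by
    ext j i
    rw [Matrix.smul_apply, Matrix.mul_apply, smul_eq_mul]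
    rw [show B j i = P (x j) (z i) from rfl, t4e_bracket hP.leibniz (hC i) (x j)]
    exact Finset.sum_congr rfl fun l _ => mul_comm _ _
  have h2 : g ^ N * B.det = (brM P x).det * Cm.det := by
    have := congrArg Matrix.det h1
    rwa [Matrix.det_smul, Matrix.det_mul, Matrix.det_transpose, Fintype.card_fin] at this
  have h3 : g • (brM P z).transpose = -(Cm * B) := by
    ext i l
    rw [Matrix.smul_apply, Matrix.neg_apply, Matrix.mul_apply, smul_eq_mul]
    rw [show (brM P z).transpose i l = P (z l) (z i) from rfl,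
      t4e_bracket hP.leibniz (hC i) (z l), ← Finset.sum_neg_distrib]
    refine Finset.sum_congr rfl fun m _ => ?_
    rw [t4e_skew hP.alternating (z l) (x m), mul_neg]
    rfl
  have h4 : g ^ N * (brM P z).det = (-1) ^ N * (Cm.det * B.det) := by
    have := congrArg Matrix.det h3
    rwa [Matrix.det_smul, Matrix.det_neg, Matrix.det_mul, Matrix.det_transpose,
      Fintype.card_fin] at this
  have h5 : y Cm.det ≠ 0 := by
    intro h0
    have := congrArg y h2
    rw [map_mul, map_mul, h0, mul_zero, map_pow] at this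
    exact mul_ne_zero (pow_ne_zero _ hg) hdet this
  refine ⟨?_, ?_⟩
  · intro h0
    have := congrArg y h4
    rw [map_mul, h0, mul_zero, map_mul, map_mul, map_pow, map_neg, map_one] at this
    exact mul_ne_zero (pow_ne_zero _ (neg_ne_zero.mpr one_ne_zero)) (mul_ne_zero h5 hdet) this.symm
  · obtain ⟨l, hl⟩ := hfr.ghom
    refine ⟨(N + 1) * l + (∑ i, d i + ∑ _i : Fin N, (D - 1)), g ^ (N + 1) * B.det, ?_, ?_, ?_⟩
    · have hg' := SetLike.pow_mem_graded (N + 1) hl
      refine SetLike.mul_mem_graded (by simpa [smul_eq_mul] using hg') ?_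
      refine t4e_det_mem B d (fun _ => D - 1) fun j i => ?_
      exact hP.degree (d j) D _ (by omega) _ (hfr.hom j) _ (hz i)
    · rw [map_mul, map_pow]
      exact mul_ne_zero (pow_ne_zero _ hg) hdet
    · intro r
      have h6 : g ^ (N + 1) * B.det = (brM P x).det * (Cm.det * g) := by
        rw [pow_succ, mul_right_comm, h2]; ring
      rw [h6, mul_smul, mul_smul]
      refine Submodule.smul_mem _ _ ?_
      obtain ⟨c, hc⟩ := hfr.gen r
      rw [hc, Finset.smul_sum]
      refine Submodule.sum_mem _ fun l _ => ?_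
      rw [smul_comm]
      refine Submodule.smul_mem _ _ ?_
      have h7 : Cm.det • KaehlerDifferential.D k R (x l) =
          ∑ i, Cm.adjugate l i • (g • KaehlerDifferential.D k R (z i)) := by
        have h8 : ∀ i, Cm.adjugate l i • (g • KaehlerDifferential.D k R (z i)) =
            ∑ m, (Cm.adjugate l i * Cm i m) • KaehlerDifferential.D k R (x m) := by
          intro i
          rw [hC i, Finset.smul_sum]
          exact Finset.sum_congr rfl fun m _ => by rw [smul_smul]; rfl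
        rw [Finset.sum_congr rfl fun i _ => h8 i, Finset.sum_comm]
        have h9 : ∀ m, ∑ i, (Cm.adjugate l i * Cm i m) • KaehlerDifferential.D k R (x m) =
            ((Cm.det • (1 : Matrix (Fin N) (Fin N) R)) l m) • KaehlerDifferential.D k R (x m) := by
          intro m
          rw [← Finset.sum_smul, ← Matrix.adjugate_mul, Matrix.mul_apply]
        rw [Finset.sum_congr rfl fun m _ => h9 m, Finset.sum_eq_single l]
        · rw [Matrix.smul_apply, Matrix.one_apply_eq, smul_eq_mul, mul_one]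
        · intro m _ hm
          rw [Matrix.smul_apply, Matrix.one_apply_ne (Ne.symm hm), smul_zero, zero_smul]
        · intro h; exact absurd (Finset.mem_univ _) h
      rw [h7]
      refine Submodule.sum_mem _ fun i _ => Submodule.smul_mem _ _ (Submodule.smul_mem _ _ ?_)
      exact Submodule.subset_span ⟨i, rfl⟩

private theorem t4e_surj {𝒜 : ℕ → Submodule k R} [GradedAlgebra 𝒜] {P : R →ₗ[k] R →ₗ[k] R}
    (hP : IsPM 𝒜 P) {N : ℕ} {x : Fin N → R} (y : R →ₐ[k] k) (hdet : y (brM P x).det ≠ 0) {D : ℕ}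
    (hD : ∀ δ : R →ₗ[k] k, (∀ a b, δ (a * b) = y a * δ b + y b * δ a) →
      (∀ r ∈ 𝒜 D, δ r = 0) → δ = 0) :
    Function.Surjective (LinearMap.pi (fun j => y.toLinearMap ∘ₗ P (x j) ∘ₗ (𝒜 D).subtype) :
      𝒜 D →ₗ[k] (Fin N → k)) := by
  rw [← LinearMap.range_eq_top]
  by_contra hne
  obtain ⟨f, hf, hle⟩ := Submodule.exists_le_ker_of_lt_top _ (lt_top_iff_ne_top.mpr hne)
  apply hf
  let Q : R →ₗ[k] (Fin N → k) := LinearMap.pi (fun j => y.toLinearMap ∘ₗ P (x j))
  have hQ : ∀ r j, Q r j = y (P (x j) r) := fun r j => rfl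
  have hδ : f ∘ₗ Q = 0 := by
    refine hD _ ?_ ?_
    · intro a b
      have h1 : Q (a * b) = y a • Q b + y b • Q a := by
        funext j
        rw [Pi.add_apply, Pi.smul_apply, Pi.smul_apply, hQ, hQ, hQ, smul_eq_mul, smul_eq_mul,
          hP.leibniz, map_add, map_mul, map_mul]
        ring
      rw [LinearMap.comp_apply, LinearMap.comp_apply, LinearMap.comp_apply, h1, map_add,
        map_smul, map_smul, smul_eq_mul, smul_eq_mul]
    · intro r hr
      exact hle ⟨⟨r, hr⟩, rfl⟩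
  have hc : (fun j => f (fun i => if j = i then 1 else 0)) = 0 := by
    refine Matrix.eq_zero_of_vecMul_eq_zero (M := y.mapMatrix (brM P x)) ?_ ?_
    · rwa [← AlgHom.map_det]
    · funext l
      have h1 : f (Q (x l)) = 0 := by
        rw [← LinearMap.comp_apply, hδ, LinearMap.zero_apply]
      rw [LinearMap.pi_apply_eq_sum_univ f] at h1
      have h2 : (Matrix.vecMul (fun j => f (fun i => if j = i then 1 else 0))
          (y.mapMatrix (brM P x))) l =
          ∑ j, Q (x l) j • f (fun i => if j = i then 1 else 0) := by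
        rw [Matrix.vecMul, dotProduct]
        refine Finset.sum_congr rfl fun j _ => ?_
        rw [smul_eq_mul, mul_comm]
        rfl
      rw [h2, h1, Pi.zero_apply]
  refine LinearMap.ext fun v => ?_
  rw [LinearMap.pi_apply_eq_sum_univ f, LinearMap.zero_apply]
  refine Finset.sum_eq_zero fun j _ => ?_
  have := congrFun hc j
  simp only [Pi.zero_apply] at this
  rw [this, smul_zero]

private def t4e_I (k : Type u) [Field k] {R : Type v} [CommRing R] [Algebra k R] {N : ℕ}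
    (z : Fin N → R) : Submodule k R where
  carrier := {h | ∀ r, h • KaehlerDifferential.D k R r ∈
    Submodule.span R (Set.range fun i => KaehlerDifferential.D k R (z i))}
  add_mem' := fun ha hb r => by rw [add_smul]; exact add_mem (ha r) (hb r)
  zero_mem' := fun r => by rw [zero_smul]; exact zero_mem _
  smul_mem' := fun c a ha r => by
    rw [Algebra.smul_def, mul_smul]
    exact Submodule.smul_mem _ _ (ha r)

end bracket

theorem t4e_frame_finset {R : Type v} [CommRing R] [Algebra k R] {𝒜 : ℕ → Submodule k R}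
    [GradedAlgebra 𝒜] {P : R →ₗ[k] R →ₗ[k] R} [Infinite k]
    (hP : IsPM 𝒜 P) {N : ℕ} (Y : Set (R →ₐ[k] k)) (hY : Y.Finite) (hNV : ∀ y ∈ Y, NV 𝒜 y)
    (hrk : ∀ y ∈ Y, HasRk 𝒜 P y N) :
    ∃ (x : Fin N → R) (d : Fin N → ℕ) (g : R), IsFr 𝒜 x d g ∧
      ∀ y ∈ Y, y (g * (brM P x).det) ≠ 0 := by
  classical
  have : Finite Y := hY
  choose D₀ hD₀ hD₀' using fun y : Y => t4e_D (𝒜 := 𝒜) hP.finiteType y.1
    (hP.lineBundle y.1 (hNV y.1 y.2))
  obtain ⟨b, hb⟩ : ∃ b, ∀ y : Y, D₀ y ≤ b := by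
    obtain ⟨b, hb⟩ := (Set.finite_range D₀).bddAbove
    exact ⟨b, fun y => hb ⟨y, rfl⟩⟩
  obtain ⟨D, hDb, hDpos, hDk⟩ : ∃ D, b ≤ D ∧ 0 < D ∧ (D : k) ≠ 0 := by
    by_cases h1 : ((b + 1 : ℕ) : k) = 0
    · refine ⟨b + 2, by omega, by omega, ?_⟩
      intro h2
      push_cast at h1 h2
      have h3 : (1 : k) = 0 := by linear_combination h2 - h1
      exact one_ne_zero h3
    · exact ⟨b + 1, by omega, by omega, h1⟩
  choose x d g hfr hne using fun y : Y => hrk y.1 y.2
  have hg : ∀ y : Y, y.1 (g y) ≠ 0 := fun y h => hne y (by rw [map_mul, h, zero_mul])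
  have hM : ∀ y : Y, y.1 (brM P (x y)).det ≠ 0 := fun y h => hne y (by rw [map_mul, h, mul_zero])
  obtain ⟨z, hz⟩ := t4e_exists_li (fun y : Y => (LinearMap.pi (fun j => y.1.toLinearMap ∘ₗ
    P (x y j) ∘ₗ (𝒜 D).subtype) : 𝒜 D →ₗ[k] (Fin N → k)))
    (fun y => t4e_surj hP y.1 (hM y) (hD₀' y D ((hb y).trans hDb) hDk)) N le_rfl
  have hdet : ∀ y : Y, y.1 (Matrix.of fun j i => P (x y j) (z i : R)).det ≠ 0 := by
    intro y
    have h1 : IsUnit (Matrix.of fun i j => y.1 (P (x y j) (z i : R)) : Matrix (Fin N) (Fin N) k) :=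
      Matrix.linearIndependent_rows_iff_isUnit.mp (hz y)
    rw [Matrix.isUnit_iff_isUnit_det, isUnit_iff_ne_zero] at h1
    rw [AlgHom.map_det, ← Matrix.det_transpose]
    exact h1
  have hpt := fun y : Y => t4e_point hP (hfr y) y.1 (hg y) hDpos (z := fun i => (z i : R))
    (fun i => (z i).2) (hdet y)
  choose l h hmem hyne hspan using fun y : Y => (hpt y).2
  obtain ⟨c, hc⟩ : ∃ c, ∀ y : Y, l y + D₀ y ≤ c := by
    obtain ⟨c, hc⟩ := (Set.finite_range fun y => l y + D₀ y).bddAbove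
    exact ⟨c, fun y => hc ⟨y, rfl⟩⟩
  let W : Submodule k R := 𝒜 c ⊓ t4e_I k (fun i => (z i : R))
  obtain ⟨w, hw⟩ := t4e_avoid (fun y : Y => LinearMap.ker (y.1.toLinearMap ∘ₗ W.subtype)) (by
    intro y htop
    obtain ⟨r, hr, hr1⟩ := hD₀ y (c - l y) (by have := hc y; omega)
    have h1 : h y * r ∈ W := by
      refine ⟨?_, ?_⟩
      · have h2 := SetLike.mul_mem_graded (hmem y) hr
        have h3 : l y + (c - l y) = c := by have := hc y; omega
        rwa [h3] at h2
      · intro s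
        rw [mul_comm, mul_smul]
        exact Submodule.smul_mem _ _ (hspan y s)
    have h4 : (⟨h y * r, h1⟩ : W) ∈ LinearMap.ker (y.1.toLinearMap ∘ₗ W.subtype) := by
      rw [htop]; trivial
    rw [LinearMap.mem_ker] at h4
    have h5 : y.1 (h y * r) = 0 := h4
    rw [map_mul, hr1, mul_one] at h5
    exact hyne y h5)
  refine ⟨fun i => (z i : R), fun _ => D, w, ⟨fun i => (z i).2, ⟨c, w.2.1⟩, fun r => ?_⟩, ?_⟩
  · have h1 := w.2.2 r
    rw [Submodule.mem_span_range_iff_exists_fun] at h1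
    obtain ⟨c', hc'⟩ := h1
    exact ⟨c', hc'.symm⟩
  · intro y hy
    rw [map_mul]
    refine mul_ne_zero ?_ (hpt ⟨y, hy⟩).1
    intro h0
    exact hw ⟨y, hy⟩ (LinearMap.mem_ker.mpr h0)

end Vale.Agent.P292.Mo


namespace Vale.Agent.P292.Dv

universe u

variable {R : Type u} [CommRing R] [Algebra ℂ R] {𝒜 : ℕ → Submodule ℂ R} [GradedAlgebra 𝒜]
  {P : R →ₗ[ℂ] R →ₗ[ℂ] R}

/-- G2: N5 `exists_frame_finset`, over `ℂ`. -/
theorem t4_frame_finset (hP : Mo.IsPM 𝒜 P) {N : ℕ} (Y : Set (R →ₐ[ℂ] ℂ)) (hY : Y.Finite)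
    (hNV : ∀ y ∈ Y, Mo.NV 𝒜 y) (hrk : ∀ y ∈ Y, Mo.HasRk 𝒜 P y N) :
    ∃ (x : Fin N → R) (d : Fin N → ℕ) (g : R), Mo.IsFr 𝒜 x d g ∧
      ∀ y ∈ Y, y (g * (Mo.brM P x).det) ≠ 0 :=
  Mo.t4e_frame_finset hP Y hY hNV hrk

end Vale.Agent.P292.Dv
end

section

/-! # Part III: the dimension lemma, commutative algebra -/

namespace Vale.Agent.P292.Dv

open TensorProduct MvPolynomial Vale.Agent.P292.Mo

section obs
variable {k : Type*} [Field k] {σ : Type*} [Fintype σ]

/-- A version of `exists_small_obs` with extra equations `g`. -/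
theorem exists_small_obs' (J : Ideal (MvPolynomial σ k)) (hJ : J ≤ m0 k σ) {s : ℕ}
    (g : Fin s → MvPolynomial σ k) (hg : ∀ i, g i ∈ m0 k σ) {N : ℕ}
    (hN : 0 < N) (hart : m0 k σ ^ N ≤ (J ⊔ Ideal.span (Set.range g)) ⊔ m0 k σ ^ (N + 1)) :
    ∃ L : Ideal (MvPolynomial σ k), J ≤ L ∧ L ≤ m0 k σ ∧
      ∃ e₁ : (MvPolynomial σ k ⧸ (m0 k σ * L)) →ₐ[k] k,
        (∀ f, e₁ (Ideal.Quotient.mk _ f) = MvPolynomial.constantCoeff f) ∧
        IsSmall (Ideal.Quotient.factorₐ k (Ideal.mul_le_right : m0 k σ * L ≤ L)) e₁ ∧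
        ∀ {E : Type*} [AddCommGroup E] [Module k E] [Module.Finite k E]
          (obs : Module.Dual k (MvPolynomial σ k ⧸ (m0 k σ * L)) →ₗ[k] E),
          (∀ l, obs l = 0 → ∃ c : σ → k, ∀ f ∈ J,
            l (Ideal.Quotient.mk _ f) = - ∑ s, c s * coeff (Finsupp.single s 1) f) →
          Module.finrank k (tanJ J) ≤ Module.finrank k E + s := by
  classical
  set J' : Ideal (MvPolynomial σ k) := J ⊔ Ideal.span (Set.range g) with hJ'
  have hgJ' : ∀ i, g i ∈ J' := fun i => Ideal.mem_sup_right (Ideal.subset_span ⟨i, rfl⟩)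
  have hJ'm : J' ≤ m0 k σ := sup_le hJ (Ideal.span_le.2 (by rintro _ ⟨i, rfl⟩; exact hg i))
  let L : Ideal (MvPolynomial σ k) := J' ⊔ m0 k σ ^ N
  have hJ'L : J' ≤ L := le_sup_left
  have hJL : J ≤ L := le_sup_left.trans hJ'L
  have hNL : m0 k σ ^ N ≤ L := le_sup_right
  have hL : L ≤ m0 k σ := sup_le hJ'm (Ideal.pow_le_self hN.ne')
  have hLJ : L ≤ J' ⊔ m0 k σ * L := by
    refine sup_le le_sup_left (hart.trans (sup_le_sup_left ?_ J'))
    rw [pow_succ']
    exact Ideal.mul_mono_right hNL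
  refine ⟨L, hJL, hL, scE (m0 k σ * L) (Ideal.mul_le_right.trans hL), scE_mk _ _,
    sc_isSmall L hL hNL, ?_⟩
  intro E _ _ _ obs hobs
  have hfin := scW_finite L
  have hcard := card_le_scW L hL hNL
  obtain ⟨p, hp⟩ := (scW L).subtype.exists_leftInverse_of_injective (by simp)
  have hp' : ∀ w : scW L, p (w : MvPolynomial σ k ⧸ (m0 k σ * L)) = w := fun w =>
    LinearMap.congr_fun hp w
  -- obstructions of functionals on `W`
  let obs' : Module.Dual k (scW L) →ₗ[k] E := obs ∘ₗ (Module.Dual.transpose p)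
  -- restriction to `J`
  let Res : Module.Dual k (scW L) →ₗ[k] (↥(J.restrictScalars k) →ₗ[k] k) :=
    LinearMap.lcomp k k (scRes J L hJL)
  -- values at `g`
  let Ev : Module.Dual k (scW L) →ₗ[k] (Fin s → k) :=
    { toFun := fun l i => l ⟨_, mk_mem_scW (hJ'L (hgJ' i))⟩
      map_add' := fun a b => rfl
      map_smul' := fun a b => rfl }
  have hinj : ∀ l, Res l = 0 → Ev l = 0 → l = 0 := by
    intro l h1 h2
    ext w
    obtain ⟨⟨y, hy⟩, rfl⟩ := scRes_surjective J' L hJ'L hLJ w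
    obtain ⟨a, ha, b, hb, hab⟩ := Submodule.mem_sup.mp (show y ∈ J ⊔ Ideal.span (Set.range g)
      from hy)
    obtain ⟨c, hc⟩ := (Ideal.mem_span_range_iff_exists_fun).1 hb
    have h3 : ((scRes J' L hJ'L ⟨y, hy⟩ : scW L)) = (scRes J L hJL ⟨a, ha⟩) +
        ∑ i, constantCoeff (c i) • (⟨_, mk_mem_scW (hJ'L (hgJ' i))⟩ : scW L) := by
      refine Subtype.ext ?_
      rw [Submodule.coe_add, scRes_coe, scRes_coe, AddSubmonoidClass.coe_finsetSum]
      simp only [Submodule.coe_smul]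
      rw [← hab, map_add, ← hc, map_sum]
      congr 1
      refine Finset.sum_congr rfl fun i _ => ?_
      have h4 : constantCoeff (c i) • Ideal.Quotient.mk (m0 k σ * L) (g i) =
          Ideal.Quotient.mk (m0 k σ * L) (C (constantCoeff (c i)) * g i) := by
        rw [← MvPolynomial.smul_eq_C_mul]
        rfl
      rw [h4, Ideal.Quotient.mk_eq_mk_iff_sub_mem, ← sub_mul]
      exact Ideal.mul_mem_mul (sc_sub_mem _) (hJ'L (hgJ' i))
    rw [h3, map_add, map_sum]
    have h5 : l (scRes J L hJL ⟨a, ha⟩) = 0 := LinearMap.congr_fun h1 ⟨a, ha⟩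
    have h6 : ∀ i, l ⟨_, mk_mem_scW (hJ'L (hgJ' i))⟩ = 0 := fun i => congrFun h2 i
    rw [h5, zero_add, LinearMap.zero_apply]
    refine Finset.sum_eq_zero fun i _ => ?_
    rw [map_smul, h6, smul_zero]
  have hmap : ∀ l ∈ LinearMap.ker obs', Res l ∈ LinearMap.range (scPhi J) := by
    intro l hl
    obtain ⟨c, hc⟩ := hobs (l ∘ₗ p) hl
    refine ⟨c, ?_⟩
    ext f
    rw [scPhi_apply, ← hc f f.2]
    change l (p (Ideal.Quotient.mk _ (f : MvPolynomial σ k))) = l (scRes J L hJL f)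
    rw [← scRes_coe J L hJL f, hp']
  let ob2 : Module.Dual k (scW L) →ₗ[k] (E × (Fin s → k)) := obs'.prod Ev
  have hk1 : ∀ l ∈ LinearMap.ker ob2, l ∈ LinearMap.ker obs' := fun l hl => congrArg Prod.fst hl
  have hk2 : ∀ l ∈ LinearMap.ker ob2, Ev l = 0 := fun l hl => congrArg Prod.snd hl
  let F : LinearMap.ker ob2 →ₗ[k] ↥(LinearMap.range (scPhi J)) :=
    (Res.domRestrict _).codRestrict (LinearMap.range (scPhi J))
      (fun l => hmap l.1 (hk1 _ l.2))
  have hF : Function.Injective F := by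
    intro a b hab
    have h1 : Res a.1 = Res b.1 := congrArg Subtype.val hab
    have h2 : a.1 - b.1 = 0 := hinj _ (by rw [map_sub, h1, sub_self])
      (hk2 _ (sub_mem a.2 b.2))
    exact Subtype.ext (sub_eq_zero.1 h2)
  have e0 := LinearMap.finrank_le_finrank_of_injective hF
  have e1 := (LinearMap.ker ob2).finrank_quotient_add_finrank
  have e2 := ob2.quotKerEquivRange.finrank_eq
  have e3 : Module.finrank k (LinearMap.range ob2) ≤ Module.finrank k (E × (Fin s → k)) :=
    Submodule.finrank_le _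
  rw [Module.finrank_prod, Module.finrank_fin_fun] at e3
  have e4 := (scPhi J).finrank_range_add_finrank_ker
  rw [ker_scPhi, Module.finrank_fintype_fun_eq_card] at e4
  have e7 : Module.finrank k (Module.Dual k (scW L)) = Module.finrank k (scW L) :=
    Subspace.dual_finrank_eq
  omega

theorem exists_pow_le_of_minimal {A : Type*} [CommRing A] [IsNoetherianRing A] {I m : Ideal A}
    (hm : m ∈ I.minimalPrimes) : ∃ N, 0 < N ∧ ∃ T, T ∉ m ∧ ∀ f ∈ m ^ N, T * f ∈ I := by
  have hmp : m.IsPrime := hm.1.1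
  have h1 := IsLocalization.AtPrime.radical_map_of_mem_minimalPrimes (Localization.AtPrime m) m I hm
  have h2 : IsNoetherianRing (Localization.AtPrime m) :=
    IsLocalization.isNoetherianRing m.primeCompl _ inferInstance
  obtain ⟨N, hN⟩ := Ideal.exists_pow_le_of_le_radical_of_fg
    (I := IsLocalRing.maximalIdeal (Localization.AtPrime m))
    (J := I.map (algebraMap A (Localization.AtPrime m)))
    (by rw [h1, Localization.AtPrime.map_eq_maximalIdeal])
    (IsNoetherian.noetherian _)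
  have hfg : (m ^ (N + 1)).FG := IsNoetherian.noetherian _
  have h3 : ∀ f ∈ m ^ (N + 1), ∃ t, t ∉ m ∧ t * f ∈ I := by
    intro f hf
    have h4 : algebraMap A (Localization.AtPrime m) f ∈ I.map (algebraMap A _) := by
      refine hN (Ideal.pow_le_pow_right (Nat.le_succ N) ?_)
      rw [← Localization.AtPrime.map_eq_maximalIdeal, ← Ideal.map_pow]
      exact Ideal.mem_map_of_mem _ hf
    rw [IsLocalization.mem_map_algebraMap_iff m.primeCompl] at h4
    obtain ⟨⟨i, t⟩, h5⟩ := h4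
    simp only at h5
    rw [← map_mul, IsLocalization.eq_iff_exists m.primeCompl] at h5
    obtain ⟨c, h6⟩ := h5
    refine ⟨c * t, fun h => (hmp.mem_or_mem h).elim c.2 t.2, ?_⟩
    have h7 : (c * t : A) * f = c * (f * t) := by ring
    rw [h7, h6]
    exact I.mul_mem_left _ i.2
  obtain ⟨S, hS⟩ := hfg
  have h4 : ∀ f ∈ S, ∃ t, t ∉ m ∧ t * f ∈ I := fun f hf => h3 f (hS ▸ Ideal.subset_span hf)
  choose! t ht1 ht2 using h4
  refine ⟨N + 1, Nat.succ_pos N, ∏ f ∈ S, t f, ?_, ?_⟩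
  · intro h
    obtain ⟨f, hf, h5⟩ := (hmp.prod_mem_iff).1 h
    exact ht1 f hf h5
  · intro f hf
    rw [← hS] at hf
    induction hf using Submodule.span_induction with
    | mem x hx =>
      obtain ⟨c, hc⟩ := Finset.dvd_prod_of_mem t (Finset.mem_coe.1 hx)
      rw [hc, mul_comm (t x), mul_assoc]
      exact I.mul_mem_left _ (ht2 x hx)
    | zero => rw [mul_zero]; exact I.zero_mem
    | add x y _ _ hx hy => rw [mul_add]; exact I.add_mem hx hy
    | smul a x _ hx =>
      rw [smul_eq_mul, mul_left_comm]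
      exact I.mul_mem_left _ hx

/-- Artinian at the origin -/
theorem pow_le_of_minimal {k : Type*} [Field k] {σ : Type*} [Finite σ]
    (J : Ideal (MvPolynomial σ k)) (hm : m0 k σ ∈ J.minimalPrimes) :
    ∃ N, 0 < N ∧ m0 k σ ^ N ≤ J ⊔ m0 k σ ^ (N + 1) := by
  obtain ⟨N, hN, T, hT, h⟩ := exists_pow_le_of_minimal hm
  refine ⟨N, hN, fun g hg => ?_⟩
  have ht0 : constantCoeff T ≠ 0 := hT
  have h6 : T - C (constantCoeff T) ∈ m0 k σ := sc_sub_mem T
  have h7 : C (constantCoeff T) * g ∈ J ⊔ m0 k σ ^ (N + 1) := by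
    have h8 : C (constantCoeff T) * g = T * g - (T - C (constantCoeff T)) * g := by ring
    rw [h8]
    refine Ideal.sub_mem _ (Ideal.mem_sup_left (h g hg)) (Ideal.mem_sup_right ?_)
    rw [pow_succ' _ N]
    exact Ideal.mul_mem_mul h6 hg
  have h9 : g = C (constantCoeff T)⁻¹ * (C (constantCoeff T) * g) := by
    rw [← mul_assoc, ← C_mul, inv_mul_cancel₀ ht0, C_1, one_mul]
  rw [h9]
  exact Ideal.mul_mem_left _ _ h7

end obs

/-- equations cutting out the origin -/
theorem exists_eqs {k : Type*} [Field k] {σ : Type*} [Finite σ]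
    (J : Ideal (MvPolynomial σ k)) (m : Ideal (MvPolynomial σ k ⧸ J)) [m.IsPrime]
    (hm : m.comap (Ideal.Quotient.mk J) = m0 k σ) :
    ∃ (s : ℕ) (g : Fin s → MvPolynomial σ k), (s : ℕ∞) = m.height ∧ (∀ i, g i ∈ m0 k σ) ∧
      m0 k σ ∈ (J ⊔ Ideal.span (Set.range g)).minimalPrimes := by
  classical
  obtain ⟨S, hS, hcard⟩ := m.exists_finset_card_eq_height_of_isNoetherianRing
  let g : Fin S.card → MvPolynomial σ k := fun i =>
    (Ideal.Quotient.mk_surjective (S.equivFin.symm i : MvPolynomial σ k ⧸ J)).choose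
  have hg : ∀ i, Ideal.Quotient.mk J (g i) = S.equivFin.symm i := fun i =>
    (Ideal.Quotient.mk_surjective (S.equivFin.symm i : MvPolynomial σ k ⧸ J)).choose_spec
  have hgm : ∀ i, g i ∈ m0 k σ := by
    intro i
    rw [← hm, Ideal.mem_comap, hg]
    exact hS.1.2 (Ideal.subset_span (S.equivFin.symm i).2)
  refine ⟨S.card, g, hcard, hgm, ?_⟩
  have h1 : (Ideal.span (S : Set (MvPolynomial σ k ⧸ J))).comap (Ideal.Quotient.mk J) =
      J ⊔ Ideal.span (Set.range g) := by
    have h2 : Ideal.span (S : Set (MvPolynomial σ k ⧸ J)) =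
        (Ideal.span (Set.range g)).map (Ideal.Quotient.mk J) := by
      rw [Ideal.map_span, ← Set.range_comp]
      congr 1
      ext z
      constructor
      · intro hz
        exact ⟨S.equivFin ⟨z, hz⟩, by rw [Function.comp_apply, hg, Equiv.symm_apply_apply]⟩
      · rintro ⟨i, rfl⟩
        rw [Function.comp_apply, hg]
        exact (S.equivFin.symm i).2
    rw [h2, Ideal.comap_map_of_surjective _ Ideal.Quotient.mk_surjective, sup_comm]
    congr 1
    rw [← RingHom.ker_eq_comap_bot, Ideal.mk_ker]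
  rw [← h1, Ideal.comap_minimalPrimes_eq_of_surjective Ideal.Quotient.mk_surjective]
  exact ⟨m, hS, hm⟩

/-- a finite type domain with a chain of primes of length `h` has `h` independent elements -/
theorem exists_indep_of_chain {k : Type*} [Field k] {D : Type*} [CommRing D] [IsDomain D]
    [Algebra k D] [Algebra.FiniteType k D] {h : ℕ} (hh : (h : WithBot ℕ∞) ≤ ringKrullDim D) :
    ∃ (s : ℕ) (x : Fin s → D), h ≤ s ∧ AlgebraicIndependent k x := by
  obtain ⟨s, g, hg, hfin⟩ := exists_finite_inj_algHom_of_fg k D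
  refine ⟨s, fun i => g (X i), ?_, ?_⟩
  · let _ : Algebra (MvPolynomial (Fin s) k) D := g.toRingHom.toAlgebra
    have hint : Algebra.IsIntegral (MvPolynomial (Fin s) k) D := ⟨fun x =>
      (RingHom.Finite.to_isIntegral hfin) x⟩
    have h1 : ringKrullDim D ≤ ringKrullDim (MvPolynomial (Fin s) k) := by
      refine Order.krullDim_le_of_strictMono (PrimeSpectrum.comap (algebraMap _ D)) ?_
      intro a b hab
      obtain ⟨x, hxb, hxa⟩ := SetLike.exists_of_lt (show a.asIdeal < b.asIdeal from hab)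
      exact Ideal.comap_lt_comap_of_integral_mem_sdiff (le_of_lt (show a.asIdeal < b.asIdeal
        from hab)) ⟨hxb, hxa⟩ (hint.isIntegral x)
    rw [MvPolynomial.ringKrullDim_of_isNoetherianRing, ringKrullDim_eq_zero_of_field,
      zero_add, Nat.card_fin] at h1
    exact_mod_cast hh.trans h1
  · have h2 : (aeval fun i => g (X i) : MvPolynomial (Fin s) k →ₐ[k] D) = g := by
      refine MvPolynomial.algHom_ext fun i => ?_
      rw [aeval_X]
    rw [AlgebraicIndependent, h2]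
    exact hg

/-- the component with the longest chain -/
theorem exists_component_prime {D : Type*} [CommRing D] [IsNoetherianRing D] (m : Ideal D)
    [m.IsPrime] {h : ℕ} (hh : (h : ℕ∞) = m.height) :
    ∃ q : Ideal D, q.IsPrime ∧ q ≤ m ∧ (h : WithBot ℕ∞) ≤ ringKrullDim (D ⧸ q) := by
  obtain ⟨l, hl, hlen⟩ := m.exists_ltSeries_length_eq_height
  refine ⟨(RelSeries.head l).asIdeal, (RelSeries.head l).isPrime, ?_, ?_⟩
  · have := LTSeries.head_le_last l
    rw [hl] at this
    exact this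
  · have hlen' : l.length = h := by
      rw [← hh] at hlen
      exact_mod_cast hlen
    have h1 : ∀ i, (RelSeries.head l).asIdeal ≤ (l i).asIdeal := fun i => LTSeries.head_le l i
    let f : Fin (l.length + 1) → PrimeSpectrum (D ⧸ (RelSeries.head l).asIdeal) := fun i =>
      ⟨(l i).asIdeal.map (Ideal.Quotient.mk _), Ideal.map_isPrime_of_surjective
        Ideal.Quotient.mk_surjective (by rw [Ideal.mk_ker]; exact h1 i)⟩
    have hcomap : ∀ i, (f i).asIdeal.comap (Ideal.Quotient.mk _) = (l i).asIdeal := by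
      intro i
      change ((l i).asIdeal.map (Ideal.Quotient.mk _)).comap (Ideal.Quotient.mk _) = _
      rw [Ideal.comap_map_of_surjective _ Ideal.Quotient.mk_surjective, ← RingHom.ker_eq_comap_bot,
        Ideal.mk_ker, sup_eq_left]
      exact h1 i
    have hf : StrictMono f := by
      intro i j hij
      have h2 : (l i).asIdeal < (l j).asIdeal := l.strictMono hij
      refine lt_of_le_of_ne (Ideal.map_mono h2.le) fun h3 => ?_
      have h4 := hcomap i
      rw [h3, hcomap j] at h4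
      exact h2.ne' h4
    let l' : LTSeries (PrimeSpectrum (D ⧸ (RelSeries.head l).asIdeal)) :=
      { length := l.length
        toFun := f
        step := fun i => hf (Fin.castSucc_lt_succ) }
    rw [← hlen']
    exact Order.LTSeries.length_le_krullDim l'

end Vale.Agent.P292.Dv
end

section

/-! # Part III: the dimension lemma -/

namespace Vale.Agent.P292.Dv

open TensorProduct MvPolynomial Vale.Agent.P292.Mo

universe u v w

/-- **The dimension lemma.** -/
theorem exists_component {k : Type u} [Field k] {R : Type v} [CommRing R] [Algebra k R]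
    (𝒜 : ℕ → Submodule k R) [GradedAlgebra 𝒜] [Algebra.FiniteType k R]
    {K : Type w} [Field K] [Algebra k K] {A₀ A₁ : Subalgebra k K} {u : K} {φ : R →ₐ[k] K}
    (mp : IsMp 𝒜 A₀ A₁ u φ)
    (hsm : ∀ n, 0 < n → ∀ s ∈ 𝒜 n, Algebra.FormallySmooth k (Localization.Away s))
    (I : Submodule k K) (hI : ∀ a ∈ I, a ∈ A₀) (hIm : ∀ a ∈ A₀, ∀ b ∈ I, a * b ∈ I)
    (hfin : ∀ n, Module.Finite k (Sec A₀ A₁ u n))
    (hOb : Module.Finite k (ObS 𝒜 φ I A₁ u)) :
    ∃ (D : Type u) (_ : CommRing D) (_ : IsDomain D) (_ : Algebra k D)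
      (_ : Algebra.FiniteType k D) (e : D →ₐ[k] k) (Ψ : R →ₐ[k] D ⊗[k] K) (s : ℕ)
      (z : Fin s → D), AlgebraicIndependent k z ∧
      Module.finrank k (T0 𝒜 φ I A₁ u) ≤ Module.finrank k (ObS 𝒜 φ I A₁ u) + s ∧
      (∀ n, ∀ r ∈ 𝒜 n, Ψ r ∈ InB D (Sec A₀ A₁ u n)) ∧ (∀ r, Ψ r - 1 ⊗ₜ φ r ∈ InB D I) ∧
      (∀ r, ∀ l : K →ₗ[k] k, e (lamB D l (Ψ r)) = l (φ r)) ∧
      Algebra.adjoin k {a : D | ∃ r, ∃ l : K →ₗ[k] k, lamB D l (Ψ r) = a} = ⊤ := by
  classical
  obtain ⟨M, x, d, hx, hgen⟩ := exists_homog_gens (k := k) 𝒜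
  have hVfin : ∀ i, Module.Finite k ↥(I ⊓ Sec A₀ A₁ u (d i)) := fun i => by
    have := hfin (d i)
    exact Submodule.finiteDimensional_of_le (inf_le_right : I ⊓ Sec A₀ A₁ u (d i) ≤ _)
  set V : Fin M → Submodule k K := fun i => I ⊓ Sec A₀ A₁ u (d i) with hV
  have hVfin' : ∀ i, Module.Finite k (V i) := hVfin
  have hu := mp.u_ne
  have hφ := mp.sec
  have hφ0 : ∀ r, φ r ∈ A₀ := by
    intro r
    rw [← DirectSum.sum_support_decompose 𝒜 r, map_sum]
    exact sum_mem fun i _ => (mem_Sec.1 (hφ i _ (SetLike.coe_mem _))).1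
  let P := MvPolynomial (Idx V) k
  let τ₀ : P →ₐ[k] k := aeval (fun _ => (0 : k))
  have hτ₀X : ∀ s, τ₀ (X s) = 0 := fun s => aeval_X _ _
  have hτ₀ : ∀ f, τ₀ f = constantCoeff f := fun f => by
    have h1 : (τ₀ : P →+* k) = constantCoeff := by
      refine MvPolynomial.ringHom_ext (fun a => ?_) (fun s => ?_)
      · rw [constantCoeff_C]
        exact MvPolynomial.aeval_C _ a
      · rw [constantCoeff_X]
        exact MvPolynomial.aeval_X _ s
    exact DFunLike.congr_fun h1 f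
  set J : Ideal P := eqs x V φ with hJd
  have hJτ : J ≤ RingHom.ker τ₀ := by
    rw [hJd, eqs_le_iff]
    intro f hf
    rw [chg_pre_zero x V φ τ₀ hτ₀X, hf, map_zero, TensorProduct.tmul_zero]
  have hJ : J ≤ m0 k (Idx V) := by
    intro f hf
    have h1 : τ₀ f = 0 := hJτ hf
    rw [hτ₀] at h1
    exact h1
  let qJ : P →ₐ[k] P ⧸ J := Ideal.Quotient.mkₐ k J
  have hqJ : J ≤ RingHom.ker qJ := fun f hf => Ideal.Quotient.eq_zero_iff_mem.2 hf
  obtain ⟨Ψ, hΨ⟩ := exists_hom_of_point x hgen V φ qJ hqJ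
  let e : (P ⧸ J) →ₐ[k] k := Ideal.Quotient.liftₐ J τ₀ (fun f hf => hJτ hf)
  have he : ∀ f, e (Ideal.Quotient.mk J f) = constantCoeff f := fun f => hτ₀ f
  have hΨX : ∀ i, Ψ (x i) = chg K qJ (pre x V φ (X i)) := fun i => by
    rw [← hΨ, aeval_X]
  obtain ⟨a1, a2, a3⟩ := admissible (B := P ⧸ J) hx hgen hu hI hIm hφ hφ0 Ψ (fun i => by
    rw [hΨX]
    exact chg_pre_sub_mem x V φ qJ i)
  set m : Ideal (P ⧸ J) := RingHom.ker e with hmdef
  have hmp : m.IsPrime := RingHom.ker_isPrime _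
  have hm0 : m.comap (Ideal.Quotient.mk J) = m0 k (Idx V) := by
    ext f
    rw [Ideal.mem_comap, RingHom.mem_ker, RingHom.mem_ker, he]
  obtain ⟨s, g, hsh, hg, hmin⟩ := exists_eqs J m hm0
  have hineq : Module.finrank k (T0 𝒜 φ I A₁ u) ≤
      Module.finrank k (ObS 𝒜 φ I A₁ u) + s := by
    obtain ⟨N, hN, hart⟩ := pow_le_of_minimal (J ⊔ Ideal.span (Set.range g)) hmin
    obtain ⟨L, hJL, hLm, e₁, he₁, hs, hdim⟩ := exists_small_obs' J hJ g hg hN hart
    set π := Ideal.Quotient.factorₐ k (Ideal.mul_le_right : m0 k (Idx V) * L ≤ L) with hπ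
    let q1 : P →ₐ[k] P ⧸ (m0 k (Idx V) * L) := Ideal.Quotient.mkₐ k _
    have hq1 : ∀ s, e₁ (q1 (X s)) = 0 := fun s => by
      have h1 := he₁ (X s)
      rw [constantCoeff_X] at h1
      exact h1
    have hπq : ∀ f, π (q1 f) = Ideal.Quotient.mk L f := fun f => rfl
    have hπJ : ∀ f ∈ J, π (q1 f) = 0 := fun f hf => Ideal.Quotient.eq_zero_iff_mem.2 (hJL hf)
    obtain ⟨ΨO, hΨO⟩ := exists_hom_of_point x hgen V φ (π.comp q1) (fun f hf => hπJ f hf)
    let eO : (P ⧸ L) →ₐ[k] k := Ideal.Quotient.liftₐ L τ₀ (fun f hf => by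
      change τ₀ f = 0
      rw [hτ₀]
      exact hLm hf)
    have heO : ∀ a, eO (π a) = e₁ a := by
      intro a
      obtain ⟨f, rfl⟩ := Ideal.Quotient.mk_surjective a
      rw [he₁, ← hτ₀]
      rfl
    have heOe : eO.comp π = e₁ := AlgHom.ext heO
    have hΨOX : ∀ i, ΨO (x i) = chg K (π.comp q1) (pre x V φ (X i)) := fun i => by
      rw [← hΨO, aeval_X]
    obtain ⟨b1, b2, b3⟩ := admissible (B := P ⧸ L) hx hgen hu hI hIm hφ hφ0 ΨO (fun i => by
      rw [hΨOX]
      exact chg_pre_sub_mem x V φ (π.comp q1) i)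
    have hΨOe : ∀ r, ez K eO (ΨO r) = φ r := by
      intro r
      obtain ⟨f, rfl⟩ := hgen r
      rw [hΨO]
      refine ez_pre x V φ (π.comp q1) eO (fun s => ?_) f
      rw [AlgHom.comp_apply, heO, hq1]
    -- the two lifts
    obtain ⟨n0, hn0, s0, hs0A, hs0, hs0i⟩ := mp.unit0
    obtain ⟨n1, hn1, s1, hs1A, hs1, hs1i⟩ := mp.unit1
    obtain ⟨Ψ₀, c1, c2, c3⟩ := exists_lift0 (A₀ := A₀) (I := I) (φ := φ) hs hgen hI hIm hφ0
      (hsm n0 hn0 s0 hs0A) hs0 hs0i ΨO ((chg K q1).comp (pre x V φ))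
      (fun i => by
        rw [AlgHom.comp_apply]
        exact InB_mono _ inf_le_left (chg_pre_sub_mem x V φ q1 i))
      (fun i => by
        rw [AlgHom.comp_apply, ez_pre x V φ q1 e₁ hq1, aeval_X])
      (fun f => by
        rw [AlgHom.comp_apply, chg_comp, hΨO])
    obtain ⟨Ψ₁, d1, d2⟩ := exists_lift1 (φ := φ) hs hu hs1A (hsm n1 hn1 s1 hs1A) hs1 hs1i eO heO ΨO
      hΨOe b2
    have he0 : ∀ r, ez K e₁ (Ψ₀ r) = φ r := fun r => by
      rw [← heOe, ← ez_chg, c2, hΨOe]
    have he1 : ∀ r, ez K e₁ (Ψ₁ r) = φ r := fun r => by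
      rw [← heOe, ← ez_chg, d1, hΨOe]
    obtain ⟨ob, hob⟩ := exists_obs (𝒜 := 𝒜) (A₁ := A₁) (u := u) (I := I) hs c2 d1 he0 he1
    have h3 := hdim ob (fun l hl => key_claim hs hx hu hI hφ q1 hq1 hπJ
      (fun i => by
        rw [hΨOX, chg_comp]) c2 d1 he0 c3 d2 l (hob l hl))
    have h4 := finrank_T0_le (𝒜 := 𝒜) x d hx hgen A₀ A₁ u I hI φ
    exact h4.trans h3
  have hval : ∀ r, ∀ l : K →ₗ[k] k, e (lamB (P ⧸ J) l (Ψ r)) = l (φ r) := by
    intro r l
    rw [lamB_ez]
    obtain ⟨f, rfl⟩ := hgen r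
    rw [hΨ]
    congr 1
    exact ez_pre x V φ qJ e (fun s => by
      have h1 := he (X s)
      rw [constantCoeff_X] at h1
      exact h1) f
  have hadj : Algebra.adjoin k {a : P ⧸ J | ∃ r, ∃ l : K →ₗ[k] k,
      lamB (P ⧸ J) l (Ψ r) = a} = ⊤ := by
    set S := Algebra.adjoin k {a : P ⧸ J | ∃ r, ∃ l : K →ₗ[k] k, lamB (P ⧸ J) l (Ψ r) = a} with hS
    rw [eq_top_iff]
    rintro a -
    obtain ⟨f, rfl⟩ := Ideal.Quotient.mk_surjective a
    change qJ f ∈ S
    induction f using MvPolynomial.induction_on with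
    | C a =>
      rw [← MvPolynomial.algebraMap_eq, AlgHom.commutes]
      exact S.algebraMap_mem a
    | add p q hp hq => rw [map_add]; exact add_mem hp hq
    | mul_X p s hp =>
      rw [map_mul]
      refine mul_mem hp ?_
      obtain ⟨i, j⟩ := s
      obtain ⟨l, hl⟩ := exists_dual (Module.finBasis k (V i)) j
      have h1 : lamB (P ⧸ J) l (Ψ (x i)) = l (φ (x i)) • 1 + qJ (X ⟨i, j⟩) := by
        rw [hΨX, chg_pre_X, map_add, map_sum, lamB_tmul]
        congr 1
        simp [hl]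
      have h2 : qJ (X ⟨i, j⟩) = lamB (P ⧸ J) l (Ψ (x i)) - l (φ (x i)) • 1 := by
        rw [h1, add_sub_cancel_left]
      rw [h2]
      exact sub_mem (Algebra.subset_adjoin ⟨x i, l, rfl⟩) (S.smul_mem S.one_mem _)
  obtain ⟨q, hq, hqm, hqdim⟩ := exists_component_prime m hsh
  obtain ⟨s', z, hss', hz⟩ := exists_indep_of_chain (k := k) (D := (P ⧸ J) ⧸ q) hqdim
  let ql : (P ⧸ J) →ₐ[k] ((P ⧸ J) ⧸ q) := Ideal.Quotient.mkₐ k q
  let e' : ((P ⧸ J) ⧸ q) →ₐ[k] k := Ideal.Quotient.liftₐ q e (fun a ha => hqm ha)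
  have he' : ∀ a, e' (ql a) = e a := fun a => rfl
  refine ⟨(P ⧸ J) ⧸ q, inferInstance, inferInstance, inferInstance, inferInstance, e',
    (chg K ql).comp Ψ, s', z, hz, hineq.trans (by omega), ?_, ?_, ?_, ?_⟩
  · intro n r hr
    exact chg_mem_InB ql (a3 n r hr)
  · intro r
    have h1 := chg_mem_InB ql (a1 r)
    rwa [map_sub, chg_tmul, map_one] at h1
  · intro r l
    rw [AlgHom.comp_apply, lamB_chg, he', hval]
  · rw [eq_top_iff]
    rintro a -
    obtain ⟨b, rfl⟩ := Ideal.Quotient.mk_surjective a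
    have hb : b ∈ Algebra.adjoin k {a : P ⧸ J | ∃ r, ∃ l : K →ₗ[k] k,
      lamB (P ⧸ J) l (Ψ r) = a} := by
      rw [hadj]
      trivial
    change ql b ∈ _
    induction hb using Algebra.adjoin_induction with
    | mem x hx =>
      obtain ⟨r, l, rfl⟩ := hx
      refine Algebra.subset_adjoin ⟨r, l, ?_⟩
      rw [AlgHom.comp_apply, lamB_chg]
    | algebraMap c => rw [AlgHom.commutes]; exact Subalgebra.algebraMap_mem _ c
    | add x y _ _ hx hy => rw [map_add]; exact add_mem hx hy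
    | mul x y _ _ hx hy => rw [map_mul]; exact mul_mem hx hy

end Vale.Agent.P292.Dv
end
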