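import Vale.Agent.P292.Bn.N9
import Vale.Agent.P292.Dn.B2
import Vale.Agent.P292.Dn.B1
import Vale.Agent.P292.Dn.B4
import Vale.Agent.P292.Dn.B3
import Vale.Agent.P292.Bn.N4
import Vale.Agent.P292.Bn.N16

set_option linter.all false

section

/-! # R7: the Euler characteristic of the functions vanishing at the marks. -/

namespace Vale.Agent.P292.Dv

open Module Submodule Vale.Agent.P292.Mo

universe u v w

/-- R7. -/
theorem chi_markI {k : Type u} [Field k] {K : Type w} [Field K] [Algebra k K]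
    {A₀ A₁ : Subalgebra k K}
    (cd : IsCD A₀ A₁) {m : ℕ} {c : Fin m → (A₀ →ₐ[k] k)} (hc : Function.Injective c) :
    FiniteDimensional k ↥(markI c ⊓ Subalgebra.toSubmodule A₁) ∧
    FiniteDimensional k (K ⧸ (markI c ⊔ Subalgebra.toSubmodule A₁)) ∧
    (Module.finrank k ↥(markI c ⊓ Subalgebra.toSubmodule A₁) : ℤ) -
        Module.finrank k (K ⧸ (markI c ⊔ Subalgebra.toSubmodule A₁)) = chi0 A₀ A₁ - m := by
  have h1 := cod_markI hc
  have h2 := chi_of_le (M := Subalgebra.toSubmodule A₁) (markI_le c) h1.1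
  have h3 : Fred (markI c) (Subalgebra.toSubmodule A₁) := h2.1.1 (Fred.comm cd.fred)
  refine ⟨h3.1, h3.2, ?_⟩
  have h4 := h2.2 h3
  rw [chi0_eq, chi_comm, h4, h1.2]
  change _ = chi _ _ + _ - _
  rw [chi]
  ring

end Vale.Agent.P292.Dv
end

section

/-! # P292, Part III, block T2, B1: a family of pairs with fixed values at the marks. -/

namespace Vale.Agent.P292.Dv

open TensorProduct
open Vale.Agent.P292.Mo

universe u v w

namespace PairOut

section gens

variable {k : Type u} [Field k] {R : Type v} [CommRing R] [Algebra k R]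

theorem rT_add (J : Ideal R) (x y : J) : rT J (x + y) = rT J x + rT J y := by
  apply Subtype.ext
  change Polynomial.monomial 1 ((x + y : J) : R) = Polynomial.monomial 1 (x : R) +
    Polynomial.monomial 1 (y : R)
  rw [Submodule.coe_add, map_add]

/-- Induction on the elements of the Rees algebra. -/
theorem rees_ind (J : Ideal R) {p : reesAlgebra J → Prop}
    (h1 : ∀ r, p (algebraMap R (reesAlgebra J) r)) (h2 : ∀ x, p (rT J x))
    (ha : ∀ f g, p f → p g → p (f + g)) (hm : ∀ f g, p f → p g → p (f * g)) (f : reesAlgebra J) :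
    p f := by
  have key : ∀ q : Polynomial R, q ∈ Algebra.adjoin R
      (Submodule.map (Polynomial.monomial 1 : R →ₗ[R] Polynomial R) J : Set (Polynomial R)) →
      ∃ f : reesAlgebra J, (f : Polynomial R) = q ∧ p f := by
    intro q hq
    induction hq using Algebra.adjoin_induction with
    | mem q hq =>
      obtain ⟨x, hx, rfl⟩ := hq
      exact ⟨rT J ⟨x, hx⟩, rfl, h2 ⟨x, hx⟩⟩
    | algebraMap r => exact ⟨algebraMap R (reesAlgebra J) r, rfl, h1 r⟩
    | add f g _ _ hf hg =>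
      obtain ⟨f', rfl, pf⟩ := hf
      obtain ⟨g', rfl, pg⟩ := hg
      exact ⟨f' + g', Subalgebra.coe_add _ f' g', ha f' g' pf pg⟩
    | mul f g _ _ hf hg =>
      obtain ⟨f', rfl, pf⟩ := hf
      obtain ⟨g', rfl, pg⟩ := hg
      exact ⟨f' * g', Subalgebra.coe_mul _ f' g', hm f' g' pf pg⟩
  obtain ⟨f', h, pf⟩ := key f (by
    rw [adjoin_monomial_eq_reesAlgebra]
    exact f.2)
  have h3 : f' = f := Subtype.ext h
  rw [← h3]
  exact pf

variable (𝒜 : ℕ → Submodule k R) [GradedAlgebra 𝒜]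

/-- Induction on the elements of the Rees algebra, with homogeneous generators. -/
theorem rees_ind_hom {J : Ideal R} (hJ : J.IsHomogeneous 𝒜) {p : reesAlgebra J → Prop}
    (h0 : p 0)
    (h1 : ∀ n, ∀ r ∈ 𝒜 n, p (algebraMap R (reesAlgebra J) r))
    (h2 : ∀ n, ∀ x : J, (x : R) ∈ 𝒜 n → p (rT J x))
    (ha : ∀ f g, p f → p g → p (f + g)) (hm : ∀ f g, p f → p g → p (f * g)) (f : reesAlgebra J) :
    p f := by
  classical
  refine rees_ind J (fun r => ?_) (fun x => ?_) ha hm f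
  · rw [← DirectSum.sum_support_decompose 𝒜 r, map_sum]
    exact Finset.sum_induction _ p ha h0 (fun i _ => h1 i _ (SetLike.coe_mem _))
  · have hx : x = ∑ i ∈ (DirectSum.decompose 𝒜 (x : R)).support,
        (⟨(DirectSum.decompose 𝒜 (x : R) i : R), hJ i x.2⟩ : J) := by
      apply Subtype.ext
      rw [AddSubmonoidClass.coe_finsetSum]
      exact (DirectSum.sum_support_decompose 𝒜 (x : R)).symm
    have hs : ∀ (s : Finset ℕ) (g : ℕ → J), rT J (∑ i ∈ s, g i) = ∑ i ∈ s, rT J (g i) := by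
      intro s g
      induction s using Finset.induction_on with
      | empty =>
        rw [Finset.sum_empty, Finset.sum_empty]
        apply Subtype.ext
        change Polynomial.monomial 1 ((0 : J) : R) = 0
        rw [Submodule.coe_zero, map_zero]
      | insert a s has ih => rw [Finset.sum_insert has, Finset.sum_insert has, rT_add, ih]
    rw [hx, hs]
    exact Finset.sum_induction _ p ha h0 (fun i _ => h2 i _ (SetLike.coe_mem _))

end gens

section deg

variable {k : Type u} [Field k] {R : Type v} [CommRing R] [Algebra k R]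
  {𝒜 : ℕ → Submodule k R}

theorem algebraMap_mem_rgr (J : Ideal R) {n : ℕ} {r : R} (hr : r ∈ 𝒜 n) :
    algebraMap R (reesAlgebra J) r ∈ rgr 𝒜 J (n, 0) :=
  ⟨r, hr, rfl⟩

theorem rT_mem_rgr (J : Ideal R) {n : ℕ} {x : J} (hx : (x : R) ∈ 𝒜 n) :
    rT J x ∈ rgr 𝒜 J (n, 1) :=
  ⟨x, hx, rfl⟩

theorem UU_zero {K : Type w} [Field K] (u v : K) : UU u v 0 = 1 := by simp [UU]

theorem UU_add {K : Type w} [Field K] (u v : K) (a b : ℕ × ℕ) :
    UU u v (a + b) = UU u v a * UU u v b := by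
  simp only [UU, Prod.fst_add, Prod.snd_add, pow_add]
  ring

theorem UU_ne {K : Type w} [Field K] {u v : K} (hu : u ≠ 0) (hv : v ≠ 0) (a : ℕ × ℕ) :
    UU u v a ≠ 0 := mul_ne_zero (pow_ne_zero _ hu) (pow_ne_zero _ hv)

end deg

section main

variable {k : Type u} [Field k] {R : Type v} [CommRing R] [Algebra k R]
  {𝒜 : ℕ → Submodule k R} [GradedAlgebra 𝒜] {P : R →ₗ[k] R →ₗ[k] R} {J : Ideal R}
  {K : Type w} [Field K] [Algebra k K] {N : ℕ} {A₀ A₁ : Subalgebra k K} {u v : K}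
  {φ : R →ₐ[k] K} {η : J →ₗ[k] K}

/-- The homomorphism of the Rees algebra is regular on both charts. -/
theorem sec_rees (hJ : J.IsHomogeneous 𝒜) (h : IsGP 𝒜 P J N A₀ A₁ u v φ η)
    [GradedAlgebra (rgr 𝒜 J)]
    {Φ : reesAlgebra J →ₐ[k] K} (hΦ : ∀ r, Φ (algebraMap R (reesAlgebra J) r) = φ r)
    (hΦT : ∀ x, Φ (rT J x) = η x) (n : ℕ × ℕ) (f : reesAlgebra J) (hf : f ∈ rgr 𝒜 J n) :
    Φ f ∈ SecG A₀ A₁ (UU u v n) := by
  refine mem_SecG.2 ⟨?_, ?_⟩
  · refine rees_ind_hom 𝒜 hJ (p := fun f => Φ f ∈ A₀) ?_ ?_ ?_ ?_ ?_ f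
    · rw [map_zero]
      exact zero_mem _
    · intro n r hr
      rw [hΦ]
      exact (h.mp.sec n r hr).1
    · intro n x hx
      rw [hΦT]
      exact (h.secη n x hx).1
    · intro f g hf hg
      rw [map_add]
      exact add_mem hf hg
    · intro f g hf hg
      rw [map_mul]
      exact mul_mem hf hg
  · rw [← twG_apply (rgr 𝒜 J) (UU u v) (UU_zero u v) (UU_add u v) Φ hf]
    refine rees_ind_hom 𝒜 hJ (p := fun f => twG (rgr 𝒜 J) (UU u v) (UU_zero u v) (UU_add u v) Φ f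
      ∈ A₁) ?_ ?_ ?_ ?_ ?_ f
    · rw [map_zero]
      exact zero_mem _
    · intro n r hr
      rw [twG_apply (rgr 𝒜 J) (UU u v) (UU_zero u v) (UU_add u v) Φ (algebraMap_mem_rgr J hr), hΦ]
      have := (h.mp.sec n r hr).2
      simpa [UU] using this
    · intro n x hx
      rw [twG_apply (rgr 𝒜 J) (UU u v) (UU_zero u v) (UU_add u v) Φ (rT_mem_rgr J hx), hΦT]
      have := (h.secη n x hx).2
      simpa [UU] using this
    · intro f g hf hg
      rw [map_add]
      exact add_mem hf hg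
    · intro f g hf hg
      rw [map_mul]
      exact mul_mem hf hg

end main

end PairOut

section

variable {k : Type u} [Field k] {R : Type v} [CommRing R] [Algebra k R]
  {𝒜 : ℕ → Submodule k R} [GradedAlgebra 𝒜] {P : R →ₗ[k] R →ₗ[k] R} {J : Ideal R}
  {K : Type w} [Field K] [Algebra k K] {N : ℕ} {A₀ A₁ : Subalgebra k K} {u v : K}
  {φ : R →ₐ[k] K} {η : J →ₗ[k] K}

open PairOut in
/-- B1 (D/PairOut.lean). From R1-R7: a nontrivial family of pairs with fixed values at the marks. -/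
theorem famOutG_of_num [IsAlgClosed k] [IsDomain R] (hP : IsPM 𝒜 P) (hJ : J.IsHomogeneous 𝒜)
    (cd : IsCD A₀ A₁) (h : IsGP 𝒜 P J N A₀ A₁ u v φ η) {m : ℕ} {c : Fin m → (A₀ →ₐ[k] k)}
    (hc : Function.Injective c)
    (hnum : 0 < N * (2 * chi0 A₀ A₁ + idx A₁ u - 2 * m) + 2 * (chi0 A₀ A₁ - m)) :
    ∃ Φ : reesAlgebra J →ₐ[k] K, (∀ r, Φ (algebraMap R (reesAlgebra J) r) = φ r) ∧
      (∀ x, Φ (rT J x) = η x) ∧ FamOutG (rgr 𝒜 J) A₀ A₁ (UU u v) Φ (markI c) := by
  classical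
  obtain ⟨hG⟩ := exists_gradedAlgebra_rgr 𝒜 J hJ
  have hft := hP.finiteType
  have hft' : Algebra.FiniteType k (reesAlgebra J) := finiteType_rees J
  obtain ⟨i0, j0, a0, b0, hj0, ha0, hb0, hab0, hφb0, hφb0', hηa0, hηa0'⟩ := h.loc0
  obtain ⟨i1, j1, a1, b1, hj1, ha1, hb1, hab1, hφb1, hφb1', hηa1, hηa1'⟩ := h.loc1
  have ne_of : ∀ a : J, η a ≠ 0 → (a : R) ≠ 0 := by
    intro a ha h0
    apply ha
    have : a = 0 := Subtype.ext h0
    rw [this, map_zero]
  have ne_of' : ∀ b : R, φ b ≠ 0 → b ≠ 0 := by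
    intro b hb h0
    apply hb
    rw [h0, map_zero]
  obtain ⟨Φ, hΦ, hΦT⟩ := exists_rees_hom J (ne_of a0 hηa0) hab0 φ η h.lin (isUnit_iff_ne_zero.2 hφb0)
  refine ⟨Φ, hΦ, hΦT, ?_⟩
  obtain ⟨x, d, g, x', d', g', fr0, fr1⟩ := h.frames
  obtain ⟨e1, e2, e3⟩ := chi_der hP cd h.mp fr0 fr1 hc
  obtain ⟨e4, e5, e6⟩ := chi_markI cd hc
  have hI : ∀ a ∈ markI c, a ∈ A₀ := fun a ha => (mem_markI.1 ha).1
  have hIm : ∀ a ∈ A₀, ∀ b ∈ markI c, a * b ∈ markI c := by
    intro a ha b hb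
    obtain ⟨h1, h2⟩ := mem_markI.1 hb
    refine mem_markI.2 ⟨mul_mem ha h1, fun l => ?_⟩
    have : (⟨a * b, mul_mem ha h1⟩ : A₀) = ⟨a, ha⟩ * ⟨b, h1⟩ := rfl
    rw [this, map_mul, h2, mul_zero]
  obtain ⟨g1, g2, g3⟩ := chi_rees_of hJ
    (fun ha hab _ _ _ φ η hη hb => exists_rees_hom J ha hab φ η hη hb) h hΦ hΦT (markI c)
    hI hIm e1 e2 e4 e5
  refine exists_family_gr (rgr 𝒜 J) (UU_ne h.mp.u_ne h.v_ne) (UU_zero u v) (UU_add u v)
    (sec_rees hJ h hΦ hΦT) ?_ ?_ (markI c) hI hIm ?_ g2 ?_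
  · refine ⟨(j0, 0) + (i0, 1), algebraMap R (reesAlgebra J) b0 * rT J a0,
      SetLike.mul_mem_graded (algebraMap_mem_rgr J hb0) (rT_mem_rgr J ha0),
      smooth_rees J (ne_of a0 hηa0) (ne_of' b0 hφb0) hab0 (hP.smooth j0 hj0 b0 hb0), ?_, ?_⟩
    · rw [map_mul, hΦ, hΦT]
      exact mul_ne_zero hφb0 hηa0
    · rw [map_mul, hΦ, hΦT, mul_inv]
      exact mul_mem hφb0' hηa0'
  · refine ⟨(j1, 0) + (i1, 1), algebraMap R (reesAlgebra J) b1 * rT J a1,
      SetLike.mul_mem_graded (algebraMap_mem_rgr J hb1) (rT_mem_rgr J ha1),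
      smooth_rees J (ne_of a1 hηa1) (ne_of' b1 hφb1) hab1 (hP.smooth j1 hj1 b1 hb1), ?_, ?_⟩
    · rw [map_mul, hΦ, hΦT]
      exact mul_ne_zero hφb1 hηa1
    · rw [map_mul, hΦ, hΦT]
      have : UU u v ((j1, 0) + (i1, 1)) * (φ b1 * η a1) = (u ^ j1 * φ b1) * (u ^ i1 * v * η a1) := by
        simp only [UU, Prod.mk_add_mk, pow_add, zero_add, pow_one]
        ring
      rw [this, mul_inv]
      exact mul_mem hφb1' hηa1'
  · intro n
    have := (cd.chi_Sec (UU_ne h.mp.u_ne h.v_ne n) 1).1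
    have h2 : Sec A₀ A₁ (UU u v n) 1 = SecG A₀ A₁ (UU u v n) := by
      change SecG A₀ A₁ (UU u v n ^ 1) = _
      rw [pow_one]
    rw [← h2]
    exact this
  · rw [e6] at g3
    have : (Module.finrank k ↥(ObG (rgr 𝒜 J) Φ (markI c) A₁ (UU u v)) : ℤ) <
        Module.finrank k ↥(T0G (rgr 𝒜 J) Φ (markI c) A₁ (UU u v)) := by
      have hr : (N : ℤ) * (2 * chi0 A₀ A₁ + idx A₁ u - 2 * m) =
          2 * N * chi0 A₀ A₁ + N * idx A₁ u - 2 * m * N := by ring
      rw [hr, ← e3] at hnum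
      linarith
    exact_mod_cast this

end

end Vale.Agent.P292.Dv
end

section

/-! # P292, Part III, block T2, leaf C3: the coordinate of the twisted field.

The twisted structure `Tw p j K` has the same image of `k` in `K` (`k` is perfect), so the subfield
`k(t)` of `K` does not change; finiteness and separability of `K` over it are the same. -/

namespace Vale.Agent.P292.Dv
open Vale.Agent.P292.Mo
universe u v w
variable {k : Type u} [Field k] {K : Type w} [Field K] [Algebra k K]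

namespace TwT

/-- The identity as a ring isomorphism. -/
def τ (p j : ℕ) (K : Type w) [Field K] : Tw p j K ≃+* K := RingEquiv.refl K

theorem τ_algebraMap (p : ℕ) [Fact p.Prime] [CharP k p] (j : ℕ) (c : k) :
    τ p j K (algebraMap k (Tw p j K) c) = algebraMap k K (iterateFrobenius k p j c) := rfl

theorem surj [IsAlgClosed k] (p : ℕ) [Fact p.Prime] [CharP k p] (j : ℕ) :
    Function.Surjective (iterateFrobenius k p j) := by
  intro c
  obtain ⟨z, hz⟩ := IsAlgClosed.exists_pow_nat_eq c (pow_pos (Fact.out : p.Prime).pos j)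
  exact ⟨z, by rw [iterateFrobenius_def, hz]⟩

theorem mem_iff [IsAlgClosed k] (p : ℕ) [Fact p.Prime] [CharP k p] (j : ℕ) (t' : Tw p j K)
    (x : Tw p j K) :
    x ∈ IntermediateField.adjoin k {t'} ↔ τ p j K x ∈ IntermediateField.adjoin k {τ p j K t'} := by
  have h1 : (IntermediateField.adjoin k {t'}).toSubfield =
      ((IntermediateField.adjoin k {τ p j K t'}).toSubfield).comap (τ p j K : Tw p j K →+* K) := by
    rw [IntermediateField.adjoin_toSubfield, IntermediateField.adjoin_toSubfield]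
    apply le_antisymm
    · rw [Subfield.closure_le]
      rintro y (⟨c, rfl⟩ | hy)
      · exact Subfield.subset_closure (Or.inl ⟨iterateFrobenius k p j c, rfl⟩)
      · rw [Set.mem_singleton_iff] at hy
        subst hy
        exact Subfield.subset_closure (Or.inr rfl)
    · intro y hy
      have h2 : Subfield.closure (Set.range (algebraMap k K) ∪ {τ p j K t'}) ≤
          (Subfield.closure (Set.range (algebraMap k (Tw p j K)) ∪ {t'})).comap
            ((τ p j K).symm : K →+* Tw p j K) := by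
        rw [Subfield.closure_le]
        rintro z (⟨c, rfl⟩ | hz)
        · obtain ⟨c', rfl⟩ := surj p j c
          exact Subfield.subset_closure (Or.inl ⟨c', rfl⟩)
        · rw [Set.mem_singleton_iff] at hz
          subst hz
          exact Subfield.subset_closure (Or.inr rfl)
      exact h2 hy
  have h3 : x ∈ (IntermediateField.adjoin k {t'}).toSubfield ↔
      x ∈ ((IntermediateField.adjoin k {τ p j K t'}).toSubfield).comap
        (τ p j K : Tw p j K →+* K) := by rw [h1]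
  exact h3

/-- The two subfields are the same. -/
def eL [IsAlgClosed k] (p : ℕ) [Fact p.Prime] [CharP k p] (j : ℕ) (t' : Tw p j K) :
    IntermediateField.adjoin k {τ p j K t'} ≃+* IntermediateField.adjoin k {t'} where
  toFun x := ⟨(τ p j K).symm x, (mem_iff p j t' _).2 (by rw [RingEquiv.apply_symm_apply]; exact x.2)⟩
  invFun x := ⟨τ p j K x, (mem_iff p j t' _).1 x.2⟩
  left_inv _ := rfl
  right_inv _ := rfl
  map_mul' _ _ := rfl
  map_add' _ _ := rfl

end TwT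

/-- C3. The twisted field. -/
theorem tw_transcendental [IsAlgClosed k] (p : ℕ) [Fact p.Prime] [CharP k p] (j : ℕ) {t : K}
    (ht : Transcendental k t) [FiniteDimensional (IntermediateField.adjoin k {t}) K]
    [Algebra.IsSeparable (IntermediateField.adjoin k {t}) K] (t' : Tw p j K) (htt : t' = t) :
    Transcendental k t' ∧
    FiniteDimensional (IntermediateField.adjoin k {t'}) (Tw p j K) ∧
    Algebra.IsSeparable (IntermediateField.adjoin k {t'}) (Tw p j K) := by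
  have ht2 : TwT.τ p j K t' = t := htt
  subst ht2
  refine ⟨?_, ?_, ?_⟩
  · rw [transcendental_iff] at ht ⊢
    intro f hf
    have h1 : Polynomial.aeval (TwT.τ p j K t') (f.map (iterateFrobenius k p j)) = 0 := by
      rw [Polynomial.aeval_def, Polynomial.eval₂_map]
      exact hf
    have h2 := ht _ h1
    rwa [Polynomial.map_eq_zero_iff (iterateFrobenius k p j).injective] at h2
  · exact Module.Finite.of_equiv_equiv (TwT.eL p j t') (TwT.τ p j K).symm rfl
  · exact Algebra.IsSeparable.of_equiv_equiv (TwT.eL p j t') (TwT.τ p j K).symm rfl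

end Vale.Agent.P292.Dv
end

section

/-! # A curve through a given point of the divisor. -/

namespace Vale.Agent.P292.Dv

open MvPolynomial Vale.Agent.P292 Vale.Agent.P292.Mo

universe u v w

/-- I1, with the rank condition at the point as a hypothesis. -/
theorem exists_curve_through_of_rk {k : Type u} [Field k] {R : Type v} [CommRing R] [Algebra k R]
    {𝒜 : ℕ → Submodule k R} [GradedAlgebra 𝒜] {P : R →ₗ[k] R →ₗ[k] R} {J : Ideal R}
    [IsAlgClosed k] (p : ℕ) [Fact p.Prime] [CharP k p]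
    (hP : IsPM 𝒜 P) {e n : ℕ} {y : Fin n → R} (hN : IsNoe 𝒜 p e y) (f : R) (hfJ : f ∈ J)
    (hf : ∃ h : R, ∃ G : MvPolynomial (Fin n) k, G ≠ 0 ∧ f * h = MvPolynomial.aeval y G)
    (w : R →ₐ[k] k) (hw : Mo.NV 𝒜 w) (hrk : ∃ N, n ≤ N ∧ HasRk 𝒜 P w N)
    (hwJ : ∀ x ∈ J, w x = 0) :
    ∃ (K : Type v) (_ : Field K) (_ : Algebra k K) (t : K) (φ : R →ₐ[k] K),
      Transcendental k t ∧ FiniteDimensional (IntermediateField.adjoin k {t}) K ∧
      Algebra.IsSeparable (IntermediateField.adjoin k {t}) K ∧ Mo.NV 𝒜 φ ∧ φ f ≠ 0 ∧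
      ∃ V : ValuationSubring K, V ≠ ⊤ ∧ (∀ c : k, algebraMap k K c ∈ V) ∧
        ∃ n > 0, ∃ s ∈ 𝒜 n, φ s ≠ 0 ∧ (∀ r ∈ 𝒜 n, φ r / φ s ∈ V) ∧
          ∀ i, ∀ x ∈ J, x ∈ 𝒜 i → V.valuation (φ x ^ n / φ s ^ i) < 1 := by
  obtain ⟨K, _, _, t, φ, a, b, hFF, hdeg, hφf, V, hVk, hVR, hVw⟩ :=
    exists_ff_pt hP hN w hw hrk f hf
  have := hFF.fin
  have : CharP (IntermediateField.adjoin k {t}) p :=
    charP_of_injective_algebraMap (algebraMap k (IntermediateField.adjoin k {t})).injective p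
  refine ⟨K, inferInstance, inferInstance, t, φ, hFF.transc, hFF.fin, ec_separable p hdeg, ?_,
    hφf, V, ?_, hVk, ?_⟩
  · obtain ⟨r, hr, hr1⟩ := F5a_exists_elem hN hFF 1 0
    refine ⟨e, hN.e_pos, r, hr, ?_⟩
    rw [hr1, map_one, map_zero, zero_mul, add_zero]
    exact one_ne_zero
  · intro hV
    have h1 := hVw f (hwJ f hfJ)
    have h2 : (φ f)⁻¹ ∈ V := by rw [hV]; trivial
    have h3 : V.valuation (φ f)⁻¹ ≤ 1 := (ValuationSubring.valuation_le_one_iff V _).2 h2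
    have h4 : V.valuation (φ f) * V.valuation (φ f)⁻¹ = 1 := by
      rw [← map_mul, mul_inv_cancel₀ hφf, map_one]
    have h5 := mul_lt_one_of_lt_of_le h1 h3
    rw [h4] at h5
    exact lt_irrefl _ h5
  · obtain ⟨m, hm, s, hs, hws⟩ := hw
    have hv1 : V.valuation (φ s) = 1 := by
      have h1 : w (s - algebraMap k R (w s)) = 0 := by
        rw [map_sub, AlgHom.commutes]
        exact sub_self _
      have h2 := hVw _ h1
      rw [map_sub, AlgHom.commutes] at h2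
      have h3 : V.valuation (algebraMap k K (w s)) = 1 := by
        refine le_antisymm ((ValuationSubring.valuation_le_one_iff V _).2 (hVk _)) ?_
        have h4 := (ValuationSubring.valuation_le_one_iff V _).2 (hVk (w s)⁻¹)
        rw [map_inv₀, map_inv₀] at h4
        have h5 : V.valuation (algebraMap k K (w s)) ≠ 0 := by
          rw [Valuation.ne_zero_iff]
          exact fun h => hws ((algebraMap k K).injective (by rw [h, map_zero]))
        exact (inv_le_one₀ (zero_lt_iff.2 h5)).1 h4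
      have h6 : φ s = (φ s - algebraMap k K (w s)) + algebraMap k K (w s) := by ring
      rw [h6, Valuation.map_add_eq_of_lt_right _ (by rw [h3]; exact h2), h3]
    have hφs : φ s ≠ 0 := by
      intro h
      rw [h, map_zero] at hv1
      exact zero_ne_one hv1
    refine ⟨m, hm, s, hs, hφs, fun r _ => ?_, fun i x hx _ => ?_⟩
    · rw [← ValuationSubring.valuation_le_one_iff, map_div₀, hv1, div_one]
      exact (ValuationSubring.valuation_le_one_iff V _).2 (hVR r)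
    · rw [map_div₀, map_pow, map_pow, hv1, one_pow, div_one]
      exact pow_lt_one₀ zero_le (hVw x (hwJ x hx)) hm.ne'

/-- I1. A curve through a given point of the divisor, which is not contained in it. -/
theorem exists_curve_through {k : Type u} [Field k] {R : Type v} [CommRing R] [Algebra k R]
    {𝒜 : ℕ → Submodule k R} [GradedAlgebra 𝒜] {P : R →ₗ[k] R →ₗ[k] R} {J : Ideal R}
    [IsAlgClosed k] [IsDomain R] (p : ℕ) [Fact p.Prime] [CharP k p]
    (hP : IsPM 𝒜 P) {e n : ℕ} {y : Fin n → R} (hN : IsNoe 𝒜 p e y) (f : R) (hfJ : f ∈ J)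
    (hf : ∃ h : R, ∃ G : MvPolynomial (Fin n) k, G ≠ 0 ∧ f * h = MvPolynomial.aeval y G)
    (w : R →ₐ[k] k) (hw : Mo.NV 𝒜 w) (hwJ : ∀ x ∈ J, w x = 0) :
    ∃ (K : Type v) (_ : Field K) (_ : Algebra k K) (t : K) (φ : R →ₐ[k] K),
      Transcendental k t ∧ FiniteDimensional (IntermediateField.adjoin k {t}) K ∧
      Algebra.IsSeparable (IntermediateField.adjoin k {t}) K ∧ Mo.NV 𝒜 φ ∧ φ f ≠ 0 ∧
      ∃ V : ValuationSubring K, V ≠ ⊤ ∧ (∀ c : k, algebraMap k K c ∈ V) ∧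
        ∃ n > 0, ∃ s ∈ 𝒜 n, φ s ≠ 0 ∧ (∀ r ∈ 𝒜 n, φ r / φ s ∈ V) ∧
          ∀ i, ∀ x ∈ J, x ∈ 𝒜 i → V.valuation (φ x ^ n / φ s ^ i) < 1 := by
  obtain ⟨N, x, d, g, hfr, hg⟩ := hP.frame w hw
  have hg0 : g ≠ 0 := by
    rintro rfl
    rw [zero_mul, map_zero] at hg
    exact hg rfl
  exact exists_curve_through_of_rk p hP hN f hfJ hf w hw
    ⟨N, le_rk p hN hfr hg0, x, d, g, hfr, hg⟩ hwJ

end Vale.Agent.P292.Dv
end

section

/-! # Q1: a closed pair gives a pair on the function field of the line. -/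

namespace Vale.Agent.P292.Dv

open Vale.Agent.P292.Mo Polynomial

universe u v w

namespace LineQ1

variable {k : Type u} [Field k]

theorem transc : Transcendental k (RatFunc.X : RatFunc k) := RatFunc.transcendental_X

theorem finrank_one :
    Module.finrank (IntermediateField.adjoin k {(RatFunc.X : RatFunc k)}) (RatFunc k) = 1 := by
  rw [RatFunc.adjoin_X]
  exact IntermediateField.finrank_top

theorem fd : FiniteDimensional (IntermediateField.adjoin k {(RatFunc.X : RatFunc k)})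
    (RatFunc k) :=
  Module.finite_of_finrank_pos (by rw [finrank_one]; exact one_pos)

theorem sep : Algebra.IsSeparable (IntermediateField.adjoin k {(RatFunc.X : RatFunc k)})
    (RatFunc k) := by
  refine ⟨fun x => ?_⟩
  have hx : x ∈ IntermediateField.adjoin k {(RatFunc.X : RatFunc k)} := by
    rw [RatFunc.adjoin_X]
    trivial
  exact isSeparable_algebraMap (F := IntermediateField.adjoin k {(RatFunc.X : RatFunc k)})
    (⟨x, hx⟩ : IntermediateField.adjoin k {(RatFunc.X : RatFunc k)})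

theorem aev (p : k[X]) : aeval (RatFunc.X : RatFunc k) p = algebraMap k[X] (RatFunc k) p :=
  RatFunc.aeval_X_left_eq_algebraMap p

/-- The second chart is integrally closed. -/
theorem mem_B1_of_IC [Infinite k] {g : k[X]} (hg : g ≠ 0) {x : RatFunc k}
    (hx : x ∈ IC (B1 (RatFunc.X : RatFunc k) g)) : x ∈ B1 (RatFunc.X : RatFunc k) g := by
  have hpir : IsPrincipalIdealRing (B1 (RatFunc.X : RatFunc k) g) := crv_B1_pir transc hg
  have hfr : IsFractionRing (B1 (RatFunc.X : RatFunc k) g) (RatFunc k) := by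
    refine IsFractionRing.of_field _ _ fun z => ?_
    obtain ⟨a, ha, b, hb, -, h⟩ := crv_B1_frac transc hg z (by rw [RatFunc.adjoin_X]; trivial)
    exact ⟨⟨a, ha⟩, ⟨b, hb⟩, h⟩
  obtain ⟨y, hy⟩ := (IsIntegrallyClosed.isIntegral_iff
    (R := B1 (RatFunc.X : RatFunc k) g)).1 (mem_IC.1 hx)
  rw [← hy]
  exact y.2

/-! ### Dehomogenisation -/

/-- Dehomogenisation. -/
noncomputable def dh : MvPolynomial (Fin 2) k →ₐ[k] k[X] :=
  MvPolynomial.aeval ![Polynomial.X, 1]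

theorem dh_eval (ρ : k) (F : MvPolynomial (Fin 2) k) :
    (dh F).eval ρ = MvPolynomial.eval ![ρ, 1] F := by
  have h : (Polynomial.aeval ρ : k[X] →ₐ[k] k).comp dh = MvPolynomial.aeval ![ρ, 1] := by
    apply MvPolynomial.algHom_ext
    intro i
    rw [AlgHom.comp_apply, dh, MvPolynomial.aeval_X, MvPolynomial.aeval_X]
    fin_cases i <;> simp
  have h1 := DFunLike.congr_fun h F
  rw [AlgHom.comp_apply] at h1
  rw [← MvPolynomial.aeval_eq_eval, ← h1, Polynomial.coe_aeval_eq_eval]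

theorem dh_monomial (d : Fin 2 →₀ ℕ) (c : k) :
    dh (MvPolynomial.monomial d c) = Polynomial.C c * Polynomial.X ^ d 0 := by
  rw [dh, MvPolynomial.aeval_monomial, Finsupp.prod_fintype _ _ (fun i => pow_zero _),
    Fin.prod_univ_two]
  simp

theorem weight_two {F : MvPolynomial (Fin 2) k} {m : ℕ} (hF : F.IsHomogeneous m)
    {d : Fin 2 →₀ ℕ} (hd : d ∈ F.support) : d 0 + d 1 = m := by
  have h := hF (MvPolynomial.mem_support_iff.1 hd)
  rw [Finsupp.weight_apply, Finsupp.sum_fintype _ _ (fun i => by simp)] at h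
  simpa [Fin.sum_univ_two] using h

theorem dh_sum (F : MvPolynomial (Fin 2) k) :
    dh F = ∑ d ∈ F.support, Polynomial.C (MvPolynomial.coeff d F) * Polynomial.X ^ d 0 := by
  conv_lhs => rw [F.as_sum, map_sum]
  exact Finset.sum_congr rfl fun d _ => dh_monomial d _

theorem dh_deg {F : MvPolynomial (Fin 2) k} {m : ℕ} (hF : F.IsHomogeneous m) :
    (dh F).natDegree ≤ m := by
  rw [dh_sum]
  refine Polynomial.natDegree_sum_le_of_forall_le _ _ fun d hd => ?_
  refine (Polynomial.natDegree_C_mul_X_pow_le _ _).trans ?_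
  have := weight_two hF hd
  omega

theorem dh_coeff {F : MvPolynomial (Fin 2) k} {m : ℕ} (hF : F.IsHomogeneous m) :
    (dh F).coeff m = MvPolynomial.eval ![1, 0] F := by
  rw [dh_sum, Polynomial.finsetSum_coeff, MvPolynomial.eval_eq']
  refine Finset.sum_congr rfl fun d hd => ?_
  have h := weight_two hF hd
  rw [Polynomial.coeff_C_mul_X_pow, Fin.prod_univ_two]
  by_cases h0 : d 1 = 0
  · rw [if_pos (by omega)]
    simp [h0]
  · rw [if_neg (by omega)]
    simp [h0]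

/-! ### Orders on the second chart -/

section ord

variable [IsAlgClosed k] {g : k[X]} (hg : g ≠ 0) {l : k} (hl : g.eval l ≠ 0)

include hg hl in
theorem idx_poly_ge {F : k[X]} (hF : F ≠ 0) {d : ℕ} (hd : F.natDegree ≤ d) :
    - (d : ℤ) ≤ idx (IC (B1 (RatFunc.X : RatFunc k) g)) (algebraMap k[X] (RatFunc k) F) := by
  have := fd (k := k)
  have := sep (k := k)
  have cd := isCD_IC (K := RatFunc k) transc hg
  have h1 := idx_IC (K := RatFunc k) transc hg l hl
  rw [finrank_one] at h1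
  set s : RatFunc k := ((RatFunc.X : RatFunc k) - algebraMap k (RatFunc k) l)⁻¹ with hs
  have hs0 : s ≠ 0 := inv_ne_zero (crv_ne_C transc l)
  have hF0 : algebraMap k[X] (RatFunc k) F ≠ 0 := by
    rw [← aev]
    exact crv_ne transc hF
  have h2 : algebraMap k[X] (RatFunc k) F * s ^ d ∈ IC (B1 (RatFunc.X : RatFunc k) g) := by
    refine le_IC _ ⟨F, (X - C l) ^ d, ?_, ClosedIC1.cop hl d, ?_, ?_⟩
    · exact crv_ne transc (pow_ne_zero _ (X_sub_C_ne_zero l))
    · rw [natDegree_pow, natDegree_X_sub_C, mul_one]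
      exact hd
    · rw [aev, map_pow, map_sub, aeval_X, aeval_C, hs, inv_pow, div_eq_mul_inv]
  have h3 := cd.idx_of_mem h2
  rw [cd.idx_mul hF0 (pow_ne_zero _ hs0), cd.idx_pow hs0, h1] at h3
  have h4 : (0 : ℤ) ≤ idx (IC (B1 (RatFunc.X : RatFunc k) g)) (algebraMap k[X] (RatFunc k) F) +
      d * ((1 : ℕ) : ℤ) := by
    rw [h3]
    exact Int.natCast_nonneg _
  push_cast at h4
  linarith

include hg hl in
theorem idx_poly_eq {F : k[X]} (hF : F ≠ 0) (hcop : IsCoprime F g) :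
    idx (IC (B1 (RatFunc.X : RatFunc k) g)) (algebraMap k[X] (RatFunc k) F) =
      - (F.natDegree : ℤ) := by
  have := fd (k := k)
  have := sep (k := k)
  have cd := isCD_IC (K := RatFunc k) transc hg
  have h1 := idx_IC (K := RatFunc k) transc hg l hl
  rw [finrank_one] at h1
  set s : RatFunc k := ((RatFunc.X : RatFunc k) - algebraMap k (RatFunc k) l)⁻¹ with hs
  have hs0 : s ≠ 0 := inv_ne_zero (crv_ne_C transc l)
  have hF0 : algebraMap k[X] (RatFunc k) F ≠ 0 := by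
    rw [← aev]
    exact crv_ne transc hF
  have h2 : algebraMap k[X] (RatFunc k) F * s ^ F.natDegree ∈
      IC (B1 (RatFunc.X : RatFunc k) g) := by
    refine le_IC _ ⟨F, (X - C l) ^ F.natDegree, ?_, ClosedIC1.cop hl _, ?_, ?_⟩
    · exact crv_ne transc (pow_ne_zero _ (X_sub_C_ne_zero l))
    · rw [natDegree_pow, natDegree_X_sub_C, mul_one]
    · rw [aev, map_pow, map_sub, aeval_X, aeval_C, hs, inv_pow, div_eq_mul_inv]
  have h2' : (algebraMap k[X] (RatFunc k) F * s ^ F.natDegree)⁻¹ ∈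
      IC (B1 (RatFunc.X : RatFunc k) g) := by
    refine le_IC _ ⟨(X - C l) ^ F.natDegree, F, crv_ne transc hF, hcop, ?_, ?_⟩
    · rw [natDegree_pow, natDegree_X_sub_C, mul_one]
    · rw [aev F, map_pow, map_sub, aeval_X, aeval_C, hs, inv_pow, mul_inv, inv_inv,
        div_eq_mul_inv, mul_comm]
  have h3 := cd.idx_unit1 h2 h2' (mul_ne_zero hF0 (pow_ne_zero _ hs0))
  rw [cd.idx_mul hF0 (pow_ne_zero _ hs0), cd.idx_pow hs0, h1] at h3
  push_cast at h3
  linarith

end ord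

end LineQ1

open LineQ1 in
/-- Q1. A closed pair gives a pair on the function field of the line. -/
theorem pair_of_closed {k : Type u} [Field k] {R : Type v} [CommRing R] [Algebra k R]
    {𝒜 : ℕ → Submodule k R} [GradedAlgebra 𝒜] {P : R →ₗ[k] R →ₗ[k] R} {J : Ideal R}
    [IsAlgClosed k] {e δ : ℕ} {φ : R →ₐ[k] MvPolynomial (Fin 2) k}
    {η : J →ₗ[k] MvPolynomial (Fin 2) k} (h : IsPair 𝒜 J e δ φ η) :
    ∃ (φ' : R →ₐ[k] RatFunc k) (η' : J →ₗ[k] RatFunc k), Mo.NV 𝒜 φ' ∧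
      (∀ (r : R) (x : J), η' (r • x) = φ' r * η' x) ∧ (∃ x, η' x ≠ 0) ∧
      ∀ (A₀ A₁ : Subalgebra k (RatFunc k)) (u v : RatFunc k) (N : ℕ),
        IsCh (RatFunc.X : RatFunc k) A₀ A₁ → IsGP 𝒜 P J N A₀ A₁ u v φ' η' →
        idx A₁ u ≤ e ∧ idx A₁ v ≤ - (δ : ℤ) := by
  have : Infinite k := IsAlgClosed.instInfinite
  have := fd (k := k)
  have := sep (k := k)
  have hinj : Function.Injective (algebraMap k[X] (RatFunc k)) := RatFunc.algebraMap_injective k
  let tr : MvPolynomial (Fin 2) k →ₐ[k] RatFunc k :=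
    (IsScalarTower.toAlgHom k k[X] (RatFunc k)).comp dh
  have htr : ∀ F, tr F = algebraMap k[X] (RatFunc k) (dh F) := fun F => rfl
  have htr0 : ∀ F, dh F ≠ 0 → tr F ≠ 0 := fun F hF h0 => hF (hinj (by rw [map_zero]; exact h0))
  have hvec : ∀ ρ : k, (![ρ, 1] : Fin 2 → k) ≠ 0 := fun ρ h0 => by
    have := congrFun h0 1
    simp at this
  have hvec' : (![1, 0] : Fin 2 → k) ≠ 0 := fun h0 => by
    have := congrFun h0 0
    simp at this
  have hφ' : ∀ r, (tr.comp φ) r = algebraMap k[X] (RatFunc k) (dh (φ r)) := fun r => rfl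
  refine ⟨tr.comp φ, tr.toLinearMap ∘ₗ η, ?_, ?_, ?_, ?_⟩
  · obtain ⟨j, hj, r, hr, hne⟩ := h.bpf ![0, 1] (hvec 0)
    refine ⟨j, hj, r, hr, htr0 _ fun h0 => hne ?_⟩
    have h0' : dh (φ r) = 0 := h0
    rw [← dh_eval, h0', eval_zero]
  · intro r x
    change tr (η (r • x)) = tr (φ r) * tr (η x)
    rw [h.lin, map_mul]
  · obtain ⟨x, hx⟩ := h.bpfη ![0, 1] (hvec 0)
    refine ⟨x, htr0 _ fun h0 => hx ?_⟩
    rw [← dh_eval, h0, eval_zero]
  · intro A₀ A₁ u v N hch hGP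
    obtain ⟨g, hg, rfl, rfl⟩ := hch
    obtain ⟨l, hl⟩ := crv_exists_l hg
    have cd := isCD_IC (K := RatFunc k) transc hg
    have hu := hGP.mp.u_ne
    -- the degree of the first line bundle
    have hdegu : idx (IC (B1 (RatFunc.X : RatFunc k) g)) u = e := by
      obtain ⟨n, hn, r, hr, hr0, hr1⟩ := hGP.mp.unit1
      have hrs := (mem_Sec.1 (hGP.mp.sec n r hr)).2
      have hun := pow_ne_zero n hu
      set F := dh (φ r) with hF
      have hFr : (tr.comp φ) r = algebraMap k[X] (RatFunc k) F := rfl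
      have hF0 : F ≠ 0 := by
        intro h0
        apply hr0
        rw [hFr, h0, map_zero]
      have hFd : F.natDegree ≤ e * n := dh_deg (h.deg n r hr)
      -- comparison with the other sections
      have hcmp : ∀ m, 0 < m → ∀ s ∈ 𝒜 m, ∃ a b : k[X], IsCoprime b g ∧
          a.natDegree ≤ b.natDegree ∧ b ≠ 0 ∧ dh (φ s) ^ n * b = a * F ^ m := by
        intro m hm s hs
        have hss := (mem_Sec.1 (hGP.mp.sec m s hs)).2
        have h1 : (u ^ m * (tr.comp φ) s) ^ n * ((u ^ n * (tr.comp φ) r)⁻¹) ^ m ∈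
            IC (B1 (RatFunc.X : RatFunc k) g) :=
          Subalgebra.mul_mem _ (Subalgebra.pow_mem _ hss n) (Subalgebra.pow_mem _ hr1 m)
        obtain ⟨a, b, hb0, hbg, hd, hz⟩ := mem_B1_of_IC hg h1
        have hbne : b ≠ 0 := fun h0 => hb0 (by rw [h0, map_zero])
        refine ⟨a, b, hbg, hd, hbne, hinj ?_⟩
        rw [aev, aev] at hz
        rw [aev] at hb0
        rw [hφ' s, hFr] at hz
        have hFm : algebraMap k[X] (RatFunc k) F ≠ 0 := by rw [← hFr]; exact hr0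
        have h2 : (u ^ m * algebraMap k[X] (RatFunc k) (dh (φ s))) ^ n *
            ((u ^ n * algebraMap k[X] (RatFunc k) F)⁻¹) ^ m =
            algebraMap k[X] (RatFunc k) (dh (φ s)) ^ n /
              algebraMap k[X] (RatFunc k) F ^ m := by
          rw [mul_pow, inv_pow, mul_pow, ← pow_mul, ← pow_mul, mul_comm n m]
          have := pow_ne_zero (m * n) hu
          field_simp
        rw [h2, div_eq_div_iff (pow_ne_zero _ hFm) hb0] at hz
        rw [map_mul, map_mul, map_pow, map_pow]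
        exact hz
      have hcop : IsCoprime F g := by
        rw [Polynomial.isCoprime_iff_aeval_ne_zero_of_isAlgClosed k k]
        intro ρ
        by_cases hρ : aeval ρ g = 0
        · left
          intro hFρ
          rw [Polynomial.coe_aeval_eq_eval] at hρ hFρ
          obtain ⟨m, hm, s, hs, hne⟩ := h.bpf ![ρ, 1] (hvec ρ)
          obtain ⟨a, b, ⟨c, c', hcc⟩, -, -, hab⟩ := hcmp m hm s hs
          have h3 := congrArg (Polynomial.eval ρ) hab
          rw [eval_mul, eval_mul, eval_pow, eval_pow, hFρ, zero_pow hm.ne', mul_zero,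
            dh_eval] at h3
          have h4 := congrArg (Polynomial.eval ρ) hcc
          rw [eval_add, eval_mul, eval_mul, hρ, mul_zero, add_zero, eval_one] at h4
          exact mul_ne_zero (pow_ne_zero _ hne) (right_ne_zero_of_mul_eq_one h4) h3
        · exact Or.inr hρ
      have hdeg : F.natDegree = e * n := by
        refine le_antisymm hFd ?_
        obtain ⟨m, hm, s, hs, hne⟩ := h.bpf ![1, 0] hvec'
        obtain ⟨a, b, -, hd, hb, hab⟩ := hcmp m hm s hs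
        have hG := dh_deg (h.deg m s hs)
        have hGc : (dh (φ s)).coeff (e * m) ≠ 0 := by
          rw [dh_coeff (h.deg m s hs)]
          exact hne
        have hG' : (dh (φ s)).natDegree = e * m := le_antisymm hG (le_natDegree_of_ne_zero hGc)
        have hG0 : dh (φ s) ≠ 0 := fun h0 => hGc (by rw [h0, coeff_zero])
        have ha0 : a ≠ 0 := by
          rintro rfl
          rw [zero_mul] at hab
          exact mul_ne_zero (pow_ne_zero _ hG0) hb hab
        have h3 := congrArg natDegree hab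
        rw [natDegree_mul (pow_ne_zero _ hG0) hb, natDegree_mul ha0 (pow_ne_zero _ hF0),
          natDegree_pow, natDegree_pow, hG'] at h3
        have h4 : n * (e * m) ≤ m * F.natDegree := by omega
        have h5 : m * (e * n) ≤ m * F.natDegree := by
          calc m * (e * n) = n * (e * m) := by ring
            _ ≤ _ := h4
        exact Nat.le_of_mul_le_mul_left h5 hm
      have h6 := cd.idx_unit1 hrs hr1 (mul_ne_zero hun hr0)
      rw [cd.idx_mul hun hr0, cd.idx_pow hu, hFr, idx_poly_eq hg hl hF0 hcop, hdeg] at h6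
      have h7 : (n : ℤ) * (idx (IC (B1 (RatFunc.X : RatFunc k) g)) u - e) = 0 := by
        push_cast at h6
        linarith
      rcases mul_eq_zero.1 h7 with h8 | h8
      · exact absurd h8 (by exact_mod_cast hn.ne')
      · linarith
    refine ⟨hdegu.le, ?_⟩
    obtain ⟨i, j, a, b, -, ha, hb, hab, hφb, hib, hηa, hia⟩ := hGP.loc1
    have hsec := (hGP.secη i a ha).2
    have hv := hGP.v_ne
    have hδ : δ ≤ e * i := by
      by_contra hcon
      push Not at hcon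
      apply hηa
      change tr (η a) = 0
      rw [h.zeroη i a ha hcon, map_zero]
    have hhom := h.degη i a ha (e * i - δ) (Nat.sub_add_cancel hδ)
    have hne : dh (η a) ≠ 0 := by
      intro h0
      apply hηa
      change algebraMap k[X] (RatFunc k) (dh (η a)) = 0
      rw [h0, map_zero]
    have h1 := idx_poly_ge hg hl hne (dh_deg hhom)
    have hui := pow_ne_zero i hu
    have h2 := cd.idx_unit1 hsec hia (mul_ne_zero (mul_ne_zero hui hv) hηa)
    rw [cd.idx_mul (mul_ne_zero hui hv) hηa, cd.idx_mul hui hv, cd.idx_pow hu, hdegu] at h2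
    change _ + idx _ (algebraMap k[X] (RatFunc k) (dh (η a))) = 0 at h2
    rw [Nat.cast_sub hδ] at h1
    push_cast at h1
    linarith

end Vale.Agent.P292.Dv
end

section

/-! # C5: the degrees of the central fibre. -/

namespace Vale.Agent.P292.Dv

open Vale.Agent.P292.Mo

universe u v w

variable {k : Type u} [Field k] {R : Type v} [CommRing R] [Algebra k R]
  {𝒜 : ℕ → Submodule k R} [GradedAlgebra 𝒜] {P : R →ₗ[k] R →ₗ[k] R} {J : Ideal R}
  {K : Type w} [Field K] [Algebra k K]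

namespace IdxLimP

theorem not_dvd {f : PowerSeries k} {n : ℕ} (h : PowerSeries.coeff n f ≠ 0) :
    ¬ PowerSeries.X ^ (n + 1) ∣ f := by
  intro h1
  rw [PowerSeries.X_pow_dvd_iff] at h1
  exact h (h1 n (Nat.lt_succ_self n))

omit [GradedAlgebra 𝒜] in
/-- Claim 2. -/
theorem claim2 [IsAlgClosed k] {t : K} (ht : Transcendental k t)
    [FiniteDimensional (IntermediateField.adjoin k {t}) K]
    [Algebra.IsSeparable (IntermediateField.adjoin k {t}) K] {g g' : Polynomial k} (hg : g ≠ 0)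
    (hg' : g' ≠ 0) {u v u' v' : K} (hv : v ≠ 0) {φ' : R →ₐ[k] K} {η' : J →ₗ[k] K}
    (f0 : ∀ r, φ' r ∈ IC (B0 t g)) (e0 : ∀ x, η' x ∈ IC (B0 t g))
    (e1 : ∀ n, ∀ x : J, (x : R) ∈ 𝒜 n → u ^ n * v * η' x ∈ IC (B1 t g)) {N' : ℕ}
    (h' : IsGP 𝒜 P J N' (IC (B0 t g')) (IC (B1 t g')) u' v' φ' η')
    (S0 : ∀ ex : IC (B0 t g) →ₐ[k] PowerSeries k, Function.Injective ex →
      (∀ (n : ℕ) (s : PowerSeries k), ∃ a, PowerSeries.X ^ n ∣ ex a - s) →
      ∃ β : ℕ, (∃ n, 0 < n ∧ ∃ r ∈ 𝒜 n, PowerSeries.coeff (β * n) (ex ⟨φ' r, f0 r⟩) ≠ 0) ∧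
        ∀ i, ∀ x : J, (x : R) ∈ 𝒜 i → (PowerSeries.X : PowerSeries k) ^ (β * i) ∣
          ex ⟨η' x, e0 x⟩)
    (S1 : ∀ ex : IC (B1 t g) →ₐ[k] PowerSeries k, Function.Injective ex →
      (∀ (n : ℕ) (s : PowerSeries k), ∃ a, PowerSeries.X ^ n ∣ ex a - s) →
      ∃ β : ℕ, (∃ n, 0 < n ∧ ∃ r ∈ 𝒜 n, ∃ a : IC (B1 t g), (a : K) = u ^ n * φ' r ∧
          PowerSeries.coeff (β * n) (ex a) ≠ 0) ∧
        ∀ i, ∀ x : J, (x : R) ∈ 𝒜 i → ∀ a : IC (B1 t g), (a : K) = u ^ i * v * η' x →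
          (PowerSeries.X : PowerSeries k) ^ (β * i) ∣ ex a) :
    idx (IC (B1 t g')) v' ≤ idx (IC (B1 t g)) v := by
  classical
  have : Infinite k := IsAlgClosed.instInfinite
  obtain ⟨ℓ, hℓ⟩ := crv_exists_l (mul_ne_zero hg hg')
  rw [Polynomial.eval_mul] at hℓ
  have hℓ1 : g.eval ℓ ≠ 0 := left_ne_zero_of_mul hℓ
  have hℓ2 : g'.eval ℓ ≠ 0 := right_ne_zero_of_mul hℓ
  have hv' := h'.v_ne
  have hu' := h'.mp.u_ne
  have hd0 : IsDedekindDomain (IC (B0 t g)) := (crv_basis0 (K := K) ht hg).1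
  have hd1 : IsDedekindDomain (IC (B1 t g)) := (crv_basis1 (K := K) ht hg).1
  obtain ⟨i0, j0, a0, b0, -, ha0, -, -, -, -, ha00, ha0i⟩ := h'.loc0
  obtain ⟨i1, j1, a1, b1, -, ha1, -, -, -, -, ha10, ha1i⟩ := h'.loc1
  have c10 : ∀ V : ValuationSubring K, (∀ x ∈ IC (B1 t g'), x ∈ V) →
      (∀ x ∈ IC (B0 t g), x ∈ V) → 1 / v' ∈ V := by
    intro V h1 h2
    by_cases hV : V = ⊤
    · rw [hV]; trivial
    obtain ⟨c, ex, γ, hinj, -, happ, -, -, hγ0, -, hle, hge⟩ :=
      VT.exists_ex (IC (B0 t g)) (hcl0 ht hg) (frac0_IC g) V h2 hV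
    obtain ⟨β, ⟨n, hn, r, hr, hne⟩, hη⟩ := S0 ex hinj happ
    refine quot_mem V hγ0 (U := 1) (U' := u') (W := 1) (W' := v') (f := φ' r) (e := η' a1)
      (n := n) (i := i1) (β := β) hu' hv' hn ha10 (h1 _ (mem_Sec.1 (h'.mp.sec n r hr)).2) ?_
      (h1 _ ha1i) ?_
    · rw [one_pow, one_mul]
      exact hge _ ⟨φ' r, f0 r⟩ (not_dvd hne)
    · rw [one_pow, one_mul, one_mul]
      exact hle _ ⟨η' a1, e0 a1⟩ (hη i1 a1 ha1)
  have c01 : ∀ V : ValuationSubring K, (∀ x ∈ IC (B0 t g'), x ∈ V) →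
      (∀ x ∈ IC (B1 t g), x ∈ V) → v / 1 ∈ V := by
    intro V h1 h2
    by_cases hV : V = ⊤
    · rw [hV]; trivial
    obtain ⟨c, ex, γ, hinj, -, happ, -, -, hγ0, -, hle, hge⟩ :=
      VT.exists_ex (IC (B1 t g)) (hcl1 ht hg) ((isCD_IC ht hg).frac) V h2 hV
    obtain ⟨β, ⟨n, hn, r, hr, a, har, hne⟩, hη⟩ := S1 ex hinj happ
    refine quot_mem V hγ0 (U := u) (U' := 1) (W := v) (W' := 1) (f := φ' r) (e := η' a0)
      (n := n) (i := i0) (β := β) one_ne_zero one_ne_zero hn ha00 ?_ ?_ ?_ ?_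
    · rw [one_pow, one_mul]
      exact h1 _ (mem_Sec.1 (h'.mp.sec n r hr)).1
    · rw [← har]
      exact hge _ a (not_dvd hne)
    · rw [one_pow, one_mul, one_mul]
      exact h1 _ ha0i
    · exact hle _ ⟨_, e1 i0 a0 ha0⟩ (hη i0 a0 ha0 _ rfl)
  have c11 : ∀ V : ValuationSubring K, (∀ x ∈ IC (B1 t g'), x ∈ V) →
      (∀ x ∈ IC (B1 t g), x ∈ V) → v / v' ∈ V := by
    intro V h1 h2
    by_cases hV : V = ⊤
    · rw [hV]; trivial
    obtain ⟨c, ex, γ, hinj, -, happ, -, -, hγ0, -, hle, hge⟩ :=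
      VT.exists_ex (IC (B1 t g)) (hcl1 ht hg) ((isCD_IC ht hg).frac) V h2 hV
    obtain ⟨β, ⟨n, hn, r, hr, a, har, hne⟩, hη⟩ := S1 ex hinj happ
    refine quot_mem V hγ0 (U := u) (U' := u') (W := v) (W' := v') (f := φ' r) (e := η' a1)
      (n := n) (i := i1) (β := β) hu' hv' hn ha10 (h1 _ (mem_Sec.1 (h'.mp.sec n r hr)).2) ?_
      (h1 _ ha1i) ?_
    · rw [← har]
      exact hge _ a (not_dvd hne)
    · exact hle _ ⟨_, e1 i1 a1 ha1⟩ (hη i1 a1 ha1 _ rfl)
  have key := idx_le_of_sections (m := 0) (c := Fin.elim0) ht hg hg' hℓ1 hℓ2 hv hv'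
    (fun a => a.elim0) (fun n M a ha ha' => by
      obtain ⟨h1, h2⟩ := incl ht hg' hℓ1 hv' c10 c01 c11 n M a ha ha'
      exact ⟨h1, h2, fun l => l.elim0⟩)
  simpa using key

end IdxLimP

/-- C5. Degrees of the central fibre. -/
theorem idx_limit [IsAlgClosed k] [IsDomain R] {t : K} (ht : Transcendental k t)
    [FiniteDimensional (IntermediateField.adjoin k {t}) K]
    [Algebra.IsSeparable (IntermediateField.adjoin k {t}) K]
    {A₀ A₁ A₀' A₁' : Subalgebra k K} {u v u' v' : K} {φ φ' : R →ₐ[k] K} {η η' : J →ₗ[k] K}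
    (hch : IsCh t A₀ A₁) (hch' : IsCh t A₀' A₁') {N N' : ℕ}
    (h : IsGP 𝒜 P J N A₀ A₁ u v φ η)
    {F : R →ₐ[k] PowerSeries A₀} {H : J →ₗ[k] PowerSeries A₀} (hF : IsPF 𝒜 J A₀ A₁ u v F H)
    {m : ℕ} {c : Fin m → (A₀ →ₐ[k] k)} (hc : Function.Injective c)
    (hm : ∀ l, ∀ j, 0 < j → ∀ r ∈ 𝒜 j, c l (PowerSeries.constantCoeff (F r)) = 0)
    (hφ' : ∀ r, φ' r = ((PowerSeries.constantCoeff (F r) : A₀) : K))
    (hη' : ∀ x, η' x = ((PowerSeries.constantCoeff (H x) : A₀) : K))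
    (h' : IsGP 𝒜 P J N' A₀' A₁' u' v' φ' η') :
    idx A₁' u' + m ≤ idx A₁ u ∧
    ((∀ ex : A₀ →ₐ[k] PowerSeries k, Function.Injective ex →
        (∀ (n : ℕ) (s : PowerSeries k), ∃ a, PowerSeries.X ^ n ∣ ex a - s) →
        ∃ β : ℕ, (∀ n, ∀ r ∈ 𝒜 n, (PowerSeries.X : PowerSeries k) ^ (β * n) ∣
            ex (PowerSeries.constantCoeff (F r))) ∧
          (∃ n, 0 < n ∧ ∃ r ∈ 𝒜 n, PowerSeries.coeff (β * n)
            (ex (PowerSeries.constantCoeff (F r))) ≠ 0) ∧
          ∀ i, ∀ x : J, (x : R) ∈ 𝒜 i → (PowerSeries.X : PowerSeries k) ^ (β * i) ∣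
            ex (PowerSeries.constantCoeff (H x))) →
      (∀ ex : A₁ →ₐ[k] PowerSeries k, Function.Injective ex →
        (∀ (n : ℕ) (s : PowerSeries k), ∃ a, PowerSeries.X ^ n ∣ ex a - s) →
        ∃ β : ℕ, (∀ n, ∀ r ∈ 𝒜 n, ∀ a : A₁, (a : K) = u ^ n * φ' r →
            (PowerSeries.X : PowerSeries k) ^ (β * n) ∣ ex a) ∧
          (∃ n, 0 < n ∧ ∃ r ∈ 𝒜 n, ∃ a : A₁, (a : K) = u ^ n * φ' r ∧
            PowerSeries.coeff (β * n) (ex a) ≠ 0) ∧
          ∀ i, ∀ x : J, (x : R) ∈ 𝒜 i → ∀ a : A₁, (a : K) = u ^ i * v * η' x →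
            (PowerSeries.X : PowerSeries k) ^ (β * i) ∣ ex a) →
      idx A₁' v' ≤ idx A₁ v) := by
  obtain ⟨g, hg, rfl, rfl⟩ := hch
  obtain ⟨g', hg', rfl, rfl⟩ := hch'
  have f0 : ∀ r, φ' r ∈ IC (B0 t g) := fun r => by rw [hφ']; exact SetLike.coe_mem _
  have e0 : ∀ x, η' x ∈ IC (B0 t g) := fun x => by rw [hη']; exact SetLike.coe_mem _
  have hφc : ∀ r, (⟨φ' r, f0 r⟩ : IC (B0 t g)) = PowerSeries.constantCoeff (F r) :=
    fun r => Subtype.ext (hφ' r)
  have hηc : ∀ x, (⟨η' x, e0 x⟩ : IC (B0 t g)) = PowerSeries.constantCoeff (H x) :=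
    fun x => Subtype.ext (hη' x)
  have f1 : ∀ n, ∀ r ∈ 𝒜 n, u ^ n * φ' r ∈ IC (B1 t g) := by
    intro n r hr
    have h1 := (mem_Sec.1 (hF.sec n r hr 0)).2
    rw [PowerSeries.coeff_zero_eq_constantCoeff_apply, ← hφ'] at h1
    exact h1
  have e1 : ∀ n, ∀ x : J, (x : R) ∈ 𝒜 n → u ^ n * v * η' x ∈ IC (B1 t g) := by
    intro n x hx
    have h1 := hF.secη n x hx 0
    rw [PowerSeries.coeff_zero_eq_constantCoeff_apply, ← hη'] at h1
    exact h1
  refine ⟨IdxLimP.claim1 ht hg hg' h.mp.u_ne f0 f1 hc (fun l j hj r hr => ?_) h'.mp,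
    fun S0 S1 => IdxLimP.claim2 ht hg hg' h.v_ne f0 e0 e1 h' (fun ex h1 h2 => ?_)
      (fun ex h1 h2 => ?_)⟩
  · rw [hφc]
    exact hm l j hj r hr
  · obtain ⟨β, -, ⟨n, hn, r, hr, h3⟩, h4⟩ := S0 ex h1 h2
    refine ⟨β, ⟨n, hn, r, hr, ?_⟩, fun i x hx => ?_⟩
    · rw [hφc]; exact h3
    · rw [hηc]; exact h4 i x hx
  · obtain ⟨β, -, h3, h4⟩ := S1 ex h1 h2
    exact ⟨β, h3, h4⟩

end Vale.Agent.P292.Dv
end

section

/-! # P292, Part III, block T2: assembly. -/

namespace Vale.Agent.P292.Dv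

open TensorProduct
open Vale.Agent.P292.Mo

universe u v w

theorem NoPos.mono {k : Type u} [Field k] {R : Type v} [CommRing R] [Algebra k R]
    {𝒜 : ℕ → Submodule k R} {J : Ideal R} {E E' : ℕ} (h : NoPos 𝒜 J E) (hE : E' ≤ E) :
    NoPos 𝒜 J E' :=
  fun e δ he heE hδ => h e δ he (heE.trans hE) hδ

section step

variable {k : Type u} [Field k] {R : Type v} [CommRing R] [Algebra k R]
  {𝒜 : ℕ → Submodule k R} [GradedAlgebra 𝒜] {P : R →ₗ[k] R →ₗ[k] R} {J : Ideal R}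
  {K : Type w} [Field K] [Algebra k K]

/-- One break: from a pair with `m` marks to a pair of smaller degree. -/
theorem break_step [IsAlgClosed k] [IsDomain R] (p : ℕ) [Fact p.Prime] [CharP k p]
    (hP : IsPM 𝒜 P) (hJ : J.IsHomogeneous 𝒜) (hinv : IsInv 𝒜 J) {t : K}
    (ht : Transcendental k t) [FiniteDimensional (IntermediateField.adjoin k {t}) K]
    [Algebra.IsSeparable (IntermediateField.adjoin k {t}) K] {N : ℕ} {A₀ A₁ : Subalgebra k K}
    {u v : K} {φ : R →ₐ[k] K} {η : J →ₗ[k] K} (hch : IsCh t A₀ A₁)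
    (h : IsGP 𝒜 P J N A₀ A₁ u v φ η) {m : ℕ} (hm : 0 < m)
    (hnum : 0 < N * (2 * chi0 A₀ A₁ + idx A₁ u - 2 * m) + 2 * (chi0 A₀ A₁ - m))
    (hno : (∀ E, NoPos 𝒜 J E) ∨ (m = 2 ∧ ∃ E : ℕ, idx A₁ u = E + 1 ∧ NoPos 𝒜 J E)) :
    ∃ (N' : ℕ) (A₀' A₁' : Subalgebra k K) (u' v' : K) (φ' : R →ₐ[k] K) (η' : J →ₗ[k] K),
      IsCh t A₀' A₁' ∧ IsGP 𝒜 P J N' A₀' A₁' u' v' φ' η' ∧ idx A₁' u' + m ≤ idx A₁ u ∧
      idx A₁' v' ≤ idx A₁ v := by
  classical
  obtain ⟨g, hg, rfl, rfl⟩ := id hch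
  -- the marks
  obtain ⟨c, hc⟩ : ∃ c : Fin m → (IC (B0 t g) →ₐ[k] k), Function.Injective c := by
    have h1 := infinite_IC ht hg (1 : IC (B0 t g)) one_ne_zero
    have : Infinite ↥{c : IC (B0 t g) →ₐ[k] k | c 1 ≠ 0} := h1.to_subtype
    let e := Infinite.natEmbedding ↥{c : IC (B0 t g) →ₐ[k] k | c 1 ≠ 0}
    exact ⟨fun i => (e i).1, fun i j hij => Fin.ext (e.injective (Subtype.ext hij))⟩
  obtain ⟨Φ, hΦ, hΦT, hfam⟩ := famOutG_of_num hP hJ (isCD_IC ht hg) h hc hnum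
  obtain ⟨F, H, hF, hmark⟩ := exists_PF hP hJ ht hch h hm hc hΦ hΦT hfam
  -- the central fibre
  let cc : PowerSeries (IC (B0 t g)) →ₐ[k] IC (B0 t g) :=
    { (PowerSeries.constantCoeff (R := IC (B0 t g))) with
      commutes' := fun a => by
        change PowerSeries.constantCoeff (algebraMap k (PowerSeries (IC (B0 t g))) a) = _
        rw [PowerSeries.algebraMap_apply, PowerSeries.constantCoeff_C] }
  let φ' : R →ₐ[k] K := (IC (B0 t g)).val.comp (cc.comp F)
  let η' : J →ₗ[k] K := (IC (B0 t g)).val.toLinearMap ∘ₗ cc.toLinearMap ∘ₗ H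
  have hφ' : ∀ r, φ' r = ((PowerSeries.constantCoeff (F r) : IC (B0 t g)) : K) := fun r => rfl
  have hη' : ∀ x, η' x = ((PowerSeries.constantCoeff (H x) : IC (B0 t g)) : K) := fun x => rfl
  have hNV : Mo.NV 𝒜 φ' := by
    obtain ⟨n, hn, r, hr, hne⟩ := hF.ne
    exact ⟨n, hn, r, hr, fun h0 => hne (Subtype.ext h0)⟩
  have hlin : ∀ (r : R) (x : J), η' (r • x) = φ' r * η' x := by
    intro r x
    rw [hη', hφ', hη', hF.lin, map_mul]
    rfl
  have hη0 : ∃ x, η' x ≠ 0 := by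
    obtain ⟨x, hx⟩ := hF.neη
    exact ⟨x, fun h0 => hx (Subtype.ext h0)⟩
  obtain ⟨N', A₀', A₁', u', v', hch', h'⟩ := exists_GP p hP hJ hinv ht φ' hNV η' hlin hη0
  obtain ⟨h1, h2⟩ := idx_limit ht hch hch' h hF hc hmark hφ' hη' h'
  refine ⟨N', A₀', A₁', u', v', φ', η', hch', h', h1, h2 ?_ ?_⟩
  · intro ex hex hd
    obtain ⟨β, b1, ⟨n, hn, r, hr, a, ha, b2⟩, b3⟩ := sAt0 hP hJ hinv hF ex hex hd
    have hb1 : ∀ n, ∀ r ∈ 𝒜 n, (PowerSeries.X : PowerSeries k) ^ (β * n) ∣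
        ex (PowerSeries.constantCoeff (F r)) := fun n r hr => b1 n r hr _ rfl
    refine ⟨β, hb1, ⟨n, hn, r, hr, by rw [← ha]; exact b2⟩, ?_⟩
    have hN : NoPos 𝒜 J β := by
      rcases hno with hno | ⟨rfl, E, hE, hno⟩
      · exact hno β
      · have h3 := (mult_le ht h.mp.u_ne hch hF hc hmark).1 ex hex hd β hb1
        exact hno.mono (by omega)
    intro i x hx
    exact b3 hN i x hx _ rfl
  · intro ex hex hd
    obtain ⟨β, b1, b2, b3⟩ := sAt1 hP hJ hinv h.mp.u_ne h.v_ne hF ex hex hd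
    have hN : NoPos 𝒜 J β := by
      rcases hno with hno | ⟨rfl, E, hE, hno⟩
      · exact hno β
      · have h3 := (mult_le ht h.mp.u_ne hch hF hc hmark).2 ex hex hd β b1
        exact hno.mono (by omega)
    exact ⟨β, b1, b2, b3 hN⟩

/-- T2a: the descent. -/
theorem t2a_descent [IsAlgClosed k] [IsDomain R] (p : ℕ) [Fact p.Prime] [CharP k p]
    (hP : IsPM 𝒜 P) (hJ : J.IsHomogeneous 𝒜) (hinv : IsInv 𝒜 J) {t : K}
    (ht : Transcendental k t) [FiniteDimensional (IntermediateField.adjoin k {t}) K]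
    [Algebra.IsSeparable (IntermediateField.adjoin k {t}) K] {C κ : ℕ}
    (hC : ∀ A₀ A₁ : Subalgebra k K, IsCh t A₀ A₁ → - (C : ℤ) ≤ chi0 A₀ A₁)
    (hκ : ∀ {A₀ A₁ : Subalgebra k K}, IsCD A₀ A₁ →
      ∀ {N : ℕ} {u v : K} {φ : R →ₐ[k] K} {η : J →ₗ[k] K}, IsGP 𝒜 P J N A₀ A₁ u v φ η →
      0 ≤ idx A₁ u ∧ - idx A₁ v ≤ κ * idx A₁ u)
    (hno : ∀ E, NoPos 𝒜 J E) (d : ℕ) : ∀ {N : ℕ} {A₀ A₁ : Subalgebra k K} {u v : K}
    {φ : R →ₐ[k] K} {η : J →ₗ[k] K}, IsCh t A₀ A₁ → IsGP 𝒜 P J N A₀ A₁ u v φ η →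
    idx A₁ u = d → (κ : ℤ) * (4 * C + 4) < - idx A₁ v → False := by
  induction d using Nat.strong_induction_on with
  | _ d ih =>
    intro N A₀ A₁ u v φ η hch h hd hv
    obtain ⟨g, hg, h1, h2⟩ := id hch
    have hcd : IsCD A₀ A₁ := by
      rw [h1, h2]
      exact isCD_IC ht hg
    obtain ⟨-, h3⟩ := hκ hcd h
    have h4 := hC A₀ A₁ hch
    have h5 : (4 * C + 4 : ℤ) < d := by
      rw [hd] at h3
      by_contra hcon
      have h6 : (κ : ℤ) * d ≤ κ * (4 * C + 4) :=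
        mul_le_mul_of_nonneg_left (not_lt.1 hcon) (by positivity)
      linarith
    have hnum : 0 < N * (2 * chi0 A₀ A₁ + idx A₁ u - 2 * (1 : ℕ)) +
        2 * (chi0 A₀ A₁ - (1 : ℕ)) := by
      rw [hd]
      have h7 : (1 : ℤ) ≤ N := by exact_mod_cast h.Npos
      have h8 : 0 ≤ 2 * chi0 A₀ A₁ + (d : ℤ) - 2 * (1 : ℕ) := by push_cast; linarith
      have h9 := mul_le_mul_of_nonneg_right h7 h8
      push_cast at h9 h8 ⊢
      linarith
    obtain ⟨N', A₀', A₁', u', v', φ', η', hch', h', hu, hv'⟩ :=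
      break_step p hP hJ hinv ht hch h one_pos hnum (Or.inl hno)
    obtain ⟨g', hg', h1', h2'⟩ := id hch'
    have hcd' : IsCD A₀' A₁' := by
      rw [h1', h2']
      exact isCD_IC ht hg'
    obtain ⟨h10, -⟩ := hκ hcd' h'
    rw [hd] at hu
    refine ih (idx A₁' u').toNat ?_ hch' h' (Int.toNat_of_nonneg h10).symm (by linarith)
    push_cast at hu
    omega

/-- T2a for one generic field: the descent from a large degree. -/
theorem t2a_final [IsAlgClosed k] [IsDomain R] (p : ℕ) [Fact p.Prime] [CharP k p]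
    (hP : IsPM 𝒜 P) (hJ : J.IsHomogeneous 𝒜) (hinv : IsInv 𝒜 J) {t : K}
    (h : Transcendental k t ∧ FiniteDimensional (IntermediateField.adjoin k {t}) K ∧
      Algebra.IsSeparable (IntermediateField.adjoin k {t}) K) {C κ : ℕ}
    (hC : ∀ A₀ A₁ : Subalgebra k K, IsCh t A₀ A₁ → - (C : ℤ) ≤ chi0 A₀ A₁)
    (hκ : ∀ {A₀ A₁ : Subalgebra k K}, IsCD A₀ A₁ →
      ∀ {N : ℕ} {u v : K} {φ : R →ₐ[k] K} {η : J →ₗ[k] K}, IsGP 𝒜 P J N A₀ A₁ u v φ η →
      0 ≤ idx A₁ u ∧ - idx A₁ v ≤ κ * idx A₁ u)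
    (hno : ∀ E, NoPos 𝒜 J E) {N : ℕ} {A₀ A₁ : Subalgebra k K} {u v : K}
    {φ : R →ₐ[k] K} {η : J →ₗ[k] K} (hch : IsCh t A₀ A₁) (h' : IsGP 𝒜 P J N A₀ A₁ u v φ η)
    (hv : (κ : ℤ) * (4 * C + 4) < - idx A₁ v) : False := by
  obtain ⟨ht, hfd, hsep⟩ := h
  obtain ⟨g, hg, e1, e2⟩ := id hch
  have hcd : IsCD A₀ A₁ := by
    rw [e1, e2]
    exact isCD_IC ht hg
  obtain ⟨h10, -⟩ := hκ hcd h'
  exact t2a_descent p hP hJ hinv ht hC hκ hno (idx A₁ u).toNat hch h'
    (Int.toNat_of_nonneg h10).symm hv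

/-- T2a: the twist. -/
theorem t2a_twist [IsAlgClosed k] [IsDomain R] (p : ℕ) [Fact p.Prime] [CharP k p]
    (hP : IsPM 𝒜 P) (hJ : J.IsHomogeneous 𝒜) (hinv : IsInv 𝒜 J) {t : K}
    (ht : Transcendental k t) [FiniteDimensional (IntermediateField.adjoin k {t}) K]
    [Algebra.IsSeparable (IntermediateField.adjoin k {t}) K] {C κ : ℕ}
    (hC : ∀ (j : ℕ) (A₀ A₁ : Subalgebra k (Tw p j K)), IsCh (K := Tw p j K) t A₀ A₁ →
      - (C : ℤ) ≤ chi0 A₀ A₁)
    (hκ : ∀ (K : Type w) [Field K] [Algebra k K] (A₀ A₁ : Subalgebra k K), IsCD A₀ A₁ →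
      ∀ (N : ℕ) (u v : K) (φ : R →ₐ[k] K) (η : J →ₗ[k] K), IsGP 𝒜 P J N A₀ A₁ u v φ η →
      0 ≤ idx A₁ u ∧ - idx A₁ v ≤ κ * idx A₁ u)
    (hno : ∀ E, NoPos 𝒜 J E) {N : ℕ} {A₀ A₁ : Subalgebra k K} {u v : K}
    {φ : R →ₐ[k] K} {η : J →ₗ[k] K} (hch : IsCh t A₀ A₁) (h : IsGP 𝒜 P J N A₀ A₁ u v φ η)
    (hneg : idx A₁ v < 0) : False := by
  obtain ⟨j, hj⟩ := pow_unbounded_of_one_lt (κ * (4 * C + 4)) (Fact.out : p.Prime).one_lt
  obtain ⟨A₀', A₁', u', v', φ', η', hch', h', hv'⟩ := twist_GP p hP ht hch h j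
  refine t2a_final (K := Tw p j K) (t := t) (C := C) (κ := κ) p hP hJ hinv
    (tw_transcendental p j ht t rfl) (hC j) (fun a N u v φ η b => hκ (Tw p j K) _ _ a _ _ _ _ _ b) hno
    hch' h' ?_
  rw [hv']
  have h11 : ((κ * (4 * C + 4) : ℕ) : ℤ) < (p : ℤ) ^ j := by exact_mod_cast hj
  have h12 : (p : ℤ) ^ j ≤ p ^ j * - idx A₁ v :=
    le_mul_of_one_le_right (by positivity) (by omega)
  push_cast at h11
  linarith

end step

/-- T2: in characteristic `p` there is a closed rational curve of degree at most two which is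
positive on the divisor. -/
theorem mori2 {k : Type u} [Field k] {R : Type v} [CommRing R] [Algebra k R]
    {𝒜 : ℕ → Submodule k R} [GradedAlgebra 𝒜] {P : R →ₗ[k] R →ₗ[k] R} {J : Ideal R}
    [IsAlgClosed k] [IsDomain R] (p : ℕ) [Fact p.Prime] [CharP k p]
    (hP : IsPM 𝒜 P) (hJ : J.IsHomogeneous 𝒜) (hinv : IsInv 𝒜 J) {e n : ℕ} {y : Fin n → R}
    (hN : IsNoe 𝒜 p e y) (hn : 3 ≤ n) (f : R) (hfJ : f ∈ J)
    (hf : ∃ h : R, ∃ G : MvPolynomial (Fin n) k, G ≠ 0 ∧ f * h = MvPolynomial.aeval y G)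
    (w : R →ₐ[k] k) (hw : Mo.NV 𝒜 w) (hwJ : ∀ x ∈ J, w x = 0) : Pos 𝒜 J k := by
  classical
  have hft := hP.finiteType
  -- T2a
  have h1 : ¬ ∀ E, NoPos 𝒜 J E := by
    intro hno
    obtain ⟨K, iF, iA, t, φ, ht, hfd, hsep, hNV, hφf, V, hVt, hVk, n', hn', s, hs, hs0, hV, hVJ⟩ :=
      exists_curve_through p hP hN f hfJ hf w hw hwJ
    let η : J →ₗ[k] K := φ.toLinearMap ∘ₗ (Submodule.subtype (J.restrictScalars k))
    have hη : ∀ x : J, η x = φ x := fun x => rfl
    obtain ⟨N, A₀, A₁, u, v, hch, h⟩ := exists_GP p hP hJ hinv ht φ hNV η (fun r x => by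
      rw [hη, hη]
      exact map_mul φ r x) ⟨⟨f, hfJ⟩, hφf⟩
    have hneg := idx_neg_of_meets ht hch h hη V hVt hVk hn' hs hs0 hV hVJ
    obtain ⟨C, hC⟩ := exists_chi_bound (k := k) ht p
    obtain ⟨κ, hκ⟩ := neg_idx_le (P := P) (k := k) (R := R) (𝒜 := 𝒜) (J := J) hJ
    exact t2a_twist p hP hJ hinv ht hC (fun _ _ _ _ _ a _ _ _ _ _ b => hκ a b) hno hch h hneg
  -- the minimal degree
  have h2 : ∃ e' : ℕ, 0 < e' ∧ ∃ δ : ℕ, 0 < δ ∧ ∃ (φ : R →ₐ[k] MvPolynomial (Fin 2) k)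
      (η : J →ₗ[k] MvPolynomial (Fin 2) k), IsPair 𝒜 J e' δ φ η := by
    by_contra hcon
    refine h1 fun E e' δ he _ hδ φ η hp => hcon ⟨e', he, δ, hδ, φ, η, hp⟩
  obtain ⟨he0, δ, hδ, φ, η, hpair⟩ := Nat.find_spec h2
  have hmin := fun m (hm : m < Nat.find h2) => Nat.find_min h2 hm
  set E := Nat.find h2 with hE
  by_cases hE2 : E ≤ 2
  · exact ⟨E, δ, φ, η, by omega, hδ, hpair⟩
  exfalso
  push Not at hE2
  have hno : NoPos 𝒜 J (E - 1) := fun e' δ' he' hle hδ' φ' η' hp =>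
    hmin e' (by omega) ⟨he', δ', hδ', φ', η', hp⟩
  obtain ⟨ht, hfd, hsep, hchi⟩ := line_charts (k := k)
  obtain ⟨φ', η', hNV, hlin, hη0, hdeg⟩ := pair_of_closed (P := P) hpair
  obtain ⟨N, A₀, A₁, u, v, hch, h⟩ := exists_GP p hP hJ hinv ht φ' hNV η' hlin hη0
  obtain ⟨hu, hv⟩ := hdeg A₀ A₁ u v N hch h
  have hδ' : (0 : ℤ) < δ := by exact_mod_cast hδ
  obtain ⟨e1, δ1, φ1, η1, hle1, hδ1, hp1⟩ := closed_of_pair hP hJ hinv hch h (by linarith)
  have hδ1' : 0 < δ1 := by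
    have : (0 : ℤ) < δ1 := by linarith
    exact_mod_cast this
  have he1 := pair_deg_pos hJ hp1 hδ1'
  have hEe1 : E ≤ e1 := by
    by_contra hcon
    exact hmin e1 (not_le.1 hcon) ⟨he1, δ1, hδ1', φ1, η1, hp1⟩
  have huE : idx A₁ u = E := by
    have : (E : ℤ) ≤ e1 := by exact_mod_cast hEe1
    linarith
  have hN3 : 3 ≤ N := by
    obtain ⟨x, d, g, x', d', g', f0, f1⟩ := h.frames
    exact hn.trans (le_rk p hN f0.fr (fun h0 => f0.g_ne (by rw [h0, map_zero])))
  have hnum : 0 < N * (2 * chi0 A₀ A₁ + idx A₁ u - 2 * (2 : ℕ)) +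
      2 * (chi0 A₀ A₁ - (2 : ℕ)) := by
    rw [huE]
    have h7 : (3 : ℤ) ≤ N := by exact_mod_cast hN3
    have h6 := hchi A₀ A₁ hch
    have h5 : (3 : ℤ) ≤ E := by exact_mod_cast hE2
    have h8 : 0 ≤ 2 * chi0 A₀ A₁ + (E : ℤ) - 2 * (2 : ℕ) := by push_cast; linarith
    have h9 := mul_le_mul_of_nonneg_right h7 h8
    push_cast at h9 h8 ⊢
    linarith
  obtain ⟨N', A₀', A₁', u', v', φ2, η2, hch', h', hu', hv'⟩ :=
    break_step p hP hJ hinv ht hch h two_pos hnum
      (Or.inr ⟨rfl, E - 1, by rw [huE]; push_cast [Nat.cast_sub (by omega : 1 ≤ E)]; ring, hno⟩)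
  obtain ⟨e2, δ2, φ3, η3, hle2, hδ2, hp2⟩ := closed_of_pair hP hJ hinv hch' h' (by linarith)
  have hδ2' : 0 < δ2 := by
    have : (0 : ℤ) < δ2 := by linarith
    exact_mod_cast this
  have he2 := pair_deg_pos hJ hp2 hδ2'
  refine hmin e2 ?_ ⟨he2, δ2, hδ2', φ3, η3, hp2⟩
  have : (e2 : ℤ) < E := by
    rw [huE] at hu'
    push_cast at hu'
    linarith
  exact_mod_cast this

end Vale.Agent.P292.Dv
end

section

/-! # Reduction to domains. -/

namespace Vale.Agent.P292.Dv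

open MvPolynomial Vale.Agent.P292 Vale.Agent.P292.Mo

universe u v w

section

variable {k : Type u} [Field k] {S : Type v} [CommRing S] [Algebra k S]

/-- The elements which vanish near the point. -/
def drI (w : S →ₐ[k] k) : Ideal S where
  carrier := {r | ∃ c, w c ≠ 0 ∧ c * r = 0}
  add_mem' := by
    rintro a b ⟨c, hc, hca⟩ ⟨c', hc', hcb⟩
    refine ⟨c * c', by rw [map_mul]; exact mul_ne_zero hc hc', ?_⟩
    have h1 : c * c' * (a + b) = c' * (c * a) + c * (c' * b) := by ring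
    rw [h1, hca, hcb, mul_zero, mul_zero, add_zero]
  zero_mem' := ⟨1, by rw [map_one]; exact one_ne_zero, mul_zero _⟩
  smul_mem' := by
    rintro a r ⟨c, hc, hcr⟩
    refine ⟨c, hc, ?_⟩
    have h1 : c * (a • r) = a * (c * r) := by rw [smul_eq_mul]; ring
    rw [h1, hcr, mul_zero]

theorem mem_drI {w : S →ₐ[k] k} {r : S} : r ∈ drI w ↔ ∃ c, w c ≠ 0 ∧ c * r = 0 := Iff.rfl

theorem drI_ker {w : S →ₐ[k] k} {r : S} (hr : r ∈ drI w) : w r = 0 := by
  obtain ⟨c, hc, hcr⟩ := hr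
  have h1 := congrArg w hcr
  rw [map_mul, map_zero] at h1
  exact (mul_eq_zero.1 h1).resolve_left hc

theorem drI_le {w : S →ₐ[k] k} {𝔔 : Ideal S} (h𝔔 : 𝔔.IsPrime) (hle : ∀ r ∈ 𝔔, w r = 0) :
    drI w ≤ 𝔔 := by
  rintro r ⟨c, hc, hcr⟩
  refine (h𝔔.mem_or_mem (hcr ▸ 𝔔.zero_mem : c * r ∈ 𝔔)).resolve_left fun h => hc (hle c h)

variable {ℬ : ℕ → Submodule k S} [GradedAlgebra ℬ] {Q : S →ₗ[k] S →ₗ[k] S}

theorem drI_prime [Infinite k] (hPM : IsPM ℬ Q) {w : S →ₐ[k] k} (hw : Mo.NV ℬ w) :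
    (drI w).IsPrime := by
  have hft := hPM.finiteType
  have : IsNoetherianRing S := Algebra.FiniteType.isNoetherianRing k S
  obtain ⟨n, hn, s, hs, hws⟩ := hw
  refine ⟨fun h => ?_, fun {a b} hab => ?_⟩
  · have h1 : (1 : S) ∈ drI w := by rw [h]; exact Submodule.mem_top
    have h2 := drI_ker h1
    rw [map_one] at h2
    exact one_ne_zero h2
  · obtain ⟨c, hc, hcr⟩ := hab
    rw [← mul_assoc] at hcr
    obtain ⟨c', hc', h | h⟩ := reg_dom w s hws (hPM.smooth n hn s hs) hcr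
    · refine Or.inl ⟨c' * c, by rw [map_mul]; exact mul_ne_zero hc' hc, ?_⟩
      rw [mul_assoc, h]
    · exact Or.inr ⟨c', hc', h⟩

theorem drI_hom [Infinite k] (hPM : IsPM ℬ Q) {w : S →ₐ[k] k} (hw : Mo.NV ℬ w) :
    (drI w).IsHomogeneous ℬ := by
  rw [Ideal.IsHomogeneous.iff_eq]
  have h1 : ((drI w).homogeneousCore ℬ).toIdeal.IsPrime := (drI_prime hPM hw).homogeneousCore
  have h2 := Ideal.toIdeal_homogeneousCore_le ℬ (drI w)
  exact le_antisymm h2 (drI_le h1 fun r hr => drI_ker (h2 hr))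

omit [GradedAlgebra ℬ] in
theorem drI_bracket (hleib : ∀ a b c, Q a (b * c) = Q a b * c + b * Q a c) {w : S →ₐ[k] k}
    (a : S) {r : S} (hr : r ∈ drI w) : Q a r ∈ drI w := by
  obtain ⟨c, hc, hcr⟩ := hr
  refine ⟨c * c, by rw [map_mul]; exact mul_ne_zero hc hc, ?_⟩
  have h1 := hleib a c r
  rw [hcr, map_zero] at h1
  have h2 : c * c * Q a r = c * (Q a c * r + c * Q a r) - Q a c * (c * r) := by ring
  rw [h2, ← h1, hcr, mul_zero, mul_zero, sub_zero]

theorem drI_indep [IsAlgClosed k] (hPM : IsPM ℬ Q) {w : S →ₐ[k] k} (hw : Mo.NV ℬ w)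
    {p e n : ℕ} {y : Fin n → S} (hN : IsNoe ℬ p e y) {N : ℕ} (hnN : n ≤ N)
    (hrk : HasRk ℬ Q w N) :
    AlgebraicIndependent k fun i => Ideal.Quotient.mkₐ k (drI w) (y i) := by
  have : Infinite k := IsAlgClosed.instInfinite
  have hp := drI_prime hPM hw
  obtain ⟨x, dx, gx, -, hgx⟩ := hrk
  rw [map_mul] at hgx
  obtain ⟨T, hTp, hT⟩ := hN.gens
  let B₀ : Subalgebra k S := Algebra.adjoin k (Set.range y)
  have hB₀fin : Module.Finite B₀ S := ⟨⟨T, hT⟩⟩
  have hint₀ : ∀ r : S, IsIntegral B₀ r := fun r => IsIntegral.of_finite B₀ r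
  obtain ⟨𝔓, h𝔓, h𝔓w, hxi⟩ := cp_prime hPM x w hw (right_ne_zero_of_mul hgx)
  let m : S →ₐ[k] S ⧸ drI w := Ideal.Quotient.mkₐ k (drI w)
  have hm : Function.Surjective m := Ideal.Quotient.mk_surjective
  let y' : Fin n → S ⧸ drI w := fun i => m (y i)
  let B : Subalgebra k (S ⧸ drI w) := Algebra.adjoin k (Set.range y')
  have hmB : ∀ b ∈ B₀, m b ∈ B := by
    intro b hb
    have h1 : B₀ ≤ B.comap m := Algebra.adjoin_le (by
      rintro _ ⟨i, rfl⟩
      exact Algebra.subset_adjoin ⟨i, rfl⟩)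
    exact h1 hb
  let mB : B₀ →ₐ[k] B := (m.comp B₀.val).codRestrict B fun b => hmB b b.2
  have hint : ∀ r : S ⧸ drI w, IsIntegral B r := by
    intro r
    obtain ⟨r, rfl⟩ := hm r
    exact (hint₀ r).map_of_comp_eq (mB : B₀ →+* B) (m : S →+* S ⧸ drI w) rfl
  have hle := drI_le h𝔓 h𝔓w
  let τ : S ⧸ drI w →ₐ[k] S ⧸ 𝔓 := Ideal.Quotient.factorₐ k hle
  have hxi' : AlgebraicIndependent k fun i => m (x i) := by
    refine AlgebraicIndependent.of_comp τ ?_
    exact hxi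
  exact cp_indep hnN _ y' hxi' hint

/-- Reduction to the component of the point. -/
theorem dr_main [IsAlgClosed k] (hPM : IsPM ℬ Q) {w : S →ₐ[k] k} (hw : Mo.NV ℬ w)
    (hsm : ∀ n : ℕ, 0 < n → ∀ s ∈ ℬ n,
      Algebra.FormallySmooth k (Localization.Away (Ideal.Quotient.mk (drI w) s)))
    {p e n : ℕ} {y : Fin n → S} (hN : IsNoe ℬ p e y) (𝔮 : Ideal S) (h𝔮 : 𝔮.IsHomogeneous ℬ)
    (hinv : IsInv ℬ 𝔮)
    (hf : ∃ f ∈ 𝔮, ∃ h, ∃ G : MvPolynomial (Fin n) k, G ≠ 0 ∧ f * h = aeval y G)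
    (hw𝔮 : ∀ x ∈ 𝔮, w x = 0) (hrk : ∃ N, n ≤ N ∧ HasRk ℬ Q w N) :
    ∃ (S' : Type v) (_ : CommRing S') (_ : IsDomain S') (_ : Algebra k S')
      (ℬ' : ℕ → Submodule k S') (_ : GradedAlgebra ℬ') (Q' : S' →ₗ[k] S' →ₗ[k] S')
      (y' : Fin n → S') (𝔮' : Ideal S'), IsPM ℬ' Q' ∧ IsNoe ℬ' p e y' ∧ 𝔮'.IsHomogeneous ℬ' ∧
      IsInv ℬ' 𝔮' ∧
      (∃ f ∈ 𝔮', ∃ h, ∃ G : MvPolynomial (Fin n) k, G ≠ 0 ∧ f * h = aeval y' G) ∧
      (∃ w : S' →ₐ[k] k, Mo.NV ℬ' w ∧ (∀ x ∈ 𝔮', w x = 0) ∧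
        ∃ N, n ≤ N ∧ HasRk ℬ' Q' w N) ∧ (Pos ℬ' 𝔮' k → Pos ℬ 𝔮 k) := by
  have : Infinite k := IsAlgClosed.instInfinite
  have hp := drI_prime hPM hw
  have hh := drI_hom hPM hw
  obtain ⟨N, hnN, hrk⟩ := hrk
  let f : S →ₐ[k] S ⧸ drI w := Ideal.Quotient.mkₐ k (drI w)
  have hfs : Function.Surjective f := Ideal.Quotient.mk_surjective
  have hf0 : ∀ r, f r = 0 ↔ r ∈ drI w := fun r => Ideal.Quotient.eq_zero_iff_mem
  let 𝒢 : ℕ → Submodule k (S ⧸ drI w) := fun n => (ℬ n).map f.toLinearMap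
  obtain ⟨inst⟩ := dr_graded ℬ (drI w) hh
  have inst' : GradedAlgebra 𝒢 := inst
  obtain ⟨Q', hQ'⟩ := dq_bracket Q hPM.alternating f hfs fun a r hr =>
    (hf0 _).2 (drI_bracket hPM.leibniz a ((hf0 _).1 hr))
  let w' : S ⧸ drI w →ₐ[k] k := Ideal.Quotient.liftₐ (drI w) w fun r hr => drI_ker hr
  have hw' : w'.comp f = w := AlgHom.ext fun r => rfl
  refine ⟨S ⧸ drI w, inferInstance, Ideal.Quotient.isDomain _, inferInstance, 𝒢, inst', Q',
    fun i => f (y i), 𝔮.map f, dq_isPM f hfs (fun _ => rfl) hQ' hPM hsm,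
    dq_isNoe f hfs (fun _ => rfl) hN (drI_indep hPM hw hN hnN hrk), dq_hom f (fun _ => rfl) h𝔮,
    dq_isInv f hfs (fun _ => rfl) hinv, ?_, ⟨w', ?_, ?_, N, hnN, ?_⟩,
    dq_pos f hfs (fun _ => rfl)⟩
  · obtain ⟨a, ha, b, G, hG, hab⟩ := hf
    refine ⟨f a, Ideal.mem_map_of_mem f ha, f b, G, hG, ?_⟩
    have h1 : f.comp (aeval y) = aeval fun i => f (y i) :=
      MvPolynomial.algHom_ext fun i => by rw [AlgHom.comp_apply, aeval_X, aeval_X]
    rw [← map_mul, hab]
    exact DFunLike.congr_fun h1 G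
  · rw [dq_nv f (fun _ => rfl), hw']
    exact hw
  · intro x' hx'
    obtain ⟨x, hx, rfl⟩ := (Ideal.mem_map_iff_of_surjective f hfs).1 hx'
    exact hw𝔮 x hx
  · refine dq_rk f hfs (fun _ => rfl) hQ' w' ?_
    rw [hw']
    exact hrk

end

/-- The theorem in characteristic `p`, for domains. -/
def MoriDom : Prop :=
  ∀ (k : Type) [Field k] [IsAlgClosed k] (p : ℕ) [CharP k p], p ≠ 2 → p ≠ 0 →
    ∀ (S : Type) [CommRing S] [IsDomain S] [Algebra k S] (ℬ : ℕ → Submodule k S)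
      [GradedAlgebra ℬ] (Q : S →ₗ[k] S →ₗ[k] S), IsPM ℬ Q →
      ∀ (e n : ℕ) (y : Fin n → S), IsNoe ℬ p e y → 3 ≤ n →
      ∀ 𝔮 : Ideal S, 𝔮.IsHomogeneous ℬ → IsInv ℬ 𝔮 →
        (∃ f ∈ 𝔮, ∃ h, ∃ G : MvPolynomial (Fin n) k, G ≠ 0 ∧ f * h = aeval y G) →
        (∃ w : S →ₐ[k] k, Mo.NV ℬ w ∧ (∀ x ∈ 𝔮, w x = 0) ∧ ∃ N, n ≤ N ∧ HasRk ℬ Q w N) →
          Pos ℬ 𝔮 k

theorem moriD_of_domain (h : MoriDom) : MoriD := by
  intro k _ _ p _ hp2 hp0 S _ _ ℬ _ Q hPM e n y hN hn 𝔮 h𝔮 hinv hf ⟨w, hw, hw𝔮, hrk⟩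
  have hft := hPM.finiteType
  have hnoe : IsNoetherianRing S := Algebra.FiniteType.isNoetherianRing k S
  have : Infinite k := IsAlgClosed.instInfinite
  have hp := drI_prime hPM hw
  obtain ⟨S', _, _, _, ℬ', _, Q', y', 𝔮', hPM', hN', h𝔮', hinv', hf', hw', hpos⟩ :=
    dr_main hPM hw (fun m hm s hs => dr_smooth w (drI w) (fun r => Iff.rfl) hp s
      (hPM.smooth m hm s hs) fun y hy a b hab => reg_dom y s hy (hPM.smooth m hm s hs) hab)
      hN 𝔮 h𝔮 hinv hf hw𝔮 hrk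
  exact hpos (h k p hp2 hp0 S' ℬ' Q' hPM' e n y' hN' hn 𝔮' h𝔮' hinv' hf' hw')

end Vale.Agent.P292.Dv
end

section

/-! # Mori's theorem for dividing forms. -/

namespace Vale.Agent.P292.Dv

open Vale.Agent.P292.Mo

theorem moriDom : MoriDom := by
  intro k _ _ p _ hp2 hp0 S _ _ _ ℬ _ Q hPM e n y hN hn 𝔮 hh hinv hf hw
  have : Fact p.Prime := ⟨(CharP.char_is_prime_or_zero k p).resolve_right hp0⟩
  obtain ⟨f, hfq, h, G, hG, hfG⟩ := hf
  obtain ⟨w, hw, hwq, -⟩ := hw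
  exact mori2 p hPM hh hinv hN hn f hfq ⟨h, G, hG, hfG⟩ w hw hwq

theorem moriD : MoriD := moriD_of_domain moriDom

end Vale.Agent.P292.Dv
end

section

/-! # E5: conics which are positive on the divisor are algebraic over their ends. -/

namespace Vale.Agent.P292.Dv

open MvPolynomial Vale.Agent.P292

universe u v w w'

section

variable {R : Type u} [CommRing R] [Algebra ℂ R] {𝒜 : ℕ → Submodule ℂ R} [GradedAlgebra 𝒜]
  {P : R →ₗ[ℂ] R →ₗ[ℂ] R}

omit [GradedAlgebra 𝒜] in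
theorem e5_comp {A : Type v} {B : Type w} {C : Type w'} [CommRing A] [Algebra ℂ A] [CommRing B]
    [Algebra ℂ B] [CommRing C] [Algebra ℂ C] (φ₀ : R →ₐ[ℂ] MvPolynomial (Fin 2) A)
    (f : A →ₐ[ℂ] B) (g : B →ₐ[ℂ] C) :
    (mapAlgHom g).comp ((mapAlgHom f).comp φ₀) = (mapAlgHom (g.comp f)).comp φ₀ := by
  refine AlgHom.ext fun r => ?_
  change map (g : B →+* C) (map (f : A →+* B) (φ₀ r)) = map ((g.comp f : A →ₐ[ℂ] C) : A →+* C) (φ₀ r)
  rw [map_map]
  rfl

omit [GradedAlgebra 𝒜] in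
theorem e5_homog {A : Type v} {B : Type w} [CommRing A] [Algebra ℂ A] [CommRing B]
    [Algebra ℂ B] {φ₀ : R →ₐ[ℂ] MvPolynomial (Fin 2) A} {d : ℕ}
    (h : ∀ j, ∀ r ∈ 𝒜 j, (φ₀ r).IsHomogeneous (d * j)) (f : A →ₐ[ℂ] B) :
    ∀ j, ∀ r ∈ 𝒜 j, (((mapAlgHom f).comp φ₀) r).IsHomogeneous (d * j) := by
  intro j r hr m hm
  have h3 : coeff m (φ₀ r) ≠ 0 := by
    intro h2
    apply hm
    change coeff m (map (f : A →+* B) (φ₀ r)) = 0
    rw [coeff_map, h2, map_zero]
  exact h j r hr h3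

/-- E5, from E3, with an arbitrary algebraically closed field. -/
theorem e5_core (hX : IsContactFano 𝒜 P) {p : Ideal R} (hh : p.IsHomogeneous 𝒜)
    (hp : IsInv 𝒜 p)
    (hno : ∀ δ' > 0, ∀ φ : R →ₐ[ℂ] MvPolynomial (Fin 2) ℂ, ¬ HasPair 𝒜 p 1 δ' φ)
    {κ : Type v} [Field κ] [IsAlgClosed κ] [Algebra ℂ κ] (T : LaurentSeries ℂ →ₐ[ℂ] κ)
    (E3 : ∀ (F : R →ₐ[ℂ] MvPolynomial (Fin 2) (LaurentSeries ℂ)),
      (∀ j, ∀ r ∈ 𝒜 j, (F r).IsHomogeneous (2 * j)) → ∀ (w₀ w₁ : R →ₐ[ℂ] ℂ),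
      (∀ r, eval ![1, 0] (F r) = algebraMap ℂ (LaurentSeries ℂ) (w₀ r)) →
      (∀ r, eval ![0, 1] (F r) = algebraMap ℂ (LaurentSeries ℂ) (w₁ r)) →
      (∃ r m, coeff m (F r) ∉ Set.range (HahnSeries.ofPowerSeries ℤ ℂ)) →
      ∀ (δ : ℕ), 0 < δ → HasPair 𝒜 p 2 δ ((mapAlgHom T).comp F) →
      ∃ δ' > 0, ∃ φ : R →ₐ[ℂ] MvPolynomial (Fin 2) ℂ, HasPair 𝒜 p 1 δ' φ)
    {K : Type u} [Field K] [IsAlgClosed K]
    [Algebra ℂ K] {φ : R →ₐ[ℂ] MvPolynomial (Fin 2) K} (h : IsCurve 𝒜 2 φ)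
    {δ : ℕ} (hδ : 0 < δ) (hpair : HasPair 𝒜 p 2 δ φ) :
    ∀ r m, IsAlgebraic (ends φ) (coeff m (φ r)) := by
  intro r₀ m₀
  by_contra ha
  have := hX.domain
  have := hX.finiteType
  have : IsNoetherianRing R := Algebra.FiniteType.isNoetherianRing ℂ R
  obtain ⟨φ₀, hφ₀⟩ := e4_model φ
  obtain ⟨c, hc, hcert⟩ := e4_bpf h φ₀ hφ₀
  obtain ⟨f, w₀, w₁, hfc, h0, h1, hpole⟩ := e4_family φ r₀ m₀ ha φ₀ hφ₀ c
    (fun _ E hE a hT => t4_pole E hE a hT c hc)
  have hinj : Function.Injective (cfs φ).val := Subtype.val_injective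
  have hdeg₀ : ∀ j, ∀ r ∈ 𝒜 j, (φ₀ r).IsHomogeneous (2 * j) := by
    intro j r hr m hm
    have h2 : coeff m (φ r) ≠ 0 := by
      rw [← hφ₀]
      change coeff m (map ((cfs φ).val : cfs φ →+* K) (φ₀ r)) ≠ 0
      rw [coeff_map]
      exact (map_ne_zero_iff _ hinj).mpr hm
    exact h.degree j r hr h2
  have hT : Function.Injective T := (T : LaurentSeries ℂ →+* κ).injective
  have hcurve : IsCurve 𝒜 2 ((mapAlgHom (T.comp f)).comp φ₀) := hcert (T.comp f) (by
    rw [AlgHom.comp_apply]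
    exact (map_ne_zero_iff _ hT).mpr hfc)
  have hpairF : HasPair 𝒜 p 2 δ ((mapAlgHom T).comp ((mapAlgHom f).comp φ₀)) := by
    rw [e5_comp]
    refine hasPair_spec hh hp (T.comp f) (cfs φ).val hinj φ₀ hdeg₀ hcurve ?_
    rw [hφ₀]
    exact hpair
  obtain ⟨δ', hδ', ψ, hψ⟩ := E3 ((mapAlgHom f).comp φ₀) (e5_homog hdeg₀ f) w₀ w₁ h0 h1 hpole
    δ hδ hpairF
  exact hno δ' hδ' ψ hψ

/-- E5, from E3. -/
theorem t4_algebraic_conic_of (hX : IsContactFano 𝒜 P) {p : Ideal R} (hh : p.IsHomogeneous 𝒜)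
    (hp : IsInv 𝒜 p)
    (hno : ∀ δ' > 0, ∀ φ : R →ₐ[ℂ] MvPolynomial (Fin 2) ℂ, ¬ HasPair 𝒜 p 1 δ' φ)
    (E3 : ∀ (F : R →ₐ[ℂ] MvPolynomial (Fin 2) (LaurentSeries ℂ)),
      (∀ j, ∀ r ∈ 𝒜 j, (F r).IsHomogeneous (2 * j)) → ∀ (w₀ w₁ : R →ₐ[ℂ] ℂ),
      (∀ r, eval ![1, 0] (F r) = algebraMap ℂ (LaurentSeries ℂ) (w₀ r)) →
      (∀ r, eval ![0, 1] (F r) = algebraMap ℂ (LaurentSeries ℂ) (w₁ r)) →
      (∃ r m, coeff m (F r) ∉ Set.range (HahnSeries.ofPowerSeries ℤ ℂ)) →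
      ∀ (δ : ℕ), 0 < δ → HasPair 𝒜 p 2 δ ((mapAlgHom (IsScalarTower.toAlgHom ℂ
        (LaurentSeries ℂ) (AlgebraicClosure (LaurentSeries ℂ)))).comp F) →
      ∃ δ' > 0, ∃ φ : R →ₐ[ℂ] MvPolynomial (Fin 2) ℂ, HasPair 𝒜 p 1 δ' φ)
    {K : Type u} [Field K] [IsAlgClosed K]
    [Algebra ℂ K] {φ : R →ₐ[ℂ] MvPolynomial (Fin 2) K} (h : IsCurve 𝒜 2 φ)
    {δ : ℕ} (hδ : 0 < δ) (hpair : HasPair 𝒜 p 2 δ φ) :
    ∀ r m, IsAlgebraic (ends φ) (coeff m (φ r)) :=
  e5_core hX hh hp hno (IsScalarTower.toAlgHom ℂ (LaurentSeries ℂ)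
    (AlgebraicClosure (LaurentSeries ℂ))) E3 h hδ hpair

end

end Vale.Agent.P292.Dv
end

section

/-! # Part III, E3, part 1: charts and scaling of the second component. -/

namespace Vale.Agent.P292.Dv

open Vale.Agent.P292.Mo Vale.Agent.P292.Mo.Sc Vale.Agent.P292.Mo.Fm

universe u v w

section gen

variable {k : Type u} [Field k] {R : Type v} [CommRing R] [Algebra k R] {𝒜 : ℕ → Submodule k R}
  [GradedAlgebra 𝒜] {p : Ideal R}

/-- A homogeneous ideal of a Noetherian ring is generated by finitely many homogeneous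
elements. -/
theorem t4_genFin [IsNoetherianRing R] (hp : p.IsHomogeneous 𝒜) :
    ∃ S : Finset (ℕ × R), (∀ s ∈ S, s.2 ∈ 𝒜 s.1 ∧ s.2 ∈ p) ∧
      ∀ P : ℕ → R → Prop, (∀ s ∈ S, P s.1 s.2) → (∀ j, P j 0) →
      (∀ j x y, x ∈ 𝒜 j → x ∈ p → y ∈ 𝒜 j → y ∈ p → P j x → P j y → P j (x + y)) →
      (∀ i j r x, r ∈ 𝒜 i → x ∈ 𝒜 j → x ∈ p → P j x → P (i + j) (r * x)) →
      ∀ j x, x ∈ 𝒜 j → x ∈ p → P j x := by
  classical
  obtain ⟨s, hs⟩ := (isNoetherianRing_iff_ideal_fg R).mp inferInstance p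
  let T : Finset (Σ _ : R, ℕ) := s.sigma fun r => (DirectSum.decompose 𝒜 r).support
  refine ⟨T.image fun z => (z.2, (DirectSum.decompose 𝒜 z.1 z.2 : R)), ?_, ?_⟩
  · intro z hz
    obtain ⟨y, hy, rfl⟩ := Finset.mem_image.mp hz
    exact ⟨SetLike.coe_mem _, mem_of_homog hp
      (hs ▸ Ideal.subset_span (Finset.mem_sigma.mp hy).1) _⟩
  intro P h1 h0 h2 h3
  have key : ∀ x, x ∈ Ideal.span (s : Set R) → x ∈ p ∧ ∀ j, P j (DirectSum.decompose 𝒜 x j : R) := by
    intro x hx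
    induction hx using Submodule.span_induction with
    | mem g hg =>
      refine ⟨hs ▸ Ideal.subset_span hg, fun j => ?_⟩
      by_cases h : j ∈ (DirectSum.decompose 𝒜 g).support
      · exact h1 (j, (DirectSum.decompose 𝒜 g j : R)) (Finset.mem_image.mpr
          ⟨⟨g, j⟩, Finset.mem_sigma.mpr ⟨hg, h⟩, rfl⟩)
      · have h4 : (DirectSum.decompose 𝒜 g j : R) = 0 := by
          rw [DFinsupp.notMem_support_iff.mp h]; rfl
        rw [h4]; exact h0 j
    | zero =>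
      refine ⟨zero_mem _, fun j => ?_⟩
      rw [DirectSum.decompose_zero]
      exact h0 j
    | add x y _ _ hx hy =>
      refine ⟨add_mem hx.1 hy.1, fun j => ?_⟩
      rw [DirectSum.decompose_add, DirectSum.add_apply, Submodule.coe_add]
      exact h2 j _ _ (SetLike.coe_mem _) (mem_of_homog hp hx.1 j) (SetLike.coe_mem _)
        (mem_of_homog hp hy.1 j) (hx.2 j) (hy.2 j)
    | smul r x _ hx =>
      refine ⟨p.mul_mem_left _ hx.1, fun j => ?_⟩
      rw [smul_eq_mul]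
      have h5 : ∀ r : R, r * x ∈ p := fun r => p.mul_mem_left _ hx.1
      induction r using DirectSum.Decomposition.inductionOn 𝒜 generalizing j with
      | zero => rw [zero_mul, DirectSum.decompose_zero]; exact h0 j
      | @homogeneous i r =>
        rcases Nat.lt_or_ge j i with h | h
        · rw [DirectSum.coe_decompose_mul_of_left_mem_of_not_le 𝒜 r.2 (by omega)]
          exact h0 j
        · rw [DirectSum.coe_decompose_mul_of_left_mem_of_le 𝒜 r.2 h]
          have h6 := h3 i (j - i) _ _ r.2 (SetLike.coe_mem (DirectSum.decompose 𝒜 x (j - i)))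
            (mem_of_homog hp hx.1 _) (hx.2 _)
          rwa [Nat.add_sub_cancel' h] at h6
      | add a b ha hb =>
        rw [add_mul, DirectSum.decompose_add, DirectSum.add_apply, Submodule.coe_add]
        exact h2 j _ _ (SetLike.coe_mem _) (mem_of_homog hp (h5 a) j) (SetLike.coe_mem _)
          (mem_of_homog hp (h5 b) j) (ha j) (hb j)
  intro j x hx hx'
  have h4 := (key x (hs ▸ hx')).2 j
  rwa [DirectSum.decompose_of_mem_same 𝒜 hx] at h4

end gen

section chart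

variable (k : Type u) [Field k]

/-- The chart at the point where the coordinate `t` vanishes. -/
noncomputable def ch (t : Fin 2) : MvPolynomial (Fin 2) k →ₐ[k] Polynomial k :=
  MvPolynomial.aeval fun i => if i = t then Polynomial.X else 1

variable {k}

theorem prod_ch {S : Type*} [CommRing S] (z : S) (t : Fin 2) (m : Fin 2 →₀ ℕ) :
    ∏ i, (if i = t then z else 1) ^ m i = z ^ m t := by
  rw [Finset.prod_eq_single t]
  · rw [if_pos rfl]
  · intro i _ hi
    rw [if_neg hi, one_pow]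
  · intro h
    exact absurd (Finset.mem_univ t) h

theorem coeff_ch (f : MvPolynomial (Fin 2) k) (t : Fin 2) (i : ℕ) :
    (ch k t f).coeff i = ∑ d ∈ f.support, if d t = i then f.coeff d else 0 := by
  classical
  rw [ch, MvPolynomial.aeval_def, MvPolynomial.eval₂_eq', Polynomial.finset_sum_coeff]
  refine Finset.sum_congr rfl fun d _ => ?_
  rw [prod_ch, Polynomial.algebraMap_eq, Polynomial.coeff_C_mul_X_pow]
  by_cases h : d t = i
  · rw [if_pos h, if_pos h.symm]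
  · rw [if_neg h, if_neg (Ne.symm h)]

variable {f : MvPolynomial (Fin 2) k} {δ n : ℕ}

theorem coeff_ch_of (hf : ∀ m, f.coeff m ≠ 0 → m 0 + m 1 + δ = n) (t : Fin 2) {m : Fin 2 →₀ ℕ}
    (hm : m 0 + m 1 + δ = n) : (ch k t f).coeff (m t) = f.coeff m := by
  classical
  rw [coeff_ch, Finset.sum_eq_single m]
  · rw [if_pos rfl]
  · intro q hq hqm
    rw [if_neg]
    intro h2
    apply hqm
    have h3 := hf q (MvPolynomial.mem_support_iff.1 hq)
    have h4 : t = 0 ∨ t = 1 := by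
      fin_cases t
      · exact Or.inl rfl
      · exact Or.inr rfl
    have h5 : q 0 = m 0 ∧ q 1 = m 1 := by
      rcases h4 with rfl | rfl
      · exact ⟨h2, by omega⟩
      · exact ⟨by omega, h2⟩
    ext i
    fin_cases i
    · exact h5.1
    · exact h5.2
  · intro h
    rw [if_pos rfl, MvPolynomial.notMem_support_iff.1 h]

theorem exists_of_coeff_ch {t : Fin 2} {i : ℕ} (h : (ch k t f).coeff i ≠ 0) :
    ∃ m, m t = i ∧ f.coeff m ≠ 0 := by
  classical
  rw [coeff_ch] at h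
  obtain ⟨m, hm, hne⟩ := Finset.exists_ne_zero_of_sum_ne_zero h
  by_cases h1 : m t = i
  · exact ⟨m, h1, MvPolynomial.mem_support_iff.1 hm⟩
  · rw [if_neg h1] at hne
    exact absurd rfl hne

theorem ch_ne_zero (hf : ∀ m, f.coeff m ≠ 0 → m 0 + m 1 + δ = n) (t : Fin 2) (h : f ≠ 0) :
    ch k t f ≠ 0 := by
  obtain ⟨m, hm⟩ := MvPolynomial.ne_zero_iff.mp h
  intro h0
  apply hm
  rw [← coeff_ch_of hf t (hf m hm), h0, Polynomial.coeff_zero]

end chart

section scal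

variable {k : Type u} [Field k] {R : Type v} [CommRing R] [Algebra k R] {𝒜 : ℕ → Submodule k R}
  [GradedAlgebra 𝒜] {p : Ideal R}

theorem swapL_injective : Function.Injective (swapL k) := by
  intro f g h
  ext m i
  rw [← coeff_swapL, ← coeff_swapL, h]

theorem expand_injective {B : Type*} [CommRing B] [Algebra k B] (c : ℕ) (hc : 0 < c) :
    Function.Injective (expand k (B := B) c hc) := by
  intro f g h
  ext i
  rw [← expand_coeff_mul (k := k) c hc f, ← expand_coeff_mul (k := k) c hc g, h]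

theorem coeff_expand_swapL {f : MvPolynomial (Fin 2) (LaurentSeries k)} {c : ℕ} {hc : 0 < c}
    {i : ℤ} {m : Fin 2 →₀ ℕ}
    (h : ((expand k c hc (swapL k f)).coeff i).coeff m ≠ 0) : f.coeff m ≠ 0 := by
  by_cases hdv : (c : ℤ) ∣ i
  · obtain ⟨b, rfl⟩ := hdv
    rw [expand_coeff_mul, coeff_swapL] at h
    intro h0
    rw [h0] at h
    exact h rfl
  · rw [expand_coeff_of_not_dvd _ _ _ _ hdv] at h
    exact absurd (MvPolynomial.coeff_zero m) h

/-- Scaling of the second component. -/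
theorem exists_scaled_eta [IsNoetherianRing R] (hp : p.IsHomogeneous 𝒜)
    {F : R →ₐ[k] MvPolynomial (Fin 2) (LaurentSeries k)}
    {η : ℕ → R → MvPolynomial (Fin 2) (LaurentSeries k)} (hη : IsEta 𝒜 p F η) {e δ : ℕ}
    (hdegη : ∀ j x, x ∈ 𝒜 j → x ∈ p → ∀ m, (η j x).coeff m ≠ 0 → m 0 + m 1 + δ = e * j)
    (hne : ∃ j x, x ∈ 𝒜 j ∧ x ∈ p ∧ η j x ≠ 0) {c : ℕ} {hc : 0 < c} {μ : ℕ}
    {φ : R →ₐ[k] PowerSeries (MvPolynomial (Fin 2) k)}
    (hφ : ∀ n, ∀ r ∈ 𝒜 n, ofPS k _ (φ r) =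
        HahnSeries.single (μ * n : ℤ) 1 * expand k c hc (swapL k (F r))) :
    ∃ ζ : ℕ → R → PowerSeries (MvPolynomial (Fin 2) k), IsEta 𝒜 p φ ζ ∧
      (∀ j x, x ∈ 𝒜 j → x ∈ p → ∀ m, (PowerSeries.constantCoeff (ζ j x)).coeff m ≠ 0 →
        m 0 + m 1 + δ = e * j) ∧
      ∃ j x, x ∈ 𝒜 j ∧ x ∈ p ∧ PowerSeries.constantCoeff (ζ j x) ≠ 0 := by
  classical
  let E : MvPolynomial (Fin 2) (LaurentSeries k) →ₐ[k] LaurentSeries (MvPolynomial (Fin 2) k) :=
    (expand k c hc).comp (swapL k)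
  have hEinj : Function.Injective E := fun f g h =>
    swapL_injective (expand_injective (k := k) (B := MvPolynomial (Fin 2) k) c hc h)
  have hφE : ∀ n, ∀ r ∈ 𝒜 n, ((ofPS k (MvPolynomial (Fin 2) k)).comp φ) r =
      HahnSeries.single (μ * n : ℤ) 1 * E (F r) := hφ
  obtain ⟨H, hHdef⟩ : ∃ H : ℕ → R → LaurentSeries (MvPolynomial (Fin 2) k),
      ∀ j x, H j x = HahnSeries.single (μ * j : ℤ) 1 * E (η j x) := ⟨_, fun _ _ => rfl⟩
  have hH : IsEta 𝒜 p ((ofPS k (MvPolynomial (Fin 2) k)).comp φ) H := by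
    refine ⟨fun j x y hx hx' hy hy' => ?_, fun i j r x hr hx hx' => ?_⟩
    · rw [hHdef, hHdef, hHdef, hη.add j x y hx hx' hy hy', map_add, mul_add]
    · rw [hHdef, hHdef, hη.mul i j r x hr hx hx', hφE i r hr, map_mul]
      have h1 : (HahnSeries.single (μ * (i + j : ℕ) : ℤ) (1 : MvPolynomial (Fin 2) k)) =
          HahnSeries.single (μ * i : ℤ) 1 * HahnSeries.single (μ * j : ℤ) 1 := by
        rw [HahnSeries.single_mul_single, one_mul]
        congr 1
        push_cast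
        ring
      rw [h1]
      ring
  obtain ⟨S, hS, hgen⟩ := t4_genFin hp
  obtain ⟨N, hN⟩ : ∃ N : ℕ, ∀ s ∈ S, ∀ i : ℤ, i < 0 → (H s.1 s.2).coeff (i - N) = 0 := by
    refine ⟨∑ s ∈ S, (H s.1 s.2).order.natAbs, fun s hs i hi => ?_⟩
    apply HahnSeries.coeff_eq_zero_of_lt_order
    have h1 : (H s.1 s.2).order.natAbs ≤ ∑ s ∈ S, (H s.1 s.2).order.natAbs :=
      Finset.single_le_sum (f := fun s : ℕ × R => (H s.1 s.2).order.natAbs)
        (fun _ _ => Nat.zero_le _) hs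
    omega
  have hint : ∀ j x, x ∈ 𝒜 j → x ∈ p →
      HahnSeries.single (N : ℤ) 1 * H j x ∈ (ofPS k (MvPolynomial (Fin 2) k)).range := by
    refine hgen _ ?_ ?_ ?_ ?_
    · intro s hs
      rw [mem_range_ofPS]
      intro i hi
      rw [single_mul_coeff]
      exact hN s hs i hi
    · intro j
      rw [hH.zero, mul_zero]
      exact zero_mem _
    · intro j x y hx hx' hy hy' h1 h2
      rw [hH.add j x y hx hx' hy hy', mul_add]
      exact add_mem h1 h2
    · intro i j r x hr hx hx' h1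
      rw [hH.mul i j r x hr hx hx', mul_left_comm]
      exact mul_mem ⟨φ r, rfl⟩ h1
  have h1 : ∀ j x, ∃ y : PowerSeries (MvPolynomial (Fin 2) k), x ∈ 𝒜 j → x ∈ p →
      ofPS k (MvPolynomial (Fin 2) k) y = HahnSeries.single (N : ℤ) 1 * H j x := by
    intro j x
    by_cases h : x ∈ 𝒜 j ∧ x ∈ p
    · obtain ⟨y, hy⟩ := hint j x h.1 h.2
      exact ⟨y, fun _ _ => hy⟩
    · exact ⟨0, fun h1 h2 => absurd ⟨h1, h2⟩ h⟩
  choose H₁ hH₁ using h1
  have hinj : Function.Injective (ofPS k (MvPolynomial (Fin 2) k)) := ofPS_injective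
  have hE₁ : IsEta 𝒜 p φ H₁ := by
    refine ⟨fun j x y hx hx' hy hy' => hinj ?_, fun i j r x hr hx hx' => hinj ?_⟩
    · rw [hH₁ j _ ((𝒜 j).add_mem hx hy) (p.add_mem hx' hy'), map_add, hH₁ j x hx hx',
        hH₁ j y hy hy', hH.add j x y hx hx' hy hy', mul_add]
    · rw [hH₁ (i + j) _ (SetLike.mul_mem_graded hr hx) (p.mul_mem_left _ hx'), map_mul,
        hH₁ j x hx hx', hH.mul i j r x hr hx hx', mul_left_comm]
      rfl
  have hdeg₁ : ∀ j x, x ∈ 𝒜 j → x ∈ p → ∀ i m, (PowerSeries.coeff i (H₁ j x)).coeff m ≠ 0 →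
      m 0 + m 1 + δ = e * j := by
    intro j x hx hx' i m hm
    have h2 := ofPS_coeff_nat (k := k) (H₁ j x) i
    rw [hH₁ j x hx hx', single_mul_coeff, hHdef, single_mul_coeff] at h2
    rw [← h2] at hm
    exact hdegη j x hx hx' m (coeff_expand_swapL (hc := hc) hm)
  obtain ⟨M, hM⟩ := exists_genIn hp
  obtain ⟨b, hb, hb'⟩ := exists_ord (β := 0) hM
    (fun j r _ => by rw [zero_mul, pow_zero]; exact one_dvd _) hE₁ (by
    obtain ⟨j, x, hx, hx', h⟩ := hne
    refine ⟨j, x, hx, hx', fun h0 => h (hEinj ?_)⟩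
    have h2 := hH₁ j x hx hx'
    rw [h0, map_zero, hHdef, ← mul_assoc, HahnSeries.single_mul_single, one_mul] at h2
    have h3 := congrArg (fun y => HahnSeries.single (-(N + μ * j) : ℤ)
      (1 : MvPolynomial (Fin 2) k) * y) h2
    simp only [mul_zero] at h3
    rw [← mul_assoc, HahnSeries.single_mul_single, neg_add_cancel, one_mul] at h3
    rw [map_zero, h3]
    exact (one_mul _).symm)
  obtain ⟨ζ, hζ, hζ'⟩ := eta_div (F := φ) (s := (1 : PowerSeries (MvPolynomial (Fin 2) k)))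
    (t := 1) (u := PowerSeries.X ^ b) one_ne_zero (pow_ne_zero _ PowerSeries.X_ne_zero)
    (fun j r _ => by rw [one_pow, one_mul]) hE₁ (fun j x hx hx' => by
      have h2 := hb j x hx hx'
      rw [zero_mul, zero_add, zero_mul, pow_zero] at h2
      rw [one_pow, one_mul]
      exact h2)
  have hζ₁ : ∀ j x, x ∈ 𝒜 j → x ∈ p → PowerSeries.constantCoeff (ζ j x) =
      PowerSeries.coeff b (H₁ j x) := by
    intro j x hx hx'
    have h2 := hζ' j x hx hx'
    rw [one_mul, one_pow, one_mul] at h2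
    rw [h2, PowerSeries.coeff_X_pow_mul', if_pos le_rfl, Nat.sub_self,
      PowerSeries.coeff_zero_eq_constantCoeff]
  refine ⟨ζ, hζ, fun j x hx hx' m hm => ?_, ?_⟩
  · rw [hζ₁ j x hx hx'] at hm
    exact hdeg₁ j x hx hx' b m hm
  · obtain ⟨j, x, hx, hx', h⟩ := hb'
    refine ⟨j, x, hx, hx', ?_⟩
    rw [hζ₁ j x hx hx']
    rwa [zero_mul, zero_add, zero_mul, pow_zero, one_mul] at h

end scal

end Vale.Agent.P292.Dv
end

section

/-! # Part III, E3: a positive conic with two fixed ends degenerates to a positive line. -/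

namespace Vale.Agent.P292.Dv

open Vale.Agent.P292.Mo Vale.Agent.P292.Mo.Sc Vale.Agent.P292.Mo.Fm

universe u v w

theorem alg_add {K A B : Type*} [CommSemiring K] [Semiring A] [Semiring B] [Algebra K A]
    [Algebra K B] (f : A →ₐ[K] B) (a b : A) : f (a + b) = f a + f b := map_add f a b

section swapP

variable (k : Type u) [Field k]

/-- Polynomials over the Laurent series as Laurent series over the polynomials. -/
noncomputable def swapP : Polynomial (LaurentSeries k) →ₐ[k] LaurentSeries (Polynomial k) :=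
  { Polynomial.eval₂RingHom (mapL k (Polynomial k)).toRingHom
      (HahnSeries.C (Polynomial.X : Polynomial k)) with
    commutes' := fun c => by
      change Polynomial.eval₂RingHom (mapL k (Polynomial k)).toRingHom _ _ = _
      rw [Polynomial.algebraMap_apply, Polynomial.coe_eval₂RingHom, Polynomial.eval₂_C]
      exact (mapL k (Polynomial k)).commutes c }

variable {k}

theorem swapP_apply (f : Polynomial (LaurentSeries k)) : swapP k f =
    Polynomial.eval₂ (mapL k (Polynomial k)).toRingHom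
      (HahnSeries.C (Polynomial.X : Polynomial k)) f := rfl

theorem swapP_ch (f : MvPolynomial (Fin 2) (LaurentSeries k)) (t : Fin 2) (i : ℤ) :
    (swapP k (ch (LaurentSeries k) t f)).coeff i = ch k t ((swapL k f).coeff i) := by
  classical
  induction f using MvPolynomial.induction_on' with
  | monomial m a =>
    have h1 : ch (LaurentSeries k) t (MvPolynomial.monomial m a) =
        Polynomial.C a * Polynomial.X ^ m t := by
      rw [ch, MvPolynomial.aeval_monomial, Polynomial.algebraMap_eq,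
        Finsupp.prod_fintype _ _ (fun _ => pow_zero _), prod_ch]
    have h2 : ch k t (MvPolynomial.monomial m (1 : k)) = Polynomial.X ^ m t := by
      rw [ch, MvPolynomial.aeval_monomial, Polynomial.algebraMap_eq, map_one, one_mul,
        Finsupp.prod_fintype _ _ (fun _ => pow_zero _), prod_ch]
    rw [h1, swapP_apply, Polynomial.eval₂_mul, Polynomial.eval₂_C, Polynomial.eval₂_pow,
      Polynomial.eval₂_X, ← map_pow, swapL_monomial]
    change ((mapL k (Polynomial k) a) * HahnSeries.C _).coeff i = _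
    rw [mul_comm, C_mul_coeff, mapL_coeff, mul_comm (mapL k (MvPolynomial (Fin 2) k) a),
      C_mul_coeff, mapL_coeff, map_mul, h2, AlgHom.commutes]
  | add p q hp hq =>
    have h1 : swapP k (ch (LaurentSeries k) t (p + q)) =
        swapP k (ch (LaurentSeries k) t p) + swapP k (ch (LaurentSeries k) t q) := by
      rw [swapP_apply, alg_add (ch (LaurentSeries k) t), Polynomial.eval₂_add]
      rfl
    rw [h1, alg_add (swapL k), HahnSeries.coeff_add, HahnSeries.coeff_add,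
      alg_add (ch k t), hp, hq]

theorem ofPS_map {B C : Type*} [CommRing B] [Algebra k B] [CommRing C] [Algebra k C]
    (g : B →ₐ[k] C) (y : PowerSeries B) (i : ℤ) :
    (ofPS k C (PowerSeries.mapAlgHom g y)).coeff i = g ((ofPS k B y).coeff i) := by
  rcases lt_or_ge i 0 with hi | hi
  · rw [ofPS_coeff_neg _ i hi, ofPS_coeff_neg _ i hi, map_zero]
  · obtain ⟨n, rfl⟩ := Int.eq_ofNat_of_zero_le hi
    have h1 := ofPS_coeff_nat (k := k) (PowerSeries.mapAlgHom g y) n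
    have h2 := ofPS_coeff_nat (k := k) y n
    rw [h1, h2]
    exact PowerSeries.coeff_map _ _ _

theorem expand_map {B C : Type*} [CommRing B] [Algebra k B] [CommRing C] [Algebra k C]
    (g : B →ₐ[k] C) (c : ℕ) (hc : 0 < c) {x : LaurentSeries B} {x' : LaurentSeries C}
    (h : ∀ i, x'.coeff i = g (x.coeff i)) (i : ℤ) :
    (expand k c hc x').coeff i = g ((expand k c hc x).coeff i) := by
  by_cases hdv : (c : ℤ) ∣ i
  · obtain ⟨b, rfl⟩ := hdv
    rw [expand_coeff_mul, expand_coeff_mul, h]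
  · rw [expand_coeff_of_not_dvd _ _ _ _ hdv, expand_coeff_of_not_dvd _ _ _ _ hdv, map_zero]

end swapP

section descend

variable {k : Type u} [Field k] {R : Type v} [CommRing R] [Algebra k R] {𝒜 : ℕ → Submodule k R}
  [GradedAlgebra 𝒜] {p : Ideal R}

/-- Coefficientwise application of a functional. -/
noncomputable def lamM {L K : Type*} [Field L] [Field K] [Algebra L K] (l : K →ₗ[L] L)
    (f : MvPolynomial (Fin 2) K) : MvPolynomial (Fin 2) L :=
  ∑ d ∈ f.support, MvPolynomial.monomial d (l (f.coeff d))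

theorem coeff_lamM {L K : Type*} [Field L] [Field K] [Algebra L K] (l : K →ₗ[L] L)
    (f : MvPolynomial (Fin 2) K) (m : Fin 2 →₀ ℕ) : (lamM l f).coeff m = l (f.coeff m) := by
  classical
  rw [lamM, MvPolynomial.coeff_sum, Finset.sum_eq_single m]
  · rw [MvPolynomial.coeff_monomial, if_pos rfl]
  · intro d _ hd
    rw [MvPolynomial.coeff_monomial, if_neg hd]
  · intro h
    rw [MvPolynomial.notMem_support_iff.1 h, map_zero, MvPolynomial.monomial_zero,
      MvPolynomial.coeff_zero]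

/-- A pair over an extension gives a second component over the base. -/
theorem exists_eta_descend (hp : p.IsHomogeneous 𝒜) {L : Type*} [Field L] [Algebra k L]
    {K : Type*} [Field K] [Algebra L K] [Algebra k K] [IsScalarTower k L K] {e δ : ℕ}
    {F : R →ₐ[k] MvPolynomial (Fin 2) L} {η₀ : p →ₗ[k] MvPolynomial (Fin 2) K}
    (h : IsPair 𝒜 p e δ ((MvPolynomial.mapAlgHom (IsScalarTower.toAlgHom k L K)).comp F) η₀) :
    ∃ η : ℕ → R → MvPolynomial (Fin 2) L, IsEta 𝒜 p F η ∧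
      (∀ j x, x ∈ 𝒜 j → x ∈ p → ∀ m, (η j x).coeff m ≠ 0 → m 0 + m 1 + δ = e * j) ∧
      ∃ j x, x ∈ 𝒜 j ∧ x ∈ p ∧ η j x ≠ 0 := by
  classical
  obtain ⟨x₀, hx₀⟩ := h.bpfη ![1, 0] (by
    intro h0
    have := congrFun h0 0
    simp at this)
  obtain ⟨j₀, hj₀⟩ : ∃ j, η₀ ⟨_, mem_of_homog hp x₀.2 j⟩ ≠ 0 := by
    by_contra hcon
    push Not at hcon
    apply hx₀
    have h1 : x₀ = ∑ j ∈ (DirectSum.decompose 𝒜 (x₀ : R)).support,
        (⟨_, mem_of_homog hp x₀.2 j⟩ : p) := by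
      apply Subtype.ext
      rw [AddSubmonoidClass.coe_finsetSum]
      exact (DirectSum.sum_support_decompose 𝒜 (x₀ : R)).symm
    rw [h1, map_sum, Finset.sum_eq_zero (fun j _ => hcon j), map_zero]
  obtain ⟨m₀, hm₀⟩ := MvPolynomial.ne_zero_iff.mp hj₀
  obtain ⟨l, hl⟩ : ∃ l : K →ₗ[L] L, l ((η₀ ⟨_, mem_of_homog hp x₀.2 j₀⟩).coeff m₀) ≠ 0 := by
    by_contra hcon
    push Not at hcon
    exact hm₀ ((Module.forall_dual_apply_eq_zero_iff L _).mp hcon)
  let η : ℕ → R → MvPolynomial (Fin 2) L := fun _ x =>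
    if hx : x ∈ p then lamM l (η₀ ⟨x, hx⟩) else 0
  have hη : ∀ j x (hx : x ∈ p), η j x = lamM l (η₀ ⟨x, hx⟩) := fun j x hx => dif_pos hx
  refine ⟨η, ⟨fun j x y hx hx' hy hy' => ?_, fun i j r x hr hx hx' => ?_⟩,
    fun j x hx hx' m hm => ?_, j₀, _, SetLike.coe_mem (DirectSum.decompose 𝒜 (x₀ : R) j₀),
    mem_of_homog hp x₀.2 j₀, ?_⟩
  · rw [hη j _ (p.add_mem hx' hy'), hη j x hx', hη j y hy']
    ext m
    have h1 : (⟨x + y, p.add_mem hx' hy'⟩ : p) = ⟨x, hx'⟩ + ⟨y, hy'⟩ := rfl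
    rw [MvPolynomial.coeff_add, coeff_lamM, coeff_lamM, coeff_lamM, h1, map_add,
      MvPolynomial.coeff_add, map_add]
  · rw [hη (i + j) _ (p.mul_mem_left _ hx'), hη j x hx']
    ext m
    have h1 : (⟨r * x, p.mul_mem_left _ hx'⟩ : p) = r • ⟨x, hx'⟩ := rfl
    rw [coeff_lamM, h1, h.lin, AlgHom.comp_apply, MvPolynomial.coeff_mul, map_sum,
      MvPolynomial.coeff_mul]
    refine Finset.sum_congr rfl fun z _ => ?_
    have h2 : ((MvPolynomial.mapAlgHom (IsScalarTower.toAlgHom k L K)) (F r)).coeff z.1 =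
        algebraMap L K ((F r).coeff z.1) := MvPolynomial.coeff_map _ _ _
    rw [h2, ← Algebra.smul_def, map_smul, smul_eq_mul, coeff_lamM]
  · rw [hη j x hx', coeff_lamM] at hm
    have h1 : (η₀ ⟨x, hx'⟩).coeff m ≠ 0 := fun h0 => hm (by rw [h0, map_zero])
    have h2 : δ ≤ e * j := by
      by_contra hcon
      apply h1
      rw [h.zeroη j ⟨x, hx'⟩ hx (by omega), MvPolynomial.coeff_zero]
    have h3 := h.degη j ⟨x, hx'⟩ hx (e * j - δ) (by omega) h1
    rw [Finsupp.weight_apply, Finsupp.sum_fintype _ _ (fun i => by simp)] at h3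
    have h4 : m 0 + m 1 = e * j - δ := by simpa [Fin.sum_univ_two] using h3
    omega
  · rw [hη j₀ _ (mem_of_homog hp x₀.2 j₀)]
    intro h0
    apply hl
    rw [← coeff_lamM, h0, MvPolynomial.coeff_zero]

/-- Base point freeness over an algebraically closed extension gives the unit ideal in the
charts. -/
theorem span_ch_eq_top {L : Type*} [Field L] [Algebra k L] {K : Type*} [Field K]
    [IsAlgClosed K] [Algebra L K] [Algebra k K] [IsScalarTower k L K]
    {F : R →ₐ[k] MvPolynomial (Fin 2) L}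
    (h : ∀ a : Fin 2 → K, a ≠ 0 → ∃ j > 0, ∃ r ∈ 𝒜 j, MvPolynomial.eval a
      (((MvPolynomial.mapAlgHom (IsScalarTower.toAlgHom k L K)).comp F) r) ≠ 0) (t : Fin 2) :
    Ideal.span {f : Polynomial L | ∃ j : ℕ, 0 < j ∧ ∃ r ∈ 𝒜 j, f = ch L t (F r)} = ⊤ := by
  classical
  set J := Ideal.span {f : Polynomial L | ∃ j : ℕ, 0 < j ∧ ∃ r ∈ 𝒜 j, f = ch L t (F r)} with hJ
  set g := Submodule.IsPrincipal.generator J with hg
  have hgJ : Ideal.span {g} = J := Submodule.IsPrincipal.span_singleton_generator J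
  by_contra hcon
  have hgu : ¬ IsUnit g := by
    intro hu
    apply hcon
    rw [← hgJ]
    exact Ideal.span_singleton_eq_top.mpr hu
  obtain ⟨a, ha⟩ := IsAlgClosed.exists_aeval_eq_zero K g (fun h0 =>
    hgu (Polynomial.isUnit_iff_degree_eq_zero.mpr h0))
  have hall : ∀ f ∈ J, Polynomial.aeval a f = 0 := by
    intro f hf
    rw [← hgJ, Ideal.mem_span_singleton] at hf
    obtain ⟨q, rfl⟩ := hf
    rw [map_mul, ha, zero_mul]
  obtain ⟨j, hj, r, hr, hne⟩ := h (fun i => if i = t then a else 1) (by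
    intro h0
    obtain ⟨s, hs⟩ : ∃ s : Fin 2, s ≠ t := by
      fin_cases t
      · exact ⟨1, by simp⟩
      · exact ⟨0, by simp⟩
    have h1 := congrFun h0 s
    rw [Pi.zero_apply, if_neg hs] at h1
    exact one_ne_zero h1)
  apply hne
  have h1 : ∀ f : MvPolynomial (Fin 2) L, MvPolynomial.aeval (fun i => if i = t then a else 1) f =
      Polynomial.aeval a (ch L t f) := by
    intro f
    have h2 : (MvPolynomial.aeval (fun i => if i = t then a else 1) :
        MvPolynomial (Fin 2) L →ₐ[L] K) = (Polynomial.aeval a).comp (ch L t) := by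
      apply MvPolynomial.algHom_ext
      intro i
      rw [MvPolynomial.aeval_X, AlgHom.comp_apply, ch, MvPolynomial.aeval_X]
      split_ifs
      · rw [Polynomial.aeval_X]
      · rw [map_one]
    rw [h2]
    rfl
  have h3 := hall _ (Ideal.subset_span ⟨j, hj, r, hr, rfl⟩ : ch L t (F r) ∈ J)
  rw [← h1] at h3
  rw [← h3, AlgHom.comp_apply, MvPolynomial.aeval_def, MvPolynomial.eval₂_eq_eval_map]
  rfl

end descend

section core

variable {k : Type u} [Field k] {R : Type v} [CommRing R] [Algebra k R] {𝒜 : ℕ → Submodule k R}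
  [GradedAlgebra 𝒜] {p : Ideal R}

/-- The core of E3. -/
theorem conic_core [IsAlgClosed k] [IsNoetherianRing R] (hp : p.IsHomogeneous 𝒜) {N : ℕ}
    {x : Fin N → R} {d : Fin N → ℕ} (hx : ∀ i, x i ∈ 𝒜 (d i))
    (hgen : Algebra.adjoin k (Set.range x) = ⊤) (hd : ∀ i, 0 < d i) (hLB : IsLB 𝒜)
    {F : R →ₐ[k] MvPolynomial (Fin 2) (LaurentSeries k)}
    (hdeg : ∀ j, ∀ r ∈ 𝒜 j, (F r).IsHomogeneous (2 * j)) {w₀ w₁ : R →ₐ[k] k}
    (h0 : ∀ r, MvPolynomial.eval ![1, 0] (F r) = algebraMap k (LaurentSeries k) (w₀ r))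
    (h1 : ∀ r, MvPolynomial.eval ![0, 1] (F r) = algebraMap k (LaurentSeries k) (w₁ r))
    (hpole : ∃ r m, (F r).coeff m ∉ Set.range (HahnSeries.ofPowerSeries ℤ k))
    (hbpf : ∀ t, Ideal.span {f : Polynomial (LaurentSeries k) |
      ∃ j : ℕ, 0 < j ∧ ∃ r ∈ 𝒜 j, f = ch (LaurentSeries k) t (F r)} = ⊤)
    {η : ℕ → R → MvPolynomial (Fin 2) (LaurentSeries k)} (hη : IsEta 𝒜 p F η) {δ : ℕ}
    (hδ : 0 < δ)
    (hdegη : ∀ j x, x ∈ 𝒜 j → x ∈ p → ∀ m, (η j x).coeff m ≠ 0 → m 0 + m 1 + δ = 2 * j)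
    (hne : ∃ j x, x ∈ 𝒜 j ∧ x ∈ p ∧ η j x ≠ 0) : PosC 𝒜 p 1 := by
  classical
  by_contra hpos
  obtain ⟨c, hc, μ, φ, hμ, hφ, ⟨n, hn, y, hy, hne₀⟩, hhom, hle⟩ :=
    pole_red hx hgen hd hLB hdeg h0 h1 hpole
  obtain ⟨ζ, hζ, hdegζ, j₁, x₁, hx₁, hx₁', hne₁⟩ := exists_scaled_eta hp hη hdegη hne hφ
  obtain ⟨M, hM⟩ := exists_genIn hp
  -- the monomials of the reduction
  have hmon : ∀ j, ∀ r ∈ 𝒜 j, ∀ m, (PowerSeries.constantCoeff (φ r)).coeff m ≠ 0 →
      m 0 = j ∧ m 1 = j := by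
    intro j r hr m hm
    have h2 := hle j r hr m hm
    have h3 : (PowerSeries.constantCoeff (φ r)).IsHomogeneous (2 * j) := by
      rw [← PowerSeries.coeff_zero_eq_constantCoeff_apply]
      exact hhom j r hr 0
    have h4 := h3 hm
    rw [Finsupp.weight_apply, Finsupp.sum_fintype _ _ (fun i => by simp)] at h4
    have h5 : m 0 + m 1 = 2 * j := by simpa [Fin.sum_univ_two] using h4
    omega
  have hmon' : ∀ t : Fin 2, ∀ j, ∀ r ∈ 𝒜 j, ∀ m, (PowerSeries.constantCoeff (φ r)).coeff m ≠ 0 →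
      m t = j := by
    intro t j r hr m hm
    have h2 := hmon j r hr m hm
    fin_cases t
    · exact h2.1
    · exact h2.2
  -- the germs at both ends
  have hkey : ∀ t : Fin 2, ∀ j x, x ∈ 𝒜 j → x ∈ p → ∀ m,
      (PowerSeries.constantCoeff (ζ j x)).coeff m ≠ 0 → j ≤ m t := by
    intro t
    let Ft : R →ₐ[k] PowerSeries (Polynomial k) := (PowerSeries.mapAlgHom (ch k t)).comp φ
    have hcc : ∀ f : PowerSeries (MvPolynomial (Fin 2) k),
        PowerSeries.constantCoeff (PowerSeries.mapAlgHom (ch k t) f) =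
          ch k t (PowerSeries.constantCoeff f) := by
      intro f
      rw [← PowerSeries.coeff_zero_eq_constantCoeff_apply,
        ← PowerSeries.coeff_zero_eq_constantCoeff_apply]
      exact PowerSeries.coeff_map _ _ _
    obtain ⟨ν, a, b, hg⟩ := exists_point (F := Ft)
      (η := fun j x => PowerSeries.mapAlgHom (ch k t) (ζ j x)) hLB hx hgen hM
      (hζ.map (PowerSeries.mapAlgHom (ch k t))) (by
        refine ⟨n, hn, y, hy, ?_⟩
        change PowerSeries.constantCoeff (PowerSeries.mapAlgHom (ch k t) (φ y)) ≠ 0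
        rw [hcc]
        refine ch_ne_zero (δ := 0) (n := 2 * n) (fun m hm => ?_) t hne₀
        have := hmon n y hy m hm
        omega) (by
        refine ⟨j₁, x₁, hx₁, hx₁', ?_⟩
        rw [hcc]
        exact ch_ne_zero (hdegζ j₁ x₁ hx₁ hx₁') t hne₁) 0
    have hrec : ∀ (f : PowerSeries (Polynomial k)) (m : ℕ), PowerSeries.coeff m
        (PowerSeries.constantCoeff (recen 0 f)) = (PowerSeries.constantCoeff f).coeff m := by
      intro f m
      rw [constantCoeff_recen, coeff_expandAt, Polynomial.taylor_zero]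
    have hν : ν = 1 := by
      obtain ⟨j, hj, r, hr, h⟩ := hg.ne
      rw [AlgHom.comp_apply, hrec] at h
      change (PowerSeries.constantCoeff (PowerSeries.mapAlgHom (ch k t) (φ r))).coeff _ ≠ 0 at h
      rw [hcc] at h
      obtain ⟨m, hm1, hm2⟩ := exists_of_coeff_ch h
      rw [hmon' t j r hr m hm2] at hm1
      have h6 : ν * j = 1 * j := by rw [one_mul]; exact hm1.symm
      exact Nat.eq_of_mul_eq_mul_right hj h6
    subst hν
    -- the ideal
    obtain ⟨L, hL⟩ : ∃ L : ℕ, (PowerSeries.X : PowerSeries (Polynomial k)) ^ L ∈ imI 𝒜 Ft := by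
      refine exists_pow_mem 𝒜 (φ := ((swapP k).comp
        ((ch (LaurentSeries k) t).restrictScalars k)).comp F) (e := c) (he := hc) (a := (μ : ℤ))
        (φ' := Ft) (fun n r hr => ?_) ?_
      · ext1
        funext i
        rw [single_mul_coeff]
        change (ofPS k _ (PowerSeries.mapAlgHom (ch k t) (φ r))).coeff i =
          (expand k c hc (swapP k (ch (LaurentSeries k) t (F r)))).coeff _
        rw [ofPS_map, expand_map (ch k t) c hc (swapP_ch (F r) t), hφ n r hr, single_mul_coeff]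
      · have h2 := congrArg (Ideal.map (swapP k).toRingHom) (hbpf t)
        rw [Ideal.map_top, Ideal.map_span] at h2
        rw [← h2]
        congr 1
        ext z
        constructor
        · rintro ⟨j, hj, r, hr, rfl⟩
          exact ⟨_, ⟨j, hj, r, hr, rfl⟩, rfl⟩
        · rintro ⟨_, ⟨j, hj, r, hr, rfl⟩, rfl⟩
          exact ⟨j, hj, r, hr, rfl⟩
    have hL' : PowerSeries.X ^ L ∈ imI 𝒜 ((recen 0).comp Ft) := by
      have := imI_map Ft (recen 0) hL
      rwa [map_pow, recen_X] at this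
    have hab := (germ_main hLB hx hgen hM 1 L _ _ a b hg hL').resolve_right hpos
    intro j z hz hz' m hm
    have h3 := hg.dvd_of_le hab hz hz'
    by_contra hcon
    have h4 := PowerSeries.X_pow_dvd_iff.mp h3 (m t) (by omega)
    rw [hrec, hcc, coeff_ch_of (hdegζ j z hz hz') t (hdegζ j z hz hz' m hm)] at h4
    exact hm h4
  obtain ⟨m, hm⟩ := MvPolynomial.ne_zero_iff.mp hne₁
  have h2 := hkey 0 j₁ x₁ hx₁ hx₁' m hm
  have h3 := hkey 1 j₁ x₁ hx₁ hx₁' m hm
  have h4 := hdegζ j₁ x₁ hx₁ hx₁' m hm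
  omega

end core

/-- E3: a conic with two fixed ends which is positive on the divisor degenerates to a line which
is positive on the divisor. -/
theorem t4_conic_pole {R : Type u} [CommRing R] [Algebra ℂ R] {𝒜 : ℕ → Submodule ℂ R}
    [GradedAlgebra 𝒜] {P : R →ₗ[ℂ] R →ₗ[ℂ] R} (hX : IsContactFano 𝒜 P) {p : Ideal R}
    (hh : p.IsHomogeneous 𝒜)
    {F : R →ₐ[ℂ] MvPolynomial (Fin 2) (LaurentSeries ℂ)}
    (hdeg : ∀ j, ∀ r ∈ 𝒜 j, (F r).IsHomogeneous (2 * j)) {w₀ w₁ : R →ₐ[ℂ] ℂ}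
    (h0 : ∀ r, MvPolynomial.eval ![1, 0] (F r) = algebraMap ℂ (LaurentSeries ℂ) (w₀ r))
    (h1 : ∀ r, MvPolynomial.eval ![0, 1] (F r) = algebraMap ℂ (LaurentSeries ℂ) (w₁ r))
    (hpole : ∃ r m, MvPolynomial.coeff m (F r) ∉ Set.range (HahnSeries.ofPowerSeries ℤ ℂ))
    {δ : ℕ} (hδ : 0 < δ) (hpair : HasPair 𝒜 p 2 δ ((MvPolynomial.mapAlgHom
      (IsScalarTower.toAlgHom ℂ (LaurentSeries ℂ)
        (AlgebraicClosure (LaurentSeries ℂ)))).comp F)) :
    ∃ δ' > 0, ∃ φ : R →ₐ[ℂ] MvPolynomial (Fin 2) ℂ, HasPair 𝒜 p 1 δ' φ := by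
  have := hX.finiteType
  have : IsNoetherianRing R := Algebra.FiniteType.isNoetherianRing ℂ R
  obtain ⟨N, x, d, hgen, hd, hx⟩ := pres_gens 𝒜 hX.connected
  have hLB : IsLB 𝒜 := by
    intro q hq e he
    refine hX.lineBundle q ?_ e he
    obtain ⟨j, hj, r, hr, hne⟩ := hq
    exact fun hv => hne (hv j hj r hr)
  obtain ⟨η₀, hη₀⟩ := hpair
  obtain ⟨η, hη, hdegη, hne⟩ := exists_eta_descend hh hη₀
  have hpos := conic_core hh hx hgen hd hLB hdeg h0 h1 hpole (span_ch_eq_top hη₀.bpf) hη hδ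
    hdegη hne
  obtain ⟨e, δ', φ, η', h2, h3, h4, h5⟩ := hpos.pair hh
  obtain rfl : e = 1 := by omega
  exact ⟨δ', h4, φ, η', h5⟩

end Vale.Agent.P292.Dv
end

section

/-! # Part III, E5: without positive lines, a positive conic is algebraic over its ends. -/

namespace Vale.Agent.P292.Dv

open Vale.Agent.P292.Mo Vale.Agent.P292.Mo.Sc Vale.Agent.P292.Mo.Fm MvPolynomial

universe u

variable {R : Type u} [CommRing R] [Algebra ℂ R] {𝒜 : ℕ → Submodule ℂ R} [GradedAlgebra 𝒜]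
  {P : R →ₗ[ℂ] R →ₗ[ℂ] R}

theorem t4_algebraic_conic (hX : IsContactFano 𝒜 P) {p : Ideal R} (hh : p.IsHomogeneous 𝒜)
    (hp : IsInv 𝒜 p)
    (hno : ∀ δ' > 0, ∀ φ : R →ₐ[ℂ] MvPolynomial (Fin 2) ℂ, ¬ HasPair 𝒜 p 1 δ' φ)
    {K : Type u} [Field K] [IsAlgClosed K]
    [Algebra ℂ K] {φ : R →ₐ[ℂ] MvPolynomial (Fin 2) K} (h : IsCurve 𝒜 2 φ)
    {δ : ℕ} (hδ : 0 < δ) (hpair : HasPair 𝒜 p 2 δ φ) :
    ∀ r m, IsAlgebraic (ends φ) (coeff m (φ r)) :=
  t4_algebraic_conic_of hX hh hp hno (fun _ hdeg _ _ h0 h1 hpole _ hδ' hpair' =>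
    t4_conic_pole hX hh hdeg h0 h1 hpole hδ' hpair') h hδ hpair

end Vale.Agent.P292.Dv
end

section

/-! # B1: counting the parameters of a family of lines. -/

namespace Vale.Agent.P292.Dv

open MvPolynomial Vale.Agent.P292

universe u v w

/-- A derivation which vanishes on a subalgebra vanishes on the elements algebraic over it. -/
theorem beta_der_alg {K : Type v} [Field K] [Algebra ℂ K] (E : Subalgebra ℂ K)
    (D : Derivation ℂ K K) (hD : ∀ a ∈ E, D a = 0) {c : K} (hc : IsAlgebraic E c) : D c = 0 := by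
  classical
  have hchar : CharZero K := charZero_of_injective_algebraMap (algebraMap ℂ K).injective
  let DL : K →ₗ[E] K :=
    { toFun := D
      map_add' := map_add D
      map_smul' := fun a x => by
        change D ((a : K) * x) = (a : K) * D x
        rw [Derivation.leibniz, hD a a.2, smul_zero, add_zero, smul_eq_mul] }
  let D' : Derivation E K K := Derivation.mk' DL (fun a b => D.leibniz a b)
  by_contra hne
  have key0 : ∀ p : Polynomial E, p.natDegree = 0 → Polynomial.aeval c p = 0 → p = 0 := by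
    intro p hp h
    rw [Polynomial.eq_C_of_natDegree_eq_zero hp] at h ⊢
    rw [Polynomial.aeval_C] at h
    have : p.coeff 0 = 0 := Subtype.ext h
    rw [this, Polynomial.C_0]
  have key : ∀ n (p : Polynomial E), p.natDegree ≤ n → Polynomial.aeval c p = 0 → p = 0 := by
    intro n
    induction n with
    | zero => exact fun p hp h => key0 p (Nat.le_zero.1 hp) h
    | succ n ih =>
      intro p hp h
      have h1 := D'.map_aeval p c
      rw [h, map_zero] at h1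
      have h2 : Polynomial.aeval c (Polynomial.derivative p) = 0 :=
        (smul_eq_zero.1 h1.symm).resolve_right hne
      have h3 := ih _ ((Polynomial.natDegree_derivative_le p).trans (by omega)) h2
      exact key0 p (Polynomial.derivative_eq_zero.1 h3) h
  obtain ⟨p, hp0, hp⟩ := hc
  exact hp0 (key _ p le_rfl hp)

variable {R : Type u} [CommRing R] [Algebra ℂ R] {𝒜 : ℕ → Submodule ℂ R} [GradedAlgebra 𝒜]
  {P : R →ₗ[ℂ] R →ₗ[ℂ] R}

/-- Isotropic subspaces of the tangent space. -/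
theorem beta_isotropic (hX : IsContactFano 𝒜 P) [IsDomain R] {K : Type v} [Field K] [Algebra ℂ K]
    {y : R →ₐ[ℂ] K} (hy : IsNV 𝒜 y) (W : Submodule K (DerAt y))
    (hW : ∀ a ∈ W, ∀ b ∈ W, om P y a.1 b.1 = 0) : 2 * Module.finrank K W ≤ cdim R := by
  obtain ⟨e⟩ := fr_exists_equiv hX y hy
  have hfin : Module.Finite K (DerAt y) := Module.Finite.equiv e.symm
  have hdim : Module.finrank K (DerAt y) = cdim R := by rw [e.finrank_eq, Module.finrank_fin_fun]
  let B : LinearMap.BilinForm K (DerAt y) := LinearMap.mk₂ K (fun a b => om P y a.1 b.1)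
    (fun a b c => om_add_left hX hy a.2 b.2 c.2) (fun c a b => om_smul_left hX hy a.2 b.2 c)
    (fun a b c => om_add_right hX hy a.2 b.2 c.2) (fun c a b => om_smul_right hX hy a.2 b.2 c)
  have hB : ∀ a b, B a b = om P y a.1 b.1 := fun _ _ => rfl
  have hnd : B.Nondegenerate := by
    refine ⟨fun a ha => Subtype.ext (eq_zero_of_om hX hy a.2 fun δ' hδ' => ha ⟨δ', hδ'⟩),
      fun a ha => Subtype.ext (eq_zero_of_om' hX hy a.2 fun δ' hδ' => ha ⟨δ', hδ'⟩)⟩
  have hrefl : B.IsRefl := fun a b h => by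
    rw [hB, om_antisymm hX hy b.2 a.2, ← hB, h, neg_zero]
  have h1 : Module.finrank K (B.orthogonal W) =
      Module.finrank K (DerAt y) - Module.finrank K W :=
    LinearMap.BilinForm.finrank_orthogonal (K := K) (V := DerAt y) (B := B) hnd W
  have h2 : W ≤ B.orthogonal W := fun a ha b hb => hW b hb a ha
  have hfo : Module.Finite K (B.orthogonal W) :=
    FiniteDimensional.finiteDimensional_submodule (K := K) (V := DerAt y) (B.orthogonal W)
  have h3 : Module.finrank K W ≤ Module.finrank K (B.orthogonal W) := Submodule.finrank_mono h2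
  have h4 := Submodule.finrank_le W
  rw [h1, hdim] at h3
  rw [hdim] at h4
  omega

/-- The derivations over a point which kills a nonzero element, and which kill the kernel of the
point, are a proper subspace. -/
theorem beta_proper (hX : IsContactFano 𝒜 P) [IsDomain R] {K : Type v} [Field K] [Algebra ℂ K]
    {y : R →ₐ[ℂ] K} (hy : IsNV 𝒜 y) (hni : ¬ Function.Injective y) (W : Submodule K (DerAt y))
    (hW : ∀ a ∈ W, ∀ r, y r = 0 → a.1 r = 0) : Module.finrank K W < cdim R := by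
  have := hX.finiteType
  obtain ⟨e⟩ := fr_exists_equiv hX y hy
  have hfin : Module.Finite K (DerAt y) := Module.Finite.equiv e.symm
  have hdim : Module.finrank K (DerAt y) = cdim R := by rw [e.finrank_eq, Module.finrank_fin_fun]
  rw [← hdim]
  suffices hne : W ≠ ⊤ from Submodule.finrank_lt (K := K) (V := DerAt y) hne
  intro htop
  apply hni
  have hprime : (RingHom.ker y).IsPrime := RingHom.ker_isPrime y
  obtain ⟨k, hk, r, hr, hyr⟩ := id hy
  obtain ⟨p, hp, hpv⟩ : ∃ p : R →ₐ[ℂ] ℂ, (∀ x ∈ RingHom.ker y, p x = 0) ∧ ¬ IsVertex 𝒜 p := by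
    by_contra hcon
    push Not at hcon
    have h1 : r ∈ (RingHom.ker y).radical := by
      apply mem_radical_of_forall
      intro p hp
      exact hcon p hp k hk r hr
    rw [hprime.radical, RingHom.mem_ker] at h1
    exact hyr h1
  have h2 := poisson_simple hX hpv (RingHom.ker y) (fun b u hu => by
    have h3 := hW ⟨hamAt P y b, isDer_hamAt hX y b⟩ (by rw [htop]; trivial) u hu
    exact h3) hp
  rw [injective_iff_map_eq_zero]
  intro a ha
  have h3 : a ∈ RingHom.ker y := ha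
  rwa [h2] at h3

/-- **B1.** -/
theorem t4_beta (hX : IsContactFano 𝒜 P) [IsDomain R] {K : Type u} [Field K] [IsAlgClosed K]
    [Algebra ℂ K] {φ : R →ₐ[ℂ] MvPolynomial (Fin 2) K} (h : IsCurve 𝒜 1 φ)
    (halg : ∀ r m, IsAlgebraic (ends φ) (coeff m (φ r))) {m : ℕ} (hm : TrGE φ m)
    (hcard : cdim R * 3 ≤ 2 * m) : Function.Injective (pt φ ![1, 0]) := by
  classical
  by_contra hni
  have hchar : CharZero K := charZero_of_injective_algebraMap (algebraMap ℂ K).injective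
  have hy1 : IsNV 𝒜 (pt φ ![1, 0]) := mm_isNV_pt h mm_one_zero_ne
  have hy2 : IsNV 𝒜 (pt φ ![0, 1]) := mm_isNV_pt h mm_zero_one_ne
  obtain ⟨z, hz, hi⟩ := hm
  -- the derivations dual to `z`
  let ι : MvPolynomial (Fin m) ℂ →ₐ[ℂ] K := aeval z
  have hι : Function.Injective ι := hi
  let _ : Algebra (MvPolynomial (Fin m) ℂ) K := ι.toRingHom.toAlgebra
  have hst : IsScalarTower ℂ (MvPolynomial (Fin m) ℂ) K := IsScalarTower.of_algebraMap_eq fun c => by
    change _ = ι (algebraMap ℂ _ c)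
    rw [ι.commutes]
  have hD : ∀ i : Fin m, ∃ D : Derivation ℂ K K, ∀ p, D (ι p) = ι (pderiv i p) := by
    intro i
    obtain ⟨D, hD⟩ := exists_derivation_extend (k := ℂ) (A := MvPolynomial (Fin m) ℂ) (E := K) hι
      ((Algebra.linearMap (MvPolynomial (Fin m) ℂ) K).compDer (pderiv i : Derivation ℂ _ _))
    exact ⟨D, fun p => hD p⟩
  choose D hD using hD
  have hDz : ∀ i j, D i (z j) = if i = j then 1 else 0 := by
    intro i j
    have h1 : z j = ι (X j) := by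
      change _ = aeval z (X j)
      rw [aeval_X]
    rw [h1, hD, pderiv_X]
    rcases eq_or_ne i j with rfl | hij
    · rw [Pi.single_eq_same, map_one, if_pos rfl]
    · rw [Pi.single_eq_of_ne (Ne.symm hij), map_zero, if_neg hij]
  -- the combinations
  let DD : (Fin m → K) → Derivation ℂ K K := fun c => ∑ i, c i • D i
  have hDD : ∀ c x, DD c x = ∑ i, c i * D i x := by
    intro c x
    have h1 := congrFun (map_sum (Derivation.coeFnAddMonoidHom (R := ℂ) (A := K) (M := K))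
      (fun i => c i • D i) Finset.univ) x
    rw [Finset.sum_apply] at h1
    exact h1
  let L : ∀ y : R →ₐ[ℂ] K, (Fin m → K) →ₗ[K] DerAt y := fun y =>
    { toFun := fun c => ⟨alongAt y (DD c), isDer_alongAt y _⟩
      map_add' := fun a b => Subtype.ext (LinearMap.ext fun r => by
        change DD (a + b) (y r) = DD a (y r) + DD b (y r)
        rw [hDD, hDD, hDD, ← Finset.sum_add_distrib]
        exact Finset.sum_congr rfl fun i _ => by rw [Pi.add_apply, add_mul])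
      map_smul' := fun a b => Subtype.ext (LinearMap.ext fun r => by
        change DD (a • b) (y r) = a * DD b (y r)
        rw [hDD, hDD, Finset.mul_sum]
        exact Finset.sum_congr rfl fun i _ => by
          rw [Pi.smul_apply, smul_eq_mul, mul_assoc]) }
  have hL : ∀ y c r, (L y c).1 r = DD c (y r) := fun _ _ _ => rfl
  have h1 := beta_proper hX hy1 hni (LinearMap.range (L (pt φ ![1, 0]))) (by
    rintro _ ⟨c, rfl⟩ r hr
    rw [hL, hr, map_zero])
  have hker : ∀ c ∈ LinearMap.ker (L (pt φ ![1, 0])), ∀ r, DD c (pt φ ![1, 0] r) = 0 := by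
    intro c hc r
    have h2 := congrArg (fun δ : DerAt (pt φ ![1, 0]) => δ.1 r) (LinearMap.mem_ker.1 hc)
    exact h2
  have h2 := beta_isotropic hX hy2
    ((LinearMap.ker (L (pt φ ![1, 0]))).map (L (pt φ ![0, 1]))) (by
      rintro _ ⟨c, hc, rfl⟩ _ ⟨c', hc', rfl⟩
      exact lwq_om hX h (DD c) (DD c') (hker c hc) (hker c' hc'))
  have hinj : Function.Injective ((L (pt φ ![0, 1])).domRestrict
      (LinearMap.ker (L (pt φ ![1, 0])))) := by
    rw [injective_iff_map_eq_zero]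
    rintro ⟨c, hc⟩ hc'
    have h3 : ∀ r, DD c (pt φ ![0, 1] r) = 0 := fun r =>
      congrArg (fun δ : DerAt (pt φ ![0, 1]) => δ.1 r) hc'
    have h4 : ∀ a ∈ ends φ, DD c a = 0 := by
      intro a ha
      induction ha using Algebra.adjoin_induction with
      | mem x hx =>
        rcases hx with ⟨r, rfl⟩ | ⟨r, rfl⟩
        · exact hker c hc r
        · exact h3 r
      | algebraMap a => exact Derivation.map_algebraMap _ _
      | add x y _ _ hx hy => rw [map_add, hx, hy, add_zero]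
      | mul x y _ _ hx hy => rw [Derivation.leibniz, hx, hy, smul_zero, smul_zero, add_zero]
    have h5 : ∀ a ∈ cfs φ, DD c a = 0 := by
      intro a ha
      induction ha using Algebra.adjoin_induction with
      | mem x hx =>
        obtain ⟨r, n, rfl⟩ := hx
        exact beta_der_alg (ends φ) (DD c) h4 (halg r n)
      | algebraMap a => exact Derivation.map_algebraMap _ _
      | add x y _ _ hx hy => rw [map_add, hx, hy, add_zero]
      | mul x y _ _ hx hy => rw [Derivation.leibniz, hx, hy, smul_zero, smul_zero, add_zero]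
    refine Subtype.ext (funext fun j => ?_)
    have h6 := h5 (z j) (hz j)
    rw [hDD] at h6
    simp only [hDz] at h6
    simpa using h6
  have h3 : Module.finrank K ((LinearMap.ker (L (pt φ ![1, 0]))).map (L (pt φ ![0, 1]))) =
      Module.finrank K (LinearMap.ker (L (pt φ ![1, 0]))) := by
    rw [← LinearMap.range_domRestrict]
    exact LinearMap.finrank_range_of_inj hinj
  have h4 := LinearMap.finrank_range_add_finrank_ker (K := K) (V := Fin m → K)
    (V₂ := DerAt (pt φ ![1, 0])) (L (pt φ ![1, 0]))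
  rw [Module.finrank_fin_fun] at h4
  omega

end Vale.Agent.P292.Dv
end

section

/-! # T4, block B2: the two ends of a positive conic are jointly generic. -/

namespace Vale.Agent.P292.Dv

open MvPolynomial TensorProduct

universe u v w

/-- A derivation which kills a subalgebra kills the elements algebraic over it. -/
theorem b2_kill {K : Type v} [Field K] [Algebra ℂ K] (D : Derivation ℂ K K) (E : Subalgebra ℂ K)
    (hE : ∀ x ∈ E, D x = 0) {c : K} (hc : IsAlgebraic E c) : D c = 0 := by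
  have hchar : CharZero K := charZero_of_injective_algebraMap (algebraMap ℂ K).injective
  let F : IntermediateField ℂ K :=
    { carrier := {x | D x = 0}
      mul_mem' := fun {a b} ha hb => by
        have ha' : D a = 0 := ha
        have hb' : D b = 0 := hb
        change D (a * b) = 0
        rw [Derivation.leibniz, ha', hb', smul_zero, smul_zero, add_zero]
      add_mem' := fun {a b} ha hb => by
        have ha' : D a = 0 := ha
        have hb' : D b = 0 := hb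
        change D (a + b) = 0
        rw [map_add, ha', hb', add_zero]
      algebraMap_mem' := fun r => D.map_algebraMap r
      inv_mem' := fun x hx => by
        have hx' : D x = 0 := hx
        change D x⁻¹ = 0
        rw [Derivation.leibniz_inv, hx', smul_zero] }
  have hF : ∀ x, D x = 0 → x ∈ F := fun x hx => hx
  refine e2_derivation_eq_zero D F (fun x hx => hx) ?_
  obtain ⟨p, hp0, hp⟩ := hc
  let ι : E →+* F :=
    { toFun := fun x => ⟨x.1, hF _ (hE _ x.2)⟩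
      map_one' := rfl
      map_mul' := fun _ _ => rfl
      map_zero' := rfl
      map_add' := fun _ _ => rfl }
  have hι : Function.Injective ι := by
    intro x y hxy
    exact Subtype.ext (congrArg (fun z : F => (z : K)) hxy)
  refine ⟨p.map ι, (Polynomial.map_ne_zero_iff hι).2 hp0, ?_⟩
  rw [Polynomial.aeval_def, Polynomial.eval₂_map]
  rw [Polynomial.aeval_def] at hp
  exact hp

/-- Dual derivations of algebraically independent elements. -/
theorem b2_exists_der {K : Type v} [Field K] [Algebra ℂ K] {m : ℕ} {t : Fin m → K}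
    (ht : AlgebraicIndependent ℂ t) :
    ∃ D : Fin m → Derivation ℂ K K, ∀ i j, D i (t j) = if j = i then 1 else 0 := by
  classical
  let ι : MvPolynomial (Fin m) ℂ →ₐ[ℂ] K := aeval t
  have hι : Function.Injective ι := ht
  have hch : CharZero K := charZero_of_injective_algebraMap (algebraMap ℂ K).injective
  let _ : Algebra (MvPolynomial (Fin m) ℂ) K := ι.toRingHom.toAlgebra
  have hst : IsScalarTower ℂ (MvPolynomial (Fin m) ℂ) K := IsScalarTower.of_algebraMap_eq fun c => by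
    change _ = ι (algebraMap ℂ _ c)
    rw [ι.commutes]
  have hD : ∀ i : Fin m, ∃ D : Derivation ℂ K K, ∀ p, D (ι p) = ι (pderiv i p) := by
    intro i
    obtain ⟨D, hD⟩ := exists_derivation_extend (k := ℂ) (A := MvPolynomial (Fin m) ℂ) (E := K) hι
      ((Algebra.linearMap (MvPolynomial (Fin m) ℂ) K).compDer (pderiv i : Derivation ℂ _ _))
    exact ⟨D, fun p => hD p⟩
  choose D hD using hD
  refine ⟨D, fun i j => ?_⟩
  have hxj : t j = ι (X j) := by
    change _ = aeval t (X j)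
    rw [aeval_X]
  rw [hxj, hD, pderiv_X]
  rcases eq_or_ne j i with rfl | hij
  · rw [Pi.single_eq_same, map_one, if_pos rfl]
  · rw [Pi.single_eq_of_ne hij, map_zero, if_neg hij]

section

variable {R : Type u} [CommRing R] [Algebra ℂ R] {𝒜 : ℕ → Submodule ℂ R} [GradedAlgebra 𝒜]
  {P : R →ₗ[ℂ] R →ₗ[ℂ] R}

/-- B2 -/
theorem t4_inj (hX : IsContactFano 𝒜 P) [IsDomain R] {K : Type u} [Field K] [IsAlgClosed K]
    [Algebra ℂ K] {φ : R →ₐ[ℂ] MvPolynomial (Fin 2) K} (h : IsCurve 𝒜 2 φ)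
    (halg : ∀ r m, IsAlgebraic (ends φ) (coeff m (φ r))) {m : ℕ} (hm : TrGE φ m)
    (hcard : cdim R * 4 ≤ 2 * m) :
    Function.Injective (Algebra.TensorProduct.lift (pt φ ![1, 0]) (pt φ ![0, 1])
      (fun _ _ => Commute.all _ _)) := by
  classical
  obtain ⟨t, htm, ht⟩ := hm
  obtain ⟨D, hD⟩ := b2_exists_der ht
  have hx : IsNV 𝒜 (pt φ ![1, 0]) := c1_isNV_pt h _ (fun h0 => by
    have := congrFun h0 0
    simp at this)
  have hy : IsNV 𝒜 (pt φ ![0, 1]) := c1_isNV_pt h _ (fun h0 => by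
    have := congrFun h0 1
    simp at this)
  obtain ⟨X₀, hX₀, -⟩ := fr_exists_coord hX (pt φ ![1, 0]) hx
  obtain ⟨Y₀, hY₀, -⟩ := fr_exists_coord hX (pt φ ![0, 1]) hy
  let T : Derivation ℂ K K →ₗ[K] (Fin (cdim R) → K) × (Fin (cdim R) → K) :=
    { toFun := fun δ => (fun j => δ (pt φ ![1, 0] (X₀ j)), fun j => δ (pt φ ![0, 1] (Y₀ j)))
      map_add' := fun _ _ => rfl
      map_smul' := fun _ _ => rfl }
  have hT1 : ∀ δ j, (T δ).1 j = δ (pt φ ![1, 0] (X₀ j)) := fun _ _ => rfl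
  have hT2 : ∀ δ j, (T δ).2 j = δ (pt φ ![0, 1] (Y₀ j)) := fun _ _ => rfl
  let S : (Fin m → K) →ₗ[K] Derivation ℂ K K := Fintype.linearCombination K D
  have hS : ∀ c j, S c (t j) = c j := by
    intro c j
    let ev : Derivation ℂ K K →ₗ[K] K :=
      { toFun := fun δ => δ (t j)
        map_add' := fun _ _ => rfl
        map_smul' := fun _ _ => rfl }
    change ev (Fintype.linearCombination K D c) = c j
    rw [Fintype.linearCombination_apply, map_sum, Finset.sum_eq_single j]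
    · rw [map_smul]
      change c j • D j (t j) = c j
      rw [hD, if_pos rfl, smul_eq_mul, mul_one]
    · intro i _ hij
      rw [map_smul]
      change c i • D i (t j) = 0
      rw [hD, if_neg (Ne.symm hij), smul_zero]
    · intro hj
      exact absurd (Finset.mem_univ j) hj
  have hker : ∀ δ : Derivation ℂ K K, T δ = 0 → ∀ r n, δ (coeff n (φ r)) = 0 := by
    intro δ hδ r n
    have h1 : alongAt (pt φ ![1, 0]) δ = 0 := hX₀ _ (isDer_alongAt _ δ) fun j => by
      have := congrFun (congrArg Prod.fst hδ) j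
      exact this
    have h2 : alongAt (pt φ ![0, 1]) δ = 0 := hY₀ _ (isDer_alongAt _ δ) fun j => by
      have := congrFun (congrArg Prod.snd hδ) j
      exact this
    refine b2_kill δ (ends φ) (fun x hx => ?_) (halg r n)
    unfold ends at hx
    induction hx using Algebra.adjoin_induction with
    | mem x hx =>
      rcases hx with ⟨s, rfl⟩ | ⟨s, rfl⟩
      · exact LinearMap.congr_fun h1 s
      · exact LinearMap.congr_fun h2 s
    | algebraMap c => exact δ.map_algebraMap c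
    | add a b _ _ ha hb => rw [map_add, ha, hb, add_zero]
    | mul a b _ _ ha hb => rw [Derivation.leibniz, ha, hb, smul_zero, smul_zero, add_zero]
  have hker2 : ∀ δ : Derivation ℂ K K, T δ = 0 → ∀ x ∈ cfs φ, δ x = 0 := by
    intro δ hδ x hx
    unfold cfs at hx
    induction hx using Algebra.adjoin_induction with
    | mem x hx =>
      obtain ⟨r, n, rfl⟩ := hx
      exact hker δ hδ r n
    | algebraMap c => exact δ.map_algebraMap c
    | add a b _ _ ha hb => rw [map_add, ha, hb, add_zero]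
    | mul a b _ _ ha hb => rw [Derivation.leibniz, ha, hb, smul_zero, smul_zero, add_zero]
  have hinj : Function.Injective (T ∘ₗ S) := by
    rw [injective_iff_map_eq_zero]
    intro c hc
    ext j
    rw [← hS c j]
    exact hker2 (S c) hc _ (htm j)
  have hfin : Module.finrank K ((Fin (cdim R) → K) × (Fin (cdim R) → K)) = cdim R + cdim R := by
    rw [Module.finrank_prod, Module.finrank_fin_fun]
  have hle := LinearMap.finrank_le_finrank_of_injective hinj
  rw [hfin, Module.finrank_fin_fun] at hle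
  have hsurj : Function.Surjective (T ∘ₗ S) :=
    (LinearMap.injective_iff_surjective_of_finrank_eq_finrank (by
      rw [hfin, Module.finrank_fin_fun]; omega)).1 hinj
  have key : ∀ v v', IsDer (pt φ ![1, 0]) v → IsDer (pt φ ![0, 1]) v' →
      ∃ D : Derivation ℂ K K, (∀ r, D (pt φ ![1, 0] r) = v r) ∧
        ∀ r, D (pt φ ![0, 1] r) = v' r := by
    intro v v' hv hv'
    obtain ⟨c, hc⟩ := hsurj (fun j => v (X₀ j), fun j => v' (Y₀ j))
    have h1 : alongAt (pt φ ![1, 0]) (S c) - v = 0 :=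
      hX₀ _ (show alongAt (pt φ ![1, 0]) (S c) - v ∈ DerAt (pt φ ![1, 0]) from
        (DerAt (pt φ ![1, 0])).sub_mem (mem_DerAt.2 (isDer_alongAt _ (S c)))
          (mem_DerAt.2 hv)) fun j => by
        have := congrFun (congrArg Prod.fst hc) j
        rw [LinearMap.sub_apply, sub_eq_zero]
        exact this
    have h2 : alongAt (pt φ ![0, 1]) (S c) - v' = 0 :=
      hY₀ _ (show alongAt (pt φ ![0, 1]) (S c) - v' ∈ DerAt (pt φ ![0, 1]) from
        (DerAt (pt φ ![0, 1])).sub_mem (mem_DerAt.2 (isDer_alongAt _ (S c)))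
          (mem_DerAt.2 hv')) fun j => by
        have := congrFun (congrArg Prod.snd hc) j
        rw [LinearMap.sub_apply, sub_eq_zero]
        exact this
    exact ⟨S c, fun r => LinearMap.congr_fun (sub_eq_zero.1 h1) r,
      fun r => LinearMap.congr_fun (sub_eq_zero.1 h2) r⟩
  have hzero : ∀ x : R →ₐ[ℂ] K, IsDer x (0 : R →ₗ[ℂ] K) := fun x => (DerAt x).zero_mem
  refine g1_injective hX _ _ hx hy (fun a => ?_) (fun a => ?_)
  · obtain ⟨D, h1, h2⟩ := key (hamAt P (pt φ ![1, 0]) a) 0 (isDer_hamAt hX _ a) (hzero _)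
    exact ⟨D, h1, h2⟩
  · obtain ⟨D, h1, h2⟩ := key 0 (hamAt P (pt φ ![0, 1]) a) (hzero _) (isDer_hamAt hX _ a)
    exact ⟨D, h1, h2⟩

end

end Vale.Agent.P292.Dv
end

section

/-! # T4, G1: contact Fano cones are graded Poisson algebras of the type of Part II. -/

namespace Vale.Agent.P292.Dv

open MvPolynomial

universe u v w

variable {R : Type u} [CommRing R] [Algebra ℂ R] {𝒜 : ℕ → Submodule ℂ R} [GradedAlgebra 𝒜]
  {P : R →ₗ[ℂ] R →ₗ[ℂ] R}

/-- G1 -/
theorem t4_isPM (hX : IsContactFano 𝒜 P) : Mo.IsPM 𝒜 P where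
  finiteType := hX.finiteType
  connected := hX.connected
  alternating := hX.alternating
  leibniz := hX.leibniz
  degree := hX.degree
  frame := fun y hy => by
    have hv : ¬ IsVertex 𝒜 y := by
      obtain ⟨n, hn, r, hr, h⟩ := hy
      exact fun hv => h (hv n hn r hr)
    obtain ⟨N, x, k, g, l, hx, hg, hpg, hpd, hgen⟩ := exists_chart hX y hv
    exact ⟨N, x, k, g, ⟨hx, ⟨l, hg⟩, hgen⟩, by rw [map_mul]; exact mul_ne_zero hpg hpd⟩
  smooth := fun n hn s hs => Mo.smooth_zero hX n hn s hs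
  lineBundle := fun y hy d hd => by
    have hv : ¬ IsVertex 𝒜 y := by
      obtain ⟨n, hn, r, hr, h⟩ := hy
      exact fun hv => h (hv n hn r hr)
    exact hX.lineBundle y hv d hd

end Vale.Agent.P292.Dv
end

section

/-! # T4, G3: the morphism and the frames of a closed rational curve. -/

namespace Vale.Agent.P292.Dv

open MvPolynomial TensorProduct

universe u

namespace T4Geo

/-- Dehomogenisation. -/
noncomputable def dh (F : MvPolynomial (Fin 2) ℂ) : Polynomial ℂ := aeval ![Polynomial.X, 1] F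

theorem dh_eval (F : MvPolynomial (Fin 2) ℂ) (z : ℂ) : (dh F).eval z = eval ![z, 1] F := by
  have h : ((Polynomial.aeval z : Polynomial ℂ →ₐ[ℂ] ℂ).comp
      (aeval ![Polynomial.X, 1] : MvPolynomial (Fin 2) ℂ →ₐ[ℂ] Polynomial ℂ))
      = MvPolynomial.aeval ![z, 1] := by
    refine MvPolynomial.algHom_ext fun j => ?_
    fin_cases j <;> simp
  have := AlgHom.congr_fun h F
  rw [AlgHom.comp_apply, Polynomial.coe_aeval_eq_eval, MvPolynomial.aeval_eq_eval] at this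
  exact this

theorem dh_expand (F : MvPolynomial (Fin 2) ℂ) :
    dh F = ∑ d ∈ F.support, Polynomial.C (coeff d F) * Polynomial.X ^ (d 0) := by
  rw [dh, aeval_def, eval₂_eq']
  refine Finset.sum_congr rfl fun d _ => ?_
  rw [Fin.prod_univ_two]
  simp

theorem deg_eq {F : MvPolynomial (Fin 2) ℂ} {n : ℕ} (hF : F.IsHomogeneous n) {d : Fin 2 →₀ ℕ}
    (hd : d ∈ F.support) : d 0 + d 1 = n := by
  have h1 := hF (mem_support_iff.1 hd)
  rw [Finsupp.weight_apply, Finsupp.sum_fintype _ _ (by simp)] at h1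
  simpa only [Pi.one_apply, smul_eq_mul, mul_one, Fin.sum_univ_two] using h1

theorem dh_natDegree {F : MvPolynomial (Fin 2) ℂ} {n : ℕ} (hF : F.IsHomogeneous n) :
    (dh F).natDegree ≤ n := by
  rw [dh_expand]
  refine Polynomial.natDegree_sum_le_of_forall_le _ _ fun d hd => ?_
  refine (Polynomial.natDegree_C_mul_X_pow_le _ _).trans ?_
  have := deg_eq hF hd
  omega

theorem dh_coeff {F : MvPolynomial (Fin 2) ℂ} {n : ℕ} (hF : F.IsHomogeneous n) :
    (dh F).coeff n = eval ![1, 0] F := by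
  rw [dh_expand, Polynomial.finset_sum_coeff, eval_eq']
  refine Finset.sum_congr rfl fun d hd => ?_
  rw [Polynomial.coeff_C_mul_X_pow, Fin.prod_univ_two]
  have h1 := deg_eq hF hd
  by_cases h : d 1 = 0
  · rw [if_pos (by omega), h]
    simp
  · rw [if_neg (by omega)]
    simp [h]

theorem dh_mul (F F' : MvPolynomial (Fin 2) ℂ) : dh (F * F') = dh F * dh F' := map_mul _ _ _

section

variable {t : FractionRing (Polynomial ℂ)}

theorem transc (ht : t = algebraMap (Polynomial ℂ) _ Polynomial.X) : Transcendental ℂ t := by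
  rw [ht, transcendental_algebraMap_iff (IsFractionRing.injective (Polynomial ℂ)
    (FractionRing (Polynomial ℂ)))]
  exact Polynomial.transcendental_X ℂ

theorem aeval_t (ht : t = algebraMap (Polynomial ℂ) _ Polynomial.X) (p : Polynomial ℂ) :
    Polynomial.aeval t p = algebraMap (Polynomial ℂ) (FractionRing (Polynomial ℂ)) p := by
  rw [ht, Polynomial.aeval_algebraMap_apply, Polynomial.aeval_X_left_apply]

theorem t_sub_ne (ht : t = algebraMap (Polynomial ℂ) _ Polynomial.X) (l : ℂ) :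
    t - algebraMap ℂ _ l ≠ 0 := by
  have := Mo.idxic_aeval_ne (transc ht) (Polynomial.X_sub_C_ne_zero l)
  rwa [map_sub, Polynomial.aeval_X, Polynomial.aeval_C] at this

theorem unit_mem (ht : t = algebraMap (Polynomial ℂ) _ Polynomial.X) {G : Polynomial ℂ} {l : ℂ}
    {F : MvPolynomial (Fin 2) ℂ} {m : ℕ} (hF : F.IsHomogeneous m)
    (h1 : eval ![1, 0] F ≠ 0) (hz : ∀ z, G.eval z = 0 → eval ![z, 1] F ≠ 0) :
    (((t - algebraMap ℂ _ l)⁻¹) ^ m *
      algebraMap (Polynomial ℂ) (FractionRing (Polynomial ℂ)) (dh F))⁻¹ ∈ Mo.B1 t G := by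
  have hc : (dh F).coeff m ≠ 0 := by rwa [dh_coeff hF]
  have hne : dh F ≠ 0 := fun h => hc (by rw [h, Polynomial.coeff_zero])
  refine ⟨(Polynomial.X - Polynomial.C l) ^ m, dh F, ?_, ?_, ?_, ?_⟩
  · exact Mo.idxic_aeval_ne (transc ht) hne
  · refine (Polynomial.isCoprime_iff_aeval_ne_zero_of_isAlgClosed ℂ ℂ _ _).2 fun ρ => ?_
    by_contra hcon
    push Not at hcon
    obtain ⟨h2, h3⟩ := hcon
    rw [Polynomial.coe_aeval_eq_eval] at h2 h3
    apply hz ρ h3
    rw [← dh_eval]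
    exact h2
  · rw [Polynomial.natDegree_pow, Polynomial.natDegree_X_sub_C, mul_one]
    exact Polynomial.le_natDegree_of_ne_zero hc
  · rw [Mo.F5a_aeval_pow, aeval_t ht, mul_inv, inv_pow, inv_inv, div_eq_mul_inv]

end

end T4Geo

open T4Geo in
/-- The morphism and the frames. -/
theorem t4_geo {R : Type u} [CommRing R] [Algebra ℂ R] {𝒜 : ℕ → Submodule ℂ R} [GradedAlgebra 𝒜]
    {P : R →ₗ[ℂ] R →ₗ[ℂ] R} (hX : IsContactFano 𝒜 P) [IsDomain R] {e : ℕ}
    {φ : R →ₐ[ℂ] MvPolynomial (Fin 2) ℂ} (hφ : IsCurve 𝒜 e φ)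
    {t : FractionRing (Polynomial ℂ)} (ht : t = algebraMap (Polynomial ℂ) _ Polynomial.X)
    {φ' : R →ₐ[ℂ] FractionRing (Polynomial ℂ)}
    (hφ' : ∀ r, φ' r = algebraMap (Polynomial ℂ) _ (aeval ![Polynomial.X, 1] (φ r))) :
    ∃ (G : Polynomial ℂ) (l : ℂ)
      (x : Fin (cdim R) → R) (d : Fin (cdim R) → ℕ) (g : R)
      (x' : Fin (cdim R) → R) (d' : Fin (cdim R) → ℕ) (g' : R), G ≠ 0 ∧ G.eval l ≠ 0 ∧
      Mo.IsMp 𝒜 (Mo.B0 t G) (Mo.B1 t G) (((t - algebraMap ℂ _ l)⁻¹) ^ e) φ' ∧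
      Mo.IsFr0 𝒜 P (Mo.B0 t G) φ' x d g ∧
      Mo.IsFr1 𝒜 P (Mo.B1 t G) (((t - algebraMap ℂ _ l)⁻¹) ^ e) φ' x' d' g' := by
  classical
  have hP : Mo.IsPM 𝒜 P := t4_isPM hX
  have htr := transc ht
  have hφd : ∀ r, φ' r = algebraMap (Polynomial ℂ) _ (dh (φ r)) := hφ'
  have hNV : ∀ a : Fin 2 → ℂ, a ≠ 0 → Mo.NV 𝒜 (pt φ a) := by
    intro a ha
    obtain ⟨n, hn, r, hr, h⟩ := hφ.bpf a ha
    refine ⟨n, hn, r, hr, ?_⟩
    rw [pt_apply]
    rwa [aeval_eq_eval] at h
  have hne01 : (![0, 1] : Fin 2 → ℂ) ≠ 0 := fun h => one_ne_zero (congrFun h 1)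
  -- the first frame
  obtain ⟨x, d, g, hfr, hgd⟩ := t4_rk hX (pt φ ![0, 1]) (hNV _ hne01)
  rw [map_mul, pt_apply, pt_apply] at hgd
  obtain ⟨n₀, hn₀, r₀, hr₀, hr₀0⟩ := hNV _ hne01
  rw [pt_apply] at hr₀0
  have hdh : ∀ F : MvPolynomial (Fin 2) ℂ, eval ![0, 1] F ≠ 0 → dh F ≠ 0 := by
    intro F hF h
    apply hF
    rw [← dh_eval, h, Polynomial.eval_zero]
  have hd0 : dh (φ (Mo.brM P x).det) ≠ 0 := hdh _ (right_ne_zero_of_mul hgd)
  have hg0 : dh (φ g) ≠ 0 := hdh _ (left_ne_zero_of_mul hgd)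
  have hr0 : dh (φ r₀) ≠ 0 := hdh _ hr₀0
  set G : Polynomial ℂ := dh (φ (Mo.brM P x).det) * dh (φ r₀) with hG
  have hG0 : G ≠ 0 := mul_ne_zero hd0 hr0
  obtain ⟨l, hl⟩ := Mo.crv_exists_l hG0
  have hts := t_sub_ne ht l
  have halg : ∀ p : Polynomial ℂ, p ≠ 0 →
      algebraMap (Polynomial ℂ) (FractionRing (Polynomial ℂ)) p ≠ 0 := by
    intro p hp h
    rw [← aeval_t ht] at h
    exact Mo.idxic_aeval_ne htr hp h
  have hGinv : (algebraMap (Polynomial ℂ) (FractionRing (Polynomial ℂ)) G)⁻¹ ∈ Mo.B0 t G := by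
    rw [← aeval_t ht]
    exact Mo.crv_inv_mem_B0 t G
  have hpol : ∀ p : Polynomial ℂ,
      algebraMap (Polynomial ℂ) (FractionRing (Polynomial ℂ)) p ∈ Mo.B0 t G := by
    intro p
    rw [← aeval_t ht]
    exact Mo.aeval_mem_B0 t G p
  -- the points of the second chart
  let Y : Set (R →ₐ[ℂ] ℂ) := insert (pt φ ![1, 0]) ((fun z => pt φ ![z, 1]) '' {z | G.eval z = 0})
  have hYfin : Y.Finite := by
    refine Set.Finite.insert _ (Set.Finite.image _ ?_)
    refine (G.roots.toFinset.finite_toSet).subset fun z hz => ?_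
    rw [Finset.mem_coe, Multiset.mem_toFinset, Polynomial.mem_roots hG0]
    exact hz
  have hYNV : ∀ y ∈ Y, Mo.NV 𝒜 y := by
    rintro y (rfl | ⟨z, _, rfl⟩)
    · exact hNV _ fun h => one_ne_zero (congrFun h 0)
    · exact hNV _ fun h => one_ne_zero (congrFun h 1)
  obtain ⟨x', d', g', hfr', hY⟩ := t4_frame_finset hP Y hYfin hYNV
    (fun y hy => t4_rk hX y (hYNV y hy))
  have : Finite Y := hYfin
  obtain ⟨n₁, hn₁, r₁, hr₁, hr₁0⟩ := Mo.ga_avoid (fun y : Y => (y : R →ₐ[ℂ] ℂ))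
    (fun y => hYNV y y.2)
  have hY1 : (pt φ ![1, 0]) ∈ Y := Set.mem_insert _ _
  have hYz : ∀ z, G.eval z = 0 → pt φ ![z, 1] ∈ Y := fun z hz =>
    Set.mem_insert_of_mem _ ⟨z, hz, rfl⟩
  have hdne : ∀ {n : ℕ} {r : R}, r ∈ 𝒜 n → pt φ ![1, 0] r ≠ 0 → dh (φ r) ≠ 0 := by
    intro n r hr h h0
    apply h
    rw [pt_apply, ← dh_coeff (hφ.degree n r hr), h0, Polynomial.coeff_zero]
  have hunit : ∀ {n : ℕ} {r : R}, r ∈ 𝒜 n → (∀ y ∈ Y, y r ≠ 0) →
      ((((t - algebraMap ℂ _ l)⁻¹) ^ e) ^ n * φ' r)⁻¹ ∈ Mo.B1 t G := by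
    intro n r hr h
    rw [← pow_mul, hφd]
    refine unit_mem ht (hφ.degree n r hr) ?_ fun z hz => ?_
    · have := h _ hY1
      rwa [pt_apply] at this
    · have := h _ (hYz z hz)
      rwa [pt_apply] at this
  have hdet' : (Mo.brM P x').det ≠ 0 := by
    intro h
    apply hY _ hY1
    rw [h, mul_zero, map_zero]
  obtain ⟨m, hm, hmem⟩ := Mo.F5b_det hP hfr'.hom hdet'
  obtain ⟨lg, hlg⟩ := hfr'.ghom
  refine ⟨G, l, x, d, g, x', d', g', hG0, hl, ⟨?_, ?_, ?_, ?_⟩, ⟨hfr, ?_, ?_, ?_⟩,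
    ⟨hfr', ?_, ?_, ?_⟩⟩
  · exact pow_ne_zero _ (inv_ne_zero hts)
  · intro n r hr
    rw [Mo.mem_Sec, hφd]
    refine ⟨hpol _, ?_⟩
    rw [← pow_mul, ← aeval_t ht]
    exact Mo.F5a_mem_B1 htr hl _ (dh_natDegree (hφ.degree n r hr))
  · refine ⟨n₀, hn₀, r₀, hr₀, ?_, ?_⟩
    · rw [hφd]
      exact halg _ hr0
    · have h1 : (φ' r₀)⁻¹ = (algebraMap (Polynomial ℂ) (FractionRing (Polynomial ℂ)) G)⁻¹ *
          algebraMap (Polynomial ℂ) _ (dh (φ (Mo.brM P x).det)) := by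
        have h2 := halg _ hd0
        have h3 := halg _ hr0
        rw [hφd, hG, map_mul]
        field_simp
      rw [h1]
      exact mul_mem hGinv (hpol _)
  · refine ⟨n₁, hn₁, r₁, hr₁, ?_, ?_⟩
    · rw [hφd]
      exact halg _ (hdne hr₁ (hr₁0 ⟨_, hY1⟩))
    · exact hunit hr₁ fun y hy => hr₁0 ⟨y, hy⟩
  · rw [hφd]
    exact halg _ hg0
  · rw [hφd]
    exact halg _ hd0
  · have h1 : (φ' (Mo.brM P x).det)⁻¹ =
        (algebraMap (Polynomial ℂ) (FractionRing (Polynomial ℂ)) G)⁻¹ *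
        algebraMap (Polynomial ℂ) _ (dh (φ r₀)) := by
      have h2 := halg _ hd0
      have h3 := halg _ hr0
      rw [hφd, hG, map_mul]
      field_simp
    rw [h1]
    exact mul_mem hGinv (hpol _)
  · rw [hφd]
    refine halg _ (hdne hlg fun h => hY _ hY1 ?_)
    rw [map_mul, h, zero_mul]
  · rw [hφd]
    refine halg _ (hdne hmem fun h => hY _ hY1 ?_)
    rw [map_mul, h, mul_zero]
  · rw [← hm, zpow_natCast]
    refine hunit hmem fun y hy h => hY y hy ?_
    rw [map_mul, h, mul_zero]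

end Vale.Agent.P292.Dv
end

section

/-! # G3: the data of a closed curve. -/

namespace Vale.Agent.P292.Dv

open Polynomial Vale.Agent.P292.Mo

universe u

namespace DataH

theorem aeval_t (q : Polynomial ℂ) :
    aeval (algebraMap (Polynomial ℂ) (FractionRing (Polynomial ℂ)) X) q =
      algebraMap (Polynomial ℂ) (FractionRing (Polynomial ℂ)) q := by
  have : (aeval (algebraMap (Polynomial ℂ) (FractionRing (Polynomial ℂ)) X) :
      Polynomial ℂ →ₐ[ℂ] FractionRing (Polynomial ℂ)) =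
      IsScalarTower.toAlgHom ℂ (Polynomial ℂ) (FractionRing (Polynomial ℂ)) := by
    ext
    simp
  rw [this]
  rfl

theorem transc_t :
    Transcendental ℂ (algebraMap (Polynomial ℂ) (FractionRing (Polynomial ℂ)) X) := by
  rw [transcendental_iff_injective]
  intro a b h
  rw [aeval_t, aeval_t] at h
  exact IsFractionRing.injective _ _ h

theorem adjoin_t : IntermediateField.adjoin ℂ
    {algebraMap (Polynomial ℂ) (FractionRing (Polynomial ℂ)) X} = ⊤ := by
  rw [eq_top_iff]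
  intro x _
  obtain ⟨a, b, -, rfl⟩ := IsFractionRing.div_surjective (A := Polynomial ℂ) x
  rw [IntermediateField.mem_adjoin_simple_iff]
  exact ⟨a, b, by rw [aeval_t, aeval_t]⟩

end DataH

open DataH

variable {R : Type u} [CommRing R] [Algebra ℂ R] {𝒜 : ℕ → Submodule ℂ R} [GradedAlgebra 𝒜]
  {P : R →ₗ[ℂ] R →ₗ[ℂ] R}

/-- G3: the data of a closed curve, `K` is the field of fractions of `ℂ[t]`. -/
theorem t4_data (hX : IsContactFano 𝒜 P) [IsDomain R] {e : ℕ} (he : 0 < e)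
    {φ : R →ₐ[ℂ] MvPolynomial (Fin 2) ℂ} (hφ : IsCurve 𝒜 e φ) :
    ∃ (A₀ A₁ : Subalgebra ℂ (FractionRing (Polynomial ℂ))) (u : FractionRing (Polynomial ℂ))
      (x : Fin (cdim R) → R) (d : Fin (cdim R) → ℕ) (g : R)
      (x' : Fin (cdim R) → R) (d' : Fin (cdim R) → ℕ) (g' : R)
      (φ' : R →ₐ[ℂ] FractionRing (Polynomial ℂ)),
      (∀ r, φ' r = algebraMap (Polynomial ℂ) _ (MvPolynomial.aeval ![Polynomial.X, 1] (φ r))) ∧
      Mo.IsCD A₀ A₁ ∧ Mo.IsMp 𝒜 A₀ A₁ u φ' ∧ Mo.IsFr0 𝒜 P A₀ φ' x d g ∧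
      Mo.IsFr1 𝒜 P A₁ u φ' x' d' g' ∧ Mo.idx A₁ u = e ∧ Mo.chi0 A₀ A₁ = 1 ∧
      (∀ n, ∀ a, a ∈ Mo.Sec A₀ A₁ u n ↔
        ∃ q : Polynomial ℂ, q.natDegree ≤ e * n ∧ a = algebraMap (Polynomial ℂ) _ q) := by
  have hφ' : ∀ r, (((IsScalarTower.toAlgHom ℂ (Polynomial ℂ) (FractionRing (Polynomial ℂ))).comp
      (MvPolynomial.aeval ![Polynomial.X, 1])).comp φ) r =
      algebraMap (Polynomial ℂ) _ (MvPolynomial.aeval ![Polynomial.X, 1] (φ r)) := fun r => rfl
  obtain ⟨G, l, x, d, g, x', d', g', hG, hl, hMp, h0, h1⟩ := t4_geo hX hφ rfl hφ'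
  rw [inv_pow] at hMp h1
  refine ⟨_, _, _, x, d, g, x', d', g', _, hφ', cd_line transc_t adjoin_t hG, hMp, h0, h1,
    idx_line transc_t adjoin_t hG hl e, chi0_line transc_t adjoin_t hG hl, fun n a => ?_⟩
  rw [mem_sec transc_t hG hl]
  simp only [aeval_t]

end Vale.Agent.P292.Dv
end

section

/-! # Part III, G4: homogenisation of the family -/

namespace Vale.Agent.P292.Dv

open TensorProduct Vale.Agent.P292.Mo

universe u v w

section homog

/-- homogenisation inverts dehomogenisation -/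
theorem g4_homogenize {A : Type u} [CommRing A] {n : ℕ} {p : MvPolynomial (Fin 2) A}
    (hp : p.IsHomogeneous n) :
    Polynomial.homogenize (MvPolynomial.aeval ![Polynomial.X, 1] p : Polynomial A) n = p := by
  classical
  have h1 : (MvPolynomial.aeval ![Polynomial.X, 1] p : Polynomial A) =
      ∑ m ∈ p.support, Polynomial.monomial (m 0) (p.coeff m) := by
    conv_lhs => rw [p.as_sum, map_sum]
    refine Finset.sum_congr rfl fun m _ => ?_
    rw [MvPolynomial.aeval_monomial, Finsupp.prod_fintype _ _ (by simp), Fin.prod_univ_two]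
    simp only [Matrix.cons_val_zero, Matrix.cons_val_one, one_pow, mul_one]
    rw [← Polynomial.C_mul_X_pow_eq_monomial]
    rfl
  conv_rhs => rw [p.as_sum]
  rw [h1, Polynomial.homogenize_finsetSum]
  refine Finset.sum_congr rfl fun m hm => ?_
  have h2 : m 0 + m 1 = n := by
    have h3 := hp (MvPolynomial.mem_support_iff.1 hm)
    rw [Finsupp.weight_apply, Finsupp.sum_fintype _ _ (by simp), Fin.sum_univ_two] at h3
    simpa using h3
  rw [Polynomial.homogenize_monomial (by omega)]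
  have h4 : (fun₀ | (0 : Fin 2) => m 0 | 1 => n - m 0 : Fin 2 →₀ ℕ) = m := by
    ext i
    fin_cases i
    · simp
    · simp
      omega
  rw [h4]

/-- the graded homogenisation of a homomorphism -/
theorem g4_twist {k : Type u} [Field k] {R : Type v} [CommRing R] [Algebra k R]
    (𝒜 : ℕ → Submodule k R) [GradedAlgebra 𝒜] {A : Type w} [CommRing A] [Algebra k A] (e : ℕ)
    (f : R →ₐ[k] Polynomial A) (hf : ∀ j, ∀ r ∈ 𝒜 j, (f r).natDegree ≤ e * j) :
    ∃ Φ : R →ₐ[k] MvPolynomial (Fin 2) A,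
      ∀ j, ∀ r ∈ 𝒜 j, Φ r = Polynomial.homogenize (f r) (e * j) := by
  classical
  let T : ℕ → Polynomial A →ₗ[k] MvPolynomial (Fin 2) A := fun j =>
    { toFun := fun p => Polynomial.homogenize p (e * j)
      map_add' := fun p q => Polynomial.homogenize_add _ _ _
      map_smul' := fun a p => by
        rw [RingHom.id_apply, algebra_compatible_smul A a p, Polynomial.homogenize_smul,
          algebra_compatible_smul A a] }
  let F : ∀ j, (𝒜 j) →ₗ[k] MvPolynomial (Fin 2) A := fun j =>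
    (T j) ∘ₗ f.toLinearMap ∘ₗ (𝒜 j).subtype
  have hF : ∀ j (r : 𝒜 j), F j r = Polynomial.homogenize (f (r : R)) (e * j) := fun j r => rfl
  let c₀ : (DirectSum ℕ fun j => 𝒜 j) →ₐ[k] MvPolynomial (Fin 2) A :=
    DirectSum.toAlgebra k (fun j => 𝒜 j) F (by
      rw [hF]
      change Polynomial.homogenize (f (1 : R)) (e * 0) = 1
      rw [map_one, mul_zero, Polynomial.homogenize_one, pow_zero]) (by
      intro i j a b
      rw [hF, hF, hF]
      change Polynomial.homogenize (f ((a : R) * (b : R))) (e * (i + j)) = _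
      rw [map_mul, mul_add, Polynomial.homogenize_mul _ _ (hf i a a.2) (hf j b b.2)])
  refine ⟨c₀.comp (DirectSum.decomposeAlgEquiv 𝒜).toAlgHom, fun j r hr => ?_⟩
  have e2 : (DirectSum.decomposeAlgEquiv 𝒜) r = DirectSum.of (fun j => 𝒜 j) j ⟨r, hr⟩ := by
    rw [DirectSum.decomposeAlgEquiv_apply, DirectSum.decompose_of_mem 𝒜 hr]
  change c₀ ((DirectSum.decomposeAlgEquiv 𝒜) r) = _
  rw [e2]
  change DirectSum.toModule k ℕ _ F (DirectSum.lof k ℕ (fun j => 𝒜 j) j ⟨r, hr⟩) = _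
  rw [DirectSum.toModule_lof]
  rfl

end homog

section poly

variable {k : Type u} [Field k] {D : Type v} [CommRing D] [Algebra k D]
  {K : Type w} [Field K] [Algebra k K] [Algebra (Polynomial k) K] [IsScalarTower k (Polynomial k) K]

/-- polynomials over `D` inside `D ⊗ K` -/
noncomputable def g4Θ (k : Type u) [Field k] (D : Type v) [CommRing D] [Algebra k D] (K : Type w)
    [Field K] [Algebra k K] [Algebra (Polynomial k) K] : Polynomial D →ₐ[k] D ⊗[k] K :=
  (Polynomial.aeval ((1 : D) ⊗ₜ[k] (algebraMap (Polynomial k) K Polynomial.X)) :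
    Polynomial D →ₐ[D] D ⊗[k] K).restrictScalars k

omit [IsScalarTower k (Polynomial k) K] in
theorem g4Θ_monomial (n : ℕ) (a : D) : g4Θ k D K (Polynomial.monomial n a) =
    a ⊗ₜ algebraMap (Polynomial k) K (Polynomial.X ^ n) := by
  change Polynomial.aeval ((1 : D) ⊗ₜ[k] (algebraMap (Polynomial k) K Polynomial.X)) _ = _
  rw [Polynomial.aeval_monomial, Algebra.TensorProduct.tmul_pow, one_pow,
    Algebra.TensorProduct.algebraMap_apply, Algebra.TensorProduct.tmul_mul_tmul, one_mul,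
    map_pow]
  simp

omit [IsScalarTower k (Polynomial k) K] in
theorem g4_coeff {l : K →ₗ[k] k} {i : ℕ}
    (hl : ∀ q : Polynomial k, l (algebraMap (Polynomial k) K q) = q.coeff i) (p : Polynomial D) :
    lamB D l (g4Θ k D K p) = p.coeff i := by
  induction p using Polynomial.induction_on' with
  | add p q hp hq => rw [map_add, map_add, hp, hq, Polynomial.coeff_add]
  | monomial n a =>
    rw [g4Θ_monomial, lamB_tmul, hl, Polynomial.coeff_X_pow, Polynomial.coeff_monomial]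
    by_cases h : i = n
    · rw [if_pos h, if_pos h.symm, one_smul]
    · rw [if_neg h, if_neg (fun h' => h h'.symm), zero_smul]

theorem g4Θ_map (q : Polynomial k) : g4Θ k D K (q.map (algebraMap k D)) =
    (1 : D) ⊗ₜ algebraMap (Polynomial k) K q := by
  induction q using Polynomial.induction_on' with
  | add p q hp hq => rw [Polynomial.map_add, map_add, hp, hq, map_add, tmul_add]
  | monomial n a =>
    rw [Polynomial.map_monomial, g4Θ_monomial, ← Polynomial.C_mul_X_pow_eq_monomial, map_mul,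
      ← Polynomial.algebraMap_eq, ← IsScalarTower.algebraMap_apply, ← Algebra.smul_def,
      tmul_smul, smul_tmul', Algebra.algebraMap_eq_smul_one]

/-- coordinates -/
theorem g4_exists_l [FaithfulSMul (Polynomial k) K] : ∃ l : ℕ → (K →ₗ[k] k), ∀ i,
    ∀ q : Polynomial k, l i (algebraMap (Polynomial k) K q) = q.coeff i := by
  let ι : Polynomial k →ₗ[k] K := (IsScalarTower.toAlgHom k (Polynomial k) K).toLinearMap
  have hι : Function.Injective ι := FaithfulSMul.algebraMap_injective (Polynomial k) K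
  obtain ⟨p, hp⟩ := ι.exists_leftInverse_of_injective (LinearMap.ker_eq_bot.2 hι)
  refine ⟨fun i => Polynomial.lcoeff k i ∘ₗ p, fun i q => ?_⟩
  have h1 : p (ι q) = q := LinearMap.congr_fun hp q
  change (p (ι q)).coeff i = q.coeff i
  rw [h1]

variable {R : Type*} [CommRing R] [Algebra k R] {𝒜 : ℕ → Submodule k R} [GradedAlgebra 𝒜]

/-- from the tensor family to the homogeneous family -/
theorem g4_main [FaithfulSMul (Polynomial k) K] {A₀ A₁ : Subalgebra k K} {u : K} {e : ℕ}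
    (hSec : ∀ n, ∀ a, a ∈ Sec A₀ A₁ u n ↔
      ∃ q : Polynomial k, q.natDegree ≤ e * n ∧ a = algebraMap (Polynomial k) K q)
    {φ' : R →ₐ[k] K} {φ : R →ₐ[k] MvPolynomial (Fin 2) k}
    (hφ : ∀ j, ∀ r ∈ 𝒜 j, (φ r).IsHomogeneous (e * j))
    (hφ' : ∀ r, φ' r = algebraMap (Polynomial k) K
      (MvPolynomial.aeval ![Polynomial.X, 1] (φ r)))
    (e₀ : D →ₐ[k] k) (Ψ : R →ₐ[k] D ⊗[k] K)
    (hΨ : ∀ n, ∀ r ∈ 𝒜 n, Ψ r ∈ InB D (Sec A₀ A₁ u n))
    (hval : ∀ r, ∀ l : K →ₗ[k] k, e₀ (lamB D l (Ψ r)) = l (φ' r))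
    (hadj : Algebra.adjoin k {a : D | ∃ r, ∃ l : K →ₗ[k] k, lamB D l (Ψ r) = a} = ⊤) :
    ∃ Φ : R →ₐ[k] MvPolynomial (Fin 2) D,
      (∀ j, ∀ r ∈ 𝒜 j, (Φ r).IsHomogeneous (e * j)) ∧
      (∀ r, MvPolynomial.map (e₀ : D →+* k) (Φ r) = φ r) ∧
      Algebra.adjoin k {c : D | ∃ r m, c = MvPolynomial.coeff m (Φ r)} = ⊤ := by
  classical
  obtain ⟨l, hl⟩ := g4_exists_l (k := k) (K := K)
  have hΘinj : Function.Injective (g4Θ k D K) := by
    intro p q hpq
    ext i
    rw [← g4_coeff (hl i) p, ← g4_coeff (hl i) q, hpq]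
  have hmem : ∀ n, ∀ r ∈ 𝒜 n, Ψ r ∈ (g4Θ k D K).range := by
    intro n r hr
    refine InB_induction D (p := fun y => y ∈ (g4Θ k D K).range) (zero_mem _) ?_
      (fun x y hx hy => add_mem hx hy) (hΨ n r hr)
    intro b v hv
    obtain ⟨q, -, rfl⟩ := (hSec n v).1 hv
    refine ⟨Polynomial.C b * q.map (algebraMap k D), ?_⟩
    change g4Θ k D K _ = _
    rw [map_mul, g4Θ_map, ← Polynomial.monomial_zero_left, g4Θ_monomial,
      Algebra.TensorProduct.tmul_mul_tmul, pow_zero, map_one, one_mul, mul_one]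
  have hmem' : ∀ r, Ψ r ∈ (g4Θ k D K).range := by
    intro r
    rw [← DirectSum.sum_support_decompose 𝒜 r, map_sum]
    exact sum_mem fun j _ => hmem j _ (SetLike.coe_mem _)
  let E := AlgEquiv.ofInjective (g4Θ k D K) hΘinj
  let f : R →ₐ[k] Polynomial D := E.symm.toAlgHom.comp (Ψ.codRestrict (g4Θ k D K).range hmem')
  have hf : ∀ r, g4Θ k D K (f r) = Ψ r := by
    intro r
    have h1 : E (E.symm (Ψ.codRestrict (g4Θ k D K).range hmem' r)) = Ψ.codRestrict _ hmem' r :=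
      E.apply_symm_apply _
    exact congrArg Subtype.val h1
  have hfc : ∀ r i, (f r).coeff i = lamB D (l i) (Ψ r) := fun r i => by
    rw [← hf, g4_coeff (hl i)]
  have hdeg : ∀ j, ∀ r ∈ 𝒜 j, (f r).natDegree ≤ e * j := by
    intro j r hr
    rw [Polynomial.natDegree_le_iff_coeff_eq_zero]
    intro i hi
    rw [hfc]
    refine hΨ j r hr (l i) fun v hv => ?_
    obtain ⟨q, hq, rfl⟩ := (hSec j v).1 hv
    rw [hl]
    exact Polynomial.coeff_eq_zero_of_natDegree_lt (lt_of_le_of_lt hq hi)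
  obtain ⟨Φ, hΦ⟩ := g4_twist 𝒜 e f hdeg
  refine ⟨Φ, ?_, ?_, ?_⟩
  · intro j r hr
    rw [hΦ j r hr]
    exact Polynomial.isHomogeneous_homogenize _
  · intro r
    have key : ∀ j, ∀ r ∈ 𝒜 j, MvPolynomial.map (e₀ : D →+* k) (Φ r) = φ r := by
      intro j r hr
      rw [hΦ j r hr, ← Polynomial.homogenize_map]
      have h1 : (f r).map (e₀ : D →+* k) = MvPolynomial.aeval ![Polynomial.X, 1] (φ r) := by
        ext i
        rw [Polynomial.coeff_map, hfc]
        change e₀ _ = _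
        rw [hval, hφ', hl]
      rw [h1, g4_homogenize (hφ j r hr)]
    rw [← DirectSum.sum_support_decompose 𝒜 r, map_sum, map_sum, map_sum]
    exact Finset.sum_congr rfl fun j _ => key j _ (SetLike.coe_mem _)
  · rw [eq_top_iff, ← hadj]
    refine Algebra.adjoin_le ?_
    rintro _ ⟨r, l', rfl⟩
    -- a functional is a combination of coefficients
    have key : ∀ p : Polynomial D, lamB D l' (g4Θ k D K p) ∈
        Submodule.span k {c : D | ∃ i, c = p.coeff i} := by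
      intro p
      have h1 : g4Θ k D K p = ∑ i ∈ p.support,
          p.coeff i ⊗ₜ algebraMap (Polynomial k) K (Polynomial.X ^ i) := by
        conv_lhs => rw [p.as_sum_support, map_sum]
        exact Finset.sum_congr rfl fun i _ => g4Θ_monomial i _
      rw [h1, map_sum]
      refine Submodule.sum_mem _ fun i _ => ?_
      rw [lamB_tmul]
      exact Submodule.smul_mem _ _ (Submodule.subset_span ⟨i, rfl⟩)
    have hle : ∀ r, ∀ i, (f r).coeff i ∈
        Algebra.adjoin k {c : D | ∃ r m, c = MvPolynomial.coeff m (Φ r)} := by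
      have h1 : ∀ j, ∀ r ∈ 𝒜 j, ∀ i, (f r).coeff i ∈
          Algebra.adjoin k {c : D | ∃ r m, c = MvPolynomial.coeff m (Φ r)} := by
        intro j r hr i
        rcases Nat.lt_or_ge (e * j) i with hi | hi
        · rw [Polynomial.coeff_eq_zero_of_natDegree_lt (lt_of_le_of_lt (hdeg j r hr) hi)]
          exact zero_mem _
        · refine Algebra.subset_adjoin
            ⟨r, Finsupp.single 0 i + Finsupp.single 1 (e * j - i), ?_⟩
          rw [hΦ j r hr, Polynomial.coeff_homogenize]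
          simp [Nat.add_sub_of_le hi]
      intro r i
      rw [← DirectSum.sum_support_decompose 𝒜 r, map_sum, Polynomial.finsetSum_coeff]
      exact sum_mem fun j _ => h1 j _ (SetLike.coe_mem _) i
    have h2 := key (f r)
    rw [hf] at h2
    have h3 : Submodule.span k {c : D | ∃ i, c = (f r).coeff i} ≤
        Subalgebra.toSubmodule (Algebra.adjoin k {c : D | ∃ r m, c = MvPolynomial.coeff m (Φ r)}) := by
      rw [Submodule.span_le]
      rintro _ ⟨i, rfl⟩
      exact hle r i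
    exact h3 h2

end poly

end Vale.Agent.P292.Dv
end

section

/-! # Part III, G4: the family through a closed curve -/

namespace Vale.Agent.P292.Dv

open TensorProduct Vale.Agent.P292.Mo

universe u

variable {R : Type u} [CommRing R] [Algebra ℂ R] {𝒜 : ℕ → Submodule ℂ R} [GradedAlgebra 𝒜]
  {P : R →ₗ[ℂ] R →ₗ[ℂ] R}

/-- G4 from G1 and G3. -/
theorem t4_family_of (hPM : Mo.IsPM 𝒜 P) {e N : ℕ}
    {φ : R →ₐ[ℂ] MvPolynomial (Fin 2) ℂ} (hφ : IsCurve 𝒜 e φ)
    {A₀ A₁ : Subalgebra ℂ (FractionRing (Polynomial ℂ))} {u : FractionRing (Polynomial ℂ)}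
    {x : Fin N → R} {d : Fin N → ℕ} {g : R} {x' : Fin N → R} {d' : Fin N → ℕ} {g' : R}
    {φ' : R →ₐ[ℂ] FractionRing (Polynomial ℂ)}
    (hφ' : ∀ r, φ' r = algebraMap (Polynomial ℂ) _
      (MvPolynomial.aeval ![Polynomial.X, 1] (φ r)))
    (hCD : Mo.IsCD A₀ A₁) (hMp : Mo.IsMp 𝒜 A₀ A₁ u φ') (h0 : Mo.IsFr0 𝒜 P A₀ φ' x d g)
    (h1 : Mo.IsFr1 𝒜 P A₁ u φ' x' d' g') (hidx : Mo.idx A₁ u = e) (hchi : Mo.chi0 A₀ A₁ = 1)
    (hSec : ∀ n, ∀ a, a ∈ Mo.Sec A₀ A₁ u n ↔
        ∃ q : Polynomial ℂ, q.natDegree ≤ e * n ∧ a = algebraMap (Polynomial ℂ) _ q) :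
    ∃ (D : Type) (_ : CommRing D) (_ : IsDomain D) (_ : Algebra ℂ D)
      (_ : Algebra.FiniteType ℂ D) (e₀ : D →ₐ[ℂ] ℂ) (Φ : R →ₐ[ℂ] MvPolynomial (Fin 2) D) (m : ℕ),
      (∀ j, ∀ r ∈ 𝒜 j, (Φ r).IsHomogeneous (e * j)) ∧ (MvPolynomial.mapAlgHom e₀).comp Φ = φ ∧
      TrGE Φ m ∧ N * (e + 2) ≤ 2 * m := by
  have hft := hPM.finiteType
  obtain ⟨hT, hO, hchi'⟩ := chi_der_fintype hPM hCD hMp h0 h1 (ι := Fin 0)
    (c := fun i => i.elim0) (fun i => i.elim0) (I := Subalgebra.toSubmodule A₀)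
    (fun a => ⟨fun h => ⟨h, fun l => l.elim0⟩, fun h => h.1⟩)
  have hfin : ∀ n, Module.Finite ℂ (Sec A₀ A₁ u n) := by
    intro n
    have h2 : Sec A₀ A₁ u n ≤ (Polynomial.degreeLE ℂ (e * n : ℕ)).map
        (IsScalarTower.toAlgHom ℂ (Polynomial ℂ) (FractionRing (Polynomial ℂ))).toLinearMap := by
      intro a ha
      obtain ⟨q, hq, rfl⟩ := (hSec n a).1 ha
      exact ⟨q, Polynomial.mem_degreeLE.2 (Polynomial.natDegree_le_iff_degree_le.1 hq), rfl⟩
    have h3 : Module.Finite ℂ (Polynomial.degreeLE ℂ ((e * n : ℕ) : WithBot ℕ)) := by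
      rw [← Polynomial.degreeLT_succ_eq_degreeLE]
      exact Module.Finite.equiv (Polynomial.degreeLTEquiv ℂ _).symm
    exact Submodule.finiteDimensional_of_le h2
  obtain ⟨D, i1, i2, i3, i4, e₀, Ψ, s, z, hz, hineq, hsec, -, hval, hadj⟩ :=
    exists_component 𝒜 hMp hPM.smooth (Subalgebra.toSubmodule A₀) (fun a ha => ha)
      (fun a ha b hb => A₀.mul_mem ha hb) hfin hO
  obtain ⟨Φ, hΦ1, hΦ2, hΦ3⟩ := g4_main (𝒜 := 𝒜) hSec hφ.degree hφ' e₀ Ψ hsec hval hadj
  refine ⟨D, i1, i2, i3, i4, e₀, Φ, s, hΦ1, AlgHom.ext fun r => hΦ2 r, ⟨z, fun i => ?_, hz⟩, ?_⟩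
  · change z i ∈ Algebra.adjoin ℂ {c | ∃ r m, c = MvPolynomial.coeff m (Φ r)}
    rw [hΦ3]
    trivial
  · rw [hidx, hchi] at hchi'
    simp only [Fintype.card_fin, Nat.cast_zero, mul_zero, zero_mul, sub_zero, mul_one] at hchi'
    have h4 : ((N * (e + 2) : ℕ) : ℤ) ≤ ((2 * s : ℕ) : ℤ) := by
      push_cast
      have h5 : (Module.finrank ℂ (T0 𝒜 φ' (Subalgebra.toSubmodule A₀) A₁ u) : ℤ) ≤
        Module.finrank ℂ (ObS 𝒜 φ' (Subalgebra.toSubmodule A₀) A₁ u) + s := by exact_mod_cast hineq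
      linarith
    exact_mod_cast h4

end Vale.Agent.P292.Dv
end

section

/-! # The family through a closed curve. -/

namespace Vale.Agent.P292.Dv

open MvPolynomial

universe u

variable {R : Type u} [CommRing R] [Algebra ℂ R] {𝒜 : ℕ → Submodule ℂ R} [GradedAlgebra 𝒜]
  {P : R →ₗ[ℂ] R →ₗ[ℂ] R}

/-- The family through a closed curve. -/
theorem t4_family (hX : IsContactFano 𝒜 P) [IsDomain R] {e : ℕ} (he : 0 < e)
    {φ : R →ₐ[ℂ] MvPolynomial (Fin 2) ℂ} (hφ : IsCurve 𝒜 e φ) :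
    ∃ (D : Type) (_ : CommRing D) (_ : IsDomain D) (_ : Algebra ℂ D)
      (_ : Algebra.FiniteType ℂ D) (e₀ : D →ₐ[ℂ] ℂ) (Φ : R →ₐ[ℂ] MvPolynomial (Fin 2) D) (m : ℕ),
      (∀ j, ∀ r ∈ 𝒜 j, (Φ r).IsHomogeneous (e * j)) ∧ (mapAlgHom e₀).comp Φ = φ ∧
      TrGE Φ m ∧ cdim R * (e + 2) ≤ 2 * m := by
  obtain ⟨A₀, A₁, u, x, d, g, x', d', g', φ', h1, h2, h3, h4, h5, h6, h7, h8⟩ := t4_data hX he hφ
  exact t4_family_of (t4_isPM hX) hφ h1 h2 h3 h4 h5 h6 h7 h8

end Vale.Agent.P292.Dv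
end

section

/-! # T3 and T4: a curve of degree one or two which is positive on the divisor. -/

namespace Vale.Agent.P292.Dv

open MvPolynomial TensorProduct

universe u v w

variable {R : Type u} [CommRing R] [Algebra ℂ R] {𝒜 : ℕ → Submodule ℂ R} [GradedAlgebra 𝒜]
  {P : R →ₗ[ℂ] R →ₗ[ℂ] R}

omit [GradedAlgebra 𝒜] in
theorem HasPair.isCurve {p : Ideal R} {e δ : ℕ} {K : Type v} [Field K] [Algebra ℂ K]
    {φ : R →ₐ[ℂ] MvPolynomial (Fin 2) K} (h : HasPair 𝒜 p e δ φ) : IsCurve 𝒜 e φ := by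
  obtain ⟨η, hη⟩ := h
  refine ⟨hη.deg, fun x hx => ?_⟩
  obtain ⟨k, hk, r, hr, hne⟩ := hη.bpf x hx
  exact ⟨k, hk, r, hr, by rwa [MvPolynomial.aeval_eq_eval]⟩

/-- The generic member of the family through a closed curve. -/
theorem t4_generic (hX : IsContactFano 𝒜 P) [IsDomain R] {p : Ideal R}
    (hh : p.IsHomogeneous 𝒜) (hp : IsInv 𝒜 p)
    {e δ : ℕ} (he : 0 < e) {φ : R →ₐ[ℂ] MvPolynomial (Fin 2) ℂ} (h : HasPair 𝒜 p e δ φ) :
    ∃ (K : Type u) (_ : Field K) (_ : IsAlgClosed K) (_ : Algebra ℂ K)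
      (ψ : R →ₐ[ℂ] MvPolynomial (Fin 2) K) (m : ℕ), HasPair 𝒜 p e δ ψ ∧ TrGE ψ m ∧
      cdim R * (e + 2) ≤ 2 * m := by
  have := hX.finiteType
  have : IsNoetherianRing R := Algebra.FiniteType.isNoetherianRing ℂ R
  obtain ⟨D, _, _, _, _, e₀, Φ, m, hdeg, he₀, htr, hcard⟩ := t4_family hX he h.isCurve
  let D' : Type u := ULift.{u} D
  have : IsDomain D' := (ULift.ringEquiv : D' ≃+* D).isDomain
  let K : Type u := AlgebraicClosure (FractionRing D')
  let ι : D →ₐ[ℂ] K := (IsScalarTower.toAlgHom ℂ D' K).comp (ULift.algEquiv.symm : D ≃ₐ[ℂ] D')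
  have hι : Function.Injective ι := by
    have h1 : Function.Injective (algebraMap D' K) := by
      rw [IsScalarTower.algebraMap_eq D' (FractionRing D') K]
      exact (algebraMap (FractionRing D') K).injective.comp (IsFractionRing.injective _ _)
    exact h1.comp (ULift.algEquiv.symm : D ≃ₐ[ℂ] D').injective
  refine ⟨K, inferInstance, inferInstance, inferInstance, (mapAlgHom ι).comp Φ, m, ?_, ?_, hcard⟩
  · exact hasPair_of_spec hh hp e₀ ι hι Φ hdeg (by rwa [he₀])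
  · exact trGE_map_iff ι hι Φ m htr

/-- **T3.** There is no line which is positive on the divisor. -/
theorem t3_no_line (hX : IsContactFano 𝒜 P) [IsDomain R] {p : Ideal R}
    (hh : p.IsHomogeneous 𝒜) (hp : IsInv 𝒜 p)
    (hav : ∀ (κ : Type u) [Field κ] [IsAlgClosed κ] [Algebra ℂ κ]
        (φ : R →ₐ[ℂ] MvPolynomial (Fin 2) κ), IsAnch 𝒜 1 φ → IsFull 𝒜 1 φ →
        ∀ a : Fin 2 → κ, a ≠ 0 → ∃ r ∈ p, pt φ a r ≠ 0) {δ : ℕ} (hδ : 0 < δ)
    {φ : R →ₐ[ℂ] MvPolynomial (Fin 2) ℂ} (h : HasPair 𝒜 p 1 δ φ) : False := by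
  have := hX.finiteType
  have : IsNoetherianRing R := Algebra.FiniteType.isNoetherianRing ℂ R
  obtain ⟨K, _, _, _, ψ, m, h1, h2, h3⟩ := t4_generic hX hh hp one_pos h
  have hanch : IsAnch 𝒜 1 ψ := ⟨h1.isCurve, t4_beta hX h1.isCurve
    (t4_algebraic_line hX h1.isCurve) h2 h3⟩
  obtain ⟨n, Ω, i1, i2, i3, χ, h4, h5, h6⟩ := q2d_exists_max hX (d := 1)
    (fun Ω _ _ _ φ => IsAnch 𝒜 1 φ ∧ HasPair 𝒜 p 1 δ φ) (fun Ω _ _ _ φ h => h.1.curve)
    ⟨K, inferInstance, inferInstance, inferInstance, ψ, hanch, h1⟩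
  have hfull : IsFull 𝒜 1 χ := by
    refine q2d_isFull h5 (fun Φ h7 h8 => h6 _ _ ⟨q2d_isAnch h4.1 Φ h7 h8, ?_⟩)
      (hasArcs hX Ω 1 χ h4.1)
    let π : PowerSeries Ω →ₐ[ℂ] Ω :=
      { (PowerSeries.constantCoeff : PowerSeries Ω →+* Ω) with
        commutes' := fun c => by
          change PowerSeries.constantCoeff (algebraMap ℂ (PowerSeries Ω) c) = _
          rw [PowerSeries.algebraMap_apply, PowerSeries.constantCoeff_C] }
    have hcomp : (mapAlgHom π).comp Φ = χ := by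
      ext r : 1
      rw [← h8 r]
      rfl
    refine hasPair_of_spec hh hp π (arcMap Ω) (arcMap_injective Ω) Φ h7 ?_
    rw [hcomp]
    exact h4.2
  obtain ⟨a, ha, ha'⟩ := h4.2.meets hp hδ
  obtain ⟨r, hr, hr'⟩ := hav Ω χ h4.1 hfull a ha
  exact hr' (ha' r hr)

/-- **T4.** A conic which is positive on the divisor gives conic connectedness. -/
theorem t4_conic (hX : IsContactFano 𝒜 P) [IsDomain R] {p : Ideal R}
    (hh : p.IsHomogeneous 𝒜) (hp : IsInv 𝒜 p)
    (hno : ∀ δ' > 0, ∀ φ : R →ₐ[ℂ] MvPolynomial (Fin 2) ℂ, ¬ HasPair 𝒜 p 1 δ' φ)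
    {δ : ℕ} (hδ : 0 < δ) {φ : R →ₐ[ℂ] MvPolynomial (Fin 2) ℂ} (h : HasPair 𝒜 p 2 δ φ) :
    IsConicConnected 𝒜 := by
  obtain ⟨K, _, _, _, ψ, m, h1, h2, h3⟩ := t4_generic hX hh hp two_pos h
  exact isConicConnected_of_generic hX h1.isCurve (t4_inj hX h1.isCurve
    (t4_algebraic_conic hX hh hp hno h1.isCurve hδ h1) h2 h3)

/-- The hypothesis `t3` of the assembly. -/
theorem t34_main (hX : IsContactFano 𝒜 P) [IsDomain R] (𝔭 : Ideal R) (_h𝔭 : 𝔭.IsPrime)
    (_hdvr : IsDiscreteValuationRing (Localization.AtPrime 𝔭)) (hh : 𝔭.IsHomogeneous 𝒜)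
    (_h0 : 𝔭 ≠ ⊥) (hinv : IsInv 𝒜 𝔭) (hpos : Pos 𝒜 𝔭 ℂ)
    (hav : ∀ (κ : Type u) [Field κ] [IsAlgClosed κ] [Algebra ℂ κ]
        (φ : R →ₐ[ℂ] MvPolynomial (Fin 2) κ), IsAnch 𝒜 1 φ → IsFull 𝒜 1 φ →
        ∀ a : Fin 2 → κ, a ≠ 0 → ∃ r ∈ 𝔭, pt φ a r ≠ 0) : IsConicConnected 𝒜 := by
  have hno : ∀ δ' > 0, ∀ φ : R →ₐ[ℂ] MvPolynomial (Fin 2) ℂ, ¬ HasPair 𝒜 𝔭 1 δ' φ :=
    fun δ' hδ' φ h => t3_no_line hX hh hinv hav hδ' h
  obtain ⟨e, δ, φ, η, he, hδ, hpair⟩ := hpos
  rcases he with rfl | rfl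
  · exact (hno δ hδ φ ⟨η, hpair⟩).elim
  · exact t4_conic hX hh hinv hno hδ ⟨η, hpair⟩

end Vale.Agent.P292.Dv
end

section

/-! # Contact Fano manifolds are adjoint varieties. -/

namespace Vale.Agent.P292

universe u

variable {R : Type u} [CommRing R] [Algebra ℂ R] {𝒜 : ℕ → Submodule ℂ R} [GradedAlgebra 𝒜]
  {P : R →ₗ[ℂ] R →ₗ[ℂ] R}

/-- **Contact Fano manifolds of dimension at least three are adjoint varieties.** -/
theorem isAdjointVariety_of_contactFano (hX : IsContactFano 𝒜 P)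
    (hdim : 3 ≤ Algebra.trdeg ℂ R) : IsAdjointVariety 𝒜 P := by
  have := hX.domain
  exact Dv.isAdjointVariety_of_mori hX hdim Dv.moriD
    (fun 𝔭 h𝔭 hdvr hh h0 hinv hpos hav => Dv.t34_main hX 𝔭 h𝔭 hdvr hh h0 hinv hpos hav)

end Vale.Agent.P292
end
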